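import Vale.Agent.P161.Crit.Msg

/-!
Geodesic segments and the transitivity of the automorphism group of a regular tree on segments
of each length.
-/

namespace Vale.Agent.P161.Crit

open Finset SimpleGraph

variable {V : Type*} [DecidableEq V] {G : SimpleGraph V}

omit [DecidableEq V] in
lemma IsSeg.dist' {k : ℕ} {x : ℕ → V} (hx : IsSeg G k x) {i j : ℕ} (hij : i ≤ j) (hj : j ≤ k) :
    G.dist (x j) (x i) = j - i := by
  rw [SimpleGraph.dist_comm, hx.2 i j hij hj]

omit [DecidableEq V] in
lemma exists_seg (hG : G.IsTree) (o w : V) :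
    ∃ x, IsSeg G (G.dist o w) x ∧ x 0 = o ∧ x (G.dist o w) = w := by
  obtain ⟨p, hp⟩ := hG.connected.exists_walk_length_eq_dist o w
  set k := G.dist o w
  have hadj : ∀ i < k, G.Adj (p.getVert i) (p.getVert (i + 1)) := fun i hi =>
    p.adj_getVert_succ (by omega)
  have hle : ∀ i l, i + l ≤ k → G.dist (p.getVert i) (p.getVert (i + l)) ≤ l := by
    intro i l
    induction l with
    | zero => intro _; simp
    | succ l ih =>
      intro h
      have := ih (by omega)
      have h1 : G.dist (p.getVert (i + l)) (p.getVert (i + (l + 1))) = 1 :=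
        dist_eq_one_iff_adj.2 (hadj (i + l) (by omega))
      have : G.dist (p.getVert i) (p.getVert (i + (l + 1))) ≤
          G.dist (p.getVert i) (p.getVert (i + l)) +
            G.dist (p.getVert (i + l)) (p.getVert (i + (l + 1))) := hG.connected.dist_triangle
      omega
  refine ⟨p.getVert, ⟨hadj, fun i j hij hj => ?_⟩, p.getVert_zero,
    by rw [← hp, p.getVert_length]⟩
  have a := hle 0 i (by omega)
  have b := hle i (j - i) (by omega)
  have c := hle j (k - j) (by omega)
  have e : p.getVert k = w := by rw [← hp, p.getVert_length]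
  rw [show i + (j - i) = j by omega] at b
  rw [show j + (k - j) = k by omega, e] at c
  rw [zero_add, p.getVert_zero] at a
  have t1 : G.dist o w ≤ G.dist o (p.getVert i) + G.dist (p.getVert i) w :=
    hG.connected.dist_triangle
  have t2 : G.dist (p.getVert i) w ≤ G.dist (p.getVert i) (p.getVert j) + G.dist (p.getVert j) w :=
    hG.connected.dist_triangle
  omega

omit [DecidableEq V] in
lemma geod_spec (hG : G.IsTree) (o w : V) :
    IsSeg G (G.dist o w) (geod G o w) ∧ geod G o w 0 = o ∧ geod G o w (G.dist o w) = w := by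
  rw [geod, dif_pos (exists_seg hG o w)]
  exact (exists_seg hG o w).choose_spec

omit [DecidableEq V] in
lemma IsSeg.rev {k : ℕ} {x : ℕ → V} (hx : IsSeg G k x) : IsSeg G k fun i => x (k - i) := by
  refine ⟨fun i hi => ?_, fun i j hij hj => ?_⟩
  · have := (hx.1 (k - (i + 1)) (by omega)).symm
    rwa [show k - (i + 1) + 1 = k - i by omega] at this
  · rw [hx.dist' (by omega : k - j ≤ k - i) (by omega)]
    omega

omit [DecidableEq V] in
lemma IsSeg.sub {k : ℕ} {x : ℕ → V} (hx : IsSeg G k x) {i l : ℕ} (h : i + l ≤ k) :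
    IsSeg G l fun j => x (i + j) := by
  refine ⟨fun j hj => hx.1 (i + j) (by omega), fun a b hab hb => ?_⟩
  rw [hx.2 (i + a) (i + b) (by omega) (by omega)]
  omega

omit [DecidableEq V] in
lemma IsSeg.map {k : ℕ} {x : ℕ → V} (hG : G.IsTree) (hx : IsSeg G k x) (e : G ≃g G) :
    IsSeg G k fun i => e (x i) := by
  refine ⟨fun i hi => e.map_rel_iff.2 (hx.1 i hi), fun i j hij hj => ?_⟩
  have key : ∀ (f : G ≃g G) (a b : V), G.dist (f a) (f b) ≤ G.dist a b := fun f a b => by
    obtain ⟨p, hp⟩ := hG.connected.exists_walk_length_eq_dist a b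
    exact (dist_le (p.map f.toHom)).trans (by simp [hp])
  refine le_antisymm ((key e _ _).trans (hx.2 i j hij hj).le) ?_
  have := key e.symm (e (x i)) (e (x j))
  rw [RelIso.symm_apply_apply, RelIso.symm_apply_apply, hx.2 i j hij hj] at this
  exact this

omit [DecidableEq V] in
lemma IsSeg.unique (hG : G.IsTree) {k : ℕ} {x y : ℕ → V} (hx : IsSeg G k x) (hy : IsSeg G k y)
    (h0 : x 0 = y 0) (hk : x k = y k) : ∀ i ≤ k, x i = y i := by
  intro i
  induction i with
  | zero => exact fun _ => h0
  | succ i ih =>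
    intro hi
    have hyi := hy.1 i hi
    rw [← ih (by omega)] at hyi
    refine closer_unique hG (u := x k) (hx.1 i hi) hyi ?_ ?_
    · rw [hx.dist' hi le_rfl, hx.dist' (by omega : i ≤ k) le_rfl]; omega
    · rw [hx.dist' (by omega : i ≤ k) le_rfl, hk, hy.dist' hi le_rfl]; omega

omit [DecidableEq V] in
/-- An automorphism carries chosen geodesics to chosen geodesics. -/
lemma geod_map (hG : G.IsTree) (e : G ≃g G) (o w : V) :
    G.dist (e o) (e w) = G.dist o w ∧
      ∀ i ≤ G.dist o w, geod G (e o) (e w) i = e (geod G o w i) := by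
  obtain ⟨hs, h0, hk⟩ := geod_spec hG o w
  have hm := hs.map hG e
  have hd : G.dist (e o) (e w) = G.dist o w := by
    have := hm.dist
    simpa only [h0, hk] using this
  obtain ⟨hs', h0', hk'⟩ := geod_spec hG (e o) (e w)
  rw [hd] at hs' hk'
  exact ⟨hd, hs'.unique hG hm (by simp only [h0', h0]) (by simp only [hk', hk])⟩

lemma exists_bijOn {s t : Finset V} (h : s.card = t.card) (a b : V) :
    ∃ f : V → V, Set.BijOn f s t ∧ (a ∈ s → b ∈ t → f a = b) := by
  set e := Finset.equivOfCardEq h
  by_cases hab : a ∈ s ∧ b ∈ t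
  · set e' : s ≃ t := e.trans (Equiv.swap (e ⟨a, hab.1⟩) ⟨b, hab.2⟩)
    refine ⟨fun v => if hv : v ∈ s then (e' ⟨v, hv⟩ : V) else v, ⟨?_, ?_, ?_⟩, fun ha _ => ?_⟩
    · intro v hv; simp [Finset.mem_coe.1 hv]
    · intro v hv w hw hvw
      simp only [dif_pos (Finset.mem_coe.1 hv), dif_pos (Finset.mem_coe.1 hw)] at hvw
      exact congrArg Subtype.val (e'.injective (Subtype.ext hvw))
    · intro w hw
      exact ⟨e'.symm ⟨w, hw⟩, (e'.symm ⟨w, hw⟩).2, by simp⟩
    · simp [ha, e']
  · refine ⟨fun v => if hv : v ∈ s then (e ⟨v, hv⟩ : V) else v, ⟨?_, ?_, ?_⟩,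
      fun ha hb => absurd ⟨ha, hb⟩ hab⟩
    · intro v hv; simp [Finset.mem_coe.1 hv]
    · intro v hv w hw hvw
      simp only [dif_pos (Finset.mem_coe.1 hv), dif_pos (Finset.mem_coe.1 hw)] at hvw
      exact congrArg Subtype.val (e.injective (Subtype.ext hvw))
    · intro w hw
      exact ⟨e.symm ⟨w, hw⟩, (e.symm ⟨w, hw⟩).2, by simp⟩

variable [G.LocallyFinite]

/-- The neighbours of `p` further away from `o`. -/
noncomputable def kids (G : SimpleGraph V) [G.LocallyFinite] (o p : V) : Finset V :=
  (G.neighborFinset p).filter fun v => G.dist o v = G.dist o p + 1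

omit [DecidableEq V] in
lemma mem_kids {o p v : V} : v ∈ kids G o p ↔ G.Adj p v ∧ G.dist o v = G.dist o p + 1 := by
  simp [kids]

lemma card_kids (hG : G.IsTree) {d : ℕ} (hreg : ∀ v, G.degree v = d) (o p : V) :
    (kids G o p).card = if p = o then d else d - 1 := by
  split_ifs with h
  · subst h
    rw [kids, Finset.filter_true_of_mem fun v hv => ?_, card_neighborFinset_eq_degree, hreg]
    rw [mem_neighborFinset] at hv
    simp [dist_eq_one_iff_adj.2 hv]
  · obtain ⟨q, hq, hqd⟩ := exists_closer hG (Ne.symm h)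
    have hk : kids G o p = (G.neighborFinset p).erase q := by
      ext v
      rw [mem_kids, Finset.mem_erase, mem_neighborFinset]
      refine ⟨fun hv => ⟨fun he => ?_, hv.1⟩, fun hv => ⟨hv.2, ?_⟩⟩
      · have := hv.2; rw [he] at this; omega
      · rcases hG.dist_eq_dist_add_one_of_adj o hv.2 with h' | h'
        · exact absurd (closer_unique hG hv.2 hq h'.symm hqd) hv.1
        · exact h'
    rw [hk, Finset.card_erase_of_mem (by rwa [mem_neighborFinset]), card_neighborFinset_eq_degree,
      hreg]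

/-- Any two segments of the same length are related by an automorphism. -/
theorem exists_aut_seg (hG : G.IsTree) {d : ℕ} (hreg : ∀ v, G.degree v = d) {k : ℕ} {x y : ℕ → V}
    (hx : IsSeg G k x) (hy : IsSeg G k y) : ∃ e : G ≃g G, ∀ i ≤ k, e (x i) = y i := by
  classical
  set o := x 0 with ho
  set o' := y 0 with ho'
  have hσ : ∀ p q : V, ∃ f : V → V,
      ((kids G o p).card = (kids G o' q).card → Set.BijOn f (kids G o p) (kids G o' q)) ∧
      ((kids G o p).card = (kids G o' q).card → ∀ i < k, p = x i → q = y i →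
        f (x (i + 1)) = y (i + 1)) := by
    intro p q
    by_cases hc : (kids G o p).card = (kids G o' q).card
    swap
    · exact ⟨id, fun h => absurd h hc, fun h => absurd h hc⟩
    by_cases h : ∃ i < k, p = x i ∧ q = y i
    · obtain ⟨i, hi, hp, hq⟩ := h
      obtain ⟨f, hf, hfab⟩ := exists_bijOn hc (x (i + 1)) (y (i + 1))
      refine ⟨f, fun _ => hf, fun _ j hj hpj _ => ?_⟩
      have hij : i = j := by
        have h1 := hx.2 0 i (Nat.zero_le _) (by omega)
        have h2 := hx.2 0 j (Nat.zero_le _) (by omega)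
        rw [← hp, hpj] at h1
        omega
      subst hij
      refine hfab (mem_kids.2 ⟨hp ▸ hx.1 i hi, ?_⟩) (mem_kids.2 ⟨hq ▸ hy.1 i hi, ?_⟩)
      · rw [hp, ho, hx.2 0 (i + 1) (Nat.zero_le _) hi, hx.2 0 i (Nat.zero_le _) (by omega)]; omega
      · rw [hq, ho', hy.2 0 (i + 1) (Nat.zero_le _) hi, hy.2 0 i (Nat.zero_le _) (by omega)]; omega
    · obtain ⟨f, hf, -⟩ := exists_bijOn hc p q
      exact ⟨f, fun _ => hf, fun _ j hj hp hq => absurd ⟨j, hj, hp, hq⟩ h⟩
  choose σ hσb hσx using hσ
  have hpar : ∀ v, ∃ p, v ≠ o → G.Adj p v ∧ G.dist o p + 1 = G.dist o v := by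
    intro v
    by_cases h : v = o
    · exact ⟨v, fun h' => absurd h h'⟩
    · obtain ⟨p, hp, hd⟩ := exists_closer hG (Ne.symm h)
      exact ⟨p, fun _ => ⟨hp.symm, hd⟩⟩
  choose par hpar using hpar
  let E : ℕ → V → V := Nat.rec (fun _ => o') fun _ E v => σ (par v) (E (par v)) v
  let f : V → V := fun v => E (G.dist o v) v
  have hf0 : f o = o' := by simp [f, E]
  have hfs : ∀ v, v ≠ o → f v = σ (par v) (f (par v)) v := fun v hv => by
    simp only [f]
    rw [← (hpar v hv).2]
  have hzero : ∀ v, G.dist o v = 0 → v = o := fun v h => (hG.connected.dist_eq_zero_iff.1 h).symm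
  have hcard : ∀ p, G.dist o' (f p) = G.dist o p →
      (kids G o p).card = (kids G o' (f p)).card := by
    intro p hp
    have : f p = o' ↔ p = o := by
      refine ⟨fun h => hzero p (by rw [← hp, h, SimpleGraph.dist_self]), fun h => ?_⟩
      rw [h, hf0]
    rw [card_kids hG hreg, card_kids hG hreg]
    simp only [this]
  have hdist : ∀ n v, G.dist o v = n → G.dist o' (f v) = n := by
    intro n
    induction n with
    | zero => intro v hv; rw [hzero v hv, hf0, SimpleGraph.dist_self]
    | succ n ih =>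
      intro v hv
      have hvo : v ≠ o := by rintro rfl; simp at hv
      obtain ⟨h1, h2⟩ := hpar v hvo
      have hp : G.dist o' (f (par v)) = n := ih _ (by omega)
      have hm := (hσb _ _ (hcard _ (by omega))).mapsTo
        (Finset.mem_coe.2 (mem_kids.2 ⟨h1, h2.symm⟩))
      rw [hfs v hvo, (mem_kids.1 (Finset.mem_coe.1 hm)).2, hp]
  have hchild : ∀ v, v ≠ o →
      G.Adj (f (par v)) (f v) ∧ G.dist o' (f (par v)) + 1 = G.dist o' (f v) := by
    intro v hvo
    obtain ⟨h1, h2⟩ := hpar v hvo
    have hm := (hσb _ _ (hcard _ (hdist _ _ rfl))).mapsTo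
      (Finset.mem_coe.2 (mem_kids.2 ⟨h1, h2.symm⟩))
    rw [← hfs v hvo] at hm
    exact ⟨(mem_kids.1 (Finset.mem_coe.1 hm)).1, (mem_kids.1 (Finset.mem_coe.1 hm)).2.symm⟩
  have hinj : ∀ n u v, G.dist o u = n → f u = f v → u = v := by
    intro n
    induction n with
    | zero =>
      intro u v hu huv
      have := hdist _ v rfl
      rw [← huv, hdist 0 u hu] at this
      rw [hzero u hu, hzero v this.symm]
    | succ n ih =>
      intro u v hu huv
      have hv : G.dist o v = n + 1 := by rw [← hdist _ v rfl, ← huv, hdist _ u hu]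
      have huo : u ≠ o := by rintro rfl; simp at hu
      have hvo : v ≠ o := by rintro rfl; simp at hv
      obtain ⟨au, du⟩ := hchild u huo
      obtain ⟨av, dv⟩ := hchild v hvo
      rw [← huv] at av dv
      have e : f (par u) = f (par v) := closer_unique hG au.symm av.symm du dv
      have hp : par u = par v := ih _ _ (by have := (hpar u huo).2; omega) e
      have mu : u ∈ (kids G o (par u) : Set V) := mem_kids.2 ⟨(hpar u huo).1, (hpar u huo).2.symm⟩
      have mv : v ∈ (kids G o (par u) : Set V) := by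
        rw [hp]; exact mem_kids.2 ⟨(hpar v hvo).1, (hpar v hvo).2.symm⟩
      refine (hσb _ _ (hcard _ (hdist _ _ rfl))).injOn mu mv ?_
      rw [← hfs u huo, huv, hfs v hvo, hp]
  have hparent : ∀ {v p}, G.Adj p v → G.dist o v = G.dist o p + 1 → v ≠ o ∧ p = par v := by
    intro v p hpv hd
    have hvo : v ≠ o := by rintro rfl; simp at hd
    exact ⟨hvo, closer_unique hG hpv.symm (hpar v hvo).1.symm hd.symm (hpar v hvo).2⟩
  have hsurj : ∀ n w, G.dist o' w = n → ∃ v, f v = w := by
    intro n
    induction n with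
    | zero => intro w hw; exact ⟨o, by rw [hf0, hG.connected.dist_eq_zero_iff.1 hw]⟩
    | succ n ih =>
      intro w hw
      have hwo : o' ≠ w := fun h => by rw [← h, SimpleGraph.dist_self] at hw; omega
      obtain ⟨q, hq, hqd⟩ := exists_closer hG hwo
      obtain ⟨p, rfl⟩ := ih q (by omega)
      obtain ⟨v, hv, hvw⟩ := (hσb _ _ (hcard p (hdist _ _ rfl))).surjOn
        (Finset.mem_coe.2 (mem_kids.2 ⟨hq.symm, hqd.symm⟩))
      obtain ⟨hpv, hd⟩ := mem_kids.1 (Finset.mem_coe.1 hv)
      obtain ⟨hvo, hpp⟩ := hparent hpv hd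
      exact ⟨v, by rw [hfs v hvo, ← hpp, hvw]⟩
  have hbij : Function.Bijective f :=
    ⟨fun u v h => hinj _ u v rfl h, fun w => hsurj _ w rfl⟩
  have hadj : ∀ u v, G.Adj (f u) (f v) ↔ G.Adj u v := by
    intro u v
    constructor
    · intro h
      have key : ∀ u v, G.Adj (f u) (f v) → G.dist o v = G.dist o u + 1 → G.Adj u v := by
        intro u v h hd
        have hvo : v ≠ o := by rintro rfl; simp at hd
        obtain ⟨av, dv⟩ := hchild v hvo
        have e : f u = f (par v) := closer_unique hG h.symm av.symm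
          (by rw [hdist _ _ rfl, hdist _ _ rfl]; omega) dv
        rw [hbij.1 e]
        exact (hpar v hvo).1
      rcases hG.dist_eq_dist_add_one_of_adj o' h with h' | h'
      · exact (key v u h.symm (by rw [← hdist _ u rfl, ← hdist _ v rfl]; exact h')).symm
      · exact key u v h (by rw [← hdist _ u rfl, ← hdist _ v rfl]; exact h')
    · intro h
      rcases hG.dist_eq_dist_add_one_of_adj o h with h' | h'
      · obtain ⟨hu, e⟩ := hparent h.symm h'
        rw [e]; exact (hchild u hu).1.symm
      · obtain ⟨hv, e⟩ := hparent h h'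
        rw [e]; exact (hchild v hv).1
  refine ⟨⟨Equiv.ofBijective f hbij, fun {u v} => hadj u v⟩, fun i hi => ?_⟩
  show f (x i) = y i
  induction i with
  | zero => exact hf0
  | succ i ih =>
    have hd : G.dist o (x (i + 1)) = G.dist o (x i) + 1 := by
      rw [ho, hx.2 0 (i + 1) (Nat.zero_le _) hi, hx.2 0 i (Nat.zero_le _) (by omega)]; omega
    obtain ⟨hne, hp⟩ := hparent (hx.1 i hi) hd
    rw [hfs _ hne, ← hp, ih (by omega)]
    refine hσx _ _ ?_ i hi rfl rfl
    have := hcard (x i) (hdist _ _ rfl)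
    rwa [ih (by omega)] at this

end Vale.Agent.P161.Crit
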