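import Vale.Agent.P161.Crit.Defs

/-!
Algebra of single-site tilts: merging, slopes and the two magnetisations of an edge.
-/

namespace Vale.Agent.P161.Crit

open Finset

lemma one_add_mul_pos {x y : ℝ} (hx : |x| < 1) (hy : |y| ≤ 1) : 0 < 1 + x * y := by
  have : |x * y| < 1 := by
    rw [abs_mul]; exact lt_of_le_of_lt (mul_le_of_le_one_right (abs_nonneg _) hy) hx
  linarith [(abs_lt.1 this).1]

lemma one_add_mul_le_two {x y : ℝ} (hx : |x| ≤ 1) (hy : |y| ≤ 1) : 1 + x * y ≤ 2 := by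
  have : |x * y| ≤ 1 := by rw [abs_mul]; exact mul_le_one₀ hx (abs_nonneg _) hy
  linarith [(abs_le.1 this).2]

lemma mrg_comm (x y : ℝ) : mrg x y = mrg y x := by unfold mrg; ring

@[simp] lemma mrg_zero (x : ℝ) : mrg x 0 = x := by simp [mrg]

@[simp] lemma zero_mrg (x : ℝ) : mrg 0 x = x := by simp [mrg]

lemma one_sub_mrg {x y : ℝ} (hx : |x| < 1) (hy : |y| ≤ 1) :
    1 - mrg x y = (1 - x) * (1 - y) / (1 + x * y) := by
  have := (one_add_mul_pos hx hy).ne'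
  unfold mrg; field_simp; ring

lemma one_add_mrg {x y : ℝ} (hx : |x| < 1) (hy : |y| ≤ 1) :
    1 + mrg x y = (1 + x) * (1 + y) / (1 + x * y) := by
  have := (one_add_mul_pos hx hy).ne'
  unfold mrg; field_simp; ring

/-- Distance of a merged magnetisation from `±1`. -/
lemma abs_mrg_le {x y : ℝ} (hx : |x| < 1) (hy : |y| ≤ 1) :
    |mrg x y| ≤ 1 - (1 - |x|) * (1 - |y|) / 2 := by
  have hd := one_add_mul_pos hx hy
  have hd2 := one_add_mul_le_two hx.le hy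
  have hx' := abs_le.1 (le_refl |x|)
  have hy' := abs_le.1 (le_refl |y|)
  have hxy : 0 ≤ (1 - |x|) * (1 - |y|) := mul_nonneg (by linarith) (by linarith)
  have h1 : (1 - |x|) * (1 - |y|) / 2 ≤ 1 - mrg x y := by
    rw [one_sub_mrg hx hy, div_le_div_iff₀ two_pos hd]
    calc (1 - |x|) * (1 - |y|) * (1 + x * y) ≤ (1 - |x|) * (1 - |y|) * 2 :=
          mul_le_mul_of_nonneg_left hd2 hxy
      _ ≤ (1 - x) * (1 - y) * 2 := by
          refine mul_le_mul_of_nonneg_right (mul_le_mul (by linarith) (by linarith)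
            (by linarith) (by linarith)) two_pos.le
  have h2 : (1 - |x|) * (1 - |y|) / 2 ≤ 1 + mrg x y := by
    rw [one_add_mrg hx hy, div_le_div_iff₀ two_pos hd]
    calc (1 - |x|) * (1 - |y|) * (1 + x * y) ≤ (1 - |x|) * (1 - |y|) * 2 :=
          mul_le_mul_of_nonneg_left hd2 hxy
      _ ≤ (1 + x) * (1 + y) * 2 := by
          refine mul_le_mul_of_nonneg_right (mul_le_mul (by linarith) (by linarith)
            (by linarith) (by linarith)) two_pos.le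
  rw [abs_le]; constructor <;> linarith

lemma abs_mrg_lt {x y : ℝ} (hx : |x| < 1) (hy : |y| < 1) : |mrg x y| < 1 := by
  have := abs_mrg_le hx hy.le
  nlinarith

lemma mrg_assoc {x y z : ℝ} (hx : |x| < 1) (hy : |y| < 1) (hz : |z| < 1) :
    mrg (mrg x y) z = mrg x (mrg y z) := by
  have h1 := (one_add_mul_pos hx hy.le).ne'
  have h2 := (one_add_mul_pos hy hz.le).ne'
  have e1 : mrg (mrg x y) z = (x + y + z * (1 + x * y)) / (1 + x * y + (x + y) * z) := by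
    unfold mrg; field_simp
  have e2 : mrg x (mrg y z) = (x * (1 + y * z) + (y + z)) / (1 + y * z + x * (y + z)) := by
    unfold mrg; field_simp
  rw [e1, e2]; congr 1 <;> ring

/-- Adding a field `x` at a site of magnetisation `m`. -/
lemma mrg_sub_left {m x : ℝ} (hm : |m| < 1) (hx : |x| ≤ 1) :
    mrg m x - m = (1 - m ^ 2) * x / (1 + m * x) := by
  have := (one_add_mul_pos hm hx).ne'
  unfold mrg; field_simp; ring

section cmb

variable {ι : Type*} {s : Finset ι} {f g : ι → ℝ}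

@[simp] lemma cmb_empty (f : ι → ℝ) : cmb (∅ : Finset ι) f = 0 := by simp [cmb]

lemma cmb_congr (h : ∀ i ∈ s, f i = g i) : cmb s f = cmb s g := by
  unfold cmb
  rw [Finset.prod_congr rfl fun i hi => by rw [h i hi],
    Finset.prod_congr (s₁ := s) (f := fun i => 1 - f i) rfl fun i hi => by rw [h i hi]]

lemma cmb_map {κ : Type*} (e : κ ↪ ι) (t : Finset κ) (f : ι → ℝ) :
    cmb (t.map e) f = cmb t fun i => f (e i) := by
  simp [cmb, Finset.prod_map]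

lemma prod_one_add_pos (hf : ∀ i ∈ s, |f i| < 1) : 0 < ∏ i ∈ s, (1 + f i) :=
  Finset.prod_pos fun i hi => by linarith [(abs_lt.1 (hf i hi)).1]

lemma prod_one_sub_pos (hf : ∀ i ∈ s, |f i| < 1) : 0 < ∏ i ∈ s, (1 - f i) :=
  Finset.prod_pos fun i hi => by linarith [(abs_lt.1 (hf i hi)).2]

lemma abs_cmb_lt (hf : ∀ i ∈ s, |f i| < 1) : |cmb s f| < 1 := by
  have hp := prod_one_add_pos hf
  have hq := prod_one_sub_pos hf
  rw [cmb, abs_div, div_lt_one (abs_pos.2 (by linarith)), abs_of_pos (a := _ + _) (by linarith),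
    abs_lt]
  constructor <;> linarith

lemma cmb_insert [DecidableEq ι] {i : ι} (hi : i ∉ s) (hfi : |f i| < 1)
    (hf : ∀ j ∈ s, |f j| < 1) : cmb (insert i s) f = mrg (f i) (cmb s f) := by
  have hp := prod_one_add_pos hf
  have hq := prod_one_sub_pos hf
  have hne : (∏ j ∈ s, (1 + f j)) + ∏ j ∈ s, (1 - f j) ≠ 0 := (by linarith : (0:ℝ) < _).ne'
  rw [cmb, cmb, Finset.prod_insert hi, Finset.prod_insert hi]
  unfold mrg
  field_simp
  congr 1 <;> ring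

/-- A uniform bound on a product of tilts. -/
lemma abs_cmb_le {r : ℝ} (hr1 : r < 1) (hf : ∀ i ∈ s, |f i| ≤ r) :
    |cmb s f| ≤ 1 - ((1 - r) / 2) ^ s.card := by
  classical
  induction s using Finset.induction_on with
  | empty => simp
  | @insert i s hi ih =>
    have hs : ∀ j ∈ s, |f j| ≤ r := fun j hj => hf j (Finset.mem_insert_of_mem hj)
    have hfi := hf i (Finset.mem_insert_self i s)
    have hr0 : 0 ≤ r := (abs_nonneg _).trans hfi
    have hs1 : ∀ j ∈ s, |f j| < 1 := fun j hj => lt_of_le_of_lt (hs j hj) hr1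
    rw [cmb_insert hi (lt_of_le_of_lt hfi hr1) hs1, Finset.card_insert_of_notMem hi, pow_succ]
    refine (abs_mrg_le (lt_of_le_of_lt hfi hr1) (abs_cmb_lt hs1).le).trans ?_
    have h := ih hs
    have h2 : ((1 - r) / 2) ^ s.card ≤ 1 - |cmb s f| := by linarith
    have h3 := mul_le_mul (by linarith : (1 - r) ≤ 1 - |f i|) h2
      (pow_nonneg (by linarith) _) (by linarith [lt_of_le_of_lt hfi hr1])
    linarith

end cmb

section slope

variable {θ a b : ℝ}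

lemma one_sub_sq_mul_pos (h0 : 0 ≤ θ) (h1 : θ < 1) (ha : |a| ≤ 1) : 0 < 1 - θ ^ 2 * a ^ 2 := by
  have h2 : a ^ 2 ≤ 1 := by
    rw [← sq_abs]; exact pow_le_one₀ (abs_nonneg a) ha
  nlinarith

lemma slp_pos (h0 : 0 ≤ θ) (h1 : θ < 1) (ha : |a| < 1) : 0 < slp θ a := by
  refine div_pos ?_ (one_sub_sq_mul_pos h0 h1 ha.le)
  nlinarith [abs_lt.1 ha]

lemma slp_nonneg (h0 : 0 ≤ θ) (h1 : θ < 1) (ha : |a| ≤ 1) : 0 ≤ slp θ a := by
  refine div_nonneg ?_ (one_sub_sq_mul_pos h0 h1 ha).le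
  nlinarith [abs_le.1 ha]

lemma slp_le_one (h0 : 0 ≤ θ) (h1 : θ < 1) (ha : |a| ≤ 1) : slp θ a ≤ 1 := by
  rw [slp, div_le_one (one_sub_sq_mul_pos h0 h1 ha)]
  nlinarith [sq_nonneg a, mul_le_of_le_one_left (sq_nonneg a) (pow_le_one₀ h0 h1.le : θ ^ 2 ≤ 1)]

/-- The slope costs at least a multiple of the square. -/
lemma slp_le (h0 : 0 ≤ θ) (h1 : θ < 1) (ha : |a| ≤ 1) :
    slp θ a ≤ 1 - (1 - θ ^ 2) * a ^ 2 := by
  have h := one_sub_sq_mul_pos h0 h1 ha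
  rw [slp, div_le_iff₀ h]
  have : 0 ≤ θ ^ 2 * a ^ 2 * ((1 - θ ^ 2) * a ^ 2) := by
    have : θ ^ 2 ≤ 1 := pow_le_one₀ h0 h1.le
    exact mul_nonneg (by positivity) (mul_nonneg (by linarith) (sq_nonneg a))
  nlinarith

lemma slp_neg (θ a : ℝ) : slp θ (-a) = slp θ a := by simp [slp]

lemma psi_neg (θ a : ℝ) : psi θ (-a) = psi θ a := by simp [psi, slp_neg]

lemma exp_psi (h0 : 0 ≤ θ) (h1 : θ < 1) (ha : |a| < 1) : Real.exp (psi θ a) = slp θ a :=
  Real.exp_log (slp_pos h0 h1 ha)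

lemma psi_le (h0 : 0 ≤ θ) (h1 : θ < 1) (ha : |a| < 1) : psi θ a ≤ -((1 - θ ^ 2) * a ^ 2) := by
  have := Real.log_le_sub_one_of_pos (slp_pos h0 h1 ha)
  have := slp_le h0 h1 ha.le
  unfold psi; linarith

lemma psi_nonpos (h0 : 0 ≤ θ) (h1 : θ < 1) (ha : |a| < 1) : psi θ a ≤ 0 :=
  (psi_le h0 h1 ha).trans (by
    have : θ ^ 2 ≤ 1 := pow_le_one₀ h0 h1.le
    nlinarith [sq_nonneg a])

lemma abs_log_sub_log_le {x y m : ℝ} (hm : 0 < m) (hx : m ≤ x) (hy : m ≤ y) :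
    |Real.log x - Real.log y| ≤ |x - y| / m := by
  wlog h : y ≤ x generalizing x y with H
  · rw [abs_sub_comm, abs_sub_comm x y]; exact H hy hx (le_of_not_ge h)
  have hx0 : 0 < x := hm.trans_le hx
  have hy0 : 0 < y := hm.trans_le hy
  rw [abs_of_nonneg (sub_nonneg.2 (Real.log_le_log hy0 h)), abs_of_nonneg (sub_nonneg.2 h),
    ← Real.log_div hx0.ne' hy0.ne']
  calc Real.log (x / y) ≤ x / y - 1 := Real.log_le_sub_one_of_pos (div_pos hx0 hy0)
    _ = (x - y) / y := by field_simp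
    _ ≤ (x - y) / m := div_le_div_of_nonneg_left (sub_nonneg.2 h) hm hy

/-- `psi` is Lipschitz with a constant proportional to the size of its arguments. -/
lemma abs_psi_sub_le (h0 : 0 ≤ θ) (h1 : θ < 1) {r : ℝ} (hr1 : r < 1) (ha : |a| ≤ r)
    (hb : |b| ≤ r) :
    |psi θ a - psi θ b| ≤ 2 / (1 - r ^ 2) * ((|a| + |b|) * |a - b|) := by
  have hr0 : 0 ≤ r := (abs_nonneg _).trans ha
  have hm : 0 < 1 - r ^ 2 := by nlinarith
  have hA : 1 - r ^ 2 ≤ 1 - a ^ 2 := by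
    have := pow_le_pow_left₀ (abs_nonneg a) ha 2
    rw [sq_abs] at this; linarith
  have hB : 1 - r ^ 2 ≤ 1 - b ^ 2 := by
    have := pow_le_pow_left₀ (abs_nonneg b) hb 2
    rw [sq_abs] at this; linarith
  have ht : θ ^ 2 ≤ 1 := pow_le_one₀ h0 h1.le
  have hA' : 1 - r ^ 2 ≤ 1 - θ ^ 2 * a ^ 2 := by nlinarith [sq_nonneg a]
  have hB' : 1 - r ^ 2 ≤ 1 - θ ^ 2 * b ^ 2 := by nlinarith [sq_nonneg b]
  have hsq : |a ^ 2 - b ^ 2| ≤ (|a| + |b|) * |a - b| := by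
    rw [show a ^ 2 - b ^ 2 = (a + b) * (a - b) by ring, abs_mul]
    exact mul_le_mul_of_nonneg_right (abs_add_le a b) (abs_nonneg _)
  have e : ∀ c : ℝ, 0 < 1 - c ^ 2 → 0 < 1 - θ ^ 2 * c ^ 2 →
      psi θ c = Real.log (1 - c ^ 2) - Real.log (1 - θ ^ 2 * c ^ 2) :=
    fun c h h' => Real.log_div h.ne' h'.ne'
  rw [e a (hm.trans_le hA) (hm.trans_le hA'), e b (hm.trans_le hB) (hm.trans_le hB')]
  have k1 := abs_log_sub_log_le hm hA hB
  have k2 := abs_log_sub_log_le hm hA' hB'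
  rw [show 1 - a ^ 2 - (1 - b ^ 2) = -(a ^ 2 - b ^ 2) by ring, abs_neg] at k1
  rw [show 1 - θ ^ 2 * a ^ 2 - (1 - θ ^ 2 * b ^ 2) = -(θ ^ 2 * (a ^ 2 - b ^ 2)) by ring, abs_neg,
    abs_mul, abs_of_nonneg (sq_nonneg θ)] at k2
  have k3 : θ ^ 2 * |a ^ 2 - b ^ 2| / (1 - r ^ 2) ≤ |a ^ 2 - b ^ 2| / (1 - r ^ 2) :=
    div_le_div_of_nonneg_right (mul_le_of_le_one_left (abs_nonneg _) ht) hm.le
  calc _ ≤ |Real.log (1 - a ^ 2) - Real.log (1 - b ^ 2)| +
        |Real.log (1 - θ ^ 2 * a ^ 2) - Real.log (1 - θ ^ 2 * b ^ 2)| := by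
          rw [show Real.log (1 - a ^ 2) - Real.log (1 - θ ^ 2 * a ^ 2) -
            (Real.log (1 - b ^ 2) - Real.log (1 - θ ^ 2 * b ^ 2)) =
            (Real.log (1 - a ^ 2) - Real.log (1 - b ^ 2)) -
            (Real.log (1 - θ ^ 2 * a ^ 2) - Real.log (1 - θ ^ 2 * b ^ 2)) by ring]
          exact abs_sub _ _
    _ ≤ 2 * (|a ^ 2 - b ^ 2| / (1 - r ^ 2)) := by linarith
    _ ≤ 2 * ((|a| + |b|) * |a - b| / (1 - r ^ 2)) := by
          linarith [div_le_div_of_nonneg_right hsq hm.le]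
    _ = _ := by ring

/-- The magnetisation of a vertex is affine in that of its neighbour. -/
lemma edge_affine (h0 : 0 ≤ θ) (h1 : θ < 1) (ha : |a| < 1) (hb : |b| < 1) :
    mrg a (θ * b) = a * (1 - θ ^ 2) / (1 - θ ^ 2 * a ^ 2) + θ * slp θ a * mrg b (θ * a) := by
  have hta : |θ * a| < 1 := by
    rw [abs_mul, abs_of_nonneg h0]; nlinarith [abs_nonneg a]
  have htb : |θ * b| < 1 := by
    rw [abs_mul, abs_of_nonneg h0]; nlinarith [abs_nonneg b]
  have n1 := (one_sub_sq_mul_pos h0 h1 ha.le).ne'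
  have n2 : 1 + θ * a * b ≠ 0 := (one_add_mul_pos hta hb.le).ne'
  have n3 : 1 + a * (θ * b) ≠ 0 := by rw [show a * (θ * b) = θ * a * b by ring]; exact n2
  have n4 : 1 + b * (θ * a) ≠ 0 := by rw [show b * (θ * a) = θ * a * b by ring]; exact n2
  unfold mrg slp
  rw [show b * (θ * a) = a * (θ * b) by ring,
    show θ * ((1 - a ^ 2) / (1 - θ ^ 2 * a ^ 2)) * ((b + θ * a) / (1 + a * (θ * b))) =
      θ * (1 - a ^ 2) * (b + θ * a) / ((1 - θ ^ 2 * a ^ 2) * (1 + a * (θ * b))) by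
        rw [← div_mul_div_comm, mul_div_assoc],
    div_add_div _ _ n1 (mul_ne_zero n1 n3), div_eq_div_iff n3 (mul_ne_zero n1 (mul_ne_zero n1 n3))]
  ring

/-- Detailed balance of the slopes. -/
lemma edge_symm (h0 : 0 ≤ θ) (h1 : θ < 1) (ha : |a| < 1) (hb : |b| < 1) :
    (1 - mrg b (θ * a) ^ 2) * slp θ a = (1 - mrg a (θ * b) ^ 2) * slp θ b := by
  have hta : |θ * a| < 1 := by
    rw [abs_mul, abs_of_nonneg h0]; nlinarith [abs_nonneg a]
  have htb : |θ * b| < 1 := by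
    rw [abs_mul, abs_of_nonneg h0]; nlinarith [abs_nonneg b]
  have n1 := (one_sub_sq_mul_pos h0 h1 ha.le).ne'
  have n1' := (one_sub_sq_mul_pos h0 h1 hb.le).ne'
  have e : ∀ x y : ℝ, |x| < 1 → |y| ≤ 1 →
      1 - mrg x y ^ 2 = (1 - x) * (1 - y) * ((1 + x) * (1 + y)) / (1 + x * y) ^ 2 := by
    intro x y hx hy
    rw [show 1 - mrg x y ^ 2 = (1 - mrg x y) * (1 + mrg x y) by ring, one_sub_mrg hx hy,
      one_add_mrg hx hy, div_mul_div_comm]
    ring
  rw [e b (θ * a) hb hta.le, e a (θ * b) ha htb.le, show b * (θ * a) = a * (θ * b) by ring]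
  have n2 := pow_ne_zero 2 (one_add_mul_pos ha htb.le).ne'
  unfold slp
  rw [div_mul_div_comm, div_mul_div_comm,
    div_eq_div_iff (mul_ne_zero n2 n1) (mul_ne_zero n2 n1')]
  ring

/-- The determinant step of `edge_solve`. -/
lemma solve_two {θ A B D x y P Q : ℝ} (hθ : |θ| < 1) (hA : |A| ≤ 1) (hB : |B| ≤ 1)
    (hD : 0 ≤ D) (hD2 : D ≤ (1 + θ) ^ 2)
    (eP : P * D = (1 - θ ^ 2 * B) * x + θ * (1 - A) * y)
    (eQ : Q * D = θ * (1 - B) * x + (1 - θ ^ 2 * A) * y) :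
    |x| ≤ 4 * (1 + θ) ^ 2 / (1 - θ ^ 2) ^ 2 * (|P| + |Q|) := by
  have ht : θ ^ 2 < 1 := by rw [← sq_abs]; exact pow_lt_one₀ (abs_nonneg θ) hθ two_ne_zero
  have hAB : |A * B| ≤ 1 := by rw [abs_mul]; exact mul_le_one₀ hA (abs_nonneg _) hB
  have edet : (1 - θ ^ 2) * (1 - θ ^ 2 * (A * B)) * x =
      D * ((1 - θ ^ 2 * A) * P - θ * (1 - A) * Q) := by
    linear_combination -(1 - θ ^ 2 * A) * eP + θ * (1 - A) * eQ
  have hdet : (1 - θ ^ 2) ^ 2 ≤ (1 - θ ^ 2) * (1 - θ ^ 2 * (A * B)) := by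
    rw [pow_two]
    exact mul_le_mul_of_nonneg_left (by
      linarith [mul_le_of_le_one_right (sq_nonneg θ) ((le_abs_self _).trans hAB)]) (by linarith)
  have hc1 : |1 - θ ^ 2 * A| ≤ 4 := by
    refine (abs_sub _ _).trans ?_
    rw [abs_one, abs_mul, abs_of_nonneg (sq_nonneg θ)]
    linarith [mul_le_one₀ ht.le (abs_nonneg A) hA]
  have hc2 : |θ * (1 - A)| ≤ 4 := by
    rw [abs_mul]
    refine (mul_le_mul hθ.le ((abs_sub _ _).trans (add_le_add (abs_one (α := ℝ)).le hA))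
      (abs_nonneg _) zero_le_one).trans (by norm_num)
  have h : (1 - θ ^ 2) ^ 2 * |x| ≤ (1 + θ) ^ 2 * (4 * |P| + 4 * |Q|) := by
    calc (1 - θ ^ 2) ^ 2 * |x| ≤ (1 - θ ^ 2) * (1 - θ ^ 2 * (A * B)) * |x| :=
          mul_le_mul_of_nonneg_right hdet (abs_nonneg _)
      _ = |(1 - θ ^ 2) * (1 - θ ^ 2 * (A * B)) * x| := by
          rw [abs_mul _ x, abs_of_nonneg (le_trans (sq_nonneg _) hdet)]
      _ = D * |(1 - θ ^ 2 * A) * P - θ * (1 - A) * Q| := by
          rw [edet, abs_mul, abs_of_nonneg hD]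
      _ ≤ (1 + θ) ^ 2 * (4 * |P| + 4 * |Q|) := by
          refine mul_le_mul hD2 ((abs_sub _ _).trans (add_le_add ?_ ?_)) (abs_nonneg _) (sq_nonneg _)
          · rw [abs_mul]; exact mul_le_mul_of_nonneg_right hc1 (abs_nonneg _)
          · rw [abs_mul]; exact mul_le_mul_of_nonneg_right hc2 (abs_nonneg _)
  have h2 : 0 < (1 - θ ^ 2) ^ 2 := pow_pos (by linarith) 2
  rw [div_mul_eq_mul_div, le_div_iff₀ h2]
  linarith

lemma mrg_mul_den (x y : ℝ) (h : 1 + x * y ≠ 0) : mrg x y * (1 + x * y) = x + y :=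
  div_mul_cancel₀ _ h

/-- The two branch magnetisations of an edge are Lipschitz in the two magnetisations. -/
lemma edge_solve (h0 : 0 ≤ θ) (h1 : θ < 1) {a' b' : ℝ} (ha : |a| < 1) (hb : |b| < 1)
    (ha' : |a'| < 1) (hb' : |b'| < 1) :
    |a' - a| ≤ 4 * (1 + θ) ^ 2 / (1 - θ ^ 2) ^ 2 *
      (|mrg a' (θ * b') - mrg a (θ * b)| + |mrg b' (θ * a') - mrg b (θ * a)|) := by
  have hmul : ∀ x y : ℝ, |x| < 1 → |y| < 1 → |x * y| ≤ 1 := fun x y hx hy => by
    rw [abs_mul]; exact mul_le_one₀ hx.le (abs_nonneg _) hy.le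
  have hden : ∀ x y : ℝ, |x| < 1 → |y| < 1 → 0 < 1 + x * (θ * y) ∧ 1 + x * (θ * y) ≤ 1 + θ := by
    intro x y hx hy
    obtain ⟨u, w⟩ := abs_le.1 (hmul x y hx hy)
    rw [show x * (θ * y) = θ * (x * y) by ring]
    constructor
    · nlinarith
    · linarith [mul_le_of_le_one_right h0 w]
  obtain ⟨hD, hD2⟩ := hden a b ha hb
  obtain ⟨hD', hD2'⟩ := hden a' b' ha' hb'
  have m1 := mrg_mul_den a (θ * b) hD.ne'
  have m2 := mrg_mul_den b (θ * a) (by rw [show b * (θ * a) = a * (θ * b) by ring]; exact hD.ne')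
  have m1' := mrg_mul_den a' (θ * b') hD'.ne'
  have m2' := mrg_mul_den b' (θ * a')
    (by rw [show b' * (θ * a') = a' * (θ * b') by ring]; exact hD'.ne')
  refine solve_two (A := a * a') (B := b * b') (y := b' - b)
    (D := (1 + a * (θ * b)) * (1 + a' * (θ * b'))) (by rwa [abs_of_nonneg h0])
    (hmul a a' ha ha') (hmul b b' hb hb') (mul_pos hD hD').le
    (by rw [pow_two]; exact mul_le_mul hD2 hD2' hD'.le (by linarith)) ?_ ?_
  · linear_combination (1 + a * (θ * b)) * m1' - (1 + a' * (θ * b')) * m1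
  · linear_combination (1 + a * (θ * b)) * m2' - (1 + a' * (θ * b')) * m2

end slope

end Vale.Agent.P161.Crit
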