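import Vale.Agent.P161.Crit.Model

/-!
Statements of the one-copy estimates at the critical point, for fields with the law of a
channel of size `v`: second moment of order `v ^ 2`, moments of order `2j` at most `v ^ j`.
-/

namespace Vale.Agent.P161.Crit

open MeasureTheory Filter
open scoped Topology

/-- A channel of size `v`. -/
structure VChan (b c0 v : ℝ) (ν : Measure ℝ) : Prop where
  chan : Chan b ν
  pos : 0 < v
  le_one : v ≤ 1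
  lower : c0 * v ^ 2 ≤ ∫ x, x ^ 2 ∂ν
  upper : ∫ x, x ^ 2 ∂ν ≤ v ^ 2
  mom : ∀ j : ℕ, 1 ≤ j → ∫ x, x ^ (2 * j) ∂ν ≤ v ^ j

variable {V : Type*} [DecidableEq V] (G : SimpleGraph V) [G.LocallyFinite] (θ b c0 : ℝ)

/-- Convergence of the messages, of the whole configuration and along exhausting balls. -/
def StatConvProp : Prop :=
  ∀ (ν : Measure ℝ) (P : Measure (V → ℝ)), Chan b ν → FieldLaw G θ b ν P →
    (∀ᵐ h ∂P, Conv G θ h) ∧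
    (∃ R < 1, ∀ᵐ h ∂P, ∀ x y, |msgI G θ h x y| ≤ R ∧ |magI G θ h x| ≤ R) ∧
    (∀ o x y, G.Adj x y →
      (∀ᵐ h ∂P, Tendsto (fun n => msgI G θ (mask (ballF G o n) h) x y) atTop
        (𝓝 (msgI G θ h x y))) ∧
      Tendsto (fun n => ∫ h, (msgI G θ (mask (ballF G o n) h) x y - msgI G θ h x y) ^ 2 ∂P)
        atTop (𝓝 0)) ∧
    ∀ o x,
      (∀ᵐ h ∂P, Tendsto (fun n => magI G θ (mask (ballF G o n) h) x) atTop (𝓝 (magI G θ h x))) ∧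
      Tendsto (fun n => ∫ h, (magI G θ (mask (ballF G o n) h) x - magI G θ h x) ^ 2 ∂P)
        atTop (𝓝 0)

/-- Second moments and identical laws on all edges. -/
def StatSecondProp : Prop :=
  ∃ C c : ℝ, 0 < C ∧ 0 < c ∧ ∀ (v : ℝ) (ν : Measure ℝ) (P : Measure (V → ℝ)),
    VChan b c0 v ν → FieldLaw G θ b ν P →
      (∀ x y, G.Adj x y → c * v ≤ ∫ h, msgI G θ h x y ^ 2 ∂P ∧
        ∫ h, msgI G θ h x y ^ 2 ∂P ≤ C * v) ∧
      (∀ x, ∫ h, magI G θ h x ^ 2 ∂P ≤ C * v) ∧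
      ∀ x y x' y', G.Adj x y → G.Adj x' y' → ∀ f : ℝ → ℝ, Continuous f →
        ∫ h, f (msgI G θ h x y) ∂P = ∫ h, f (msgI G θ h x' y') ∂P

/-- Higher even moments. -/
def StatHighProp : Prop :=
  ∀ P0 : ℕ, 1 ≤ P0 → ∃ C : ℝ, 0 < C ∧ ∀ (v : ℝ) (ν : Measure ℝ) (P : Measure (V → ℝ)),
    VChan b c0 v ν → FieldLaw G θ b ν P →
      (∀ x y, G.Adj x y → ∫ h, msgI G θ h x y ^ (2 * P0) ∂P ≤ C * v ^ P0) ∧
      ∀ x, ∫ h, magI G θ h x ^ (2 * P0) ∂P ≤ C * v ^ P0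

/-- Decay of slope products along segments. -/
def StatSegProp : Prop :=
  ∃ C c : ℝ, 0 < C ∧ 0 < c ∧ c ≤ 1 / 2 ∧ ∀ (v : ℝ) (ν : Measure ℝ) (P : Measure (V → ℝ)),
    VChan b c0 v ν → FieldLaw G θ b ν P → ∀ (k : ℕ) (x : ℕ → V), IsSeg G k x →
      ∫ h, segProd G θ h k x ∂P ≤ C * (1 - c * v) ^ k ∧
      ∀ S : Finset V, (∀ i ≤ k, x i ∈ S) →
        ∫ h, segProd G θ (mask S h) k x ∂P ≤ C * (1 - c * v ^ 2) ^ k

/-- Branch averages of slope products: means, product of the two sides, and tail of the sums. -/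
def StatAvgProp : Prop :=
  ∃ C c : ℝ, 0 < C ∧ 0 < c ∧ c ≤ 1 / 2 ∧ ∀ (v : ℝ) (ν : Measure ℝ) (P : Measure (V → ℝ)),
    VChan b c0 v ν → FieldLaw G θ b ν P → ∀ x y, G.Adj x y →
      (∀ i, ∫ h, avgProd G θ h i x y ∂P ≤ C * (1 - c * v) ^ i) ∧
      (∀ i j, ∫ h, avgProd G θ h i x y * avgProd G θ h j y x ∂P ≤ C * (1 - c * v) ^ (i + j)) ∧
      ∀ M : ℕ, 1 ≤ M → ∃ Bad : Set (V → ℝ), MeasurableSet Bad ∧
        P.real Bad ≤ C * Real.exp (-(c * (2 : ℝ) ^ (c * M / v))) ∧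
        ∀ h ∉ Bad, ∀ n : ℕ, ∑ i ∈ Finset.range n, avgProd G θ h i x y ≤ C * M / v

/-- Decorrelation of the averaged logarithmic slopes. -/
def StatPsiProp : Prop :=
  ∃ C : ℝ, 0 < C ∧ ∀ (v : ℝ) (ν : Measure ℝ) (P : Measure (V → ℝ)),
    VChan b c0 v ν → FieldLaw G θ b ν P → ∃ m0 : ℝ, ∀ x y, G.Adj x y → ∀ j : ℕ,
      ∫ h, (avgPsi G θ h j x y - m0) ^ 2 ∂P ≤ C * θ ^ (2 * j)

end Vale.Agent.P161.Crit
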