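import Vale.Agent.P161.Crit.BootPoint
import Vale.Agent.P161.Crit.StatStatement

/-!
Common facts for the two bootstrap estimates: uniqueness of the law of the fields, almost sure
regularity, invariance of expectations along segments, integrability.
-/

namespace Vale.Agent.P161.Crit

open MeasureTheory Finset SimpleGraph

variable {V : Type*} [DecidableEq V] {G : SimpleGraph V} [G.LocallyFinite]

/-- Two measures with the law of the model coincide. -/
theorem fieldLaw_unique (hG : G.IsTree) {θ b : ℝ} {ν : Measure ℝ} {P P' : Measure (V → ℝ)}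
    (h : FieldLaw G θ b ν P) (h' : FieldLaw G θ b ν P') : P = P' := by
  have hp := h.prob
  have hp' := h'.prob
  obtain ⟨o⟩ := hG.connected.nonempty
  refine IsProjectiveLimit.unique (P := fun I => P.map I.restrict) (fun I => rfl) fun I => ?_
  refine Measure.ext fun s hs => ?_
  rw [Measure.map_apply (Finset.measurable_restrict I) hs,
    Measure.map_apply (Finset.measurable_restrict I) hs]
  set A := (I.restrict : (V → ℝ) → I → ℝ) ⁻¹' s with hA
  have hAm : MeasurableSet A := Finset.measurable_restrict I hs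
  set n := I.sup fun v => G.dist o v
  have hsub : I ⊆ ballF G o n := fun v hv =>
    (mem_ballF hG o n v).2 (Finset.le_sup (f := fun v => G.dist o v) hv)
  have key : P'.real A = P.real A := by
    rw [← integral_indicator_one (μ := P) hAm, ← integral_indicator_one (μ := P') hAm]
    have hF : Measurable (A.indicator (1 : (V → ℝ) → ℝ)) := measurable_one.indicator hAm
    have hb1 : ∀ x, |A.indicator (1 : (V → ℝ) → ℝ) x| ≤ 1 := fun x => by
      by_cases hx : x ∈ A <;> simp [hx]
    have hloc : ∀ x x' : V → ℝ, (∀ v ∈ ballF G o n, x v = x' v) →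
        A.indicator (1 : (V → ℝ) → ℝ) x = A.indicator 1 x' := fun x x' hxx => by
      have e : I.restrict x = I.restrict x' := funext fun v => hxx v (hsub v.2)
      by_cases hx : x ∈ A
      · have hx' : x' ∈ A := by rw [hA, Set.mem_preimage, ← e]; exact hx
        simp [hx, hx']
      · have hx' : x' ∉ A := by rw [hA, Set.mem_preimage, ← e]; exact hx
        simp [hx, hx']
    rw [h.law _ (conn_ballF hG o n) _ hF hb1 hloc, h'.law _ (conn_ballF hG o n) _ hF hb1 hloc]
  exact (measureReal_eq_measureReal_iff (measure_ne_top _ _) (measure_ne_top _ _)).1 key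

namespace Boot

/-- A pair of configurations. -/
abbrev Pair (V : Type*) := (V → ℝ) × (V → ℝ)

/-- One of the two copies. -/
def cpy : Bool → Pair V → V → ℝ
  | false => Prod.fst
  | true => Prod.snd

/-- The action of an automorphism on pairs. -/
def act (e : G ≃g G) (hh : Pair V) : Pair V := (fun v => hh.1 (e v), fun v => hh.2 (e v))

/-- The assumptions on the graph and the constants. -/
structure Setup (G : SimpleGraph V) [G.LocallyFinite] (d : ℕ) (θ b : ℝ) : Prop where
  tree : G.IsTree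
  deg : 3 ≤ d
  reg : ∀ v, G.degree v = d
  nonneg : 0 ≤ θ
  crit : ((d : ℝ) - 1) * θ ^ 2 = 1
  b_nonneg : 0 ≤ b
  b_lt : b < 1

/-- Configurations at which the deterministic identities hold. -/
structure Reg (G : SimpleGraph V) [G.LocallyFinite] (θ b : ℝ) (h : V → ℝ) : Prop where
  supp : ∀ v, |h v| ≤ b
  conv : ConvAdj G θ h

/-- An invariant pair law, almost surely regular in both copies. -/
structure Ready (G : SimpleGraph V) [G.LocallyFinite] (θ b : ℝ) (ν : Measure ℝ)
    (P : Measure (Pair V)) : Prop where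
  pair : PairLaw G θ b ν P
  good : ∀ᵐ hh ∂P, ∀ c, Reg G θ b (cpy c hh)

variable {d : ℕ} {θ b c0 : ℝ}

omit [DecidableEq V] in
lemma Setup.theta_pos (S : Setup G d θ b) : 0 < θ := by
  rcases S.nonneg.lt_or_eq with h | h
  · exact h
  · exact absurd S.crit (by rw [← h]; norm_num)

omit [DecidableEq V] in
lemma Setup.theta_lt (S : Setup G d θ b) : θ < 1 := by
  have hd : (3 : ℝ) ≤ d := by exact_mod_cast S.deg
  by_contra h
  have h1 : 1 ≤ θ ^ 2 := one_le_pow₀ (not_lt.1 h)
  nlinarith [S.crit]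

omit [DecidableEq V] in
lemma Setup.bound_lt (S : Setup G d θ b) : magBound d θ b < 1 :=
  magBound_lt_one S.theta_lt S.b_lt

omit [DecidableEq V] in
lemma Setup.bound_nonneg (S : Setup G d θ b) : 0 ≤ magBound d θ b :=
  S.b_nonneg.trans (le_magBound S.nonneg S.theta_lt S.b_lt)

lemma measurable_cpy (c : Bool) : Measurable (cpy (V := V) c) := by
  cases c
  · exact measurable_fst
  · exact measurable_snd

lemma measurable_act (e : G ≃g G) : Measurable (act (V := V) e) :=
  ((measurable_pi_lambda _ fun v => (measurable_pi_apply (e v)).comp measurable_fst)).prodMk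
    (measurable_pi_lambda _ fun v => (measurable_pi_apply (e v)).comp measurable_snd)

omit [DecidableEq V] [G.LocallyFinite] in
lemma cpy_act (e : G ≃g G) (c : Bool) (hh : Pair V) :
    cpy c (act e hh) = fun v => cpy c hh (e v) := by cases c <;> rfl

variable {ν : Measure ℝ} {P : Measure (Pair V)}

lemma Ready.law (R : Ready G θ b ν P) (c : Bool) : FieldLaw G θ b ν (P.map (cpy c)) := by
  cases c
  · exact R.pair.fst
  · exact R.pair.snd

lemma Ready.prob (R : Ready G θ b ν P) : IsProbabilityMeasure P :=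
  @Measure.isProbabilityMeasure_of_map _ _ _ _ P _ R.pair.fst.prob

lemma ready_of {v : ℝ} (hconv : StatConvProp G θ b) (hν : VChan b c0 v ν)
    (hP : PairLaw G θ b ν P) : Ready G θ b ν P := by
  refine ⟨hP, ae_all_iff.2 fun c => ?_⟩
  have hlaw : FieldLaw G θ b ν (P.map (cpy c)) := by
    cases c
    · exact hP.fst
    · exact hP.snd
  have h1 := ae_of_ae_map (measurable_cpy c).aemeasurable hlaw.supp
  have h2 := ae_of_ae_map (measurable_cpy c).aemeasurable (hconv ν _ hν.chan hlaw).1
  filter_upwards [h1, h2] with hh a b using ⟨a, b.adj⟩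

section pointwise

variable {h : V → ℝ}

lemma Reg.lt_one (S : Setup G d θ b) (H : Reg G θ b h) (v : V) : |h v| < 1 :=
  lt_of_le_of_lt (H.supp v) S.b_lt

lemma Reg.msgI_le (S : Setup G d θ b) (H : Reg G θ b h) (x y : V) :
    |msgI G θ h x y| ≤ magBound d θ b :=
  abs_msgI_le (fun v => (S.reg v).le) S.nonneg S.theta_lt S.b_lt H.supp x y

lemma Reg.magI_le (S : Setup G d θ b) (H : Reg G θ b h) (x : V) :
    |magI G θ h x| ≤ magBound d θ b :=
  abs_magI_le (fun v => (S.reg v).le) S.nonneg S.theta_lt S.b_lt H.supp x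

lemma Reg.slp_mem (S : Setup G d θ b) (H : Reg G θ b h) (x y : V) :
    0 ≤ slp θ (msgI G θ h x y) ∧ slp θ (msgI G θ h x y) ≤ 1 :=
  ⟨slp_nonneg S.nonneg S.theta_lt ((H.msgI_le S x y).trans S.bound_lt.le),
    slp_le_one S.nonneg S.theta_lt ((H.msgI_le S x y).trans S.bound_lt.le)⟩

lemma Reg.segProd_mem (S : Setup G d θ b) (H : Reg G θ b h) (k : ℕ) (x : ℕ → V) :
    0 ≤ segProd G θ h k x ∧ segProd G θ h k x ≤ 1 :=
  Crit.segProd_mem S.nonneg S.theta_lt (H.lt_one S) k x

lemma Reg.segData (S : Setup G d θ b) (H : Reg G θ b h) {k : ℕ} {x : ℕ → V}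
    (hx : IsSeg G k x) :
    SegData θ (magBound d θ b) k (fun i => msgI G θ h (x i) (x (i + 1)))
      (fun i => msgI G θ h (x (i + 1)) (x i)) (fun i => magI G θ h (x i)) :=
  ⟨fun i _ => H.msgI_le S _ _, fun i _ => H.msgI_le S _ _,
    fun i hi => magI_edge S.nonneg S.theta_lt (H.lt_one S) H.conv (hx.1 i hi),
    fun i hi => magI_edge S.nonneg S.theta_lt (H.lt_one S) H.conv (hx.1 i hi).symm,
    fun i _ => H.magI_le S _⟩

lemma Reg.avgProd_mem (S : Setup G d θ b) (H : Reg G θ b h) : ∀ i x y,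
    0 ≤ avgProd G θ h i x y ∧ avgProd G θ h i x y ≤ 1 := by
  intro i
  induction i with
  | zero => exact fun x y => ⟨zero_le_one, le_rfl⟩
  | succ i ih =>
    intro x y
    have h1 := H.slp_mem S x y
    have h2 : (∑ c ∈ (G.neighborFinset x).erase y, avgProd G θ h i c x) /
        (((G.neighborFinset x).erase y).card : ℝ) ≤ 1 :=
      div_le_one_of_le₀ ((Finset.sum_le_card_nsmul _ _ 1 fun c _ => (ih c x).2).trans_eq (by simp))
        (Nat.cast_nonneg _)
    have h3 : 0 ≤ (∑ c ∈ (G.neighborFinset x).erase y, avgProd G θ h i c x) /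
        (((G.neighborFinset x).erase y).card : ℝ) :=
      div_nonneg (Finset.sum_nonneg fun c _ => (ih c x).1) (Nat.cast_nonneg _)
    exact ⟨mul_nonneg h1.1 h3, mul_le_one₀ h1.2 h3 h2⟩

lemma uDiff_le (S : Setup G d θ b) {hh : Pair V} (H : ∀ c, Reg G θ b (cpy c hh)) (x : V) :
    |uDiff G θ hh x| ≤ 2 := by
  have h1 : |magI G θ hh.1 x| ≤ _ := (H false).magI_le S x
  have h2 : |magI G θ hh.2 x| ≤ _ := (H true).magI_le S x
  have := S.bound_lt
  rw [uDiff, abs_le]
  rw [abs_le] at h1 h2
  constructor <;> linarith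

lemma uDiff_sq_le (S : Setup G d θ b) {hh : Pair V} (H : ∀ c, Reg G θ b (cpy c hh)) (x : V) :
    uDiff G θ hh x ^ 2 ≤ 4 := by
  rw [← sq_abs]
  nlinarith [uDiff_le S H x, abs_nonneg (uDiff G θ hh x)]

lemma term_le_five {p q u : ℝ} (p0 : 0 ≤ p) (p1 : p ≤ 1) (q0 : 0 ≤ q) (q1 : q ≤ 1)
    (hu : u ≤ 4) (hu0 : 0 ≤ u) : (q - p) ^ 2 + (p ^ 2 + q ^ 2) * u ≤ 5 * (q + p) := by
  have a1 : p ^ 2 ≤ p := by nlinarith
  have a2 : q ^ 2 ≤ q := by nlinarith
  have a3 := mul_le_mul (add_le_add a1 a2) hu hu0 (by linarith)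
  nlinarith [mul_nonneg p0 q0]

lemma dTerm_le (S : Setup G d θ b) {hh : Pair V} (H : ∀ c, Reg G θ b (cpy c hh)) (o w : V) :
    |dTerm G θ hh o w| ≤ 10 := by
  obtain ⟨p0, p1⟩ : 0 ≤ segProd G θ hh.1 (G.dist o w) (geod G o w) ∧
      segProd G θ hh.1 (G.dist o w) (geod G o w) ≤ 1 := (H false).segProd_mem S _ _
  obtain ⟨q0, q1⟩ : 0 ≤ segProd G θ hh.2 (G.dist o w) (geod G o w) ∧
      segProd G θ hh.2 (G.dist o w) (geod G o w) ≤ 1 := (H true).segProd_mem S _ _
  have h := term_le_five p0 p1 q0 q1 (uDiff_sq_le S H w) (sq_nonneg _)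
  have ht : 0 ≤ θ ^ (2 * G.dist o w) ∧ θ ^ (2 * G.dist o w) ≤ 1 :=
    ⟨pow_nonneg S.nonneg _, pow_le_one₀ S.nonneg S.theta_lt.le⟩
  rw [dTerm, abs_of_nonneg (mul_nonneg ht.1 (by positivity))]
  refine (mul_le_mul ht.2 h (by positivity) zero_le_one).trans ?_
  linarith

end pointwise

lemma measurable_uDiff (x : V) : Measurable fun hh : Pair V => uDiff G θ hh x :=
  ((measurable_magI x).comp measurable_snd).sub ((measurable_magI x).comp measurable_fst)

lemma measurable_dTerm (o w : V) : Measurable fun hh : Pair V => dTerm G θ hh o w := by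
  have h1 : Measurable fun hh : Pair V => segProd G θ hh.1 (G.dist o w) (geod G o w) :=
    (measurable_segProd _ _).comp measurable_fst
  have h2 : Measurable fun hh : Pair V => segProd G θ hh.2 (G.dist o w) (geod G o w) :=
    (measurable_segProd _ _).comp measurable_snd
  exact (((h2.sub h1).pow_const 2).add
    (((h1.pow_const 2).add (h2.pow_const 2)).mul ((measurable_uDiff w).pow_const 2))).const_mul _

/-- Bounded measurable functions of the pair are integrable. -/
lemma Ready.integrable (R : Ready G θ b ν P) {f : Pair V → ℝ} (hm : Measurable f) (B : ℝ)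
    (hB : ∀ hh, (∀ c, Reg G θ b (cpy c hh)) → |f hh| ≤ B) : Integrable f P := by
  have := R.prob
  exact Integrable.of_bound hm.aestronglyMeasurable B
    (R.good.mono fun hh h => by rw [Real.norm_eq_abs]; exact hB hh h)

lemma Ready.integral_mono (R : Ready G θ b ν P) {f g : Pair V → ℝ} (hf : Integrable f P)
    (hg : Integrable g P) (h : ∀ hh, (∀ c, Reg G θ b (cpy c hh)) → f hh ≤ g hh) :
    ∫ hh, f hh ∂P ≤ ∫ hh, g hh ∂P :=
  integral_mono_ae hf hg (R.good.mono h)

lemma Ready.integral_cpy (_R : Ready G θ b ν P) (c : Bool) {f : (V → ℝ) → ℝ} (hf : Measurable f) :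
    ∫ hh, f (cpy c hh) ∂P = ∫ h, f h ∂(P.map (cpy c)) :=
  (integral_map (measurable_cpy c).aemeasurable hf.aestronglyMeasurable).symm

/-- An equivariant function of a segment has the same expectation on all segments of that
length. -/
lemma integral_seg_eq (S : Setup G d θ b) (R : Ready G θ b ν P) (k : ℕ)
    (f : (ℕ → V) → Pair V → ℝ) (hm : ∀ x, Measurable (f x))
    (hloc : ∀ x y : ℕ → V, (∀ i ≤ k, x i = y i) → f x = f y)
    (hequi : ∀ (e : G ≃g G) x hh, f x (act e hh) = f (fun i => e (x i)) hh)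
    {x y : ℕ → V} (hx : IsSeg G k x) (hy : IsSeg G k y) :
    ∫ hh, f x hh ∂P = ∫ hh, f y hh ∂P := by
  obtain ⟨e, he⟩ := exists_aut_seg S.tree S.reg hx hy
  rw [← hloc _ _ he]
  have hmp : MeasurePreserving (act e) P P := R.pair.inv e
  calc ∫ hh, f x hh ∂P = ∫ hh, f x hh ∂(P.map (act e)) := by rw [hmp.map_eq]
    _ = ∫ hh, f x (act e hh) ∂P :=
        integral_map (measurable_act e).aemeasurable (hm x).aestronglyMeasurable
    _ = _ := by simp_rw [hequi]

lemma uDiff_act (e : G ≃g G) (hh : Pair V) (x : V) :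
    uDiff G θ (act e hh) x = uDiff G θ hh (e x) := by
  simp [uDiff, act, magI_image]

lemma slp_msgI_act (e : G ≃g G) (c : Bool) (hh : Pair V) (x y : V) :
    slp θ (msgI G θ (cpy c (act e hh)) x y) = slp θ (msgI G θ (cpy c hh) (e x) (e y)) := by
  rw [cpy_act, msgI_image]

/-- The expected squared difference is the same at every vertex. -/
theorem integral_uDiff_sq_eq (S : Setup G d θ b) (R : Ready G θ b ν P) (x y : V) :
    ∫ hh, uDiff G θ hh x ^ 2 ∂P = ∫ hh, uDiff G θ hh y ^ 2 ∂P := by
  have := integral_seg_eq S R 0 (fun s hh => uDiff G θ hh (s 0) ^ 2)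
    (fun s => (measurable_uDiff (s 0)).pow_const 2)
    (fun s t h => funext fun hh => by rw [h 0 le_rfl])
    (fun e s hh => by simp only [uDiff_act])
    (isSeg_zero fun _ => x) (isSeg_zero fun _ => y)
  exact this

end Boot

end Vale.Agent.P161.Crit
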