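import Vale.Agent.P161.Crit.BootBase

/-!
The crude estimate for the rate of growth of the squared difference of the two copies.
-/

namespace Vale.Agent.P161.Crit

open MeasureTheory Finset SimpleGraph

namespace Boot

/-- A number below three others is below a weighted geometric mean of them. -/
lemma le_geom_mean {m e a b : ℝ} (hm : 0 ≤ m) (he : m ≤ e) (ha : m ≤ a) (hb : m ≤ b) :
    m ≤ e ^ (1 / 2 : ℝ) * (a ^ (1 / 4 : ℝ) * b ^ (1 / 4 : ℝ)) := by
  rcases hm.eq_or_lt with h | h
  · rw [← h] at he ha hb ⊢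
    positivity
  have he0 : 0 < e := h.trans_le he
  have ha0 : 0 < a := h.trans_le ha
  have hb0 : 0 < b := h.trans_le hb
  calc m = m ^ (1 / 2 : ℝ) * (m ^ (1 / 4 : ℝ) * m ^ (1 / 4 : ℝ)) := by
        rw [← Real.rpow_add h, ← Real.rpow_add h]; norm_num
    _ ≤ _ := by gcongr

/-- The geometric sum with the fourth root of the ratio. -/
lemma sum_rpow_quarter_le {s : ℝ} (hs : 0 < s) (hs1 : s ≤ 1) {C : ℝ} (hC : 0 ≤ C) (K : ℕ) :
    ∑ i ∈ range K, (C * (1 - s) ^ i) ^ (1 / 4 : ℝ) ≤ C ^ (1 / 4 : ℝ) * (4 / s) := by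
  have h1 : ∀ i : ℕ,
      (C * (1 - s) ^ i) ^ (1 / 4 : ℝ) ≤ C ^ (1 / 4 : ℝ) * (1 - s / 4) ^ i := fun i => by
    rw [Real.mul_rpow hC (pow_nonneg (by linarith) i)]
    refine mul_le_mul_of_nonneg_left ?_ (Real.rpow_nonneg hC _)
    rw [← Real.rpow_natCast_mul (by linarith : (0 : ℝ) ≤ 1 - s), mul_comm,
      Real.rpow_mul_natCast (by linarith : (0 : ℝ) ≤ 1 - s)]
    refine pow_le_pow_left₀ (Real.rpow_nonneg (by linarith) _) ?_ i
    have := rpow_one_add_le_one_add_mul_self (s := -s) (by linarith)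
      (p := 1 / 4) (by norm_num) (by norm_num)
    rw [← sub_eq_add_neg] at this
    linarith
  refine (Finset.sum_le_sum fun i _ => h1 i).trans ?_
  rw [← Finset.mul_sum]
  refine mul_le_mul_of_nonneg_left ?_ (Real.rpow_nonneg hC _)
  rw [Finset.range_eq_Ico]
  refine (geom_sum_Ico_le_of_lt_one (by linarith) (by linarith)).trans (le_of_eq ?_)
  rw [pow_zero, sub_sub_cancel, one_div, inv_div]

variable {V : Type*} [DecidableEq V] {G : SimpleGraph V} [G.LocallyFinite] {d : ℕ}
  {θ b c0 v : ℝ} {ν : Measure ℝ} {P : Measure (Pair V)}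

/-- A product over descendants may be replaced by any single segment. -/
lemma integral_mul_avgProd (S : Setup G d θ b) (R : Ready G θ b ν P) (c : Bool) {T : ℝ} :
    ∀ (i : ℕ) (g : Pair V → ℝ) (B : ℝ), Measurable g →
      (∀ hh, (∀ c, Reg G θ b (cpy c hh)) → |g hh| ≤ B) → ∀ (x y : V), G.Adj x y →
      (∀ s, IsSeg G i s → s i = y → (1 ≤ i → s (i - 1) = x) →
        ∫ hh, g hh * segProd G θ (cpy c hh) i s ∂P = T) →
      ∫ hh, g hh * avgProd G θ (cpy c hh) i x y ∂P = T := by
  intro i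
  induction i with
  | zero =>
    intro g B _ _ x y _ h
    have := h (fun _ => y) (isSeg_zero _) rfl (by omega)
    simpa [segProd, avgProd] using this
  | succ i ih =>
    intro g B hgm hgb x y hxy h
    set s := (G.neighborFinset x).erase y with hs
    set g' := fun hh => g hh * slp θ (msgI G θ (cpy c hh) x y) with hg'
    have hg'm : Measurable g' :=
      hgm.mul (measurable_slp ((measurable_msgI x y).comp (measurable_cpy c)))
    have hg'b : ∀ hh, (∀ c, Reg G θ b (cpy c hh)) → |g' hh| ≤ B := fun hh H => by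
      obtain ⟨p0, p1⟩ := (H c).slp_mem S x y
      rw [hg', abs_mul, abs_of_nonneg p0]
      exact (mul_le_of_le_one_right (abs_nonneg _) p1).trans (hgb hh H)
    have hint : ∀ z ∈ s, Integrable (fun hh => g' hh * avgProd G θ (cpy c hh) i z x) P :=
      fun z _ => R.integrable (hg'm.mul ((measurable_avgProd i z x).comp (measurable_cpy c)))
        (B * 1) fun hh H => by
          obtain ⟨p0, p1⟩ := (H c).avgProd_mem S i z x
          rw [abs_mul, abs_of_nonneg p0]
          exact mul_le_mul (hg'b hh H) p1 p0 ((abs_nonneg _).trans (hg'b hh H))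
    have e : ∀ hh, g hh * avgProd G θ (cpy c hh) (i + 1) x y =
        (∑ z ∈ s, g' hh * avgProd G θ (cpy c hh) i z x) / (s.card : ℝ) := fun hh => by
      simp only [avgProd, hg', ← Finset.mul_sum, ← hs]
      ring
    simp_rw [e]
    have hcard : (s.card : ℝ) ≠ 0 := by
      have h1 : s.card = d - 1 := by
        rw [hs, Finset.card_erase_of_mem (by rwa [mem_neighborFinset]),
          card_neighborFinset_eq_degree, S.reg]
      have := S.deg
      rw [h1]; exact Nat.cast_ne_zero.2 (by omega)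
    rw [integral_div, integral_finsetSum _ hint,
      Finset.sum_congr rfl fun z hz => ih g' B hg'm hg'b z x ?_ ?_, Finset.sum_const, nsmul_eq_mul,
      mul_div_cancel_left₀ _ hcard]
    · have := (Finset.mem_erase.1 hz).2
      rw [mem_neighborFinset] at this
      exact this.symm
    · intro t ht hti htz
      have hzy := (Finset.mem_erase.1 hz).1
      have := h (ssnoc i t y)
        (isSeg_ssnoc S.tree ht (hti ▸ hxy) fun h1 he => hzy (by rw [← htz h1]; exact he.symm))
        (by simp [ssnoc]) (fun _ => by simp [ssnoc, hti])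
      rw [← this]
      refine integral_congr_ae (Filter.Eventually.of_forall fun hh => ?_)
      simp only [hg', segProd]
      rw [Finset.prod_range_succ]
      rw [show ssnoc i t y (i + 1) = y by simp [ssnoc], show ssnoc i t y i = x by simp [ssnoc, hti],
        Finset.prod_congr rfl fun a ha => show slp θ (msgI G θ (cpy c hh) (ssnoc i t y a)
          (ssnoc i t y (a + 1))) = slp θ (msgI G θ (cpy c hh) (t a) (t (a + 1))) by
            have := Finset.mem_range.1 ha
            rw [ssnoc, ssnoc, if_pos (by omega), if_pos (by omega)]]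
      ring

/-- The product along a segment against the products pointing at one of its vertices. -/
lemma segProd_le_split (S : Setup G d θ b) {h : V → ℝ} (H : Reg G θ b h) {k : ℕ} {x : ℕ → V}
    (hx : IsSeg G k x) {i : ℕ} (hi : i ≤ k) :
    segProd G θ h k x ≤ 1 / (1 - magBound d θ b ^ 2) *
      (segProd G θ h i x * segProd G θ h (k - i) fun m => x (k - m)) := by
  obtain ⟨j, rfl⟩ := Nat.exists_eq_add_of_le hi
  have hsub := hx.sub (i := i) (l := j) le_rfl
  have h1 : (∏ m ∈ range j, slp θ (msgI G θ h (x (i + m)) (x (i + (m + 1))))) ≤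
      1 / (1 - magBound d θ b ^ 2) *
        ∏ m ∈ range j, slp θ (msgI G θ h (x (i + (m + 1))) (x (i + m))) :=
    prod_le_rev S.nonneg S.theta_lt S.bound_lt (H.segData S hsub)
  rw [Nat.add_sub_cancel_left]
  have e2 : segProd G θ h j (fun m => x (i + j - m)) =
      ∏ m ∈ range j, slp θ (msgI G θ h (x (i + (m + 1))) (x (i + m))) := by
    rw [segProd, ← Finset.prod_range_reflect]
    refine Finset.prod_congr rfl fun m hm => ?_
    have := Finset.mem_range.1 hm
    show slp θ (msgI G θ h (x (i + j - (j - 1 - m))) (x (i + j - (j - 1 - m + 1)))) = _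
    rw [show i + j - (j - 1 - m) = i + (m + 1) by omega,
      show i + j - (j - 1 - m + 1) = i + m by omega]
  rw [e2, mul_left_comm]
  rw [segProd, Finset.prod_range_add]
  refine mul_le_mul_of_nonneg_left ?_ (H.segProd_mem S i x).1
  simpa only [add_assoc] using h1

/-- The squared difference at an inner vertex of a segment, moved to a fixed vertex. -/
lemma integral_split_eq (S : Setup G d θ b) (R : Ready G θ b ν P) (c : Bool) {o y1 y2 : V}
    (h1 : G.Adj y1 o) (h2 : G.Adj y2 o) (hne : y1 ≠ y2) {i j : ℕ} {x : ℕ → V}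
    (hx : IsSeg G (i + j) x) :
    ∫ hh, uDiff G θ hh (x i) ^ 2 * segProd G θ (cpy c hh) i x *
        segProd G θ (cpy c hh) j (fun m => x (i + j - m)) ∂P =
      ∫ hh, uDiff G θ hh o ^ 2 * avgProd G θ (cpy c hh) j y2 o *
        avgProd G θ (cpy c hh) i y1 o ∂P := by
  set f : (ℕ → V) → Pair V → ℝ := fun s hh => uDiff G θ hh (s i) ^ 2 *
    segProd G θ (cpy c hh) i s * segProd G θ (cpy c hh) j (fun m => s (i + j - m)) with hf
  have hfm : ∀ s, Measurable (f s) := fun s =>
    (((measurable_uDiff _).pow_const 2).mul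
      ((measurable_segProd i s).comp (measurable_cpy c))).mul
      ((measurable_segProd j _).comp (measurable_cpy c))
  have hloc : ∀ s t : ℕ → V, (∀ m ≤ i + j, s m = t m) → f s = f t := fun s t h => by
    funext hh
    simp only [hf, segProd]
    rw [h i (by omega),
      Finset.prod_congr rfl fun m hm => by
        rw [h m (by have := Finset.mem_range.1 hm; omega),
          h (m + 1) (by have := Finset.mem_range.1 hm; omega)],
      Finset.prod_congr (s₁ := range j) rfl fun m hm => by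
        rw [h (i + j - m) (by omega), h (i + j - (m + 1)) (by omega)]]
  have hequi : ∀ (e : G ≃g G) s hh, f s (act e hh) = f (fun m => e (s m)) hh := fun e s hh => by
    simp only [hf, uDiff_act, cpy_act, segProd_image]
  have mu : Measurable fun hh : Pair V => uDiff G θ hh o ^ 2 := (measurable_uDiff o).pow_const 2
  have hu : ∀ hh, (∀ c, Reg G θ b (cpy c hh)) → |uDiff G θ hh o ^ 2| ≤ 4 := fun hh H => by
    rw [abs_pow, sq_abs]; exact uDiff_sq_le S H o
  refine (integral_mul_avgProd S R c i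
    (fun hh => uDiff G θ hh o ^ 2 * avgProd G θ (cpy c hh) j y2 o) 4
    (mu.mul ((measurable_avgProd j y2 o).comp (measurable_cpy c))) (fun hh H => ?_) y1 o h1
    fun s hs hso hsy => ?_).symm
  · obtain ⟨p0, p1⟩ := (H c).avgProd_mem S j y2 o
    rw [abs_mul, abs_of_nonneg p0]
    exact (mul_le_of_le_one_right (abs_nonneg _) p1).trans (hu hh H)
  have hint : ∫ hh, uDiff G θ hh o ^ 2 * segProd G θ (cpy c hh) i s *
      avgProd G θ (cpy c hh) j y2 o ∂P = ∫ hh, f x hh ∂P := by
    refine integral_mul_avgProd S R c j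
      (fun hh => uDiff G θ hh o ^ 2 * segProd G θ (cpy c hh) i s) 4
      (mu.mul ((measurable_segProd i s).comp (measurable_cpy c))) (fun hh H => ?_) y2 o h2
      fun t ht hto hty => ?_
    · obtain ⟨p0, p1⟩ := (H c).segProd_mem S i s
      rw [abs_mul, abs_of_nonneg p0]
      exact (mul_le_of_le_one_right (abs_nonneg _) p1).trans (hu hh H)
    have hg := isSeg_glue S.tree hs ht (hso.trans hto.symm)
      fun a b => by rw [hsy a, hty b]; exact hne
    rw [← integral_seg_eq S R (i + j) f hfm hloc hequi hg hx]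
    refine integral_congr_ae (Filter.Eventually.of_forall fun hh => ?_)
    have e1 : segProd G θ (cpy c hh) i (glue i j s t) = segProd G θ (cpy c hh) i s :=
      Finset.prod_congr rfl fun m hm => by
        have := Finset.mem_range.1 hm
        rw [glue_left (by omega), glue_left (by omega)]
    have e2 : segProd G θ (cpy c hh) j (fun m => glue i j s t (i + j - m)) =
        segProd G θ (cpy c hh) j t :=
      Finset.prod_congr rfl fun m hm => by
        have := Finset.mem_range.1 hm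
        show slp θ (msgI G θ (cpy c hh) (glue i j s t (i + j - m))
          (glue i j s t (i + j - (m + 1)))) = _
        rw [show i + j - m = i + (j - m) by omega, glue_right (hso.trans hto.symm) (by omega),
          show i + j - (m + 1) = i + (j - (m + 1)) by omega,
          glue_right (hso.trans hto.symm) (by omega), show j - (j - m) = m by omega,
          show j - (j - (m + 1)) = m + 1 by omega]
    simp only [hf]
    rw [glue_left le_rfl, hso, e1, e2]
  rw [← hint]
  refine integral_congr_ae (Filter.Eventually.of_forall fun hh => ?_)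
  ring

/-- The squared difference at `o` weighted by the two branch sums. -/
noncomputable def sideTerm (G : SimpleGraph V) [G.LocallyFinite] (θ : ℝ) (c : Bool)
    (o y1 y2 : V) (i j : ℕ) (hh : Pair V) : ℝ :=
  uDiff G θ hh o ^ 2 * avgProd G θ (cpy c hh) j y2 o * avgProd G θ (cpy c hh) i y1 o

lemma integrable_sideTerm (S : Setup G d θ b) (R : Ready G θ b ν P) (c : Bool) (o y1 y2 : V)
    (i j : ℕ) : Integrable (sideTerm G θ c o y1 y2 i j) P := by
  refine R.integrable ((((measurable_uDiff o).pow_const 2).mul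
    ((measurable_avgProd j y2 o).comp (measurable_cpy c))).mul
    ((measurable_avgProd i y1 o).comp (measurable_cpy c))) 4 fun hh H => ?_
  obtain ⟨p0, p1⟩ := (H c).avgProd_mem S j y2 o
  obtain ⟨q0, q1⟩ := (H c).avgProd_mem S i y1 o
  rw [sideTerm, abs_mul, abs_mul, abs_of_nonneg p0, abs_of_nonneg q0, abs_pow, sq_abs]
  exact (mul_le_of_le_one_right (mul_nonneg (sq_nonneg _) p0) q1).trans
    ((mul_le_of_le_one_right (sq_nonneg _) p1).trans (uDiff_sq_le S H o))

/-- One vertex of the crude estimate. -/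
lemma integral_dTerm_crude (S : Setup G d θ b) (R : Ready G θ b ν P) {o y1 y2 : V}
    (h1 : G.Adj y1 o) (h2 : G.Adj y2 o) (hne : y1 ≠ y2) (w : V) :
    ∫ hh, dTerm G θ hh o w ∂P ≤ θ ^ (2 * G.dist o w) *
      ((crudeC θ (magBound d θ b) + 1) * (1 / (1 - magBound d θ b ^ 2)) *
        ∑ i ∈ range (G.dist o w + 1),
          (∫ hh, sideTerm G θ false o y1 y2 i (G.dist o w - i) hh ∂P +
            ∫ hh, sideTerm G θ true o y1 y2 i (G.dist o w - i) hh ∂P)) := by
  have := R.prob
  set k := G.dist o w with hk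
  obtain ⟨hx, -, hxk⟩ := geod_spec S.tree o w
  rw [← hk] at hx hxk
  set x := geod G o w with hxdef
  set Cr := 1 / (1 - magBound d θ b ^ 2) with hCr
  set K := crudeC θ (magBound d θ b) + 1 with hK
  have hθk : 0 ≤ θ ^ (2 * k) := pow_nonneg S.nonneg _
  have hR2 : 0 < 1 - magBound d θ b ^ 2 := by nlinarith [S.bound_lt, S.bound_nonneg]
  have hK0 : 0 ≤ crudeC θ (magBound d θ b) := by
    have : 0 < 1 - θ ^ 2 := by nlinarith [S.theta_lt, S.nonneg]
    unfold crudeC; positivity
  set T : Bool → ℕ → Pair V → ℝ := fun c i hh => uDiff G θ hh (x i) ^ 2 *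
    segProd G θ (cpy c hh) i x * segProd G θ (cpy c hh) (k - i) (fun m => x (k - m)) with hT
  have hTi : ∀ c i, Integrable (T c i) P := fun c i => by
    refine R.integrable ((((measurable_uDiff _).pow_const 2).mul
      ((measurable_segProd i x).comp (measurable_cpy c))).mul
      ((measurable_segProd _ _).comp (measurable_cpy c))) 4 fun hh H => ?_
    obtain ⟨p0, p1⟩ := (H c).segProd_mem S i x
    obtain ⟨q0, q1⟩ := (H c).segProd_mem S (k - i) fun m => x (k - m)
    rw [hT, abs_mul, abs_mul, abs_of_nonneg p0, abs_of_nonneg q0, abs_pow, sq_abs]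
    exact (mul_le_of_le_one_right (mul_nonneg (sq_nonneg _) p0) q1).trans
      ((mul_le_of_le_one_right (sq_nonneg _) p1).trans (uDiff_sq_le S H _))
  have hsi : Integrable (fun hh => ∑ i ∈ range (k + 1), (T false i hh + T true i hh)) P :=
    integrable_finsetSum _ fun i _ => (hTi false i).add (hTi true i)
  refine (R.integral_mono (R.integrable (measurable_dTerm o w) 10 fun hh H => dTerm_le S H o w)
    (hsi.const_mul (θ ^ (2 * k) * (K * Cr))) fun hh H => ?_).trans (le_of_eq ?_)
  · set p := segProd G θ hh.1 k x with hp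
    set q := segProd G θ hh.2 k x with hq
    set U := ∑ i ∈ range (k + 1), uDiff G θ hh (x i) ^ 2 with hU
    have hd : (q - p) ^ 2 ≤ crudeC θ (magBound d θ b) * (p + q) * U :=
      prod_diff_crude S.nonneg S.theta_lt S.bound_lt ((H false).segData S hx)
        ((H true).segData S hx)
    obtain ⟨p0, p1⟩ : 0 ≤ p ∧ p ≤ 1 := (H false).segProd_mem S k x
    obtain ⟨q0, q1⟩ : 0 ≤ q ∧ q ≤ 1 := (H true).segProd_mem S k x
    have hw : uDiff G θ hh w ^ 2 ≤ U := by
      rw [hU, ← hxk]
      exact Finset.single_le_sum (f := fun i => uDiff G θ hh (x i) ^ 2)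
        (fun i _ => sq_nonneg _) (Finset.self_mem_range_succ k)
    have h2' : (p ^ 2 + q ^ 2) * uDiff G θ hh w ^ 2 ≤ (p + q) * U :=
      mul_le_mul (add_le_add (pow_le_of_le_one p0 p1 two_ne_zero)
        (pow_le_of_le_one q0 q1 two_ne_zero)) hw (sq_nonneg _) (by linarith)
    have hsplit : (p + q) * U ≤ Cr * ∑ i ∈ range (k + 1), (T false i hh + T true i hh) := by
      rw [hU, Finset.mul_sum, Finset.mul_sum]
      refine Finset.sum_le_sum fun i hi => ?_
      have hik : i ≤ k := Nat.le_of_lt_succ (Finset.mem_range.1 hi)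
      have a : p ≤ Cr * (segProd G θ hh.1 i x * segProd G θ hh.1 (k - i) fun m => x (k - m)) :=
        segProd_le_split S (H false) hx hik
      have b : q ≤ Cr * (segProd G θ hh.2 i x * segProd G θ hh.2 (k - i) fun m => x (k - m)) :=
        segProd_le_split S (H true) hx hik
      refine (mul_le_mul_of_nonneg_right (add_le_add a b) (sq_nonneg _)).trans (le_of_eq ?_)
      simp only [hT, cpy]
      ring
    show θ ^ (2 * k) * ((q - p) ^ 2 + (p ^ 2 + q ^ 2) * uDiff G θ hh w ^ 2) ≤ _
    rw [mul_assoc (θ ^ (2 * k))]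
    refine mul_le_mul_of_nonneg_left ?_ hθk
    calc (q - p) ^ 2 + (p ^ 2 + q ^ 2) * uDiff G θ hh w ^ 2 ≤ K * ((p + q) * U) := by
          rw [hK]; linarith
      _ ≤ K * (Cr * ∑ i ∈ range (k + 1), (T false i hh + T true i hh)) :=
          mul_le_mul_of_nonneg_left hsplit (by positivity)
      _ = _ := by ring
  · have hTs : ∀ i ∈ range (k + 1), Integrable (fun hh => T false i hh + T true i hh) P :=
      fun i _ => (hTi false i).add (hTi true i)
    rw [integral_const_mul, integral_finsetSum _ hTs, mul_assoc]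
    congr 2
    refine Finset.sum_congr rfl fun i hi => ?_
    have hik : i ≤ k := Nat.le_of_lt_succ (Finset.mem_range.1 hi)
    rw [integral_add (hTi false i) (hTi true i)]
    obtain ⟨j, hj⟩ := Nat.exists_eq_add_of_le hik
    have key : ∀ c, ∫ hh, T c i hh ∂P = ∫ hh, sideTerm G θ c o y1 y2 i (k - i) hh ∂P := fun c => by
      simp only [hT, sideTerm]
      rw [show k - i = j by omega, hj]
      exact integral_split_eq S R c h1 h2 hne (hj ▸ hx)
    rw [key, key]

/-- The crude estimate for one copy. -/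
lemma integral_sides_le (S : Setup G d θ b) (R : Ready G θ b ν P) (hν : VChan b c0 v ν) {C q : ℝ}
    (hC : 0 ≤ C) (hq : 0 < q) (hq1 : q ≤ 1 / 2)
    (havg : ∀ (v : ℝ) (ν : Measure ℝ) (P : Measure (V → ℝ)),
      VChan b c0 v ν → FieldLaw G θ b ν P → ∀ x y, G.Adj x y →
        (∀ i, ∫ h, avgProd G θ h i x y ∂P ≤ C * (1 - q * v) ^ i) ∧
        (∀ i j, ∫ h, avgProd G θ h i x y * avgProd G θ h j y x ∂P ≤ C * (1 - q * v) ^ (i + j)) ∧
        ∀ M : ℕ, 1 ≤ M → ∃ Bad : Set (V → ℝ), MeasurableSet Bad ∧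
          P.real Bad ≤ C * Real.exp (-(q * (2 : ℝ) ^ (q * M / v))) ∧
          ∀ h ∉ Bad, ∀ n : ℕ, ∑ i ∈ Finset.range n, avgProd G θ h i x y ≤ C * M / v)
    (c : Bool) {o y1 y2 : V} (h1 : G.Adj y1 o) (h2 : G.Adj y2 o) (K : ℕ) (M : ℕ) (hM : 1 ≤ M) :
    ∑ i ∈ range K, ∑ j ∈ range K, ∫ hh, sideTerm G θ c o y1 y2 i j hh ∂P ≤
      C ^ 2 * ((M : ℝ) ^ 2 / v ^ 2) * ∫ hh, uDiff G θ hh o ^ 2 ∂P +
        4 * ((2 * C) ^ (1 / 2 : ℝ) * (C ^ (1 / 4 : ℝ) * C ^ (1 / 4 : ℝ)) * (16 / q ^ 2)) / v ^ 2 *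
          Real.exp (-(q / 2 * (2 : ℝ) ^ (q * M / v))) := by
  have := R.prob
  have hv := hν.pos
  have hqv : 0 ≤ 1 - q * v := by
    linarith [mul_le_mul_of_nonneg_left hν.le_one hq.le]
  obtain ⟨hA, -, hBad1⟩ := havg v ν _ hν (R.law c) y1 o h1
  obtain ⟨hB, -, hBad2⟩ := havg v ν _ hν (R.law c) y2 o h2
  obtain ⟨Bad1, hm1, hp1, hb1⟩ := hBad1 M hM
  obtain ⟨Bad2, hm2, hp2, hb2⟩ := hBad2 M hM
  set Bad := Bad1 ∪ Bad2 with hBad
  set Q := fun hh : Pair V => Bad.indicator (1 : (V → ℝ) → ℝ) (cpy c hh) with hQ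
  have hBm : MeasurableSet Bad := hm1.union hm2
  have hQm : Measurable Q := (measurable_one.indicator hBm).comp (measurable_cpy c)
  have hQ01 : ∀ hh, 0 ≤ Q hh ∧ Q hh ≤ 1 := fun hh => by
    by_cases h : cpy c hh ∈ Bad <;> simp [hQ, h]
  set A := fun (i : ℕ) (hh : Pair V) => avgProd G θ (cpy c hh) i y1 o with hAdef
  set B := fun (i : ℕ) (hh : Pair V) => avgProd G θ (cpy c hh) i y2 o with hBdef
  have mA : ∀ i, Measurable (A i) := fun i => (measurable_avgProd i y1 o).comp (measurable_cpy c)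
  have mB : ∀ i, Measurable (B i) := fun i => (measurable_avgProd i y2 o).comp (measurable_cpy c)
  have iQAB : ∀ i j, Integrable (fun hh => Q hh * A i hh * B j hh) P := fun i j =>
    R.integrable ((hQm.mul (mA i)).mul (mB j)) 1 fun hh H => by
      obtain ⟨p0, p1⟩ := (H c).avgProd_mem S i y1 o
      obtain ⟨q0, q1⟩ := (H c).avgProd_mem S j y2 o
      obtain ⟨r0, r1⟩ := hQ01 hh
      simp only [hAdef, hBdef]
      rw [abs_of_nonneg (by positivity)]
      exact mul_le_one₀ (mul_le_one₀ r1 p0 p1) q0 q1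
  have hbad : ∀ i j, ∫ hh, Q hh * A i hh * B j hh ∂P ≤
      (2 * C * Real.exp (-(q * (2 : ℝ) ^ (q * M / v)))) ^ (1 / 2 : ℝ) *
        ((C * (1 - q * v) ^ i) ^ (1 / 4 : ℝ) * (C * (1 - q * v) ^ j) ^ (1 / 4 : ℝ)) := by
    intro i j
    refine le_geom_mean (integral_nonneg_of_ae (R.good.mono fun hh H => ?_)) ?_ ?_ ?_
    · have := ((H c).avgProd_mem S i y1 o).1
      have := ((H c).avgProd_mem S j y2 o).1
      have := (hQ01 hh).1
      simp only [hAdef, hBdef, Pi.zero_apply]
      positivity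
    · refine (R.integral_mono (iQAB i j) (R.integrable hQm 1 fun hh _ => by
        obtain ⟨r0, r1⟩ := hQ01 hh; rw [abs_of_nonneg r0]; exact r1) fun hh H => ?_).trans ?_
      · obtain ⟨p0, p1⟩ := (H c).avgProd_mem S i y1 o
        obtain ⟨q0, q1⟩ := (H c).avgProd_mem S j y2 o
        simp only [hAdef, hBdef]
        rw [mul_assoc]
        exact mul_le_of_le_one_right (hQ01 hh).1 (mul_le_one₀ p1 q0 q1)
      · rw [R.integral_cpy c (measurable_one.indicator hBm), integral_indicator_one hBm]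
        refine (measureReal_union_le Bad1 Bad2).trans ?_
        linarith
    · refine (R.integral_mono (iQAB i j) (R.integrable (mA i) 1 fun hh H => ?_)
        fun hh H => ?_).trans ?_
      · obtain ⟨p0, p1⟩ := (H c).avgProd_mem S i y1 o
        simp only [hAdef]; rw [abs_of_nonneg p0]; exact p1
      · obtain ⟨p0, p1⟩ := (H c).avgProd_mem S i y1 o
        obtain ⟨q0, q1⟩ := (H c).avgProd_mem S j y2 o
        obtain ⟨r0, r1⟩ := hQ01 hh
        simp only [hAdef, hBdef]
        exact (mul_le_of_le_one_right (mul_nonneg r0 p0) q1).trans (mul_le_of_le_one_left p0 r1)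
      · rw [hAdef]
        exact (R.integral_cpy c (measurable_avgProd i y1 o)).trans_le (hA i)
    · refine (R.integral_mono (iQAB i j) (R.integrable (mB j) 1 fun hh H => ?_)
        fun hh H => ?_).trans ?_
      · obtain ⟨p0, p1⟩ := (H c).avgProd_mem S j y2 o
        simp only [hBdef]; rw [abs_of_nonneg p0]; exact p1
      · obtain ⟨p0, p1⟩ := (H c).avgProd_mem S i y1 o
        obtain ⟨q0, q1⟩ := (H c).avgProd_mem S j y2 o
        obtain ⟨r0, r1⟩ := hQ01 hh
        simp only [hAdef, hBdef]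
        exact mul_le_of_le_one_left q0 (mul_le_one₀ r1 p0 p1)
      · rw [hBdef]
        exact (R.integral_cpy c (measurable_avgProd j y2 o)).trans_le (hB j)
  -- split according to the bad event
  have hs : ∀ i j, Integrable (sideTerm G θ c o y1 y2 i j) P := fun i j =>
    integrable_sideTerm S R c o y1 y2 i j
  rw [Finset.sum_congr rfl fun i _ => (integral_finsetSum _ fun j _ => hs i j).symm,
    ← integral_finsetSum _ fun i _ => integrable_finsetSum _ fun j _ => hs i j]
  have iu : Integrable (fun hh => uDiff G θ hh o ^ 2) P :=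
    R.integrable ((measurable_uDiff o).pow_const 2) 4 fun hh H => by
      rw [abs_pow, sq_abs]; exact uDiff_sq_le S H o
  have iQQ : Integrable (fun hh => ∑ i ∈ range K, ∑ j ∈ range K, Q hh * A i hh * B j hh) P :=
    integrable_finsetSum _ fun i _ => integrable_finsetSum _ fun j _ => iQAB i j
  refine (R.integral_mono (integrable_finsetSum _ fun i _ => integrable_finsetSum _ fun j _ =>
    hs i j) ((iu.const_mul ((C * M / v) ^ 2)).add (iQQ.const_mul 4)) fun hh H => ?_).trans ?_
  · show ∑ i ∈ range K, ∑ j ∈ range K, sideTerm G θ c o y1 y2 i j hh ≤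
      (C * M / v) ^ 2 * uDiff G θ hh o ^ 2 +
        4 * ∑ i ∈ range K, ∑ j ∈ range K, Q hh * A i hh * B j hh
    set X := ∑ i ∈ range K, A i hh with hX
    set Y := ∑ j ∈ range K, B j hh with hY
    have e1 : ∑ i ∈ range K, ∑ j ∈ range K, sideTerm G θ c o y1 y2 i j hh =
        uDiff G θ hh o ^ 2 * (X * Y) := by
      rw [hX, hY, Finset.sum_mul_sum, Finset.mul_sum]
      refine Finset.sum_congr rfl fun i _ => ?_
      rw [Finset.mul_sum]
      refine Finset.sum_congr rfl fun j _ => ?_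
      simp only [sideTerm, hAdef, hBdef]
      ring
    have e2 : ∑ i ∈ range K, ∑ j ∈ range K, Q hh * A i hh * B j hh = Q hh * (X * Y) := by
      rw [hX, hY, Finset.sum_mul_sum, Finset.mul_sum]
      refine Finset.sum_congr rfl fun i _ => ?_
      rw [Finset.mul_sum]
      exact Finset.sum_congr rfl fun j _ => mul_assoc _ _ _
    rw [e1, e2]
    have hX0 : 0 ≤ X := Finset.sum_nonneg fun i _ => ((H c).avgProd_mem S i y1 o).1
    have hY0 : 0 ≤ Y := Finset.sum_nonneg fun i _ => ((H c).avgProd_mem S i y2 o).1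
    by_cases h : cpy c hh ∈ Bad
    · have hq' : Q hh = 1 := by simp [hQ, h]
      rw [hq']
      have := mul_le_mul_of_nonneg_right (uDiff_sq_le S H o) (mul_nonneg hX0 hY0)
      have : 0 ≤ (C * M / v) ^ 2 * uDiff G θ hh o ^ 2 := by positivity
      linarith
    · have hq' : Q hh = 0 := by simp [hQ, h]
      rw [hq', zero_mul, mul_zero, add_zero, mul_comm]
      refine mul_le_mul_of_nonneg_right ?_ (sq_nonneg _)
      rw [sq]
      exact mul_le_mul (hb1 _ (fun h' => h (Or.inl h')) K) (hb2 _ (fun h' => h (Or.inr h')) K) hY0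
        (by positivity)
  · simp only [Pi.add_apply]
    rw [integral_add (iu.const_mul _) (iQQ.const_mul 4), integral_const_mul, integral_const_mul,
      integral_finsetSum _ fun i _ => integrable_finsetSum _ fun j _ => iQAB i j,
      Finset.sum_congr rfl fun i _ => integral_finsetSum _ fun j _ => iQAB i j,
      show (C * M / v) ^ 2 = C ^ 2 * ((M : ℝ) ^ 2 / v ^ 2) by ring]
    refine add_le_add le_rfl ?_
    set E := Real.exp (-(q * (2 : ℝ) ^ (q * M / v))) with hE
    have h3 := Finset.sum_le_sum (s := range K) fun i _ =>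
      Finset.sum_le_sum (s := range K) fun j _ => hbad i j
    simp only [← Finset.mul_sum, ← Finset.sum_mul] at h3
    refine (mul_le_mul_of_nonneg_left h3 (by norm_num : (0 : ℝ) ≤ 4)).trans ?_
    have hqv' : 0 < q * v := mul_pos hq hv
    have hsum := sum_rpow_quarter_le hqv' (by linarith) hC K
    have hs0 : 0 ≤ ∑ i ∈ range K, (C * (1 - q * v) ^ i) ^ (1 / 4 : ℝ) :=
      Finset.sum_nonneg fun i _ => Real.rpow_nonneg (by positivity) _
    have hsq : (2 * C * E) ^ (1 / 2 : ℝ) =
        (2 * C) ^ (1 / 2 : ℝ) * Real.exp (-(q / 2 * (2 : ℝ) ^ (q * M / v))) := by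
      rw [hE, Real.mul_rpow (by linarith) (Real.exp_pos _).le, ← Real.exp_mul]
      ring_nf
    rw [hsq]
    have h4 := mul_le_mul hsum hsum hs0 (hs0.trans hsum)
    have h5 := mul_le_mul_of_nonneg_left h4 (show 0 ≤ (2 * C) ^ (1 / 2 : ℝ) *
      Real.exp (-(q / 2 * (2 : ℝ) ^ (q * M / v))) by positivity)
    refine (mul_le_mul_of_nonneg_left h5 (by norm_num : (0 : ℝ) ≤ 4)).trans (le_of_eq ?_)
    field_simp
    ring

end Boot

open Boot

variable {V : Type*} [DecidableEq V] {G : SimpleGraph V} [G.LocallyFinite] {d : ℕ} {θ b c0 : ℝ}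

/-- The crude bound on the rate of growth of the squared difference. -/
theorem dTerm_crude (hG : G.IsTree) (hd : 3 ≤ d) (hreg : ∀ v, G.degree v = d) (h0 : 0 ≤ θ)
    (hθ : ((d : ℝ) - 1) * θ ^ 2 = 1) (hb0 : 0 ≤ b) (hb : b < 1)
    (hconv : StatConvProp G θ b) (havg : StatAvgProp G θ b c0) :
    ∃ C c : ℝ, 0 < C ∧ 0 < c ∧ ∀ (v : ℝ) (ν : Measure ℝ) (P : Measure ((V → ℝ) × (V → ℝ))),
      VChan b c0 v ν → PairLaw G θ b ν P → ∀ (o : V) (W : Finset V) (M : ℕ), 1 ≤ M →
        ∑ w ∈ W, ∫ hh, dTerm G θ hh o w ∂P ≤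
          C * (M : ℝ) ^ 2 / v ^ 2 * (∫ hh, uDiff G θ hh o ^ 2 ∂P) +
            C / v ^ 2 * Real.exp (-(c * (2 : ℝ) ^ (c * M / v))) := by
  have S : Setup G d θ b := ⟨hG, hd, hreg, h0, hθ, hb0, hb⟩
  obtain ⟨Ca, q, hCa, hq, hq2, ha⟩ := havg
  set Cr := 1 / (1 - magBound d θ b ^ 2) with hCr
  set K0 := (crudeC θ (magBound d θ b) + 1) * Cr with hK0def
  set K2 := 4 * ((2 * Ca) ^ (1 / 2 : ℝ) * (Ca ^ (1 / 4 : ℝ) * Ca ^ (1 / 4 : ℝ)) * (16 / q ^ 2))
    with hK2
  have hK0 : 0 ≤ K0 := by
    have : 0 < 1 - θ ^ 2 := by nlinarith [S.theta_lt, S.nonneg]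
    have : 0 < 1 - magBound d θ b ^ 2 := by nlinarith [S.bound_lt, S.bound_nonneg]
    rw [hK0def, hCr]; unfold crudeC; positivity
  have hK20 : 0 ≤ K2 := by positivity
  refine ⟨4 * K0 * (Ca ^ 2 + K2) + 1, q / 2, by positivity, by linarith,
    fun v ν P hν hP o W M hM => ?_⟩
  have R := ready_of hconv hν hP
  have := R.prob
  have hv := hν.pos
  obtain ⟨y1, hy1, y2, hy2, hne⟩ := Finset.one_lt_card.1
    (show 1 < (G.neighborFinset o).card by rw [card_neighborFinset_eq_degree, hreg]; omega)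
  rw [mem_neighborFinset] at hy1 hy2
  set I : Bool → ℕ → ℕ → ℝ := fun c i j => ∫ hh, sideTerm G θ c o y1 y2 i j hh ∂P with hI
  have hI0 : ∀ c i j, 0 ≤ I c i j := fun c i j =>
    integral_nonneg_of_ae (R.good.mono fun hh H => by
      have := ((H c).avgProd_mem S i y1 o).1
      have := ((H c).avgProd_mem S j y2 o).1
      show 0 ≤ sideTerm G θ c o y1 y2 i j hh
      rw [sideTerm]; positivity)
  set g := fun k => K0 * ∑ i ∈ range (k + 1), (I false i (k - i) + I true i (k - i)) with hg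
  have hg0 : ∀ k, 0 ≤ g k := fun k =>
    mul_nonneg hK0 (Finset.sum_nonneg fun i _ => add_nonneg (hI0 _ _ _) (hI0 _ _ _))
  set K := (W.sup fun w => G.dist o w) + 1 with hK
  refine (sum_dist_le hG hd hreg hθ o W hg0
    (fun w _ => integral_dTerm_crude S R hy1.symm hy2.symm hne w) (K := K) fun w hw =>
    Nat.lt_succ_of_le (Finset.le_sup (f := fun w => G.dist o w) hw)).trans ?_
  have hflip : ∀ c, ∑ k ∈ range K, ∑ i ∈ range (k + 1), I c i (k - i) ≤
      ∑ i ∈ range K, ∑ j ∈ range K, I c i j := fun c => by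
    rw [Finset.sum_range_diag_flip]
    exact Finset.sum_le_sum fun i _ => Finset.sum_le_sum_of_subset_of_nonneg
      (Finset.range_mono (Nat.sub_le K i)) fun j _ _ => hI0 _ _ _
  have hb' : ∀ c, ∑ i ∈ range K, ∑ j ∈ range K, I c i j ≤
      Ca ^ 2 * ((M : ℝ) ^ 2 / v ^ 2) * ∫ hh, uDiff G θ hh o ^ 2 ∂P +
        K2 / v ^ 2 * Real.exp (-(q / 2 * (2 : ℝ) ^ (q * M / v))) := fun c =>
    integral_sides_le S R hν hCa.le hq hq2 ha c hy1.symm hy2.symm K M hM
  simp only [hg, ← Finset.mul_sum, Finset.sum_add_distrib]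
  have hexp : Real.exp (-(q / 2 * (2 : ℝ) ^ (q * M / v))) ≤
      Real.exp (-(q / 2 * (2 : ℝ) ^ (q / 2 * M / v))) := by
    refine Real.exp_le_exp.2 (neg_le_neg (mul_le_mul_of_nonneg_left ?_ (by linarith)))
    refine Real.rpow_le_rpow_of_exponent_le (by norm_num) ?_
    gcongr
    linarith
  have hF : 0 ≤ ∫ hh, uDiff G θ hh o ^ 2 ∂P := integral_nonneg fun hh => sq_nonneg _
  have hexp0 := (Real.exp_pos (-(q / 2 * (2 : ℝ) ^ (q / 2 * M / v)))).le
  set F := ∫ hh, uDiff G θ hh o ^ 2 ∂P
  set E := Real.exp (-(q / 2 * (2 : ℝ) ^ (q / 2 * M / v)))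
  have hbc : ∀ c, ∑ k ∈ range K, ∑ i ∈ range (k + 1), I c i (k - i) ≤
      Ca ^ 2 * ((M : ℝ) ^ 2 / v ^ 2 * F) + K2 * (E / v ^ 2) := fun c => by
    refine ((hflip c).trans (hb' c)).trans ?_
    have := mul_le_mul_of_nonneg_left hexp (show 0 ≤ K2 / v ^ 2 by positivity)
    refine (add_le_add le_rfl this).trans (le_of_eq ?_)
    ring
  have h1 := mul_le_mul_of_nonneg_left (add_le_add (hbc false) (hbc true))
    (show 0 ≤ 2 * K0 by positivity)
  have hX0 : 0 ≤ (M : ℝ) ^ 2 / v ^ 2 * F := by positivity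
  have hY0 : 0 ≤ E / v ^ 2 := by positivity
  rw [show (4 * K0 * (Ca ^ 2 + K2) + 1) * (M : ℝ) ^ 2 / v ^ 2 * F =
      (4 * K0 * (Ca ^ 2 + K2) + 1) * ((M : ℝ) ^ 2 / v ^ 2 * F) by ring,
    show (4 * K0 * (Ca ^ 2 + K2) + 1) / v ^ 2 * E =
      (4 * K0 * (Ca ^ 2 + K2) + 1) * (E / v ^ 2) by ring]
  linarith [mul_nonneg (mul_nonneg hK0 hK20) hX0, mul_nonneg (mul_nonneg hK0 (sq_nonneg Ca)) hY0]

end Vale.Agent.P161.Crit
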