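import Vale.Agent.P161.Crit.BootSeg

/-!
Pointwise estimates for the difference of two slope products along a segment.
-/

namespace Vale.Agent.P161.Crit.Boot

open Finset

variable {θ R : ℝ}

/-- The Lipschitz constant of `psi` in the two magnetisations of an edge. -/
noncomputable def lipC (θ R : ℝ) : ℝ :=
  2 / (1 - R ^ 2) * (4 * (1 + θ) ^ 2 / (1 - θ ^ 2) ^ 2)

lemma lipC_nonneg (hR0 : 0 ≤ R) (hR : R < 1) : 0 ≤ lipC θ R := by
  have h1 : 0 < 1 - R ^ 2 := by nlinarith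
  unfold lipC
  positivity

/-- The change of one logarithmic slope. -/
lemma psi_diff_le (h0 : 0 ≤ θ) (h1 : θ < 1) (hR : R < 1) {a b a' b' : ℝ}
    (ha : |a| ≤ R) (hb : |b| ≤ R) (ha' : |a'| ≤ R) (hb' : |b'| ≤ R) :
    |psi θ a' - psi θ a| ≤ lipC θ R * ((|a| + |a'|) *
      (|mrg a' (θ * b') - mrg a (θ * b)| + |mrg b' (θ * a') - mrg b (θ * a)|)) := by
  have hR0 : 0 ≤ R := (abs_nonneg _).trans ha
  have hm : 0 < 1 - R ^ 2 := by nlinarith
  refine (abs_psi_sub_le h0 h1 hR ha' ha).trans ?_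
  have h2 := edge_solve h0 h1 (lt_of_le_of_lt ha hR) (lt_of_le_of_lt hb hR)
    (lt_of_le_of_lt ha' hR) (lt_of_le_of_lt hb' hR)
  have h3 := mul_le_mul_of_nonneg_left h2 (show 0 ≤ |a| + |a'| by positivity)
  have h4 := mul_le_mul_of_nonneg_left h3 (div_nonneg (zero_le_two (α := ℝ)) hm.le)
  rw [lipC, add_comm |a'| |a|]
  refine h4.trans (le_of_eq ?_)
  ring

lemma exp_sub_exp_le {A B : ℝ} (hA : 0 ≤ A) (hB : 0 ≤ B) :
    |Real.exp (-B) - Real.exp (-A)| ≤ |B - A| := by
  wlog h : A ≤ B generalizing A B with H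
  · rw [abs_sub_comm, abs_sub_comm B A]; exact H hB hA (le_of_not_ge h)
  have e : Real.exp (-B) = Real.exp (-A) * Real.exp (-(B - A)) := by rw [← Real.exp_add]; ring_nf
  have h1 := Real.add_one_le_exp (-(B - A))
  have h2 : Real.exp (-A) ≤ 1 := Real.exp_le_one_iff.2 (by linarith)
  have h3 : Real.exp (-(B - A)) ≤ 1 := Real.exp_le_one_iff.2 (by linarith)
  rw [abs_sub_comm, abs_of_nonneg (sub_nonneg.2 (Real.exp_le_exp.2 (by linarith))),
    abs_of_nonneg (by linarith : 0 ≤ B - A), e]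
  calc Real.exp (-A) - Real.exp (-A) * Real.exp (-(B - A))
      = Real.exp (-A) * (1 - Real.exp (-(B - A))) := by ring
    _ ≤ 1 * (B - A) := mul_le_mul h2 (by linarith) (by linarith) zero_le_one
    _ = B - A := one_mul _

/-- The squared difference of two exponentials, when the exponents differ by at most the
geometric mean of their size and `U`. -/
lemma exp_diff_sq_le {A B D U C : ℝ} (hA : 0 ≤ A) (hB : 0 ≤ B) (hC : 0 ≤ C) (hU : 0 ≤ U)
    (hD : |B - A| ≤ D) (hD2 : D ^ 2 ≤ C * (A + B) * U) :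
    (Real.exp (-B) - Real.exp (-A)) ^ 2 ≤ 4 * C * (Real.exp (-A) + Real.exp (-B)) * U := by
  wlog h : A ≤ B generalizing A B with H
  · have := H hB hA (by rwa [abs_sub_comm]) (by rwa [add_comm B A]) (le_of_not_ge h)
    rw [add_comm (Real.exp (-A)), ← neg_sub (Real.exp (-A)), neg_sq]
    exact this
  rw [abs_of_nonneg (by linarith : 0 ≤ B - A)] at hD
  have e2 : Real.exp (-A) ^ 2 * (1 + A) ≤ Real.exp (-A) := by
    have h1 : 1 + A ≤ Real.exp A := by linarith [Real.add_one_le_exp A]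
    refine (mul_le_mul_of_nonneg_left h1 (sq_nonneg _)).trans (le_of_eq ?_)
    rw [sq, mul_assoc, ← Real.exp_add, neg_add_cancel, Real.exp_zero, mul_one]
  have hle : Real.exp (-B) ≤ Real.exp (-A) := Real.exp_le_exp.2 (by linarith)
  have hg : (Real.exp (-B) - Real.exp (-A)) ^ 2 ≤ 4 * C * U * (Real.exp (-A) ^ 2 * (1 + A)) := by
    rcases le_or_gt B (A + 1) with h1 | h1
    · have h2 : Real.exp (-B) - Real.exp (-A) = Real.exp (-A) * (Real.exp (-(B - A)) - 1) := by
        rw [mul_sub, ← Real.exp_add, mul_one]; ring_nf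
      have h3 : (Real.exp (-(B - A)) - 1) ^ 2 ≤ D ^ 2 := by
        have := Real.add_one_le_exp (-(B - A))
        have : Real.exp (-(B - A)) ≤ 1 := Real.exp_le_one_iff.2 (by linarith)
        rw [← neg_sq]
        exact pow_le_pow_left₀ (by linarith) (by linarith) 2
      rw [h2, mul_pow]
      refine (mul_le_mul_of_nonneg_left (h3.trans hD2) (sq_nonneg _)).trans ?_
      have h4 : C * (A + B) * U ≤ 4 * C * U * (1 + A) := by
        have := mul_le_mul_of_nonneg_left (show A + B ≤ 4 * (1 + A) by linarith) (mul_nonneg hC hU)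
        linarith
      refine (mul_le_mul_of_nonneg_left h4 (sq_nonneg _)).trans (le_of_eq ?_)
      ring
    · have hD1 : 1 ≤ D := by linarith
      have h5 : 1 ≤ 4 * C * U * (1 + A) := by
        have hCU : C * (A + B) * U ≤ C * (2 * A + D) * U :=
          mul_le_mul_of_nonneg_right (mul_le_mul_of_nonneg_left (by linarith) hC) hU
        have hCU0 := mul_nonneg hC hU
        have hCUA : 0 ≤ C * U * A := mul_nonneg hCU0 hA
        rcases le_or_gt (2 * A) D with h6 | h6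
        · have h7 : D * D ≤ 2 * C * U * D := by
            have := mul_le_mul_of_nonneg_left (show 2 * A + D ≤ 2 * D by linarith) hCU0
            nlinarith
          have h8 := le_of_mul_le_mul_right h7 (by linarith)
          linarith
        · have := mul_le_mul_of_nonneg_left (show 2 * A + D ≤ 4 * A by linarith) hCU0
          have h7 : 1 ≤ D ^ 2 := one_le_pow₀ hD1
          linarith
      have h6 : (Real.exp (-B) - Real.exp (-A)) ^ 2 ≤ Real.exp (-A) ^ 2 := by
        rw [← neg_sq]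
        exact pow_le_pow_left₀ (by linarith) (by linarith [Real.exp_pos (-B)]) 2
      refine h6.trans ?_
      have := mul_le_mul_of_nonneg_left h5 (sq_nonneg (Real.exp (-A)))
      linarith
  refine hg.trans ?_
  calc 4 * C * U * (Real.exp (-A) ^ 2 * (1 + A)) ≤ 4 * C * U * Real.exp (-A) :=
        mul_le_mul_of_nonneg_left e2 (by positivity)
    _ ≤ 4 * C * (Real.exp (-A) + Real.exp (-B)) * U := by
        have := mul_nonneg (mul_nonneg hC hU) (Real.exp_pos (-B)).le
        linarith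

/-- The branch magnetisations along a segment of length `k` and the magnetisations on it. -/
structure SegData (θ R : ℝ) (k : ℕ) (a b m : ℕ → ℝ) : Prop where
  fwd : ∀ i < k, |a i| ≤ R
  bwd : ∀ i < k, |b i| ≤ R
  left : ∀ i < k, m i = mrg (a i) (θ * b i)
  right : ∀ i < k, m (i + 1) = mrg (b i) (θ * a i)
  mag : ∀ i ≤ k, |m i| ≤ R

variable {k : ℕ} {a b m a' b' m' : ℕ → ℝ}

lemma prod_eq_exp (h0 : 0 ≤ θ) (h1 : θ < 1) (hR : R < 1) (ha : ∀ i < k, |a i| ≤ R) :
    ∏ i ∈ range k, slp θ (a i) = Real.exp (-(-∑ i ∈ range k, psi θ (a i))) := by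
  rw [neg_neg, Real.exp_sum]
  exact Finset.prod_congr rfl fun i hi =>
    (exp_psi h0 h1 (lt_of_le_of_lt (ha i (Finset.mem_range.1 hi)) hR)).symm

lemma neg_sum_psi_ge (h0 : 0 ≤ θ) (h1 : θ < 1) (hR : R < 1) (ha : ∀ i < k, |a i| ≤ R) :
    (1 - θ ^ 2) * ∑ i ∈ range k, a i ^ 2 ≤ -∑ i ∈ range k, psi θ (a i) := by
  rw [Finset.mul_sum, ← Finset.sum_neg_distrib]
  refine Finset.sum_le_sum fun i hi => ?_
  linarith [psi_le h0 h1 (lt_of_le_of_lt (ha i (Finset.mem_range.1 hi)) hR)]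

lemma neg_sum_psi_nonneg (h0 : 0 ≤ θ) (h1 : θ < 1) (hR : R < 1) (ha : ∀ i < k, |a i| ≤ R) :
    0 ≤ -∑ i ∈ range k, psi θ (a i) :=
  neg_nonneg.2 (Finset.sum_nonpos fun i hi =>
    psi_nonpos h0 h1 (lt_of_le_of_lt (ha i (Finset.mem_range.1 hi)) hR))

/-- The refined estimate. -/
lemma prod_diff_sq_le (h0 : 0 ≤ θ) (h1 : θ < 1) (hR : R < 1) (ha : ∀ i < k, |a i| ≤ R)
    (ha' : ∀ i < k, |a' i| ≤ R) :
    (∏ i ∈ range k, slp θ (a' i) - ∏ i ∈ range k, slp θ (a i)) ^ 2 ≤
      (∑ i ∈ range k, (psi θ (a' i) - psi θ (a i))) ^ 2 := by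
  rw [prod_eq_exp h0 h1 hR ha, prod_eq_exp h0 h1 hR ha']
  refine sq_le_sq.2 ((exp_sub_exp_le (neg_sum_psi_nonneg h0 h1 hR ha)
    (neg_sum_psi_nonneg h0 h1 hR ha')).trans (le_of_eq ?_))
  rw [Finset.sum_sub_distrib, ← abs_neg]
  ring_nf

/-- The constant of the crude estimate. -/
noncomputable def crudeC (θ R : ℝ) : ℝ := 4 * (8 * lipC θ R ^ 2 / (1 - θ ^ 2))

/-- The crude estimate. -/
lemma prod_diff_crude (h0 : 0 ≤ θ) (h1 : θ < 1) (hR : R < 1) (d : SegData θ R k a b m)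
    (d' : SegData θ R k a' b' m') :
    (∏ i ∈ range k, slp θ (a' i) - ∏ i ∈ range k, slp θ (a i)) ^ 2 ≤
      crudeC θ R * (∏ i ∈ range k, slp θ (a i) + ∏ i ∈ range k, slp θ (a' i)) *
        ∑ i ∈ range (k + 1), (m' i - m i) ^ 2 := by
  have ht : 0 < 1 - θ ^ 2 := by nlinarith
  set u := fun i => m' i - m i with hu
  set U := ∑ i ∈ range (k + 1), u i ^ 2 with hU
  set A := -∑ i ∈ range k, psi θ (a i) with hA
  set B := -∑ i ∈ range k, psi θ (a' i) with hB
  set D := ∑ i ∈ range k, |psi θ (a' i) - psi θ (a i)| with hD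
  set L := lipC θ R with hL
  have hU0 : 0 ≤ U := Finset.sum_nonneg fun i _ => sq_nonneg _
  have hdiff : |B - A| ≤ D := by
    rw [hA, hB, hD, show -∑ i ∈ range k, psi θ (a' i) - -∑ i ∈ range k, psi θ (a i) =
      -∑ i ∈ range k, (psi θ (a' i) - psi θ (a i)) by rw [Finset.sum_sub_distrib]; ring, abs_neg]
    exact Finset.abs_sum_le_sum_abs _ _
  have hterm : ∀ i ∈ range k, |psi θ (a' i) - psi θ (a i)| ≤
      (L * (|a i| + |a' i|)) * (|u i| + |u (i + 1)|) := by
    intro i hi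
    have hi' := Finset.mem_range.1 hi
    refine (psi_diff_le h0 h1 hR (d.fwd i hi') (d.bwd i hi') (d'.fwd i hi') (d'.bwd i hi')).trans
      (le_of_eq ?_)
    simp only [hu, hL]
    rw [d.left i hi', d.right i hi', d'.left i hi', d'.right i hi']
    ring
  have hD2 : D ^ 2 ≤ (8 * L ^ 2 / (1 - θ ^ 2)) * (A + B) * U := by
    have hD0 : 0 ≤ D := Finset.sum_nonneg fun i _ => abs_nonneg _
    refine (pow_le_pow_left₀ hD0 (Finset.sum_le_sum hterm) 2).trans ?_
    refine (Finset.sum_mul_sq_le_sq_mul_sq _ _ _).trans ?_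
    have s1 : ∑ i ∈ range k, (L * (|a i| + |a' i|)) ^ 2 ≤ 2 * L ^ 2 / (1 - θ ^ 2) * (A + B) := by
      have h2 := neg_sum_psi_ge h0 h1 hR d.fwd
      have h3 := neg_sum_psi_ge h0 h1 hR d'.fwd
      refine (Finset.sum_le_sum fun i _ => show (L * (|a i| + |a' i|)) ^ 2 ≤
        2 * L ^ 2 * (a i ^ 2 + a' i ^ 2) from ?_).trans ?_
      · rw [mul_pow, ← sq_abs (a i), ← sq_abs (a' i)]
        have := mul_le_mul_of_nonneg_left (show (|a i| + |a' i|) ^ 2 ≤
          2 * (|a i| ^ 2 + |a' i| ^ 2) by nlinarith [sq_nonneg (|a i| - |a' i|)]) (sq_nonneg L)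
        linarith
      · rw [← Finset.mul_sum, Finset.sum_add_distrib, div_mul_eq_mul_div, le_div_iff₀ ht]
        have := mul_le_mul_of_nonneg_left (add_le_add h2 h3) (show 0 ≤ 2 * L ^ 2 by positivity)
        linarith
    have s2 : ∑ i ∈ range k, (|u i| + |u (i + 1)|) ^ 2 ≤ 4 * U := by
      refine (Finset.sum_le_sum fun i _ => show (|u i| + |u (i + 1)|) ^ 2 ≤
        2 * u i ^ 2 + 2 * u (i + 1) ^ 2 from ?_).trans ?_
      · rw [← sq_abs (u i), ← sq_abs (u (i + 1))]
        nlinarith [sq_nonneg (|u i| - |u (i + 1)|)]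
      · rw [Finset.sum_add_distrib, ← Finset.mul_sum, ← Finset.mul_sum]
        have e1 : ∑ i ∈ range k, u i ^ 2 ≤ U :=
          Finset.sum_le_sum_of_subset_of_nonneg (Finset.range_mono (Nat.le_succ k))
            fun i _ _ => sq_nonneg _
        have e2 : ∑ i ∈ range k, u (i + 1) ^ 2 ≤ U := by
          rw [hU, Finset.sum_range_succ']
          exact le_add_of_nonneg_right (sq_nonneg _)
        linarith
    refine (mul_le_mul s1 s2 (Finset.sum_nonneg fun i _ => sq_nonneg _) ?_).trans (le_of_eq ?_)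
    · exact le_trans (Finset.sum_nonneg fun i _ => sq_nonneg _) s1
    · field_simp; ring
  rw [prod_eq_exp h0 h1 hR d.fwd, prod_eq_exp h0 h1 hR d'.fwd, crudeC]
  exact exp_diff_sq_le (neg_sum_psi_nonneg h0 h1 hR d.fwd) (neg_sum_psi_nonneg h0 h1 hR d'.fwd)
    (by positivity) hU0 hdiff hD2

/-- Reversing the direction of a product of slopes. -/
lemma prod_symm (h0 : 0 ≤ θ) (h1 : θ < 1) (hR : R < 1) (d : SegData θ R k a b m) :
    (∏ i ∈ range k, slp θ (a i)) * (1 - m k ^ 2) =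
      (∏ i ∈ range k, slp θ (b i)) * (1 - m 0 ^ 2) := by
  induction k with
  | zero => simp
  | succ k ih =>
    have ih' := ih ⟨fun i hi => d.fwd i (by omega), fun i hi => d.bwd i (by omega),
      fun i hi => d.left i (by omega), fun i hi => d.right i (by omega),
      fun i hi => d.mag i (by omega)⟩
    have e := edge_symm h0 h1 (lt_of_le_of_lt (d.fwd k (by omega)) hR)
      (lt_of_le_of_lt (d.bwd k (by omega)) hR)
    rw [← d.left k (by omega), ← d.right k (by omega)] at e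
    rw [Finset.prod_range_succ, Finset.prod_range_succ]
    linear_combination (∏ i ∈ range k, slp θ (a i)) * e + slp θ (b k) * ih'

lemma prod_le_rev (h0 : 0 ≤ θ) (h1 : θ < 1) (hR : R < 1) (d : SegData θ R k a b m) :
    ∏ i ∈ range k, slp θ (a i) ≤ 1 / (1 - R ^ 2) * ∏ i ∈ range k, slp θ (b i) := by
  have hR0 : 0 ≤ R := (abs_nonneg _).trans (d.mag 0 (Nat.zero_le k))
  have hm : 0 < 1 - R ^ 2 := by nlinarith
  have hk : 1 - R ^ 2 ≤ 1 - m k ^ 2 := by
    rw [← sq_abs (m k)]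
    linarith [pow_le_pow_left₀ (abs_nonneg _) (d.mag k le_rfl) 2]
  have hb0 : 0 ≤ ∏ i ∈ range k, slp θ (b i) :=
    Finset.prod_nonneg fun i hi =>
      slp_nonneg h0 h1 ((d.bwd i (Finset.mem_range.1 hi)).trans hR.le)
  have ha0 : 0 ≤ ∏ i ∈ range k, slp θ (a i) :=
    Finset.prod_nonneg fun i hi =>
      slp_nonneg h0 h1 ((d.fwd i (Finset.mem_range.1 hi)).trans hR.le)
  rw [div_mul_eq_mul_div, one_mul, le_div_iff₀ hm]
  calc _ ≤ (∏ i ∈ range k, slp θ (a i)) * (1 - m k ^ 2) := mul_le_mul_of_nonneg_left hk ha0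
    _ = _ := prod_symm h0 h1 hR d
    _ ≤ _ := mul_le_of_le_one_right hb0 (by linarith [sq_nonneg (m 0)])

end Vale.Agent.P161.Crit.Boot
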