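import Mathlib

/-!
Real analysis for the bootstrap: a monotone function whose increments satisfy the refined and the
crude inequality vanishes identically.
-/

namespace Vale.Agent.P161.Crit

open Filter Topology

/-- Telescoping the refined inequality over dyadic windows gives every polynomial rate. -/
lemma boot_poly {F : ℝ → ℝ} (hF0 : ∀ t ∈ Set.Ioc (0:ℝ) (1/2), 0 ≤ F t)
    (hmono : MonotoneOn F (Set.Ioc (0:ℝ) (1/2)))
    (hzero : Tendsto F (𝓝[>] (0:ℝ)) (𝓝 0))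
    (hR : ∀ P : ℕ, 1 ≤ P → ∃ C : ℝ, ∀ p t : ℝ, 0 < p → p ≤ t → t ≤ 2 * p → t ≤ 1/2 →
      F t - F p ≤ C * (p ^ (9/8 : ℝ) * F t ^ (1 - 1 / (P:ℝ)) + p ^ P))
    (P : ℕ) (hP : 1 ≤ P) :
    ∃ C : ℝ, ∀ t ∈ Set.Ioc (0:ℝ) (1/2), F t ≤ C * t ^ P := by
  obtain ⟨C0, hC0⟩ := hR P hP
  set C := max C0 0 with hC
  have hC_nonneg : 0 ≤ C := le_max_right _ _
  refine ⟨2 * C + (2 * C) ^ P, fun t ht => ?_⟩
  obtain ⟨ht0, ht1⟩ := ht
  have hP0 : (0:ℝ) < P := by exact_mod_cast hP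
  have hexp : 0 ≤ 1 - 1 / (P:ℝ) := by
    rw [sub_nonneg, div_le_one hP0]; exact_mod_cast hP
  set B := t ^ (9/8 : ℝ) * F t ^ (1 - 1 / (P:ℝ)) + t ^ P with hB
  have hFt : 0 ≤ F t := hF0 t ⟨ht0, ht1⟩
  have hB0 : 0 ≤ B := add_nonneg (mul_nonneg (Real.rpow_nonneg ht0.le _)
    (Real.rpow_nonneg hFt _)) (pow_nonneg ht0.le _)
  have hwin : ∀ l : ℕ, F (t * (1/2) ^ l) - F (t * (1/2) ^ (l + 1)) ≤ C * B * (1/2) ^ (l + 1) := by
    intro l
    set p := t * (1/2 : ℝ) ^ (l + 1) with hp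
    have hp0 : 0 < p := by positivity
    have h2p : t * (1/2 : ℝ) ^ l = 2 * p := by rw [hp, pow_succ]; ring
    have hl1 : (1/2 : ℝ) ^ l ≤ 1 := pow_le_one₀ (by norm_num) (by norm_num)
    have hle : t * (1/2 : ℝ) ^ l ≤ t := mul_le_of_le_one_right ht0.le hl1
    have hmem : t * (1/2 : ℝ) ^ l ∈ Set.Ioc (0:ℝ) (1/2) := ⟨by positivity, hle.trans ht1⟩
    have h1 := hC0 p (t * (1/2) ^ l) hp0 (by linarith) (le_of_eq h2p) hmem.2
    refine h1.trans ?_
    have hs : (1/2 : ℝ) ^ (l + 1) ≤ 1 := pow_le_one₀ (by norm_num) (by norm_num)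
    have hs0 : (0:ℝ) < (1/2 : ℝ) ^ (l + 1) := by positivity
    have ha : p ^ (9/8 : ℝ) ≤ t ^ (9/8 : ℝ) * (1/2) ^ (l + 1) := by
      rw [hp, Real.mul_rpow ht0.le hs0.le]
      refine mul_le_mul_of_nonneg_left ?_ (Real.rpow_nonneg ht0.le _)
      calc ((1/2 : ℝ) ^ (l + 1)) ^ (9/8 : ℝ) ≤ ((1/2 : ℝ) ^ (l + 1)) ^ (1 : ℝ) :=
            Real.rpow_le_rpow_of_exponent_ge hs0 hs (by norm_num)
        _ = _ := Real.rpow_one _
    have hb : F (t * (1/2) ^ l) ^ (1 - 1 / (P:ℝ)) ≤ F t ^ (1 - 1 / (P:ℝ)) :=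
      Real.rpow_le_rpow (hF0 _ hmem) (hmono hmem ⟨ht0, ht1⟩ hle) hexp
    have hc : p ^ P ≤ t ^ P * (1/2) ^ (l + 1) := by
      rw [hp, mul_pow]
      exact mul_le_mul_of_nonneg_left (pow_le_of_le_one hs0.le hs (by omega)) (by positivity)
    have hX : p ^ (9/8 : ℝ) * F (t * (1/2) ^ l) ^ (1 - 1 / (P:ℝ)) + p ^ P ≤ B * (1/2) ^ (l + 1) := by
      have := mul_le_mul ha hb (Real.rpow_nonneg (hF0 _ hmem) _) (mul_nonneg
        (Real.rpow_nonneg ht0.le _) hs0.le)
      rw [hB]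
      linarith
    have hX0 : 0 ≤ p ^ (9/8 : ℝ) * F (t * (1/2) ^ l) ^ (1 - 1 / (P:ℝ)) + p ^ P :=
      add_nonneg (mul_nonneg (Real.rpow_nonneg hp0.le _) (Real.rpow_nonneg (hF0 _ hmem) _))
        (pow_nonneg hp0.le _)
    calc C0 * _ ≤ C * _ := mul_le_mul_of_nonneg_right (le_max_left _ _) hX0
      _ ≤ C * (B * (1/2) ^ (l + 1)) := mul_le_mul_of_nonneg_left hX hC_nonneg
      _ = _ := by ring
  have hsum : ∀ l : ℕ, F t ≤ F (t * (1/2) ^ l) + C * B * (1 - (1/2) ^ l) := by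
    intro l
    induction l with
    | zero => simp
    | succ l ih =>
      have := hwin l
      have e : C * B * (1/2 : ℝ) ^ l = 2 * (C * B * (1/2) ^ (l + 1)) := by rw [pow_succ]; ring
      linarith
  have hlim : Tendsto (fun l : ℕ => F (t * (1/2) ^ l) + C * B) atTop (𝓝 (0 + C * B)) := by
    refine (hzero.comp ?_).add tendsto_const_nhds
    refine tendsto_nhdsWithin_iff.2 ⟨?_, Eventually.of_forall fun l => ?_⟩
    · simpa using (tendsto_pow_atTop_nhds_zero_of_lt_one (show (0:ℝ) ≤ 1/2 by norm_num)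
        (by norm_num)).const_mul t
    · show 0 < t * (1/2 : ℝ) ^ l
      positivity
  have hmain : F t ≤ C * B := by
    rw [zero_add] at hlim
    refine ge_of_tendsto' hlim fun l => (hsum l).trans ?_
    have : 0 ≤ C * B * (1/2) ^ l := by positivity
    linarith
  by_cases hcase : F t ≤ 2 * C * t ^ P
  · have : 0 ≤ (2 * C) ^ P * t ^ P := by positivity
    linarith
  · push Not at hcase
    have hFpos : 0 < F t := lt_of_le_of_lt (by positivity) hcase
    have h1 : F t ≤ 2 * C * (t ^ (9/8 : ℝ) * F t ^ (1 - 1 / (P:ℝ))) := by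
      rw [hB] at hmain; linarith
    have h2 : F t ^ (1 / (P:ℝ)) ≤ 2 * C * t := by
      have e : F t = F t ^ (1 / (P:ℝ)) * F t ^ (1 - 1 / (P:ℝ)) := by
        rw [← Real.rpow_add hFpos]; simp
      have hpos : 0 < F t ^ (1 - 1 / (P:ℝ)) := Real.rpow_pos_of_pos hFpos _
      have h3 : F t ^ (1 / (P:ℝ)) ≤ 2 * C * t ^ (9/8 : ℝ) := by
        refine le_of_mul_le_mul_right ?_ hpos
        rw [← e]
        linarith
      refine h3.trans (mul_le_mul_of_nonneg_left ?_ (by linarith))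
      calc t ^ (9/8 : ℝ) ≤ t ^ (1:ℝ) :=
            Real.rpow_le_rpow_of_exponent_ge ht0 (by linarith) (by norm_num)
        _ = t := Real.rpow_one t
    have h4 := pow_le_pow_left₀ (Real.rpow_nonneg hFt _) h2 P
    rw [one_div, Real.rpow_inv_natCast_pow hFt (by omega), mul_pow] at h4
    have : 0 ≤ 2 * C * t ^ P := by positivity
    linarith

/-- Finitely many steps of an affine recursion. -/
lemma boot_steps {f : ℕ → ℝ} {e : ℝ} (n : ℕ)
    (h : ∀ j < n, f (j + 1) ≤ 2 * f j + e) : f n + e ≤ 2 ^ n * (f 0 + e) := by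
  induction n with
  | zero => simp
  | succ n ih =>
    have h1 := h n (Nat.lt_succ_self n)
    have h2 := ih fun j hj => h j (Nat.lt_succ_of_lt hj)
    rw [pow_succ]
    linarith

/-- The crude inequality over one window, in `n ≥ 2 A` equal steps. -/
lemma boot_window {F : ℝ → ℝ} {p q A e : ℝ} (hpq : p ≤ q) (he : 0 ≤ e)
    (hF : ∀ s ∈ Set.Icc p q, 0 ≤ F s) {n : ℕ} (hn : 1 ≤ n) (hnA : 2 * A * (q - p) ≤ n)
    (hn1 : q - p ≤ n)
    (h : ∀ s t, p ≤ s → s ≤ t → t ≤ q → F t - F s ≤ (t - s) * (A * F t + e)) :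
    F q ≤ 2 ^ n * (F p + 2 * e) := by
  have hn0 : (0:ℝ) < n := by exact_mod_cast hn
  set δ := (q - p) / n with hδ
  have hδ0 : 0 ≤ δ := div_nonneg (by linarith) hn0.le
  have hδ1 : δ ≤ 1 := by rw [hδ, div_le_one hn0]; exact hn1
  have hδA : δ * A ≤ 1 / 2 := by
    rw [hδ, div_mul_eq_mul_div, div_le_iff₀ hn0]; linarith
  have hstep : ∀ j < n, F (p + (j + 1 : ℕ) * δ) ≤ 2 * F (p + (j:ℕ) * δ) + 2 * e := by
    intro j hj
    have hj' : ((j + 1 : ℕ) : ℝ) ≤ n := by exact_mod_cast hj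
    have htop : p + (n:ℝ) * δ = q := by rw [hδ]; field_simp; ring
    have h0 : 0 ≤ (j:ℝ) * δ := by positivity
    have h1 : p + ((j + 1 : ℕ) : ℝ) * δ ≤ q := by
      have := mul_le_mul_of_nonneg_right hj' hδ0
      linarith
    push_cast at h1 ⊢
    have hk := h (p + j * δ) (p + ((j:ℝ) + 1) * δ) (by linarith) (by linarith) h1
    have ht : 0 ≤ F (p + ((j:ℝ) + 1) * δ) := hF _ ⟨by linarith, h1⟩
    have h2 : δ * A * F (p + ((j:ℝ) + 1) * δ) ≤ 1 / 2 * F (p + ((j:ℝ) + 1) * δ) :=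
      mul_le_mul_of_nonneg_right hδA ht
    have h3 : δ * e ≤ e := mul_le_of_le_one_left he hδ1
    linarith
  have := boot_steps (f := fun j : ℕ => F (p + (j:ℕ) * δ)) (e := 2 * e) n hstep
  simp only [Nat.cast_zero, zero_mul, add_zero] at this
  have htop : p + (n:ℝ) * δ = q := by rw [hδ]; field_simp; ring
  rw [htop] at this
  linarith

lemma pow_four_le_exp_log (y : ℝ) (hy : 0 ≤ y) : (Real.log 2 * y) ^ 4 / 24 ≤ (2:ℝ) ^ y := by
  rw [Real.rpow_def_of_pos two_pos]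
  have h2 : 0 ≤ Real.log 2 * y := mul_nonneg (Real.log_nonneg (by norm_num)) hy
  simpa [Nat.factorial] using Real.pow_div_factorial_le_exp (Real.log 2 * y) h2 4

/-- The double exponential beats every factor `exp (B M² 2^j)`. -/
lemma boot_dexp {c B : ℝ} (hc : 0 < c) :
    ∀ᶠ M : ℕ in atTop, ∀ j : ℕ, B * (M:ℝ) ^ 2 * 2 ^ j + (M:ℝ) * (j + 1) ≤
      c * (2:ℝ) ^ (c * (M:ℝ) * 2 ^ j) := by
  set c1 := c * ((Real.log 2 * c) ^ 4 / 24) with hc1
  have hl := Real.log_pos (show (1:ℝ) < 2 by norm_num)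
  have hc1p : 0 < c1 := by positivity
  filter_upwards [eventually_ge_atTop 1, eventually_ge_atTop ⌈(|B| + 1) / c1⌉₊] with M hM1 hMc j
  have hM : (1:ℝ) ≤ M := by exact_mod_cast hM1
  have hMc' : |B| + 1 ≤ c1 * M := by
    have := (Nat.le_ceil ((|B| + 1) / c1)).trans (Nat.cast_le.2 hMc)
    rw [div_le_iff₀ hc1p] at this
    linarith
  have hp := pow_four_le_exp_log (c * (M:ℝ) * 2 ^ j) (by positivity)
  refine le_trans ?_ (mul_le_mul_of_nonneg_left hp hc.le)
  have hj1 : (1:ℝ) ≤ 2 ^ j := one_le_pow₀ (by norm_num)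
  have hj2 : (j:ℝ) + 1 ≤ 2 ^ j := by exact_mod_cast Nat.lt_two_pow_self
  have e : c * ((Real.log 2 * (c * (M:ℝ) * 2 ^ j)) ^ 4 / 24) = c1 * (M:ℝ) ^ 4 * (2 ^ j) ^ 4 := by
    rw [hc1]; ring
  rw [e]
  calc B * (M:ℝ) ^ 2 * 2 ^ j + (M:ℝ) * (j + 1) ≤ (|B| + 1) * (M:ℝ) ^ 2 * 2 ^ j := by
        have h1 : B * (M:ℝ) ^ 2 * 2 ^ j ≤ |B| * (M:ℝ) ^ 2 * 2 ^ j :=
          mul_le_mul_of_nonneg_right (mul_le_mul_of_nonneg_right (le_abs_self B) (by positivity))
            (by positivity)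
        have h2 : (M:ℝ) * (j + 1) ≤ (M:ℝ) ^ 2 * 2 ^ j :=
          mul_le_mul (by nlinarith) hj2 (by positivity) (by positivity)
        linarith
    _ ≤ c1 * M * (M:ℝ) ^ 2 * 2 ^ j := by gcongr
    _ ≤ c1 * (M:ℝ) ^ 4 * (2 ^ j) ^ 4 := by
        have h3 : (M:ℝ) * (M:ℝ) ^ 2 ≤ (M:ℝ) ^ 4 := by nlinarith [pow_nonneg (show (0:ℝ) ≤ M by linarith) 3]
        have h4 : (2:ℝ) ^ j ≤ (2 ^ j) ^ 4 := le_self_pow₀ hj1 (by norm_num)
        have := mul_le_mul h3 h4 (by positivity) (by positivity)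
        nlinarith [mul_le_mul_of_nonneg_left this hc1p.le]

/-- The bootstrap at level zero. -/
theorem boot_zero {F : ℝ → ℝ} (hF0 : ∀ t ∈ Set.Ioc (0:ℝ) (1/2), 0 ≤ F t)
    (hmono : MonotoneOn F (Set.Ioc (0:ℝ) (1/2)))
    (hzero : Tendsto F (𝓝[>] (0:ℝ)) (𝓝 0))
    (hR : ∀ P : ℕ, 1 ≤ P → ∃ C : ℝ, ∀ p t : ℝ, 0 < p → p ≤ t → t ≤ 2 * p → t ≤ 1/2 →
      F t - F p ≤ C * (p ^ (9/8 : ℝ) * F t ^ (1 - 1 / (P:ℝ)) + p ^ P))
    (hK : ∃ C c : ℝ, 0 < c ∧ ∀ M : ℕ, 1 ≤ M → ∀ p t : ℝ, 0 < p → p ≤ t → t ≤ 2 * p → t ≤ 1/2 →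
      F t - F p ≤ (t - p) / p * (C * (M:ℝ) ^ 2 * F t +
        C * (p ^ 10)⁻¹ * Real.exp (-c * (2:ℝ) ^ (c * (M:ℝ) * p ^ (-(3/2) : ℝ))))) :
    ∀ t ∈ Set.Ioc (0:ℝ) (1/2), F t = 0 := by
  intro t ht
  obtain ⟨ht0, ht1⟩ := ht
  obtain ⟨C₀, c, hc, hK⟩ := hK
  set C := max C₀ 1 with hC
  have hC1 : 1 ≤ C := le_max_right _ _
  set D := 2 * C * (t ^ 10)⁻¹ * (1 / t) with hD
  have hev := boot_dexp (B := (2 * C + 13) * Real.log 2) (show 0 < c / 2 by linarith)
  refine le_antisymm ?_ (hF0 t ⟨ht0, ht1⟩)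
  have key : ∀ᶠ M : ℕ in atTop, F t ≤ 2 * D * Real.exp (-(M:ℝ)) := by
    filter_upwards [hev, eventually_ge_atTop 1] with M hM hM1
    have hM1' : (1:ℝ) ≤ M := by exact_mod_cast hM1
    set A := C * (M:ℝ) ^ 2 with hA
    set n := ⌈2 * A⌉₊ with hn
    have hA1 : 1 ≤ A := by rw [hA]; nlinarith
    have hn1 : 1 ≤ n := Nat.ceil_pos.2 (by linarith)
    have hnle : (n:ℝ) ≤ 2 * A + 1 := by
      have := Nat.ceil_lt_add_one (show 0 ≤ 2 * A by linarith)
      linarith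
    -- one dyadic window
    have hwin : ∀ j : ℕ, F (t * (1/2) ^ j) ≤
        2 ^ n * F (t * (1/2) ^ (j + 1)) + (1/2) ^ j * D * Real.exp (-(M:ℝ)) / (2 ^ n) ^ j := by
      intro j
      set p := t * (1/2 : ℝ) ^ (j + 1) with hp
      have hp0 : 0 < p := by positivity
      have h2p : t * (1/2 : ℝ) ^ j = 2 * p := by rw [hp, pow_succ]; ring
      have hl1 : (1/2 : ℝ) ^ j ≤ 1 := pow_le_one₀ (by norm_num) (by norm_num)
      have hq : 2 * p ≤ 1/2 := by
        rw [← h2p]; exact (mul_le_of_le_one_right ht0.le hl1).trans ht1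
      set e := C * (p ^ 10)⁻¹ * Real.exp (-(c / 2) * (2:ℝ) ^ (c / 2 * (M:ℝ) * 2 ^ j)) with he
      have he0 : 0 ≤ e := by positivity
      have hw : F (2 * p) ≤ 2 ^ n * (F p + 2 * (e / p)) := by
        refine boot_window (A := A / p) (by linarith) (by positivity)
          (fun s hs => hF0 s ⟨by linarith [hs.1], by linarith [hs.2]⟩) hn1 ?_ ?_ ?_
        · rw [show 2 * (A / p) * (2 * p - p) = 2 * A by field_simp; ring]
          exact Nat.le_ceil _
        · have : (1:ℝ) ≤ n := by exact_mod_cast hn1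
          linarith
        · intro s u hs hsu hu
          have hs0 : 0 < s := by linarith
          refine (hK M hM1 s u hs0 hsu (by linarith) (by linarith)).trans ?_
          have hFu : 0 ≤ F u := hF0 u ⟨by linarith, by linarith⟩
          have h1 : C₀ * (M:ℝ) ^ 2 * F u ≤ A * F u := by
            rw [hA]
            exact mul_le_mul_of_nonneg_right (mul_le_mul_of_nonneg_right (le_max_left _ _)
              (by positivity)) hFu
          have hy : c / 2 * (M:ℝ) * 2 ^ j ≤ c * (M:ℝ) * s ^ (-(3/2) : ℝ) := by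
            have h3 : (2:ℝ) ^ j ≤ 2 * s ^ (-(3/2) : ℝ) := by
              have h4 : (2:ℝ) ^ j ≤ s⁻¹ := by
                rw [le_inv_comm₀ (by positivity) hs0, ← inv_pow, ← one_div]
                have := mul_le_of_le_one_left (show (0:ℝ) ≤ (1/2) ^ j by positivity)
                  (show t ≤ 1 by linarith)
                linarith
              have h5 : s⁻¹ ≤ s ^ (-(3/2) : ℝ) := by
                rw [← Real.rpow_neg_one]
                exact Real.rpow_le_rpow_of_exponent_ge hs0 (by linarith) (by norm_num)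
              have : 0 ≤ s ^ (-(3/2) : ℝ) := Real.rpow_nonneg hs0.le _
              linarith
            have := mul_le_mul_of_nonneg_left h3 (show 0 ≤ c / 2 * (M:ℝ) by positivity)
            linarith
          have h2 : C₀ * (s ^ 10)⁻¹ * Real.exp (-c * (2:ℝ) ^ (c * (M:ℝ) * s ^ (-(3/2) : ℝ))) ≤ e := by
            rw [he]
            refine mul_le_mul (mul_le_mul (le_max_left _ _)
              (inv_anti₀ (by positivity) (pow_le_pow_left₀ hp0.le hs 10)) (by positivity)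
              (by linarith)) (Real.exp_le_exp.2 ?_) (Real.exp_pos _).le (by positivity)
            have := Real.rpow_le_rpow_of_exponent_le (show (1:ℝ) ≤ 2 by norm_num) hy
            have h6 : 0 ≤ (2:ℝ) ^ (c / 2 * (M:ℝ) * 2 ^ j) := Real.rpow_nonneg two_pos.le _
            have := mul_le_mul_of_nonneg_left this hc.le
            linarith [mul_nonneg hc.le h6]
          have h3 : (u - s) / s ≤ (u - s) / p := div_le_div_of_nonneg_left (by linarith) hp0 hs
          calc (u - s) / s * _ ≤ (u - s) / s * (A * F u + e) :=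
                mul_le_mul_of_nonneg_left (by linarith) (div_nonneg (by linarith) hs0.le)
            _ ≤ (u - s) / p * (A * F u + e) := mul_le_mul_of_nonneg_right h3 (by positivity)
            _ = (u - s) * (A / p * F u + e / p) := by ring
      rw [h2p]
      refine hw.trans ?_
      rw [mul_add]
      refine add_le_add le_rfl ?_
      -- the error of the window
      have hMj := hM j
      have e1 : (1/2 : ℝ) ^ j = Real.exp (-(j * Real.log 2)) := by
        rw [Real.exp_neg, Real.exp_nat_mul, Real.exp_log two_pos, ← inv_pow, one_div]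
      have e2 : ((2:ℝ) ^ n) ^ j = Real.exp (n * j * Real.log 2) := by
        rw [← pow_mul, show ((n:ℝ) * j) = ((n * j : ℕ) : ℝ) by push_cast; ring, Real.exp_nat_mul,
          Real.exp_log two_pos]
      have e3 : (p ^ 10)⁻¹ / p ≤ (t ^ 10)⁻¹ * (1/t) * Real.exp (11 * (j + 1) * Real.log 2) := by
        refine le_of_eq ?_
        rw [hp, show (11 * ((j:ℝ) + 1) * Real.log 2) = ((11 * (j + 1) : ℕ) : ℝ) * Real.log 2 by
          push_cast; ring, Real.exp_nat_mul, Real.exp_log two_pos, mul_pow, ← pow_mul, one_div,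
          inv_pow, inv_pow]
        field_simp
        ring
      rw [le_div_iff₀ (by positivity), e1, e2, hD, he]
      set X := Real.exp (-(c / 2) * (2:ℝ) ^ (c / 2 * (M:ℝ) * 2 ^ j)) with hX
      calc (2:ℝ) ^ n * (2 * (C * (p ^ 10)⁻¹ * X / p)) * Real.exp (n * j * Real.log 2)
          = 2 * C * ((p ^ 10)⁻¹ / p) * (X * ((2:ℝ) ^ n * Real.exp (n * j * Real.log 2))) := by ring
        _ ≤ 2 * C * ((t ^ 10)⁻¹ * (1/t) * Real.exp (11 * (j + 1) * Real.log 2)) *
            (X * ((2:ℝ) ^ n * Real.exp (n * j * Real.log 2))) :=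
            mul_le_mul_of_nonneg_right (mul_le_mul_of_nonneg_left e3 (by linarith)) (by positivity)
        _ = D * (Real.exp (11 * (j + 1) * Real.log 2) * X * Real.exp (n * Real.log 2) *
            Real.exp (n * j * Real.log 2)) := by
            rw [Real.exp_nat_mul, Real.exp_log two_pos, hD]; ring
        _ ≤ D * (Real.exp (-(j * Real.log 2)) * Real.exp (-(M:ℝ))) := ?_
        _ = _ := by ring
      refine mul_le_mul_of_nonneg_left ?_ (by rw [hD]; positivity)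
      rw [hX, ← Real.exp_add, ← Real.exp_add, ← Real.exp_add, ← Real.exp_add]
      refine Real.exp_le_exp.2 ?_
      have hl := Real.log_nonneg (show (1:ℝ) ≤ 2 by norm_num)
      have hj : (j:ℝ) + 1 ≤ 2 ^ j := by exact_mod_cast Nat.lt_two_pow_self
      have hj0 : (0:ℝ) ≤ j := Nat.cast_nonneg _
      have hMsq : (1:ℝ) ≤ (M:ℝ) ^ 2 := one_le_pow₀ hM1'
      have hn12 : (n:ℝ) + 12 ≤ (2 * C + 13) * (M:ℝ) ^ 2 := by rw [hA] at hnle; linarith
      have h7 : ((n:ℝ) + 12) * ((j:ℝ) + 1) * Real.log 2 ≤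
          (2 * C + 13) * (M:ℝ) ^ 2 * 2 ^ j * Real.log 2 :=
        mul_le_mul_of_nonneg_right (mul_le_mul hn12 hj (by linarith) (by positivity)) hl
      have h8 : (M:ℝ) ≤ (M:ℝ) * ((j:ℝ) + 1) := le_mul_of_one_le_right (by linarith) (by linarith)
      linarith
    have hiter : ∀ l : ℕ, F t ≤ (2 ^ n) ^ l * F (t * (1/2) ^ l) +
        (2 - 2 * (1/2) ^ l) * D * Real.exp (-(M:ℝ)) := by
      intro l
      induction l with
      | zero => simp
      | succ l ih =>
        refine ih.trans ?_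
        have h1 := mul_le_mul_of_nonneg_left (hwin l) (show (0:ℝ) ≤ (2 ^ n) ^ l by positivity)
        rw [mul_add, ← mul_assoc, ← pow_succ, mul_div_cancel₀ _ (by positivity)] at h1
        rw [pow_succ (1/2 : ℝ) l] at h1 ⊢
        linarith
    obtain ⟨CP, hCP⟩ := boot_poly hF0 hmono hzero hR (n + 1) (by omega)
    have hlim : Tendsto (fun l : ℕ => |CP| * (1/2 : ℝ) ^ l + 2 * D * Real.exp (-(M:ℝ))) atTop
        (𝓝 (|CP| * 0 + 2 * D * Real.exp (-(M:ℝ)))) :=
      ((tendsto_pow_atTop_nhds_zero_of_lt_one (by norm_num) (by norm_num)).const_mul _).add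
        tendsto_const_nhds
    rw [mul_zero, zero_add] at hlim
    refine ge_of_tendsto' hlim fun l => (hiter l).trans (add_le_add ?_ ?_)
    · have hl : t * (1/2 : ℝ) ^ l ≤ t := mul_le_of_le_one_right ht0.le
        (pow_le_one₀ (by norm_num) (by norm_num))
      calc (2 ^ n : ℝ) ^ l * F (t * (1/2) ^ l) ≤ (2 ^ n) ^ l * (CP * (t * (1/2) ^ l) ^ (n + 1)) :=
            mul_le_mul_of_nonneg_left (hCP _ ⟨by positivity, hl.trans ht1⟩) (by positivity)
        _ ≤ (2 ^ n) ^ l * (|CP| * (1 * (1/2) ^ l) ^ (n + 1)) := by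
            refine mul_le_mul_of_nonneg_left (mul_le_mul (le_abs_self CP) ?_ (by positivity)
              (abs_nonneg _)) (by positivity)
            exact pow_le_pow_left₀ (by positivity)
              (mul_le_mul_of_nonneg_right (by linarith) (by positivity)) _
        _ = |CP| * (1/2 : ℝ) ^ l := by
            rw [one_mul, ← pow_mul, ← pow_mul, Nat.mul_succ, pow_add (1/2 : ℝ), Nat.mul_comm n l]
            rw [mul_comm ((2:ℝ) ^ (l * n)), mul_assoc, mul_assoc, mul_comm ((1/2 : ℝ) ^ l),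
              ← mul_assoc ((1/2 : ℝ) ^ (l * n)), ← mul_pow]
            norm_num
    · have : 0 ≤ 2 * (1/2 : ℝ) ^ l * D * Real.exp (-(M:ℝ)) := by positivity
      linarith
  have hlim : Tendsto (fun M : ℕ => 2 * D * Real.exp (-(M:ℝ))) atTop (𝓝 (2 * D * 0)) :=
    ((Real.tendsto_exp_atBot.comp (tendsto_neg_atTop_atBot.comp tendsto_natCast_atTop_atTop))).const_mul _
  rw [mul_zero] at hlim
  exact ge_of_tendsto hlim key

/-- The bootstrap at the higher levels. -/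
theorem boot_high {F : ℝ → ℝ} {T : ℝ} (hT : 0 < T)
    (hF0 : ∀ t ∈ Set.Ioc (0:ℝ) T, 0 ≤ F t)
    (hzero : Tendsto F (𝓝[>] (0:ℝ)) (𝓝 0))
    (hK : ∃ C c : ℝ, 0 < c ∧ ∀ M : ℕ, 1 ≤ M → ∀ p t : ℝ, 0 < p → p ≤ t → t ≤ T →
      F t - F p ≤ (t - p) * (C * (M:ℝ) ^ 2 * F t + C * Real.exp (-c * (2:ℝ) ^ (c * (M:ℝ))))) :
    F T = 0 := by
  obtain ⟨C₀, c, hc, hK⟩ := hK
  set C := max C₀ 1 with hC
  have hC1 : 1 ≤ C := le_max_right _ _
  refine le_antisymm ?_ (hF0 T ⟨hT, le_rfl⟩)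
  have hev := boot_dexp (B := (2 * C + 1) * (T + 1) * Real.log 2) hc
  have key : ∀ᶠ M : ℕ in atTop, F T ≤ 2 * C * Real.exp (-(M:ℝ)) := by
    filter_upwards [hev, eventually_ge_atTop 1] with M hM hM1
    have hM1' : (1:ℝ) ≤ (M:ℝ) ^ 2 := one_le_pow₀ (by exact_mod_cast hM1)
    set A := C * (M:ℝ) ^ 2 with hA
    set n := ⌈2 * A * T + T⌉₊ with hn
    have hA0 : 0 ≤ A := by positivity
    set e := C * Real.exp (-c * (2:ℝ) ^ (c * (M:ℝ))) with he
    have hn1 : 1 ≤ n := Nat.ceil_pos.2 (by positivity)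
    have hnle : (n:ℝ) ≤ (2 * C + 1) * (T + 1) * (M:ℝ) ^ 2 := by
      have := Nat.ceil_lt_add_one (show 0 ≤ 2 * A * T + T by positivity)
      rw [← hn, hA] at this
      nlinarith
    have hwin : ∀ p, 0 < p → p ≤ T → F T ≤ 2 ^ n * (F p + 2 * e) := by
      intro p hp hpT
      have h1 : (2 * A * T + T) ≤ n := Nat.le_ceil _
      refine boot_window (A := A) hpT (by positivity)
        (fun s hs => hF0 s ⟨by linarith [hs.1], hs.2⟩) hn1 ?_ ?_ ?_
      · have : 0 ≤ 2 * A * p := by positivity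
        linarith
      · have : 0 ≤ 2 * A * T := by positivity
        linarith
      · intro s u hs hsu hu
        refine (hK M hM1 s u (by linarith) hsu hu).trans ?_
        refine mul_le_mul_of_nonneg_left (add_le_add ?_ ?_) (by linarith)
        · rw [hA]
          exact mul_le_mul_of_nonneg_right (mul_le_mul_of_nonneg_right (le_max_left _ _)
            (by positivity)) (hF0 u ⟨by linarith, hu⟩)
        · exact mul_le_mul_of_nonneg_right (le_max_left _ _) (Real.exp_pos _).le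
    have hlim : Tendsto (fun p => (2:ℝ) ^ n * (F p + 2 * e)) (𝓝[>] (0:ℝ)) (𝓝 (2 ^ n * (0 + 2 * e))) :=
      (hzero.add tendsto_const_nhds).const_mul _
    have h2 : F T ≤ 2 ^ n * (0 + 2 * e) := by
      refine ge_of_tendsto hlim ?_
      filter_upwards [Ioc_mem_nhdsGT hT] with p hp using hwin p hp.1 hp.2
    refine h2.trans ?_
    have e2 : (2:ℝ) ^ n = Real.exp (n * Real.log 2) := by
      rw [Real.exp_nat_mul, Real.exp_log two_pos]
    rw [zero_add, he, e2, show Real.exp (n * Real.log 2) * (2 * (C * Real.exp (-c * (2:ℝ) ^ (c * (M:ℝ))))) =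
      2 * C * (Real.exp (n * Real.log 2) * Real.exp (-c * (2:ℝ) ^ (c * (M:ℝ)))) by ring, ← Real.exp_add]
    refine mul_le_mul_of_nonneg_left (Real.exp_le_exp.2 ?_) (by linarith)
    have h3 := hM 0
    rw [pow_zero, mul_one, mul_one, Nat.cast_zero, zero_add, mul_one] at h3
    have h4 := mul_le_mul_of_nonneg_right hnle (Real.log_nonneg (show (1:ℝ) ≤ 2 by norm_num))
    linarith
  have hlim : Tendsto (fun M : ℕ => 2 * C * Real.exp (-(M:ℝ))) atTop (𝓝 (2 * C * 0)) :=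
    ((Real.tendsto_exp_atBot.comp (tendsto_neg_atTop_atBot.comp tendsto_natCast_atTop_atTop))).const_mul _
  rw [mul_zero] at hlim
  exact ge_of_tendsto hlim key

end Vale.Agent.P161.Crit
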