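import Vale.Agent.P161.Crit.BootBase

/-!
The refined estimate for the rate of growth of the squared difference of the two copies.
-/

namespace Vale.Agent.P161.Crit

open MeasureTheory Finset SimpleGraph

namespace Boot

/-- Exponential decay in a negative power of `v` beats every power of `v`. -/
lemma exp_decay {c : ℝ} (hc : 0 < c) (n : ℕ) : ∃ C : ℝ, 0 ≤ C ∧ ∀ v : ℝ, 0 < v → v ≤ 1 →
    Real.exp (-(c * v ^ (-(1 / 12) : ℝ))) ≤ C * v ^ n := by
  refine ⟨(Nat.factorial (12 * n) : ℝ) / c ^ (12 * n), by positivity, fun v hv _ => ?_⟩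
  set y := c * v ^ (-(1 / 12) : ℝ) with hy
  have hy0 : 0 < y := mul_pos hc (Real.rpow_pos_of_pos hv _)
  have h1 := Real.pow_div_factorial_le_exp (x := y) hy0.le (12 * n)
  have e : y ^ (12 * n) = c ^ (12 * n) / v ^ n := by
    rw [hy, mul_pow, ← Real.rpow_natCast (v ^ (-(1 / 12) : ℝ)), ← Real.rpow_mul hv.le,
      show (-(1 / 12) : ℝ) * ((12 * n : ℕ) : ℝ) = -(n : ℝ) by push_cast; ring,
      Real.rpow_neg hv.le, Real.rpow_natCast, div_eq_mul_inv]
  rw [e] at h1
  rw [Real.exp_neg]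
  refine (inv_anti₀ (by positivity) h1).trans (le_of_eq ?_)
  field_simp

variable {V : Type*} [DecidableEq V] {G : SimpleGraph V} [G.LocallyFinite] {d : ℕ}
  {θ b c0 v : ℝ} {ν : Measure ℝ} {P : Measure (Pair V)}

/-- The difference of the logarithmic slopes of the two copies on an edge. -/
noncomputable def sd (G : SimpleGraph V) [G.LocallyFinite] (θ : ℝ) (x y : V) (hh : Pair V) : ℝ :=
  psi θ (msgI G θ hh.2 x y) - psi θ (msgI G θ hh.1 x y)

/-- The difference of the averaged logarithmic slopes of the two copies. -/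
noncomputable def avgD (G : SimpleGraph V) [G.LocallyFinite] (θ : ℝ) (j : ℕ) (x y : V)
    (hh : Pair V) : ℝ :=
  avgPsi G θ hh.2 j x y - avgPsi G θ hh.1 j x y

lemma avgD_succ (j : ℕ) (x y : V) (hh : Pair V) :
    avgD G θ (j + 1) x y hh = (∑ c ∈ (G.neighborFinset x).erase y, avgD G θ j c x hh) /
      (((G.neighborFinset x).erase y).card : ℝ) := by
  simp only [avgD, avgPsi, Finset.sum_sub_distrib, sub_div]

lemma measurable_sd (x y : V) : Measurable (sd G θ x y) :=
  (measurable_psi ((measurable_msgI x y).comp measurable_snd)).sub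
    (measurable_psi ((measurable_msgI x y).comp measurable_fst))

lemma measurable_avgD (j : ℕ) (x y : V) : Measurable (avgD G θ j x y) :=
  ((measurable_avgPsi j x y).comp measurable_snd).sub
    ((measurable_avgPsi j x y).comp measurable_fst)

/-- A bound on `psi` of a magnetisation. -/
noncomputable def psiC (d : ℕ) (θ b : ℝ) : ℝ := 2 / (1 - magBound d θ b ^ 2)

lemma psiC_nonneg (S : Setup G d θ b) : 0 ≤ psiC d θ b := by
  refine div_nonneg zero_le_two ?_
  nlinarith [S.bound_lt, S.bound_nonneg]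

lemma Reg.psi_le (S : Setup G d θ b) {h : V → ℝ} (H : Reg G θ b h) (x y : V) :
    |psi θ (msgI G θ h x y)| ≤ psiC d θ b := by
  have h1 := H.msgI_le S x y
  have h2 := abs_psi_sub_le S.nonneg S.theta_lt S.bound_lt h1 (b := 0)
    (by simpa using S.bound_nonneg)
  have h3 : psi θ 0 = 0 := by simp [psi, slp]
  rw [h3, sub_zero, abs_zero, add_zero, sub_zero] at h2
  refine h2.trans (mul_le_of_le_one_right (psiC_nonneg S) ?_)
  have h4 : |msgI G θ h x y| ≤ 1 := h1.trans S.bound_lt.le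
  exact mul_le_one₀ h4 (abs_nonneg _) h4

lemma Reg.avgPsi_le (S : Setup G d θ b) {h : V → ℝ} (H : Reg G θ b h) : ∀ j x y,
    |avgPsi G θ h j x y| ≤ psiC d θ b := by
  intro j
  induction j with
  | zero => exact fun x y => H.psi_le S x y
  | succ j ih =>
    intro x y
    show |(∑ c ∈ (G.neighborFinset x).erase y, avgPsi G θ h j c x) /
      (((G.neighborFinset x).erase y).card : ℝ)| ≤ _
    rw [abs_div, Nat.abs_cast]
    refine div_le_of_le_mul₀ (Nat.cast_nonneg _) (psiC_nonneg S) ?_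
    refine (Finset.abs_sum_le_sum_abs _ _).trans ((Finset.sum_le_card_nsmul _ _ _ fun c _ =>
      ih c x).trans_eq ?_)
    rw [nsmul_eq_mul]; ring

lemma avgD_le (S : Setup G d θ b) {hh : Pair V} (H : ∀ c, Reg G θ b (cpy c hh)) (j : ℕ) (x y : V) :
    |avgD G θ j x y hh| ≤ 2 * psiC d θ b :=
  (abs_sub _ _).trans (by
    have h1 : |avgPsi G θ hh.2 j x y| ≤ _ := (H true).avgPsi_le S j x y
    have h2 : |avgPsi G θ hh.1 j x y| ≤ _ := (H false).avgPsi_le S j x y
    linarith)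

lemma sd_le (S : Setup G d θ b) {hh : Pair V} (H : ∀ c, Reg G θ b (cpy c hh)) (x y : V) :
    |sd G θ x y hh| ≤ 2 * psiC d θ b := avgD_le S H 0 x y

lemma sd_act (e : G ≃g G) (x y : V) (hh : Pair V) :
    sd G θ x y (act e hh) = sd G θ (e x) (e y) hh := by
  simp [sd, act, msgI_image]

lemma card_erase_ne (S : Setup G d θ b) {x y : V} (h : G.Adj x y) :
    (((G.neighborFinset x).erase y).card : ℝ) ≠ 0 := by
  have h1 : ((G.neighborFinset x).erase y).card = d - 1 := by
    rw [Finset.card_erase_of_mem (by rwa [mem_neighborFinset]), card_neighborFinset_eq_degree,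
      S.reg]
  have := S.deg
  rw [h1]; exact Nat.cast_ne_zero.2 (by omega)

/-- An average over descendants may be replaced by any single segment. -/
lemma integral_mul_avgD (S : Setup G d θ b) (R : Ready G θ b ν P) {g : Pair V → ℝ} {B : ℝ}
    (hgm : Measurable g) (hgb : ∀ hh, (∀ c, Reg G θ b (cpy c hh)) → |g hh| ≤ B) {T : ℝ} :
    ∀ (j : ℕ) (x y : V), G.Adj x y →
      (∀ s, IsSeg G (j + 1) s → s j = x → s (j + 1) = y →
        ∫ hh, g hh * sd G θ (s 0) (s 1) hh ∂P = T) →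
      ∫ hh, g hh * avgD G θ j x y hh ∂P = T := by
  intro j
  induction j with
  | zero =>
    intro x y hxy h
    have := h (fun i => if i = 0 then x else y) (isSeg_one (by simpa using hxy)) (by simp)
      (by simp)
    simpa [avgD, avgPsi, sd] using this
  | succ j ih =>
    intro x y hxy h
    set s := (G.neighborFinset x).erase y
    have hint : ∀ c ∈ s, Integrable (fun hh => g hh * avgD G θ j c x hh) P := fun c _ =>
      R.integrable (hgm.mul (measurable_avgD j c x)) (B * (2 * psiC d θ b)) fun hh H => by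
        rw [abs_mul]
        exact mul_le_mul (hgb hh H) (avgD_le S H j c x) (abs_nonneg _)
          ((abs_nonneg _).trans (hgb hh H))
    have e : ∀ hh, g hh * avgD G θ (j + 1) x y hh =
        (∑ c ∈ s, g hh * avgD G θ j c x hh) / (s.card : ℝ) := fun hh => by
      rw [avgD_succ, ← mul_div_assoc, Finset.mul_sum]
    simp_rw [e]
    rw [integral_div, integral_finsetSum _ hint,
      Finset.sum_congr rfl fun c hc => ih c x ?_ ?_, Finset.sum_const, nsmul_eq_mul,
      mul_div_cancel_left₀ _ (card_erase_ne S hxy)]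
    · have := (Finset.mem_erase.1 hc).2
      rw [mem_neighborFinset] at this
      exact this.symm
    · intro t ht htj htx
      have hcy := (Finset.mem_erase.1 hc).1
      have := h (ssnoc (j + 1) t y)
        (isSeg_ssnoc S.tree ht (htx ▸ hxy) fun _ he => hcy (by rw [← htj]; exact he.symm))
        (by simp [ssnoc, htx]) (by simp [ssnoc])
      simpa [ssnoc] using this

/-- The second moment of the difference of the averages decays. -/
lemma integral_avgD_sq (S : Setup G d θ b) (R : Ready G θ b ν P) (hν : VChan b c0 v ν) {C : ℝ}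
    (hC : ∀ (v : ℝ) (ν : Measure ℝ) (P : Measure (V → ℝ)),
      VChan b c0 v ν → FieldLaw G θ b ν P → ∃ m0 : ℝ, ∀ x y, G.Adj x y → ∀ j : ℕ,
        ∫ h, (avgPsi G θ h j x y - m0) ^ 2 ∂P ≤ C * θ ^ (2 * j))
    {x y : V} (hxy : G.Adj x y) (j : ℕ) :
    ∫ hh, avgD G θ j x y hh ^ 2 ∂P ≤ 4 * C * θ ^ (2 * j) := by
  have := R.prob
  obtain ⟨m0, hm0⟩ := hC v ν _ hν (R.law false)
  have hl : P.map (cpy true) = P.map (cpy false) :=
    fieldLaw_unique S.tree (R.law true) (R.law false)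
  set f := fun h : V → ℝ => (avgPsi G θ h j x y - m0) ^ 2 with hf
  have hfm : Measurable f := ((measurable_avgPsi j x y).sub_const m0).pow_const 2
  have key : ∀ c, ∫ hh, f (cpy c hh) ∂P ≤ C * θ ^ (2 * j) := fun c => by
    rw [R.integral_cpy c hfm]
    cases c
    · exact hm0 x y hxy j
    · rw [hl]; exact hm0 x y hxy j
  have hi : ∀ c, Integrable (fun hh => f (cpy c hh)) P := fun c =>
    R.integrable (hfm.comp (measurable_cpy c)) ((psiC d θ b + |m0|) ^ 2) fun hh H => by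
      rw [hf, abs_pow]
      refine pow_le_pow_left₀ (abs_nonneg _) ((abs_sub _ _).trans ?_) 2
      linarith [(H c).avgPsi_le S j x y]
  refine (R.integral_mono ?_ (((hi true).const_mul 2).add ((hi false).const_mul 2))
    fun hh _ => ?_).trans ?_
  · exact R.integrable ((measurable_avgD j x y).pow_const 2) ((2 * psiC d θ b) ^ 2)
      fun hh H => by
        rw [abs_pow]; exact pow_le_pow_left₀ (abs_nonneg _) (avgD_le S H j x y) 2
  · show avgD G θ j x y hh ^ 2 ≤ 2 * f hh.2 + 2 * f hh.1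
    simp only [hf, avgD]
    nlinarith [sq_nonneg (avgPsi G θ hh.2 j x y - m0 + (avgPsi G θ hh.1 j x y - m0))]
  · simp only [Pi.add_apply]
    rw [integral_add ((hi true).const_mul 2) ((hi false).const_mul 2), integral_const_mul,
      integral_const_mul]
    linarith [key true, key false]

lemma abs_mul_le_weighted {t : ℝ} (ht : 0 < t) (f g : ℝ) :
    |f * g| ≤ t / 2 * f ^ 2 + 1 / (2 * t) * g ^ 2 := by
  rw [abs_mul]
  have h1 := sq_nonneg (t * |f| - |g|)
  have h2 : t * |f| * |g| * 2 ≤ t ^ 2 * |f| ^ 2 + |g| ^ 2 := by nlinarith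
  rw [← sq_abs f, ← sq_abs g]
  have e : t / 2 * |f| ^ 2 + 1 / (2 * t) * |g| ^ 2 = (t ^ 2 * |f| ^ 2 + |g| ^ 2) / (2 * t) := by
    field_simp
  rw [e, le_div_iff₀ (by linarith)]
  linarith

lemma abs_integral_mul_le (R : Ready G θ b ν P) {f g : Pair V → ℝ} {B : ℝ} (hfm : Measurable f)
    (hgm : Measurable g) (hf : ∀ hh, (∀ c, Reg G θ b (cpy c hh)) → |f hh| ≤ B)
    (hg : ∀ hh, (∀ c, Reg G θ b (cpy c hh)) → |g hh| ≤ B) {t : ℝ} (ht : 0 < t) :
    |∫ hh, f hh * g hh ∂P| ≤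
      t / 2 * ∫ hh, f hh ^ 2 ∂P + 1 / (2 * t) * ∫ hh, g hh ^ 2 ∂P := by
  have i1 : Integrable (fun hh => f hh ^ 2) P := R.integrable (hfm.pow_const 2) (B ^ 2)
    fun hh H => by rw [abs_pow]; exact pow_le_pow_left₀ (abs_nonneg _) (hf hh H) 2
  have i2 : Integrable (fun hh => g hh ^ 2) P := R.integrable (hgm.pow_const 2) (B ^ 2)
    fun hh H => by rw [abs_pow]; exact pow_le_pow_left₀ (abs_nonneg _) (hg hh H) 2
  have i0 : Integrable (fun hh => f hh * g hh) P := R.integrable (hfm.mul hgm) (B * B)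
    fun hh H => by
      rw [abs_mul]
      exact mul_le_mul (hf hh H) (hg hh H) (abs_nonneg _) ((abs_nonneg _).trans (hf hh H))
  refine abs_integral_le_integral_abs.trans ?_
  refine (integral_mono i0.abs ((i1.const_mul _).add (i2.const_mul _))
    fun hh => abs_mul_le_weighted ht _ _).trans (le_of_eq ?_)
  simp only [Pi.add_apply]
  rw [integral_add (i1.const_mul _) (i2.const_mul _), integral_const_mul, integral_const_mul]

/-- Correlation of the changes of the slopes at the two ends of a segment. -/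
lemma abs_corr_le (S : Setup G d θ b) (R : Ready G θ b ν P) (hν : VChan b c0 v ν) {C : ℝ}
    (hC : ∀ (v : ℝ) (ν : Measure ℝ) (P : Measure (V → ℝ)),
      VChan b c0 v ν → FieldLaw G θ b ν P → ∃ m0 : ℝ, ∀ x y, G.Adj x y → ∀ j : ℕ,
        ∫ h, (avgPsi G θ h j x y - m0) ^ 2 ∂P ≤ C * θ ^ (2 * j))
    {n : ℕ} {x : ℕ → V} (hx : IsSeg G (n + 1) x) :
    |∫ hh, sd G θ (x 0) (x 1) hh * sd G θ (x n) (x (n + 1)) hh ∂P| ≤
      (2 * psiC d θ b ^ 2 + 2 * C) * θ ^ n := by
  have := R.prob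
  have hadj := hx.1 n (by omega)
  have hT : ∫ hh, sd G θ (x n) (x (n + 1)) hh * avgD G θ n (x n) (x (n + 1)) hh ∂P =
      ∫ hh, sd G θ (x 0) (x 1) hh * sd G θ (x n) (x (n + 1)) hh ∂P := by
    refine integral_mul_avgD S R (measurable_sd _ _) (fun hh H => sd_le S H _ _) n _ _ hadj
      fun s hs h1 h2 => ?_
    have := integral_seg_eq S R (n + 1)
      (fun s hh => sd G θ (s 0) (s 1) hh * sd G θ (s n) (s (n + 1)) hh)
      (fun s => (measurable_sd _ _).mul (measurable_sd _ _))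
      (fun s t h => funext fun hh => by
        rw [h 0 (by omega), h 1 (by omega), h n (by omega), h (n + 1) le_rfl])
      (fun e s hh => by simp only [sd_act]) hs hx
    rw [← this]
    simp only [h1, h2, mul_comm]
  rw [← hT]
  refine (abs_integral_mul_le R (measurable_sd _ _) (measurable_avgD _ _ _)
    (fun hh H => sd_le S H _ _) (fun hh H => avgD_le S H _ _ _)
    (pow_pos S.theta_pos n)).trans ?_
  have h1 : ∫ hh, sd G θ (x n) (x (n + 1)) hh ^ 2 ∂P ≤ (2 * psiC d θ b) ^ 2 := by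
    refine (R.integral_mono (R.integrable ((measurable_sd _ _).pow_const 2)
      ((2 * psiC d θ b) ^ 2) fun hh H => ?_) (integrable_const _) fun hh H => ?_).trans_eq
        (by simp : ∫ _ : Pair V, (2 * psiC d θ b) ^ 2 ∂P = (2 * psiC d θ b) ^ 2)
    · rw [abs_pow]; exact pow_le_pow_left₀ (abs_nonneg _) (sd_le S H _ _) 2
    · rw [← sq_abs]; exact pow_le_pow_left₀ (abs_nonneg _) (sd_le S H _ _) 2
  have h2 := integral_avgD_sq S R hν hC hadj n
  have ht := pow_pos S.theta_pos n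
  refine (add_le_add (mul_le_mul_of_nonneg_left h1 (by positivity))
    (mul_le_mul_of_nonneg_left h2 (by positivity))).trans (le_of_eq ?_)
  rw [pow_mul']
  field_simp
  ring

/-- The squared magnetisation of an edge against the squared difference at a vertex. -/
lemma integral_msg_uDiff (S : Setup G d θ b) (R : Ready G θ b ν P) (hν : VChan b c0 v ν) {P0 : ℕ}
    (hP0 : 1 ≤ P0) {C : ℝ}
    (hC : ∀ (v : ℝ) (ν : Measure ℝ) (P : Measure (V → ℝ)), VChan b c0 v ν → FieldLaw G θ b ν P →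
      ∀ x y, G.Adj x y → ∫ h, msgI G θ h x y ^ (2 * P0) ∂P ≤ C * v ^ P0)
    (hC0 : 0 ≤ C) (c : Bool) {x y : V} (hxy : G.Adj x y) (o z : V) :
    ∫ hh, msgI G θ (cpy c hh) x y ^ 2 * uDiff G θ hh z ^ 2 ∂P ≤
      (1 + 4 * C) * (v * (∫ hh, uDiff G θ hh o ^ 2 ∂P) ^ (1 - 1 / (P0 : ℝ))) := by
  have := R.prob
  rw [integral_uDiff_sq_eq S R o z]
  set F := ∫ hh, uDiff G θ hh z ^ 2 ∂P with hF
  have hF0 : 0 ≤ F := integral_nonneg fun hh => sq_nonneg _
  have hv := hν.pos
  have ma : Measurable fun hh : Pair V => msgI G θ (cpy c hh) x y :=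
    (measurable_msgI x y).comp (measurable_cpy c)
  have iu : Integrable (fun hh => uDiff G θ hh z ^ 2) P :=
    R.integrable ((measurable_uDiff z).pow_const 2) 4 fun hh H => by
      rw [abs_pow, sq_abs]; exact uDiff_sq_le S H z
  have ha : ∀ hh, (∀ c, Reg G θ b (cpy c hh)) → |msgI G θ (cpy c hh) x y| ≤ 1 := fun hh H =>
    ((H c).msgI_le S x y).trans S.bound_lt.le
  have ip : Integrable (fun hh => msgI G θ (cpy c hh) x y ^ (2 * P0)) P :=
    R.integrable (ma.pow_const _) 1 fun hh H => by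
      rw [abs_pow]; exact pow_le_one₀ (abs_nonneg _) (ha hh H)
  have i0 : Integrable (fun hh => msgI G θ (cpy c hh) x y ^ 2 * uDiff G θ hh z ^ 2) P :=
    R.integrable ((ma.pow_const 2).mul ((measurable_uDiff z).pow_const 2)) (1 * 4) fun hh H => by
      rw [abs_mul, abs_pow, abs_pow, sq_abs (uDiff G θ hh z)]
      exact mul_le_mul (pow_le_one₀ (abs_nonneg _) (ha hh H)) (uDiff_sq_le S H z) (sq_nonneg _)
        zero_le_one
  rcases hF0.eq_or_lt with h0 | h0
  · refine (R.integral_mono i0 iu fun hh H => ?_).trans ?_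
    · refine mul_le_of_le_one_left (sq_nonneg _) ?_
      rw [← sq_abs]; exact pow_le_one₀ (abs_nonneg _) (ha hh H)
    · rw [← hF]
      exact h0.ge.trans (mul_nonneg (by linarith)
        (mul_nonneg hv.le (Real.rpow_nonneg hF0 _)))
  set T := v * F ^ (-(1 / (P0 : ℝ))) with hT
  have hT0 : 0 < T := mul_pos hv (Real.rpow_pos_of_pos h0 _)
  have hmom : ∫ hh, msgI G θ (cpy c hh) x y ^ (2 * P0) ∂P ≤ C * v ^ P0 := by
    rw [R.integral_cpy c (f := fun h => msgI G θ h x y ^ (2 * P0))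
      ((measurable_msgI x y).pow_const _)]
    exact hC v ν _ hν (R.law c) x y hxy
  refine (R.integral_mono i0 ((iu.const_mul T).add (ip.const_mul (4 / T ^ (P0 - 1))))
    fun hh H => ?_).trans ?_
  · show _ ≤ T * uDiff G θ hh z ^ 2 + 4 / T ^ (P0 - 1) * msgI G θ (cpy c hh) x y ^ (2 * P0)
    set a := msgI G θ (cpy c hh) x y
    have hu := uDiff_sq_le S H z
    have hpos : 0 ≤ 4 / T ^ (P0 - 1) * a ^ (2 * P0) := by
      rw [pow_mul]; positivity
    rcases le_or_gt (a ^ 2) T with h | h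
    · have := mul_le_mul_of_nonneg_right h (sq_nonneg (uDiff G θ hh z))
      linarith
    · have h3 : a ^ 2 * T ^ (P0 - 1) ≤ a ^ (2 * P0) := by
        rw [show 2 * P0 = 2 + 2 * (P0 - 1) by omega, pow_add, pow_mul a 2 (P0 - 1)]
        exact mul_le_mul_of_nonneg_left (pow_le_pow_left₀ hT0.le h.le _) (sq_nonneg a)
      have h4 : a ^ 2 * 4 ≤ 4 / T ^ (P0 - 1) * a ^ (2 * P0) := by
        rw [div_mul_eq_mul_div, le_div_iff₀ (pow_pos hT0 _)]
        linarith
      have := mul_le_mul_of_nonneg_left hu (sq_nonneg a)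
      have := mul_nonneg hT0.le (sq_nonneg (uDiff G θ hh z))
      linarith
  · simp only [Pi.add_apply]
    rw [integral_add (iu.const_mul T) (ip.const_mul _), integral_const_mul, integral_const_mul,
      ← hF]
    have e1 : T * F = v * F ^ (1 - 1 / (P0 : ℝ)) := by
      rw [hT, mul_assoc, sub_eq_add_neg, add_comm, Real.rpow_add h0, Real.rpow_one]
    have e2 : T ^ (P0 - 1) * (v * F ^ (1 - 1 / (P0 : ℝ))) = v ^ P0 := by
      rw [hT, mul_pow, ← Real.rpow_natCast (F ^ (-(1 / (P0 : ℝ)))), ← Real.rpow_mul hF0,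
        show v ^ (P0 - 1) * F ^ (-(1 / (P0 : ℝ)) * ((P0 - 1 : ℕ) : ℝ)) *
          (v * F ^ (1 - 1 / (P0 : ℝ))) = v ^ (P0 - 1) * v *
          (F ^ (-(1 / (P0 : ℝ)) * ((P0 - 1 : ℕ) : ℝ)) * F ^ (1 - 1 / (P0 : ℝ))) by ring,
        ← pow_succ, show P0 - 1 + 1 = P0 by omega, ← Real.rpow_add h0, Nat.cast_sub hP0]
      have hP : (P0 : ℝ) ≠ 0 := Nat.cast_ne_zero.2 (by omega)
      rw [show -(1 / (P0 : ℝ)) * ((P0 : ℝ) - ((1 : ℕ) : ℝ)) + (1 - 1 / (P0 : ℝ)) = 0 by
        push_cast; field_simp; ring, Real.rpow_zero, mul_one]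
    have h5 : 4 / T ^ (P0 - 1) * (C * v ^ P0) = 4 * C * (v * F ^ (1 - 1 / (P0 : ℝ))) := by
      rw [← e2]; field_simp
    have := mul_le_mul_of_nonneg_left hmom (show 0 ≤ 4 / T ^ (P0 - 1) by positivity)
    rw [e1]
    linarith

/-- The second moment of the change of one slope. -/
lemma integral_sd_sq (S : Setup G d θ b) (R : Ready G θ b ν P) (hν : VChan b c0 v ν) {P0 : ℕ}
    (hP0 : 1 ≤ P0) {C : ℝ}
    (hC : ∀ (v : ℝ) (ν : Measure ℝ) (P : Measure (V → ℝ)), VChan b c0 v ν → FieldLaw G θ b ν P →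
      ∀ x y, G.Adj x y → ∫ h, msgI G θ h x y ^ (2 * P0) ∂P ≤ C * v ^ P0)
    (hC0 : 0 ≤ C) {x y : V} (hxy : G.Adj x y) (o : V) :
    ∫ hh, sd G θ x y hh ^ 2 ∂P ≤ 16 * lipC θ (magBound d θ b) ^ 2 * (1 + 4 * C) *
      (v * (∫ hh, uDiff G θ hh o ^ 2 ∂P) ^ (1 - 1 / (P0 : ℝ))) := by
  have := R.prob
  set L := lipC θ (magBound d θ b)
  set K := (1 + 4 * C) * (v * (∫ hh, uDiff G θ hh o ^ 2 ∂P) ^ (1 - 1 / (P0 : ℝ)))
  set T : Bool → V → Pair V → ℝ := fun c z hh =>
    msgI G θ (cpy c hh) x y ^ 2 * uDiff G θ hh z ^ 2 with hT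
  have hTi : ∀ c z, Integrable (T c z) P := fun c z => by
    refine R.integrable ((((measurable_msgI x y).comp (measurable_cpy c)).pow_const 2).mul
      ((measurable_uDiff z).pow_const 2)) (1 * 4) fun hh H => ?_
    rw [hT, abs_mul, abs_pow, abs_pow, sq_abs (uDiff G θ hh z)]
    exact mul_le_mul (pow_le_one₀ (abs_nonneg _) (((H c).msgI_le S x y).trans S.bound_lt.le))
      (uDiff_sq_le S H z) (sq_nonneg _) zero_le_one
  have hTb : ∀ c z, ∫ hh, T c z hh ∂P ≤ K := fun c z =>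
    integral_msg_uDiff S R hν hP0 hC hC0 c hxy o z
  have hsum : Integrable (fun hh => T false x hh + T false y hh + T true x hh + T true y hh) P :=
    (((hTi _ _).add (hTi _ _)).add (hTi _ _)).add (hTi _ _)
  refine (R.integral_mono (R.integrable ((measurable_sd _ _).pow_const 2)
    ((2 * psiC d θ b) ^ 2) fun hh H => ?_) (hsum.const_mul (4 * L ^ 2)) fun hh H => ?_).trans ?_
  · rw [abs_pow]; exact pow_le_pow_left₀ (abs_nonneg _) (sd_le S H _ _) 2
  · have ea := magI_edge S.nonneg S.theta_lt ((H false).lt_one S) (H false).conv hxy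
    have eb := magI_edge S.nonneg S.theta_lt ((H false).lt_one S) (H false).conv hxy.symm
    have ea' := magI_edge S.nonneg S.theta_lt ((H true).lt_one S) (H true).conv hxy
    have eb' := magI_edge S.nonneg S.theta_lt ((H true).lt_one S) (H true).conv hxy.symm
    have hle := psi_diff_le S.nonneg S.theta_lt S.bound_lt ((H false).msgI_le S x y)
      ((H false).msgI_le S y x) ((H true).msgI_le S x y) ((H true).msgI_le S y x)
    rw [← ea, ← eb, ← ea', ← eb'] at hle
    simp only [hT, sd, uDiff, cpy] at hle ⊢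
    set a := msgI G θ hh.1 x y
    set a' := msgI G θ hh.2 x y
    set p := magI G θ hh.2 x - magI G θ hh.1 x
    set q := magI G θ hh.2 y - magI G θ hh.1 y
    rw [← sq_abs (psi θ a' - psi θ a)]
    refine (pow_le_pow_left₀ (abs_nonneg _) hle 2).trans ?_
    rw [mul_pow, mul_pow, ← sq_abs a, ← sq_abs a', ← sq_abs p, ← sq_abs q]
    have k1 : (|a| + |a'|) ^ 2 ≤ 2 * (|a| ^ 2 + |a'| ^ 2) := by
      nlinarith [sq_nonneg (|a| - |a'|)]
    have k2 : (|p| + |q|) ^ 2 ≤ 2 * (|p| ^ 2 + |q| ^ 2) := by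
      nlinarith [sq_nonneg (|p| - |q|)]
    have := mul_le_mul_of_nonneg_left (mul_le_mul k1 k2 (sq_nonneg _) (by positivity))
      (sq_nonneg L)
    linarith
  · have i12 : Integrable (fun hh => T false x hh + T false y hh) P := (hTi _ _).add (hTi _ _)
    have i123 : Integrable (fun hh => T false x hh + T false y hh + T true x hh) P :=
      i12.add (hTi _ _)
    rw [integral_const_mul, integral_add i123 (hTi true y), integral_add i12 (hTi true x),
      integral_add (hTi false x) (hTi false y)]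
    have h4 := mul_le_mul_of_nonneg_left
      (add_le_add (add_le_add (add_le_add (hTb false x) (hTb false y)) (hTb true x)) (hTb true y))
      (show 0 ≤ 4 * L ^ 2 by positivity)
    refine h4.trans (le_of_eq ?_)
    ring

/-- The square of a sum along a segment: near pairs by the second moment, far pairs by decay. -/
lemma integral_sum_sd_sq (S : Setup G d θ b) (R : Ready G θ b ν P) {E Kc : ℝ}
    (hE : ∀ x y, G.Adj x y → ∫ hh, sd G θ x y hh ^ 2 ∂P ≤ E) (hE0 : 0 ≤ E) (hKc : 0 ≤ Kc)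
    (hcorr : ∀ n x, IsSeg G (n + 1) x →
      |∫ hh, sd G θ (x 0) (x 1) hh * sd G θ (x n) (x (n + 1)) hh ∂P| ≤ Kc * θ ^ n)
    {k : ℕ} {x : ℕ → V} (hx : IsSeg G k x) (J : ℕ) :
    ∫ hh, (∑ i ∈ range k, sd G θ (x i) (x (i + 1)) hh) ^ 2 ∂P ≤
      k * (2 * J + 1) * E + (k : ℝ) ^ 2 * (Kc * θ ^ J) := by
  set s := fun i hh => sd G θ (x i) (x (i + 1)) hh with hs
  set B := 2 * psiC d θ b
  have hint : ∀ i j, Integrable (fun hh => s i hh * s j hh) P := fun i j =>
    R.integrable ((measurable_sd _ _).mul (measurable_sd _ _)) (B * B) fun hh H => by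
      rw [hs, abs_mul]
      exact mul_le_mul (sd_le S H _ _) (sd_le S H _ _) (abs_nonneg _)
        ((abs_nonneg _).trans (sd_le S H (x i) (x (i + 1))))
  have hnear : ∀ i j, i < k → j < k → |∫ hh, s i hh * s j hh ∂P| ≤ E := fun i j hi hj => by
    refine (abs_integral_mul_le R (measurable_sd _ _) (measurable_sd _ _)
      (fun hh H => sd_le S H _ _) (fun hh H => sd_le S H _ _) one_pos).trans ?_
    linarith [hE _ _ (hx.1 i hi), hE _ _ (hx.1 j hj)]
  have hfar : ∀ i j, i < k → j < k → i + J ≤ j → |∫ hh, s i hh * s j hh ∂P| ≤ Kc * θ ^ J := by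
    intro i j hi hj hij
    have h1 := hcorr (j - i) _ (hx.sub (i := i) (l := j - i + 1) (by omega))
    simp only [add_zero, show i + (j - i) = j by omega, show i + (j - i + 1) = j + 1 by omega]
      at h1
    refine h1.trans (mul_le_mul_of_nonneg_left ?_ hKc)
    exact pow_le_pow_of_le_one S.nonneg S.theta_lt.le (by omega)
  have hterm : ∀ i ∈ range k, ∑ j ∈ range k, |∫ hh, s i hh * s j hh ∂P| ≤
      (2 * J + 1) * E + k * (Kc * θ ^ J) := by
    intro i hi
    rw [← Finset.sum_filter_add_sum_filter_not (range k) (fun j => j ≤ i + J ∧ i ≤ j + J)]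
    refine add_le_add ?_ ?_
    · refine (Finset.sum_le_card_nsmul _ _ E fun j hj => ?_).trans ?_
      · exact hnear i j (Finset.mem_range.1 hi) (Finset.mem_range.1 (Finset.mem_filter.1 hj).1)
      · rw [nsmul_eq_mul]
        refine mul_le_mul_of_nonneg_right ?_ hE0
        have : ((range k).filter fun j => j ≤ i + J ∧ i ≤ j + J) ⊆ Finset.Icc (i - J) (i + J) :=
          fun j hj => by
            have := (Finset.mem_filter.1 hj).2
            rw [Finset.mem_Icc]; omega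
        have h2 := (Finset.card_le_card this).trans_eq (Nat.card_Icc _ _)
        have h3 : ((range k).filter fun j => j ≤ i + J ∧ i ≤ j + J).card ≤ 2 * J + 1 :=
          h2.trans (by omega)
        exact_mod_cast h3
    · refine (Finset.sum_le_card_nsmul _ _ (Kc * θ ^ J) fun j hj => ?_).trans ?_
      · obtain ⟨hj1, hj2⟩ := Finset.mem_filter.1 hj
        rcases Nat.lt_or_ge (i + J) j with h | h
        · exact hfar i j (Finset.mem_range.1 hi) (Finset.mem_range.1 hj1) h.le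
        · have := hfar j i (Finset.mem_range.1 hj1) (Finset.mem_range.1 hi) (by omega)
          simpa [mul_comm] using this
      · rw [nsmul_eq_mul]
        refine mul_le_mul_of_nonneg_right ?_ (mul_nonneg hKc (pow_nonneg S.nonneg J))
        exact_mod_cast (Finset.card_filter_le _ _).trans (Finset.card_range k).le
  have e : ∀ hh, (∑ i ∈ range k, s i hh) ^ 2 = ∑ i ∈ range k, ∑ j ∈ range k, s i hh * s j hh :=
    fun hh => by rw [sq, Finset.sum_mul_sum]
  simp_rw [hs] at e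
  simp_rw [e]
  rw [integral_finsetSum _ fun i _ => integrable_finsetSum _ fun j _ => hint i j,
    Finset.sum_congr rfl fun i _ => integral_finsetSum _ fun j _ => hint i j]
  refine (Finset.sum_le_sum fun i hi => (Finset.sum_le_sum fun j _ => le_abs_self _).trans
    (hterm i hi)).trans (le_of_eq ?_)
  rw [Finset.sum_const, Finset.card_range, nsmul_eq_mul]
  ring

/-- A vertex near the root. -/
lemma integral_dTerm_near (S : Setup G d θ b) (R : Ready G θ b ν P) {E Kc : ℝ}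
    (hE : ∀ x y, G.Adj x y → ∫ hh, sd G θ x y hh ^ 2 ∂P ≤ E) (hE0 : 0 ≤ E) (hKc : 0 ≤ Kc)
    (hcorr : ∀ n x, IsSeg G (n + 1) x →
      |∫ hh, sd G θ (x 0) (x 1) hh * sd G θ (x n) (x (n + 1)) hh ∂P| ≤ Kc * θ ^ n)
    (o w : V) (N J : ℕ) (hN : G.dist o w ≤ N) :
    ∫ hh, dTerm G θ hh o w ∂P ≤ θ ^ (2 * G.dist o w) *
      ((N : ℝ) * (2 * J + 1) * E + (N : ℝ) ^ 2 * (Kc * θ ^ J) +
        2 * ∫ hh, uDiff G θ hh o ^ 2 ∂P) := by
  set k := G.dist o w with hk
  obtain ⟨hx, -, -⟩ := geod_spec S.tree o w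
  set x := geod G o w
  have hθk : 0 ≤ θ ^ (2 * k) := pow_nonneg S.nonneg _
  set Q := fun hh : Pair V => (∑ i ∈ range k, sd G θ (x i) (x (i + 1)) hh) ^ 2 with hQ
  have hQi : Integrable Q P := R.integrable
    ((Finset.measurable_sum _ fun i _ => measurable_sd _ _).pow_const 2)
    (((k : ℝ) * (2 * psiC d θ b)) ^ 2) fun hh H => by
      rw [hQ, abs_pow]
      refine pow_le_pow_left₀ (abs_nonneg _) ((Finset.abs_sum_le_sum_abs _ _).trans ?_) 2
      refine (Finset.sum_le_card_nsmul _ _ _ fun i _ => sd_le S H _ _).trans_eq ?_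
      rw [Finset.card_range, nsmul_eq_mul]
  have hui : Integrable (fun hh => uDiff G θ hh w ^ 2) P :=
    R.integrable ((measurable_uDiff w).pow_const 2) 4 fun hh H => by
      rw [abs_pow, sq_abs]; exact uDiff_sq_le S H w
  have hsum : Integrable (fun hh => Q hh + 2 * uDiff G θ hh w ^ 2) P := hQi.add (hui.const_mul 2)
  refine (R.integral_mono (R.integrable (measurable_dTerm o w) 10 fun hh H => dTerm_le S H o w)
    (hsum.const_mul (θ ^ (2 * k))) fun hh H => ?_).trans ?_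
  · have h1 : (segProd G θ hh.2 k x - segProd G θ hh.1 k x) ^ 2 ≤ Q hh :=
      prod_diff_sq_le S.nonneg S.theta_lt S.bound_lt (fun i _ => (H false).msgI_le S _ _)
        (fun i _ => (H true).msgI_le S _ _)
    obtain ⟨p0, p1⟩ : 0 ≤ segProd G θ hh.1 k x ∧ segProd G θ hh.1 k x ≤ 1 :=
      (H false).segProd_mem S k x
    obtain ⟨q0, q1⟩ : 0 ≤ segProd G θ hh.2 k x ∧ segProd G θ hh.2 k x ≤ 1 :=
      (H true).segProd_mem S k x
    have h2 := mul_le_mul_of_nonneg_right
      (add_le_add (pow_le_one₀ (n := 2) p0 p1) (pow_le_one₀ (n := 2) q0 q1))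
      (sq_nonneg (uDiff G θ hh w))
    exact mul_le_mul_of_nonneg_left (by linarith) hθk
  · rw [integral_const_mul]
    refine mul_le_mul_of_nonneg_left ?_ hθk
    rw [integral_add hQi (hui.const_mul 2), integral_const_mul, integral_uDiff_sq_eq S R o w]
    have h3 : ∫ hh, Q hh ∂P ≤ k * (2 * J + 1) * E + (k : ℝ) ^ 2 * (Kc * θ ^ J) :=
      integral_sum_sd_sq S R hE hE0 hKc hcorr hx J
    have hkN' : (k : ℝ) ≤ N := by exact_mod_cast hN
    have h4 : (k : ℝ) * (2 * J + 1) * E ≤ N * (2 * J + 1) * E := by gcongr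
    have h5 : (k : ℝ) ^ 2 * (Kc * θ ^ J) ≤ (N : ℝ) ^ 2 * (Kc * θ ^ J) :=
      mul_le_mul_of_nonneg_right (pow_le_pow_left₀ (Nat.cast_nonneg _) hkN' 2)
        (mul_nonneg hKc (pow_nonneg S.nonneg J))
    linarith

/-- A vertex far from the root. -/
lemma integral_dTerm_far (S : Setup G d θ b) (R : Ready G θ b ν P) {B : ℝ} {k : ℕ}
    (hB : ∀ c x, IsSeg G k x → ∫ hh, segProd G θ (cpy c hh) k x ∂P ≤ B)
    (o w : V) (hk : G.dist o w = k) :
    ∫ hh, dTerm G θ hh o w ∂P ≤ θ ^ (2 * k) * (10 * B) := by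
  obtain ⟨hx, -, -⟩ := geod_spec S.tree o w
  subst hk
  set k := G.dist o w with hk
  set x := geod G o w
  have hθk : 0 ≤ θ ^ (2 * k) := pow_nonneg S.nonneg _
  have hpi : ∀ c, Integrable (fun hh => segProd G θ (cpy c hh) k x) P := fun c =>
    R.integrable ((measurable_segProd k x).comp (measurable_cpy c)) 1 fun hh H => by
      obtain ⟨p0, p1⟩ := (H c).segProd_mem S k x
      rw [abs_of_nonneg p0]; exact p1
  have hsum : Integrable (fun hh => segProd G θ (cpy true hh) k x +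
      segProd G θ (cpy false hh) k x) P := (hpi true).add (hpi false)
  refine (R.integral_mono (R.integrable (measurable_dTerm o w) 10 fun hh H => dTerm_le S H o w)
    (hsum.const_mul (θ ^ (2 * k) * 5)) fun hh H => ?_).trans ?_
  · obtain ⟨p0, p1⟩ : 0 ≤ segProd G θ hh.1 k x ∧ segProd G θ hh.1 k x ≤ 1 :=
      (H false).segProd_mem S k x
    obtain ⟨q0, q1⟩ : 0 ≤ segProd G θ hh.2 k x ∧ segProd G θ hh.2 k x ≤ 1 :=
      (H true).segProd_mem S k x
    have hu := uDiff_sq_le S H w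
    show θ ^ (2 * k) * _ ≤ θ ^ (2 * k) * 5 * (segProd G θ hh.2 k x + segProd G θ hh.1 k x)
    rw [mul_assoc]
    refine mul_le_mul_of_nonneg_left ?_ hθk
    exact term_le_five p0 p1 q0 q1 hu (sq_nonneg _)
  · rw [integral_const_mul, integral_add (hpi true) (hpi false)]
    have := mul_le_mul_of_nonneg_left (add_le_add (hB true x hx) (hB false x hx))
      (show 0 ≤ θ ^ (2 * k) * 5 by positivity)
    linarith

/-- The sum of the near and far parts. -/
lemma refined_real {θ c K1 Kc D1 D2 Cs v F A e : ℝ} {L : ℕ} (hθ : 0 < θ) (hθ1 : θ < 1)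
    (hc : 0 < c) (hc2 : c ≤ 1 / 2) (hK1 : 0 ≤ K1) (hKc : 0 ≤ Kc) (hCs : 0 ≤ Cs) (hv : 0 < v)
    (hv1 : v ≤ 1) (hF0 : 0 ≤ F) (hF4 : F ≤ 4) (he0 : 0 ≤ e) (he1 : e ≤ 1)
    (hd1 : Real.exp (-(-Real.log θ * v ^ (-(1 / 12) : ℝ))) ≤ D1 * v ^ (L + 6))
    (hd2 : Real.exp (-(c * v ^ (-(1 / 12) : ℝ))) ≤ D2 * v ^ (L + 1))
    (hA : A = (⌈v ^ (-(13 / 12) : ℝ)⌉₊ : ℝ) * (2 * ⌈v ^ (-(1 / 12) : ℝ)⌉₊ + 1) *
        (K1 * (v * F ^ e)) + (⌈v ^ (-(13 / 12) : ℝ)⌉₊ : ℝ) ^ 2 *
        (Kc * θ ^ ⌈v ^ (-(1 / 12) : ℝ)⌉₊) + 2 * F) :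
    (⌈v ^ (-(13 / 12) : ℝ)⌉₊ + 1) * A +
      10 * Cs * ((1 - c * v) ^ (⌈v ^ (-(13 / 12) : ℝ)⌉₊ + 1) / (c * v)) ≤
    (30 * K1 + 24) * (v ^ (-(5 / 4) : ℝ) * F ^ e) +
      (12 * Kc * D1 + 10 * Cs / c * D2) * v ^ L := by
  set y := v ^ (-(1 / 12) : ℝ) with hy
  set z := v ^ (-(13 / 12) : ℝ) with hz
  set N := ⌈z⌉₊
  set J := ⌈y⌉₊
  have hFe : 0 ≤ F ^ e := Real.rpow_nonneg hF0 _
  have hq0 : 0 ≤ 1 - c * v := by nlinarith
  have hy1 : 1 ≤ y := Real.one_le_rpow_of_pos_of_le_one_of_nonpos hv hv1 (by norm_num)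
  have hz1 : 1 ≤ z := Real.one_le_rpow_of_pos_of_le_one_of_nonpos hv hv1 (by norm_num)
  have hNz : (N : ℝ) ≤ 2 * z := by linarith [Nat.ceil_lt_add_one (a := z) (by linarith)]
  have hJy : (J : ℝ) ≤ 2 * y := by linarith [Nat.ceil_lt_add_one (a := y) (by linarith)]
  have hzle : z ≤ v⁻¹ ^ 2 := by
    rw [hz, inv_pow, ← Real.rpow_natCast v 2, ← Real.rpow_neg hv.le]
    exact Real.rpow_le_rpow_of_exponent_ge hv hv1 (by norm_num)
  have hjd : θ ^ J ≤ D1 * v ^ (L + 6) := by
    refine le_trans ?_ hd1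
    rw [← Real.rpow_natCast θ J, show -(-Real.log θ * y) = Real.log θ * y by ring,
      ← Real.rpow_def_of_pos hθ]
    exact Real.rpow_le_rpow_of_exponent_ge hθ hθ1.le (Nat.le_ceil y)
  have hqd : (1 - c * v) ^ (N + 1) ≤ D2 * v ^ (L + 1) := by
    refine le_trans ?_ hd2
    refine (pow_le_pow_left₀ hq0 (Real.one_sub_le_exp_neg _) _).trans ?_
    rw [← Real.exp_nat_mul]
    refine Real.exp_le_exp.2 ?_
    have h1 : z ≤ ((N + 1 : ℕ) : ℝ) := by
      push_cast; linarith [Nat.le_ceil z]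
    have h2 : y = v * z := by
      have h3 : v * z = v ^ (1 : ℝ) * z := by rw [Real.rpow_one]
      rw [h3, hz, hy, ← Real.rpow_add hv]; norm_num
    rw [h2]
    nlinarith [mul_le_mul_of_nonneg_left h1 (mul_pos hc hv).le]
  have t1 : ((N : ℝ) + 1) * (N * (2 * J + 1) * (K1 * (v * F ^ e))) ≤
      30 * K1 * (v ^ (-(5 / 4) : ℝ) * F ^ e) := by
    have h1 : ((N : ℝ) + 1) * (N * (2 * J + 1)) ≤ 3 * z * (2 * z * (5 * y)) :=
      mul_le_mul (by linarith) (mul_le_mul hNz (by linarith) (by positivity) (by positivity))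
        (by positivity) (by positivity)
    have h2 : z * z * y * v = v ^ (-(5 / 4) : ℝ) := by
      have h3 : z * z * y * v = z * z * y * v ^ (1 : ℝ) := by rw [Real.rpow_one]
      rw [h3, hz, hy, ← Real.rpow_add hv, ← Real.rpow_add hv, ← Real.rpow_add hv]; norm_num
    calc ((N : ℝ) + 1) * (N * (2 * J + 1) * (K1 * (v * F ^ e)))
        = ((N : ℝ) + 1) * (N * (2 * J + 1)) * (K1 * (v * F ^ e)) := by ring
      _ ≤ 3 * z * (2 * z * (5 * y)) * (K1 * (v * F ^ e)) :=
          mul_le_mul_of_nonneg_right h1 (mul_nonneg hK1 (mul_nonneg hv.le hFe))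
      _ = 30 * K1 * ((z * z * y * v) * F ^ e) := by ring
      _ = _ := by rw [h2]
  have t2 : ((N : ℝ) + 1) * (N ^ 2 * (Kc * θ ^ J)) ≤ 12 * Kc * D1 * v ^ L := by
    have h1 : ((N : ℝ) + 1) * N ^ 2 ≤ 12 * (v⁻¹ ^ 2) ^ 3 := by
      have := mul_le_mul (show (N : ℝ) + 1 ≤ 3 * v⁻¹ ^ 2 by linarith)
        (pow_le_pow_left₀ (Nat.cast_nonneg N) (hNz.trans (by linarith : 2 * z ≤ 2 * v⁻¹ ^ 2)) 2)
        (by positivity) (by positivity)
      linarith
    calc ((N : ℝ) + 1) * (N ^ 2 * (Kc * θ ^ J))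
        = ((N : ℝ) + 1) * N ^ 2 * (Kc * θ ^ J) := by ring
      _ ≤ 12 * (v⁻¹ ^ 2) ^ 3 * (Kc * (D1 * v ^ (L + 6))) := by gcongr
      _ = 12 * Kc * D1 * v ^ L := by rw [pow_add]; field_simp
  have t3 : ((N : ℝ) + 1) * (2 * F) ≤ 24 * (v ^ (-(5 / 4) : ℝ) * F ^ e) := by
    have h5 : F ≤ 4 * F ^ e := by
      rcases hF0.eq_or_lt with h | h
      · rw [← h] at hFe ⊢; linarith
      · calc F = F ^ (1 - e) * F ^ e := by
              rw [← Real.rpow_add h, sub_add_cancel, Real.rpow_one]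
          _ ≤ 4 * F ^ e := by
              refine mul_le_mul_of_nonneg_right ?_ hFe
              calc F ^ (1 - e) ≤ (4 : ℝ) ^ (1 - e) :=
                    Real.rpow_le_rpow hF0 hF4 (by linarith)
                _ ≤ (4 : ℝ) ^ (1 : ℝ) :=
                    Real.rpow_le_rpow_of_exponent_le (by norm_num) (by linarith)
                _ = 4 := Real.rpow_one _
    have h6 : z ≤ v ^ (-(5 / 4) : ℝ) := Real.rpow_le_rpow_of_exponent_ge hv hv1 (by norm_num)
    calc ((N : ℝ) + 1) * (2 * F) ≤ 3 * v ^ (-(5 / 4) : ℝ) * (2 * (4 * F ^ e)) := by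
          refine mul_le_mul (by linarith) (by linarith) (by linarith) (by positivity)
      _ = 24 * (v ^ (-(5 / 4) : ℝ) * F ^ e) := by ring
  have t4 : 10 * Cs * ((1 - c * v) ^ (N + 1) / (c * v)) ≤ 10 * Cs / c * D2 * v ^ L := by
    calc 10 * Cs * ((1 - c * v) ^ (N + 1) / (c * v))
        ≤ 10 * Cs * (D2 * v ^ (L + 1) / (c * v)) := by gcongr
      _ = _ := by rw [pow_succ]; field_simp
  rw [hA, mul_add, mul_add]
  linarith

end Boot

open Boot

variable {V : Type*} [DecidableEq V] {G : SimpleGraph V} [G.LocallyFinite] {d : ℕ} {θ b c0 : ℝ}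

/-- The refined bound on the rate of growth of the squared difference. -/
theorem dTerm_refined (hG : G.IsTree) (hd : 3 ≤ d) (hreg : ∀ v, G.degree v = d) (h0 : 0 ≤ θ)
    (hθ : ((d : ℝ) - 1) * θ ^ 2 = 1) (hb0 : 0 ≤ b) (hb : b < 1)
    (hconv : StatConvProp G θ b) (hhigh : StatHighProp G θ b c0) (hseg : StatSegProp G θ b c0)
    (hpsi : StatPsiProp G θ b c0) :
    ∀ P0 : ℕ, 1 ≤ P0 → ∀ L : ℕ, ∃ C : ℝ, 0 < C ∧ ∀ (v : ℝ) (ν : Measure ℝ)
      (P : Measure ((V → ℝ) × (V → ℝ))), VChan b c0 v ν → PairLaw G θ b ν P →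
        ∀ (o : V) (W : Finset V), ∑ w ∈ W, ∫ hh, dTerm G θ hh o w ∂P ≤
          C * (v ^ (-(5 / 4) : ℝ) * (∫ hh, uDiff G θ hh o ^ 2 ∂P) ^ (1 - 1 / (P0 : ℝ))) +
            C * v ^ L := by
  intro P0 hP0 L
  have S : Setup G d θ b := ⟨hG, hd, hreg, h0, hθ, hb0, hb⟩
  have hθ1 := S.theta_lt
  obtain ⟨Cψ, hCψ, hψ⟩ := hpsi
  obtain ⟨Cs, cs, hCs, hcs, hcs2, hs⟩ := hseg
  obtain ⟨Ch, hCh, hh0⟩ := hhigh P0 hP0
  obtain ⟨D1, hD1, hdec1⟩ :=
    exp_decay (c := -Real.log θ) (neg_pos.2 (Real.log_neg S.theta_pos hθ1)) (L + 6)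
  obtain ⟨D2, hD2, hdec2⟩ := exp_decay hcs (L + 1)
  set Kc := 2 * psiC d θ b ^ 2 + 2 * Cψ with hKcdef
  set K1 := 16 * lipC θ (magBound d θ b) ^ 2 * (1 + 4 * Ch) with hK1def
  have hK1 : 0 ≤ K1 := by positivity
  have hKc : 0 ≤ Kc := by positivity
  set CX := 30 * K1 + 24 with hCX
  set CL := 12 * Kc * D1 + 10 * Cs / cs * D2 with hCL
  have hCX0 : 0 ≤ CX := by positivity
  have hCL0 : 0 ≤ CL := by positivity
  refine ⟨2 * CX + 2 * CL + 1, by positivity, fun v ν P hν hP o W => ?_⟩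
  have R := ready_of hconv hν hP
  have := R.prob
  have hv := hν.pos
  set e := 1 - 1 / (P0 : ℝ) with he
  set F := ∫ hh, uDiff G θ hh o ^ 2 ∂P with hF
  set N := ⌈v ^ (-(13 / 12) : ℝ)⌉₊ with hN
  set J := ⌈v ^ (-(1 / 12) : ℝ)⌉₊ with hJ
  have hF0 : 0 ≤ F := integral_nonneg fun hh => sq_nonneg _
  have hFe : 0 ≤ F ^ e := Real.rpow_nonneg hF0 _
  have hq0 : 0 ≤ 1 - cs * v := by
    linarith [mul_le_mul_of_nonneg_left hν.le_one hcs.le]
  have hF4 : F ≤ 4 := by
    refine (R.integral_mono (R.integrable ((measurable_uDiff o).pow_const 2) 4 fun hh H => ?_)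
      (integrable_const (4 : ℝ)) fun hh H => uDiff_sq_le S H o).trans_eq (by simp)
    rw [abs_pow, sq_abs]; exact uDiff_sq_le S H o
  have hE0 : 0 ≤ K1 * (v * F ^ e) := mul_nonneg hK1 (mul_nonneg hv.le hFe)
  set A := (N : ℝ) * (2 * J + 1) * (K1 * (v * F ^ e)) + (N : ℝ) ^ 2 * (Kc * θ ^ J) + 2 * F
    with hA
  have hA0 : 0 ≤ A := by
    have := pow_nonneg h0 J
    positivity
  set g : ℕ → ℝ := fun k =>
    (if k ≤ N then A else 0) + if N < k then 10 * (Cs * (1 - cs * v) ^ k) else 0 with hg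
  have hg0 : ∀ k, 0 ≤ g k := fun k => by
    have : 0 ≤ 10 * (Cs * (1 - cs * v) ^ k) := by positivity
    simp only [hg]
    split_ifs <;> linarith
  have hone : ∀ w, ∫ hh, dTerm G θ hh o w ∂P ≤ θ ^ (2 * G.dist o w) * g (G.dist o w) := by
    intro w
    rcases le_or_gt (G.dist o w) N with hkN | hkN
    · simp only [hg, if_pos hkN, if_neg (not_lt.2 hkN), add_zero, hA]
      exact integral_dTerm_near S R
        (fun a c hac => integral_sd_sq S R hν hP0 (fun v ν P a b => (hh0 v ν P a b).1)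
          hCh.le hac o)
        hE0 hKc (fun n y hy => abs_corr_le S R hν hψ hy) o w N J hkN
    · simp only [hg, if_neg (not_le.2 hkN), if_pos hkN, zero_add]
      refine integral_dTerm_far S R (fun c x hx => ?_) o w rfl
      rw [R.integral_cpy c (measurable_segProd _ x)]
      exact (hs v ν _ hν (R.law c) _ x hx).1
  set K := (W.sup fun w => G.dist o w) + 1 with hK
  refine (sum_dist_le hG hd hreg hθ o W hg0 (fun w _ => hone w) (K := K) fun w hw =>
    Nat.lt_succ_of_le (Finset.le_sup (f := fun w => G.dist o w) hw)).trans ?_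
  have hsum : ∑ k ∈ range K, g k ≤
      (N + 1) * A + 10 * Cs * ((1 - cs * v) ^ (N + 1) / (cs * v)) := by
    simp only [hg]
    rw [Finset.sum_add_distrib, ← Finset.sum_filter, ← Finset.sum_filter]
    refine add_le_add ?_ ?_
    · rw [Finset.sum_const, nsmul_eq_mul]
      refine mul_le_mul_of_nonneg_right ?_ hA0
      have h1 : ((range K).filter fun k => k ≤ N).card ≤ N + 1 :=
        (Finset.card_le_card (t := range (N + 1)) fun k hk => Finset.mem_range.2
          (Nat.lt_succ_of_le (Finset.mem_filter.1 hk).2)).trans (Finset.card_range _).le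
      exact_mod_cast h1
    · rw [← Finset.mul_sum, ← Finset.mul_sum, ← mul_assoc]
      refine mul_le_mul_of_nonneg_left ?_ (by positivity)
      refine (Finset.sum_le_sum_of_subset_of_nonneg (t := Finset.Ico (N + 1) K) (fun k hk => ?_)
        fun k _ _ => pow_nonneg hq0 k).trans ?_
      · obtain ⟨h1, h2⟩ := Finset.mem_filter.1 hk
        exact Finset.mem_Ico.2 ⟨h2, Finset.mem_range.1 h1⟩
      · refine (geom_sum_Ico_le_of_lt_one hq0 (by linarith [mul_pos hcs hv])).trans (le_of_eq ?_)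
        ring
  have hP1 : 1 / (P0 : ℝ) ≤ 1 := by
    rw [div_le_one (by positivity)]; exact_mod_cast hP0
  have hr := refined_real S.theta_pos hθ1 hcs hcs2 hK1 hKc hCs.le hv hν.le_one hF0 hF4
    (show 0 ≤ e by rw [he]; linarith)
    (show e ≤ 1 by rw [he]; linarith [show 0 ≤ 1 / (P0 : ℝ) by positivity])
    (hdec1 v hv hν.le_one) (hdec2 v hv hν.le_one) hA
  have hX0 : 0 ≤ v ^ (-(5 / 4) : ℝ) * F ^ e := mul_nonneg (Real.rpow_nonneg hv.le _) hFe
  have hvL : 0 ≤ v ^ L := pow_nonneg hv.le L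
  linarith [mul_nonneg hCX0 hvL, mul_nonneg hCL0 hX0]

end Vale.Agent.P161.Crit
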