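import Vale.Agent.P161.Crit.Aut
import Vale.Agent.P161.Sums

/-!
Extending and concatenating segments, and sums over the vertices grouped by their distance,
as used by the bootstrap estimates.
-/

namespace Vale.Agent.P161.Crit.Boot

open SimpleGraph Finset

variable {V : Type*} {G : SimpleGraph V}

/-- Prepend a vertex. -/
def scons (c : V) (x : ℕ → V) : ℕ → V
  | 0 => c
  | i + 1 => x i

/-- Append a vertex after position `n`. -/
def ssnoc (n : ℕ) (x : ℕ → V) (c : V) (i : ℕ) : V := if i ≤ n then x i else c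

/-- The path following `s` up to position `i` and then `t` backwards from position `j`. -/
def glue (i j : ℕ) (s t : ℕ → V) (m : ℕ) : V := if m ≤ i then s m else t (i + j - m)

lemma isSeg_zero (x : ℕ → V) : IsSeg G 0 x := by
  refine ⟨fun i hi => absurd hi (Nat.not_lt_zero i), fun i j hij hj => ?_⟩
  obtain rfl : j = 0 := by omega
  obtain rfl : i = 0 := by omega
  simp

lemma isSeg_congr {k : ℕ} {x y : ℕ → V} (h : ∀ i ≤ k, x i = y i) (hx : IsSeg G k x) :
    IsSeg G k y :=
  ⟨fun i hi => by rw [← h i (by omega), ← h (i + 1) hi]; exact hx.1 i hi,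
    fun i j hij hj => by rw [← h i (by omega), ← h j hj]; exact hx.2 i j hij hj⟩

lemma isSeg_one {x : ℕ → V} (h : G.Adj (x 0) (x 1)) : IsSeg G 1 x := by
  refine ⟨fun i hi => by obtain rfl : i = 0 := (by omega); exact h, fun i j hij hj => ?_⟩
  rcases Nat.eq_or_lt_of_le hij with rfl | hlt
  · simp
  · obtain rfl : i = 0 := by omega
    obtain rfl : j = 1 := by omega
    simp [dist_eq_one_iff_adj.2 h]

lemma isSeg_scons (hG : G.IsTree) {k : ℕ} {x : ℕ → V} (hx : IsSeg G k x) {c : V}
    (hc : G.Adj c (x 0)) (hne : 1 ≤ k → c ≠ x 1) : IsSeg G (k + 1) (scons c x) := by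
  refine ⟨fun i hi => ?_, fun i j hij hj => ?_⟩
  · cases i with
    | zero => exact hc
    | succ i => exact hx.1 i (by omega)
  · cases i with
    | succ i =>
      cases j with
      | zero => omega
      | succ j =>
        show G.dist (x i) (x j) = j + 1 - (i + 1)
        rw [hx.2 i j (by omega) (by omega)]; omega
    | zero =>
      cases j with
      | zero => simp [scons]
      | succ j =>
        show G.dist c (x j) = j + 1 - 0
        rcases Nat.eq_zero_or_pos j with rfl | hj0
        · simp [dist_eq_one_iff_adj.2 hc]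
        have h0 : G.dist (x 0) (x j) = j := by rw [hx.2 0 j (by omega) (by omega)]; omega
        rcases hG.dist_eq_dist_add_one_of_adj (x j) hc.symm with h | h
        · exfalso
          have h1 : G.dist (x 1) (x j) + 1 = j := by
            rw [hx.2 1 j (by omega) (by omega)]; omega
          refine hne (by omega) (closer_unique hG (u := x j) hc.symm (hx.1 0 (by omega)) ?_ ?_)
          · exact h.symm
          · rw [dist_comm, h1, dist_comm, h0]
        · rw [dist_comm, h, dist_comm, h0]; omega

lemma isSeg_ssnoc (hG : G.IsTree) {k : ℕ} {x : ℕ → V} (hx : IsSeg G k x) {c : V}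
    (hc : G.Adj (x k) c) (hne : 1 ≤ k → c ≠ x (k - 1)) : IsSeg G (k + 1) (ssnoc k x c) := by
  have h := isSeg_scons hG hx.rev (c := c) (by simpa using hc.symm) hne
  refine isSeg_congr (fun i hi => ?_) h.rev
  rcases Nat.eq_or_lt_of_le hi with rfl | hlt
  · simp [scons, ssnoc]
  · rw [show k + 1 - i = (k - i) + 1 by omega]
    show x (k - (k - i)) = _
    rw [ssnoc, if_pos (by omega), show k - (k - i) = i by omega]

lemma glue_left {i j : ℕ} {s t : ℕ → V} {m : ℕ} (h : m ≤ i) : glue i j s t m = s m := if_pos h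

lemma glue_right {i j : ℕ} {s t : ℕ → V} (h : s i = t j) {m : ℕ} (hm : m ≤ j) :
    glue i j s t (i + m) = t (j - m) := by
  rcases Nat.eq_zero_or_pos m with rfl | h0
  · simp [glue, h]
  · rw [glue, if_neg (by omega), show i + j - (i + m) = j - m by omega]

lemma isSeg_glue (hG : G.IsTree) {i j : ℕ} {s t : ℕ → V} (hs : IsSeg G i s) (ht : IsSeg G j t)
    (h : s i = t j) (hne : 1 ≤ i → 1 ≤ j → s (i - 1) ≠ t (j - 1)) :
    IsSeg G (i + j) (glue i j s t) := by
  suffices key : ∀ m ≤ j, IsSeg G (i + m) (glue i j s t) from key j le_rfl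
  intro m
  induction m with
  | zero => exact fun _ => isSeg_congr (fun a ha => (glue_left ha).symm) hs
  | succ m ih =>
    intro hm
    have hadj : G.Adj (glue i j s t (i + m)) (glue i j s t (i + (m + 1))) := by
      rw [glue_right h (by omega), glue_right h hm]
      have := (ht.1 (j - (m + 1)) (by omega)).symm
      rwa [show j - (m + 1) + 1 = j - m by omega] at this
    refine isSeg_congr (fun a ha => ?_) (isSeg_ssnoc hG (ih (by omega)) hadj fun h1 he => ?_)
    · by_cases ha' : a ≤ i + m
      · simp [ssnoc, ha']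
      · obtain rfl : a = i + (m + 1) := by omega
        simp [ssnoc]
    · rw [glue_right h hm] at he
      rcases Nat.eq_zero_or_pos m with rfl | h0
      · rw [glue_left (by omega)] at he
        exact hne (by omega) (by omega) (by simpa using he.symm)
      · rw [show i + m - 1 = i + (m - 1) by omega, glue_right h (by omega)] at he
        have := ht.2 (j - (m + 1)) (j - (m - 1)) (by omega) (by omega)
        rw [he, SimpleGraph.dist_self] at this
        omega

variable [DecidableEq V] [G.LocallyFinite]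

/-- At the critical point a function of the distance to `o`, discounted by `θ ^ (2 * dist)`,
has a sum over any finite set at most twice its sum over the possible distances. -/
lemma sum_dist_le (hG : G.IsTree) {d : ℕ} (hd : 3 ≤ d) (hreg : ∀ v, G.degree v = d) {θ : ℝ}
    (hθ : ((d : ℝ) - 1) * θ ^ 2 = 1) (o : V) (W : Finset V) {f : V → ℝ} {g : ℕ → ℝ}
    (hg : ∀ k, 0 ≤ g k) (hf : ∀ w ∈ W, f w ≤ θ ^ (2 * G.dist o w) * g (G.dist o w)) {K : ℕ}
    (hK : ∀ w ∈ W, G.dist o w < K) :
    ∑ w ∈ W, f w ≤ 2 * ∑ k ∈ Finset.range K, g k := by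
  classical
  rw [← Finset.sum_fiberwise_of_maps_to (g := fun w => G.dist o w)
    (fun w hw => Finset.mem_range.2 (hK w hw)) f, Finset.mul_sum]
  refine Finset.sum_le_sum fun k _ => ?_
  have hnn : 0 ≤ θ ^ (2 * k) * g k := mul_nonneg (by rw [pow_mul]; positivity) (hg k)
  refine (Finset.sum_le_card_nsmul _ _ (θ ^ (2 * k) * g k) fun w hw => ?_).trans ?_
  · obtain ⟨hwW, rfl⟩ := Finset.mem_filter.1 hw
    exact hf w hwW
  · rw [nsmul_eq_mul]
    have hc : (((W.filter fun w => G.dist o w = k).card : ℕ) : ℝ) ≤ 2 * ((d : ℝ) - 1) ^ k := by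
      have h1 : (W.filter fun w => G.dist o w = k).card ≤ 2 * (d - 1) ^ k :=
        (Finset.card_le_card fun w hw => (mem_sphereF hG).2 (Finset.mem_filter.1 hw).2).trans
          (card_sphereF_le hG hd hreg o k)
      have h2 : ((2 * (d - 1) ^ k : ℕ) : ℝ) = 2 * ((d : ℝ) - 1) ^ k := by
        rw [Nat.cast_mul, Nat.cast_pow, Nat.cast_sub (by omega)]; norm_num
      rw [← h2]
      exact_mod_cast h1
    refine (mul_le_mul_of_nonneg_right hc hnn).trans (le_of_eq ?_)
    calc 2 * ((d : ℝ) - 1) ^ k * (θ ^ (2 * k) * g k)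
        = 2 * (((d : ℝ) - 1) * θ ^ 2) ^ k * g k := by rw [mul_pow, ← pow_mul]; ring
      _ = 2 * g k := by rw [hθ, one_pow, mul_one]

end Vale.Agent.P161.Crit.Boot
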