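import Vale.Agent.P161.Crit.Strength

/-!
Spins by broadcasting from a root, observed through the channels of varying strength.
-/

namespace Vale.Agent.P161.Crit

open MeasureTheory SimpleGraph Finset Function
open scoped unitInterval ENNReal

variable {V : Type*} {G : SimpleGraph V} {θ : ℝ}

open Classical in
/-- The neighbour of `v` towards `o`. -/
noncomputable def parent (G : SimpleGraph V) (o v : V) : V :=
  if h : ∃ p, G.Adj v p ∧ G.dist o p + 1 = G.dist o v then h.choose else v

lemma parent_eq (hG : G.IsTree) {o v p : V} (hp : G.Adj v p) (hd : G.dist o p + 1 = G.dist o v) :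
    parent G o v = p := by
  have h : ∃ p, G.Adj v p ∧ G.dist o p + 1 = G.dist o v := ⟨p, hp, hd⟩
  rw [parent, dif_pos h]
  exact closer_unique hG h.choose_spec.1 hp h.choose_spec.2 hd

/-- The broadcast spin with fuel. -/
noncomputable def bsig (G : SimpleGraph V) (θ : ℝ) (o : V) (r : V → I) : ℕ → V → Bool
  | 0, v => decide ((r v : ℝ) < 1 / 2)
  | n + 1, v =>
    if (r v : ℝ) < (1 + θ) / 2 then bsig G θ o r n (parent G o v)
    else !(bsig G θ o r n (parent G o v))

/-- The broadcast spin. -/
noncomputable def sigmaB (G : SimpleGraph V) (θ : ℝ) (o : V) (r : V → I) (v : V) : Bool :=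
  bsig G θ o r (G.dist o v) v

lemma sigmaB_root (o : V) (r : V → I) : sigmaB G θ o r o = decide ((r o : ℝ) < 1 / 2) := by
  simp [sigmaB, bsig]

lemma sigmaB_step (hG : G.IsTree) {o v p : V} (hp : G.Adj v p)
    (hd : G.dist o p + 1 = G.dist o v) (r : V → I) :
    sigmaB G θ o r v =
      if (r v : ℝ) < (1 + θ) / 2 then sigmaB G θ o r p else !(sigmaB G θ o r p) := by
  conv_lhs => rw [sigmaB, ← hd, bsig, parent_eq hG hp hd]
  rfl

lemma measurable_bsig (o : V) : ∀ n v, Measurable fun r : V → I => bsig G θ o r n v := by
  intro n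
  induction n with
  | zero =>
    intro v
    refine measurable_to_bool ?_
    have : (fun r : V → I => bsig G θ o r 0 v) ⁻¹' {true} = {r | (r v : ℝ) < 1 / 2} := by
      ext r; simp [bsig]
    rw [this]
    exact measurableSet_lt (measurable_subtype_coe.comp (measurable_pi_apply v)) measurable_const
  | succ n ih =>
    intro v
    simp only [bsig]
    exact Measurable.ite
      (measurableSet_lt (measurable_subtype_coe.comp (measurable_pi_apply v)) measurable_const)
      (ih _) ((measurable_of_finite fun b : Bool => !b).comp (ih _))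

lemma measurable_sigmaB (o v : V) : Measurable fun r : V → I => sigmaB G θ o r v :=
  measurable_bsig o _ v

/-- The spin of `v` as a real number. -/
noncomputable def spinB (G : SimpleGraph V) (θ : ℝ) (o : V) (r : V → I) (v : V) : ℝ :=
  if sigmaB G θ o r v then 1 else -1

lemma measurable_spinB (o v : V) : Measurable fun r : V → I => spinB G θ o r v :=
  (measurable_of_finite fun b : Bool => if b then (1 : ℝ) else -1).comp (measurable_sigmaB o v)

lemma abs_spinB (o : V) (r : V → I) (v : V) : |spinB G θ o r v| = 1 := by
  unfold spinB; split_ifs <;> simp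

lemma sigmaB_congr (hG : G.IsTree) {S : Finset V} (hS : Conn G S) {o : V} (ho : o ∈ S)
    {r r' : V → I} (h : ∀ v ∈ S, r v = r' v) :
    ∀ v ∈ S, sigmaB G θ o r v = sigmaB G θ o r' v := by
  have key : ∀ n, ∀ v ∈ S, G.dist o v = n → sigmaB G θ o r v = sigmaB G θ o r' v := by
    intro n
    induction n using Nat.strong_induction_on with
    | _ n ih =>
      intro v hv hn
      by_cases hov : o = v
      · subst hov; rw [sigmaB_root, sigmaB_root, h o hv]
      · obtain ⟨p, hp, hadj, hd⟩ := hS.closer hG ho hv hov
        rw [sigmaB_step hG hadj hd, sigmaB_step hG hadj hd, ih _ (by omega) p hp rfl, h v hv]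
  exact fun v hv => key _ v hv rfl

lemma integral_step {c : ℝ} (hc0 : 0 ≤ c) (hc1 : c ≤ 1) (a b : ℝ) :
    ∫ x : I, (if (x : ℝ) < c then a else b) = c * a + (1 - c) * b := by
  set s : Set I := Set.Iio ⟨c, hc0, hc1⟩ with hs
  have e : (fun x : I => if (x : ℝ) < c then a else b) =
      fun x => s.indicator (fun _ => a - b) x + b := by
    funext x
    by_cases hx : (x : ℝ) < c
    · rw [if_pos hx, Set.indicator_of_mem (by exact hx)]; ring
    · rw [if_neg hx, Set.indicator_of_notMem (by exact hx)]; ring
  rw [e, integral_add ((integrable_const _).indicator measurableSet_Iio) (integrable_const _),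
    hs, integral_indicator measurableSet_Iio, setIntegral_const, measureReal_def,
    unitInterval.volume_Iio, integral_const, probReal_univ, smul_eq_mul, smul_eq_mul,
    ENNReal.toReal_ofReal hc0]
  ring

variable [DecidableEq V]

/-- The law of the broadcast spins on a connected set containing the root. -/
lemma integral_sigmaB (hG : G.IsTree) (h0 : 0 ≤ θ) (h1 : θ < 1) {o : V} :
    ∀ S, Conn G S → o ∈ S → ∀ φ : Finset V → ℝ,
      ∫ r, φ (S.filter fun v => sigmaB G θ o r v = true) ∂(PU V) =
        zsum G θ S (fun _ _ => 1) φ := by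
  intro S
  induction hn : S.card using Nat.strong_induction_on generalizing S with
  | _ n ih =>
    subst hn
    intro hS ho φ
    have hbd : ∀ T : Finset V, ∀ ψ : Finset V → ℝ, ∀ r : V → I,
        |ψ (T.filter fun v => sigmaB G θ o r v = true)| ≤ ∑ A ∈ T.powerset, |ψ A| := fun T ψ r =>
      Finset.single_le_sum (f := fun A => |ψ A|) (fun _ _ => abs_nonneg _)
        (Finset.mem_powerset.2 (Finset.filter_subset _ _))
    have hms : ∀ T : Finset V, ∀ ψ : Finset V → ℝ,
        Measurable fun r : V → I => ψ (T.filter fun v => sigmaB G θ o r v = true) := by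
      intro T ψ
      have h2 : Measurable fun r : V → I => fun v : T => sigmaB G θ o r v :=
        measurable_pi_lambda _ fun v => measurable_sigmaB o v
      have h3 : Measurable fun f : T → Bool =>
          ψ ((T.attach.filter fun v => f v = true).map (Function.Embedding.subtype _)) :=
        measurable_of_finite _
      have e : (fun r : V → I => ψ (T.filter fun v => sigmaB G θ o r v = true)) =
          fun r => ψ ((T.attach.filter fun v : T => sigmaB G θ o r v = true).map
            (Function.Embedding.subtype _)) := by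
        funext r
        congr 1
        ext v
        simp [and_comm]
      rw [e]
      exact h3.comp h2
    by_cases hne : ({o} : Finset V) = S
    · subst hne
      rw [zsum_singleton, PU, integral_update (volume : Measure I) o (hms _ φ) (hbd _ φ)]
      have e : ∀ (r : V → I) (x : I),
          φ (({o} : Finset V).filter fun v => sigmaB G θ o (update r o x) v = true) =
            if (x : ℝ) < 1 / 2 then φ {o} else φ ∅ := by
        intro r x
        rw [Finset.filter_singleton, sigmaB_root, update_self]
        by_cases hx : (x : ℝ) < 1 / 2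
        · rw [if_pos hx, if_pos (decide_eq_true hx)]
        · rw [if_neg hx, if_neg (by simpa using hx)]
      simp only [e, integral_step (by norm_num : (0 : ℝ) ≤ 1 / 2) (by norm_num), integral_const,
        probReal_univ, smul_eq_mul]
      ring
    obtain ⟨v, hv, hvo, p, hp, hadj, hd, huniq, hconn⟩ :=
      exists_leaf hG hS (conn_singleton o) (by simpa using ho) (Finset.mem_singleton_self o) hne
    rw [Finset.mem_singleton] at hvo
    have hoS : o ∈ S.erase v := Finset.mem_erase.2 ⟨Ne.symm hvo, ho⟩
    rw [zsum_leaf hv hp hadj huniq, ← ih _ (Finset.card_erase_lt_of_mem hv) _ rfl hconn hoS, PU,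
      integral_update (volume : Measure I) v (hms S φ) (hbd S φ)]
    refine integral_congr_ae (ae_of_all _ fun r => ?_)
    simp only
    set A := (S.erase v).filter fun u => sigmaB G θ o r u = true with hA
    have hup : ∀ (x : I) u, u ∈ S.erase v →
        sigmaB G θ o (update r v x) u = sigmaB G θ o r u := fun x u hu =>
      sigmaB_congr hG hconn hoS (fun w hw => update_of_ne (Finset.mem_erase.1 hw).1 _ _) u hu
    have hfil : ∀ x : I, (S.filter fun u => sigmaB G θ o (update r v x) u = true) =
        if (x : ℝ) < (1 + θ) / 2 then (if sigmaB G θ o r p then insert v A else A)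
        else (if sigmaB G θ o r p then A else insert v A) := by
      intro x
      have h1' : (S.erase v).filter (fun u => sigmaB G θ o (update r v x) u = true) = A :=
        Finset.filter_congr fun u hu => by rw [hup x u hu]
      conv_lhs => rw [← Finset.insert_erase hv, Finset.filter_insert, h1']
      rw [sigmaB_step hG hadj hd, update_self, hup x p hp]
      by_cases hx : (x : ℝ) < (1 + θ) / 2 <;> cases sigmaB G θ o r p <;> simp [hx]
    have hspin : spin A p = if sigmaB G θ o r p then 1 else -1 := by
      simp only [spin, hA, Finset.mem_filter, hp, true_and]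
    simp only [hfil, apply_ite φ]
    rw [integral_step (by linarith) (by linarith), hspin]
    cases sigmaB G θ o r p <;> simp <;> ring

/-- Expectations of a function of finitely many observations through arbitrary channels. -/
lemma integral_channels (w : ℕ × V → ℝ) (hw : ∀ q, |w q| < 1) :
    ∀ (P : Finset (ℕ × V)) (F : (ℕ × V → Obs) → ℝ) (C : ℝ), Measurable F → (∀ z, |F z| ≤ C) →
      (∀ z z', (∀ q ∈ P, z q = z' q) → F z = F z') →
      ∫ g, F (fun q => qObs (w q) (g q)) ∂(Pg V) =
        ∫ z, F z * ∏ q ∈ P, (1 + w q * (z q : ℝ)) ∂(P0 V) := by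
  intro P
  induction P using Finset.induction_on with
  | empty =>
    intro F C hF hC hdep
    have hc : ∀ z, F z = F zInit := fun z => hdep z _ (by simp)
    simp [hc]
  | @insert a P ha ih =>
    intro F C hF hC hdep
    have hC0 : 0 ≤ C := (abs_nonneg _).trans (hC zInit)
    set F' := fun z : ℕ × V → Obs => ∫ x, (1 + w a * (x : ℝ)) * F (update z a x) ∂nu with hF'
    have hdens : ∀ x : Obs, 0 ≤ 1 + w a * (x : ℝ) ∧ 1 + w a * (x : ℝ) ≤ 2 := fun x => by
      have h : |w a * (x : ℝ)| ≤ 1 := by
        rw [abs_mul]; exact mul_le_one₀ (hw a).le (abs_nonneg _) x.abs_le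
      constructor <;> linarith [(abs_le.1 h).1, (abs_le.1 h).2]
    have hm2 : Measurable fun p : (ℕ × V → Obs) × Obs =>
        (1 + w a * (p.2 : ℝ)) * F (update p.1 a p.2) :=
      ((measurable_subtype_coe.fun_comp measurable_snd).const_mul (w a)).const_add 1 |>.mul
        (hF.fun_comp (measurable_update2 a))
    have hb2 : ∀ z x, |(1 + w a * ((x : Obs) : ℝ)) * F (update z a x)| ≤ 2 * C := fun z x => by
      rw [abs_mul, abs_of_nonneg (hdens x).1]
      exact mul_le_mul (hdens x).2 (hC _) (abs_nonneg _) zero_le_two
    have hF'm : Measurable F' := hm2.stronglyMeasurable.integral_prod_right'.measurable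
    have hF'b : ∀ z, |F' z| ≤ 2 * C := fun z => abs_integral_le_of_bound (hb2 z)
    have hF'dep : ∀ z z', (∀ q ∈ P, z q = z' q) → F' z = F' z' := by
      intro z z' h
      refine integral_congr_ae (ae_of_all _ fun x => ?_)
      simp only
      rw [hdep (update z a x) (update z' a x) fun q hq => ?_]
      by_cases hqa : q = a
      · subst hqa; simp
      · rw [update_of_ne hqa, update_of_ne hqa]
        exact h q (Finset.mem_of_mem_insert_of_ne hq hqa)
    have hbig : Measurable fun g : ℕ × V → I => fun q => qObs (w q) (g q) :=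
      measurable_pi_lambda _ fun q => (measurable_qObs_right _).comp (measurable_pi_apply q)
    have hL : ∫ g, F (fun q => qObs (w q) (g q)) ∂(Pg V) =
        ∫ g, F' (fun q => qObs (w q) (g q)) ∂(Pg V) := by
      rw [Pg, integral_update (volume : Measure I) a
        (F := fun g : ℕ × V → I => F (fun q => qObs (w q) (g q))) (hF.fun_comp hbig)
        (fun g => hC _)]
      refine integral_congr_ae (ae_of_all _ fun g => ?_)
      simp only
      have e : ∀ x : I, (fun q => qObs (w q) (update g a x q)) =
          update (fun q => qObs (w q) (g q)) a (qObs (w a) x) := by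
        intro x
        funext q
        by_cases hqa : q = a
        · subst hqa; simp
        · simp [update_of_ne hqa]
      simp only [e, hF']
      set y : ℕ × V → Obs := fun q => qObs (w q) (g q)
      have hfy : Measurable fun x : Obs => F (update y a x) :=
        hF.fun_comp ((measurable_update2 a).fun_comp measurable_prodMk_left)
      rw [← integral_map (φ := qObs (w a)) (f := fun x : Obs => F (update y a x))
        (measurable_qObs_right _).aemeasurable hfy.aestronglyMeasurable, map_qObs (hw a)]
      rw [show (fun z : Obs => ENNReal.ofReal (1 + w a * (z : ℝ))) =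
          fun z : Obs => ((Real.toNNReal (1 + w a * (z : ℝ)) : NNReal) : ℝ≥0∞) from rfl,
        integral_withDensity_eq_integral_smul
          (((measurable_subtype_coe.const_mul (w a)).const_add 1).real_toNNReal)]
      refine integral_congr_ae (ae_of_all _ fun x => ?_)
      simp only [NNReal.smul_def, smul_eq_mul, Real.coe_toNNReal _ (hdens x).1]
    rw [hL, ih F' (2 * C) hF'm hF'b hF'dep]
    have hprodm : Measurable fun z : ℕ × V → Obs => ∏ q ∈ P, (1 + w q * (z q : ℝ)) :=
      Finset.measurable_prod _ fun q _ =>
        ((measurable_subtype_coe.comp (measurable_pi_apply q)).const_mul _).const_add _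
    have hprodb : ∀ (T : Finset (ℕ × V)) (z : ℕ × V → Obs),
        |∏ q ∈ T, (1 + w q * (z q : ℝ))| ≤ 2 ^ T.card := fun T z => by
      rw [Finset.abs_prod]
      refine (Finset.prod_le_prod (fun q _ => abs_nonneg _) fun q _ => ?_).trans_eq
        (Finset.prod_const 2)
      have h : |w q * (z q : ℝ)| ≤ 1 := by
        rw [abs_mul]; exact mul_le_one₀ (hw q).le (abs_nonneg _) (Obs.abs_le _)
      exact (abs_add_le _ _).trans (by rw [abs_one]; linarith)
    rw [P0, integral_update nu a
      (F := fun z : ℕ × V → Obs => F z * ∏ q ∈ insert a P, (1 + w q * (z q : ℝ)))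
      (hF.mul (Finset.measurable_prod _ fun q _ =>
        ((measurable_subtype_coe.comp (measurable_pi_apply q)).const_mul _).const_add _))
      (C := C * 2 ^ (insert a P).card) fun z => by
        rw [abs_mul]; exact mul_le_mul (hC z) (hprodb _ z) (abs_nonneg _) hC0]
    refine integral_congr_ae (ae_of_all _ fun z => ?_)
    simp only [hF']
    rw [← integral_mul_const]
    refine integral_congr_ae (ae_of_all _ fun x => ?_)
    simp only [Finset.prod_insert ha, update_self]
    have : ∏ q ∈ P, (1 + w q * (update z a x q : ℝ)) = ∏ q ∈ P, (1 + w q * (z q : ℝ)) :=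
      Finset.prod_congr rfl fun q hq => by rw [update_of_ne (fun h : q = a => ha (h ▸ hq))]
    rw [this]
    ring

/-- The observations produced by broadcast spins. -/
noncomputable def obsB (G : SimpleGraph V) (θ ε : ℝ) (o : V)
    (p : (ℕ × V → I) × (ℕ × V → I) × (V → I)) : (ℕ × V → I) × (ℕ × V → Obs) :=
  (p.1, fun q => qObs (strength ε p.1 q * spinB G θ o p.2.2 q.2) (p.2.1 q))

lemma measurable_obsB (ε : ℝ) (o : V) : Measurable (obsB G θ ε o) := by
  refine measurable_fst.prodMk (measurable_pi_lambda _ fun q => ?_)
  exact measurable_qObs_comp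
    (((measurable_strength q).comp measurable_fst).mul
      ((measurable_spinB o q.2).comp (measurable_snd.comp measurable_snd)))
    ((measurable_pi_apply q).comp (measurable_fst.comp measurable_snd))

/-- The law of rankings and observations. -/
noncomputable def PZ (G : SimpleGraph V) (θ ε : ℝ) (o : V) :
    Measure ((ℕ × V → I) × (ℕ × V → Obs)) :=
  ((Pg V).prod ((Pg V).prod (PU V))).map (obsB G θ ε o)

instance (G : SimpleGraph V) (θ ε : ℝ) (o : V) : IsProbabilityMeasure (PZ G θ ε o) :=
  Measure.isProbabilityMeasure_map (measurable_obsB ε o).aemeasurable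

variable {ε : ℝ}

/-- Cylinder formula on connected sets containing the root. -/
lemma cylinder_root (hG : G.IsTree) (h0 : 0 ≤ θ) (h1 : θ < 1) (hε : 0 ≤ ε) (hε1 : ε < 1) {o : V}
    {S : Finset V} (hS : Conn G S) (ho : o ∈ S) (N : ℕ)
    {F : (ℕ × V → I) × (ℕ × V → Obs) → ℝ} (hF : Measurable F) {C : ℝ} (hC : ∀ p, |F p| ≤ C)
    (hdep : ∀ U z z', (∀ q ∈ sitesUpTo S N, z q = z' q) → F (U, z) = F (U, z')) :
    ∫ p, F p ∂(PZ G θ ε o) =
      ∫ U, ∫ z, F (U, z) * den G θ ε S (sitesUpTo S N) (sc U z) ∂(P0 V) ∂(Pg V) := by
  rw [PZ, integral_map (measurable_obsB ε o).aemeasurable hF.aestronglyMeasurable,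
    integral_prod _ (integrable_of_bounded (hF.fun_comp (measurable_obsB ε o)) fun p => hC _)]
  refine integral_congr_ae (ae_of_all _ fun U => ?_)
  simp only
  rw [integral_prod_symm (fun x : (ℕ × V → I) × (V → I) => F (obsB G θ ε o (U, x)))
    (integrable_of_bounded
    (hF.fun_comp ((measurable_obsB ε o).fun_comp measurable_prodMk_left)) fun p => hC _)]
  have hw : ∀ (r : V → I) (q : ℕ × V), |strength ε U q * spinB G θ o r q.2| < 1 := fun r q => by
    rw [abs_mul, abs_spinB, mul_one]; exact lt_of_le_of_lt (abs_strength_le hε U q) hε1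
  have hFU : Measurable fun z : ℕ × V → Obs => F (U, z) := hF.fun_comp measurable_prodMk_left
  have e1 : ∀ r : V → I, ∫ g, F (obsB G θ ε o (U, g, r)) ∂(Pg V) =
      ∫ z, F (U, z) *
        lik ε (sitesUpTo S N) (sc U z) (S.filter fun v => sigmaB G θ o r v = true) ∂(P0 V) := by
    intro r
    refine (integral_channels (fun q => strength ε U q * spinB G θ o r q.2) (hw r)
      (sitesUpTo S N) (fun z => F (U, z)) C hFU (fun z => hC _) (hdep U)).trans ?_
    refine integral_congr_ae (ae_of_all _ fun z => ?_)
    simp only [lik]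
    congr 1
    refine Finset.prod_congr rfl fun q hq => ?_
    have hqS := (Finset.mem_product.1 hq).2
    rw [strength_eq, sc_coe, spinB, spin]
    by_cases hs : sigmaB G θ o r q.2 = true <;> simp [Finset.mem_filter, hqS, hs] <;> ring
  simp only [e1]
  rw [integral_sigmaB hG h0 h1 S hS ho
    (fun A => ∫ z, F (U, z) * lik ε (sitesUpTo S N) (sc U z) A ∂(P0 V))]
  unfold zsum
  simp only [Finset.prod_const_one, mul_one, ← integral_const_mul]
  have hC0 : 0 ≤ C := (abs_nonneg _).trans (hC (U, zInit))
  have hlikm : ∀ A, Measurable fun z : ℕ × V → Obs => lik ε (sitesUpTo S N) (sc U z) A := fun A => by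
    refine (Finset.measurable_prod _ fun q _ => ?_)
    exact ((measurable_subtype_coe.comp ((measurable_pi_apply q).comp
      (measurable_sc_right U))).const_mul _).const_add _
  have hlikb : ∀ A z, |lik ε (sitesUpTo S N) (sc U z) A| ≤ 2 ^ (sitesUpTo S N).card := fun A z => by
    rw [abs_of_pos (lik_pos hε hε1 _ _ A)]
    refine (Finset.prod_le_prod (fun q _ => ?_) (fun q _ => ?_)).trans_eq (Finset.prod_const 2)
    · linarith [(abs_le.1 (abs_eps_spin_le hε A q.2 (sc U z q))).1]
    · linarith [(abs_le.1 (abs_eps_spin_le hε A q.2 (sc U z q))).2]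
  have hint : ∀ A, Integrable (fun z : ℕ × V → Obs =>
      wt G θ S A * (F (U, z) * lik ε (sitesUpTo S N) (sc U z) A)) (P0 V) := fun A =>
    (integrable_of_bounded (hFU.mul (hlikm A))
      (C := C * 2 ^ (sitesUpTo S N).card) fun z => by
        rw [Pi.mul_apply, abs_mul]
        exact mul_le_mul (hC _) (hlikb A z) (abs_nonneg _) hC0).const_mul _
  rw [← integral_finsetSum _ fun A _ => hint A]
  refine integral_congr_ae (ae_of_all _ fun z => ?_)
  simp only [den, pexp, Finset.mul_sum, mul_one]
  exact Finset.sum_congr rfl fun A _ => by ring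

variable [G.LocallyFinite]

/-- Cylinder formula on every connected set. -/
lemma cylinder (hG : G.IsTree) (h0 : 0 ≤ θ) (h1 : θ < 1) (hε : 0 ≤ ε) (hε1 : ε < 1) (o : V)
    {S : Finset V} (hS : Conn G S) {v : V} (hv : v ∈ S) (N : ℕ)
    {F : (ℕ × V → I) × (ℕ × V → Obs) → ℝ} (hF : Measurable F) {C : ℝ} (hC : ∀ p, |F p| ≤ C)
    (hdep : ∀ U z z', (∀ q ∈ sitesUpTo S N, z q = z' q) → F (U, z) = F (U, z')) :
    ∫ p, F p ∂(PZ G θ ε o) =
      ∫ U, ∫ z, F (U, z) * den G θ ε S (sitesUpTo S N) (sc U z) ∂(P0 V) ∂(Pg V) := by
  set B := ballF G o (S.sup fun u => G.dist o u)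
  have hSB : S ⊆ B := fun u hu =>
    (mem_ballF hG _ _ _).2 (Finset.le_sup (f := fun u => G.dist o u) hu)
  rw [cylinder_root hG h0 h1 hε hε1 (conn_ballF hG o _) (self_mem_ballF o _) N hF hC
    (fun U z z' h => hdep U z z' fun q hq => h q (sitesUpTo_subset hSB le_rfl hq))]
  refine integral_congr_ae (ae_of_all _ fun U => ?_)
  simp only [den]
  rw [integral_margW h0 h1 hε hε1 B (F := fun z => F (U, z)) (hF.fun_comp measurable_prodMk_left)
    (fun z => hC _) (hdep U) _ (sitesUpTo_subset hSB le_rfl)]
  refine integral_congr_ae (ae_of_all _ fun z => ?_)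
  simp only
  rw [pexp_consistent hG hS hv (conn_ballF hG o _) hSB (P := sitesUpTo S N)
    (fun q hq => (Finset.mem_product.1 hq).2) (sc U z) (fun _ _ _ => rfl)]

end Vale.Agent.P161.Crit
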