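import Vale.Agent.P161.Crit.Aut

/-!
Deterministic facts on the fields of the revelation scheme: bounds, measurability, the change
of a finite-volume magnetisation over a time window as a sum of single jumps, and the Lipschitz
bound for the jumps of two configurations.
-/

namespace Vale.Agent.P161.Crit

open MeasureTheory Finset
open scoped unitInterval

variable {V : Type*} {ε : ℝ}

/-- A uniform bound on the fields up to level `k`. -/
noncomputable def fieldBound (ε : ℝ) (k : ℕ) : ℝ := 1 - ((1 - ε) / 2) ^ (k + 1)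

lemma fieldBound_lt_one (hε1 : ε < 1) (k : ℕ) : fieldBound ε k < 1 := by
  have : 0 < ((1 - ε) / 2) ^ (k + 1) := pow_pos (by linarith) _
  unfold fieldBound; linarith

lemma fieldBound_nonneg (hε : 0 ≤ ε) (hε1 : ε < 1) (k : ℕ) : 0 ≤ fieldBound ε k := by
  have : ((1 - ε) / 2) ^ (k + 1) ≤ 1 := pow_le_one₀ (by linarith) (by linarith)
  unfold fieldBound; linarith

lemma strength_mem (hε : 0 ≤ ε) (R : ℕ × V → I) (q : ℕ × V) :
    0 ≤ strength ε R q ∧ strength ε R q ≤ ε := by
  unfold strength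
  split_ifs
  · exact ⟨mul_nonneg hε (R q).2.1, mul_le_of_le_one_right hε (R q).2.2⟩
  · exact ⟨hε, le_rfl⟩

lemma abs_strength_mul_le (hε : 0 ≤ ε) (R : ℕ × V → I) (q : ℕ × V) (x : Obs) :
    |strength ε R q * (x : ℝ)| ≤ ε := by
  obtain ⟨h0, h1⟩ := strength_mem hε R q
  rw [abs_mul, abs_of_nonneg h0]
  exact (mul_le_of_le_one_right h0 x.abs_le).trans h1

lemma card_levels_le (T : ℕ × ℝ) (R : ℕ × V → I) (v : V) : (levels T R v).card ≤ T.1 + 1 := by
  unfold levels; split_ifs <;> simp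

lemma abs_field_le (hε : 0 ≤ ε) (hε1 : ε < 1) (T : ℕ × ℝ) (R : ℕ × V → I) (z : ℕ × V → Obs)
    (v : V) : |field ε T R z v| ≤ fieldBound ε T.1 := by
  refine (abs_cmb_le hε1 fun k _ => abs_strength_mul_le hε R (k, v) _).trans ?_
  have : ((1 - ε) / 2) ^ (T.1 + 1) ≤ ((1 - ε) / 2) ^ (levels T R v).card :=
    pow_le_pow_of_le_one (by linarith) (by linarith) (card_levels_le T R v)
  unfold fieldBound; linarith

lemma abs_field_lt (hε : 0 ≤ ε) (hε1 : ε < 1) (T : ℕ × ℝ) (R : ℕ × V → I) (z : ℕ × V → Obs)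
    (v : V) : |field ε T R z v| < 1 :=
  lt_of_le_of_lt (abs_field_le hε hε1 T R z v) (fieldBound_lt_one hε1 _)

lemma measurable_strengthR (q : ℕ × V) : Measurable fun R : ℕ × V → I => strength ε R q := by
  unfold strength
  split_ifs
  · exact (measurable_subtype_coe.comp (measurable_pi_apply q)).const_mul ε
  · exact measurable_const

lemma measurable_field (T : ℕ × ℝ) :
    Measurable fun x : (ℕ × V → I) × (ℕ × V → Obs) => field ε T x.1 x.2 := by
  refine measurable_pi_lambda _ fun v => ?_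
  have hterm : ∀ k, Measurable fun x : (ℕ × V → I) × (ℕ × V → Obs) =>
      strength ε x.1 (k, v) * (x.2 (k, v) : ℝ) := fun k =>
    ((measurable_strengthR (k, v)).comp measurable_fst).mul
      (measurable_subtype_coe.comp ((measurable_pi_apply (k, v)).comp measurable_snd))
  have e : (fun x : (ℕ × V → I) × (ℕ × V → Obs) => field ε T x.1 x.2 v) = fun x =>
      if (x.1 (T.1, v) : ℝ) < T.2 then
        cmb (Finset.range (T.1 + 1)) (fun k => strength ε x.1 (k, v) * (x.2 (k, v) : ℝ))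
      else cmb (Finset.range T.1) (fun k => strength ε x.1 (k, v) * (x.2 (k, v) : ℝ)) := by
    funext x; unfold field levels; split_ifs <;> rfl
  rw [e]
  refine Measurable.ite (measurableSet_lt ?_ measurable_const) (measurable_cmb _ hterm)
    (measurable_cmb _ hterm)
  exact measurable_subtype_coe.comp ((measurable_pi_apply (T.1, v)).comp measurable_fst)

/-- The fields at the strict past of the site `s`. -/
noncomputable def fldS (ε : ℝ) (s : ℕ × V) (x : (ℕ × V → I) × (ℕ × V → Obs)) : V → ℝ :=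
  field ε (s.1, (x.1 s : ℝ)) x.1 x.2

lemma measurable_fldS (s : ℕ × V) : Measurable (fldS ε s) := by
  refine measurable_pi_lambda _ fun v => ?_
  have hterm : ∀ k, Measurable fun x : (ℕ × V → I) × (ℕ × V → Obs) =>
      strength ε x.1 (k, v) * (x.2 (k, v) : ℝ) := fun k =>
    ((measurable_strengthR (k, v)).comp measurable_fst).mul
      (measurable_subtype_coe.comp ((measurable_pi_apply (k, v)).comp measurable_snd))
  have e : (fun x : (ℕ × V → I) × (ℕ × V → Obs) => fldS ε s x v) = fun x =>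
      if (x.1 (s.1, v) : ℝ) < (x.1 s : ℝ) then
        cmb (Finset.range (s.1 + 1)) (fun k => strength ε x.1 (k, v) * (x.2 (k, v) : ℝ))
      else cmb (Finset.range s.1) (fun k => strength ε x.1 (k, v) * (x.2 (k, v) : ℝ)) := by
    funext x; unfold fldS field levels; split_ifs <;> rfl
  rw [e]
  exact Measurable.ite (measurableSet_lt
    (measurable_subtype_coe.comp ((measurable_pi_apply (s.1, v)).comp measurable_fst))
    (measurable_subtype_coe.comp ((measurable_pi_apply s).comp measurable_fst)))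
    (measurable_cmb _ hterm) (measurable_cmb _ hterm)

lemma field_eq_of_levels {T T' : ℕ × ℝ} {R : ℕ × V → I} {z : ℕ × V → Obs} {v : V}
    (h : levels T R v = levels T' R v) : field ε T R z v = field ε T' R z v := by
  unfold field; rw [h]

lemma levels_eq_of_iff {k : ℕ} {p p' : ℝ} {R : ℕ × V → I} {v : V}
    (h : ((R (k, v) : ℝ) < p ↔ (R (k, v) : ℝ) < p')) : levels (k, p) R v = levels (k, p') R v := by
  by_cases hp : (R (k, v) : ℝ) < p <;> simp [levels, hp, ← h]

/-- The change of the magnetisation of `w` caused by the field `ξ`. -/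
noncomputable def amp (m ξ : ℝ) : ℝ := (1 - m ^ 2) * ξ / (1 + m * ξ)

lemma amp_zero (m : ℝ) : amp m 0 = 0 := by simp [amp]

lemma abs_amp_le {m ξ : ℝ} (hm : |m| ≤ 1) (hξ : |ξ| ≤ 1 / 2) : |amp m ξ| ≤ 2 * |ξ| := by
  have hd : 1 / 2 ≤ 1 + m * ξ := by
    have : |m * ξ| ≤ 1 / 2 := by
      rw [abs_mul]; exact (mul_le_of_le_one_left (abs_nonneg ξ) hm).trans hξ
    linarith [(abs_le.1 this).1]
  have hm2 : |1 - m ^ 2| ≤ 1 := by
    have : m ^ 2 ≤ 1 := by rw [← sq_abs]; exact pow_le_one₀ (abs_nonneg m) hm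
    rw [abs_le]; constructor <;> nlinarith
  rw [amp, abs_div, abs_mul, abs_of_pos (a := 1 + m * ξ) (by linarith),
    div_le_iff₀ (by linarith)]
  calc |1 - m ^ 2| * |ξ| ≤ 2 * |ξ| * (1 / 2) := by
        linarith [mul_le_of_le_one_left (abs_nonneg ξ) hm2]
    _ ≤ 2 * |ξ| * (1 + m * ξ) := mul_le_mul_of_nonneg_left hd (by positivity)

lemma amp_sub_le {m m' ξ ξ' : ℝ} (hm : |m| ≤ 1) (hm' : |m'| ≤ 1) (hξ : |ξ| ≤ 1 / 2)
    (hξ' : |ξ'| ≤ 1 / 2) :
    |amp m' ξ' - amp m ξ| ≤ 16 * |ξ'| * |m' - m| + 4 * |ξ' - ξ| := by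
  have hd : ∀ a b : ℝ, |a| ≤ 1 → |b| ≤ 1 / 2 → 1 / 2 ≤ 1 + a * b := fun a b ha hb => by
    have : |a * b| ≤ 1 / 2 := by
      rw [abs_mul]; exact (mul_le_of_le_one_left (abs_nonneg b) ha).trans hb
    linarith [(abs_le.1 this).1]
  have d1 := hd m ξ hm hξ
  have d2 := hd m ξ' hm hξ'
  have d3 := hd m' ξ' hm' hξ'
  have e1 : amp m ξ' - amp m ξ = (1 - m ^ 2) * (ξ' - ξ) / ((1 + m * ξ) * (1 + m * ξ')) := by
    unfold amp; rw [div_sub_div _ _ (by linarith) (by linarith)]; congr 1 <;> ring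
  have e2 : amp m' ξ' - amp m ξ' =
      (m' - m) * (ξ' * (-(m + m') - ξ' - m * m' * ξ')) / ((1 + m * ξ') * (1 + m' * ξ')) := by
    unfold amp; rw [div_sub_div _ _ (by linarith) (by linarith)]; congr 1 <;> ring
  have hm2 : |1 - m ^ 2| ≤ 1 := by
    have : m ^ 2 ≤ 1 := by rw [← sq_abs]; exact pow_le_one₀ (abs_nonneg m) hm
    rw [abs_le]; constructor <;> nlinarith
  have k1 : |amp m ξ' - amp m ξ| ≤ 4 * |ξ' - ξ| := by
    have hpos : (0:ℝ) < (1 + m * ξ) * (1 + m * ξ') := mul_pos (by linarith) (by linarith)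
    rw [e1, abs_div, abs_mul, abs_of_pos hpos, div_le_iff₀ hpos]
    calc |1 - m ^ 2| * |ξ' - ξ| ≤ 4 * |ξ' - ξ| * (1 / 2 * (1 / 2)) := by
          linarith [mul_le_of_le_one_left (abs_nonneg (ξ' - ξ)) hm2]
      _ ≤ _ := mul_le_mul_of_nonneg_left (mul_le_mul d1 d2 (by norm_num) (by linarith))
          (by positivity)
  have k2 : |amp m' ξ' - amp m ξ'| ≤ 16 * |ξ'| * |m' - m| := by
    have hb : |(-(m + m') - ξ' - m * m' * ξ')| ≤ 4 := by
      have : |m * m' * ξ'| ≤ 1 := by
        rw [abs_mul, abs_mul]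
        exact mul_le_one₀ (mul_le_one₀ hm (abs_nonneg _) hm') (abs_nonneg _) (hξ'.trans (by norm_num))
      obtain ⟨a1, a2⟩ := abs_le.1 this
      obtain ⟨b1, b2⟩ := abs_le.1 hm
      obtain ⟨c1, c2⟩ := abs_le.1 hm'
      obtain ⟨g1, g2⟩ := abs_le.1 hξ'
      rw [abs_le]; constructor <;> linarith
    have hpos : (0:ℝ) < (1 + m * ξ') * (1 + m' * ξ') := mul_pos (by linarith) (by linarith)
    rw [e2, abs_div, abs_mul, abs_mul, abs_of_pos hpos, div_le_iff₀ hpos]
    calc |m' - m| * (|ξ'| * |(-(m + m') - ξ' - m * m' * ξ')|) ≤ |m' - m| * (|ξ'| * 4) :=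
          mul_le_mul_of_nonneg_left (mul_le_mul_of_nonneg_left hb (abs_nonneg _)) (abs_nonneg _)
      _ = 16 * |ξ'| * |m' - m| * (1 / 2 * (1 / 2)) := by ring
      _ ≤ _ := mul_le_mul_of_nonneg_left (mul_le_mul d2 d3 (by norm_num) (by linarith))
          (by positivity)
  linarith [abs_sub_le (amp m' ξ') (amp m ξ') (amp m ξ)]

/-- Lipschitz bound for two jumps. -/
lemma jump_sub_sq_le {a b m m' ξ ξ' e u : ℝ} (hm : |m| ≤ 1) (hm' : |m'| ≤ 1)
    (he : |e| ≤ 1 / 2) (hξ : |ξ| ≤ |e|) (hξ' : |ξ'| ≤ |e|) (hd : |ξ' - ξ| ≤ |e| * |u|) :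
    (b * amp m' ξ' - a * amp m ξ) ^ 2 ≤
      1000 * e ^ 2 * ((b - a) ^ 2 + a ^ 2 * ((m' - m) ^ 2 + u ^ 2)) := by
  have h1 : |amp m' ξ'| ≤ 2 * |e| := (abs_amp_le hm' (hξ'.trans he)).trans (by linarith)
  have h2 : |amp m' ξ' - amp m ξ| ≤ |e| * (16 * |m' - m| + 4 * |u|) := by
    refine (amp_sub_le hm hm' (hξ.trans he) (hξ'.trans he)).trans ?_
    have := mul_le_mul_of_nonneg_right hξ' (abs_nonneg (m' - m))
    linarith
  have h3 : |b * amp m' ξ' - a * amp m ξ| ≤
      |e| * (2 * |b - a| + |a| * (16 * |m' - m| + 4 * |u|)) := by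
    rw [show b * amp m' ξ' - a * amp m ξ =
      (b - a) * amp m' ξ' + a * (amp m' ξ' - amp m ξ) by ring]
    refine (abs_add_le _ _).trans ?_
    rw [abs_mul, abs_mul]
    have := mul_le_mul_of_nonneg_left h1 (abs_nonneg (b - a))
    have := mul_le_mul_of_nonneg_left h2 (abs_nonneg a)
    linarith
  rw [← sq_abs (b * amp m' ξ' - a * amp m ξ)]
  refine (pow_le_pow_left₀ (abs_nonneg _) h3 2).trans ?_
  rw [mul_pow, sq_abs, ← sq_abs (b - a), ← sq_abs a, ← sq_abs (m' - m), ← sq_abs u]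
  generalize |b - a| = A
  generalize |a| = B
  generalize |m' - m| = C
  generalize |u| = D
  have : (2 * A + B * (16 * C + 4 * D)) ^ 2 ≤ 1000 * (A ^ 2 + B ^ 2 * (C ^ 2 + D ^ 2)) := by
    nlinarith [sq_nonneg (2 * A - B * (16 * C + 4 * D)), sq_nonneg (B * (16 * C - 4 * D)),
      sq_nonneg A, sq_nonneg (B * C), sq_nonneg (B * D)]
  calc e ^ 2 * (2 * A + B * (16 * C + 4 * D)) ^ 2
      ≤ e ^ 2 * (1000 * (A ^ 2 + B ^ 2 * (C ^ 2 + D ^ 2))) :=
        mul_le_mul_of_nonneg_left this (sq_nonneg e)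
    _ = _ := by ring

variable [DecidableEq V] (G : SimpleGraph V) [G.LocallyFinite] (θ : ℝ)

/-- The jump of the magnetisation of `o` in volume `S` at the revelation of `s`. -/
noncomputable def jmp (ε : ℝ) (S : Finset V) (o : V) (s : ℕ × V)
    (x : (ℕ × V → I) × (ℕ × V → Obs)) : ℝ :=
  θ ^ G.dist o s.2 * segProd G θ (mask S (fldS ε s x)) (G.dist o s.2) (geod G o s.2) *
    amp (magI G θ (mask S (fldS ε s x)) s.2) (strength ε x.1 s * (x.2 s : ℝ))

lemma measurable_jmp (S : Finset V) (o : V) (s : ℕ × V) : Measurable (jmp G θ ε S o s) := by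
  have hf : Measurable fun x : (ℕ × V → I) × (ℕ × V → Obs) => mask S (fldS ε s x) :=
    (measurable_mask S).comp (measurable_fldS s)
  have hm : Measurable fun x : (ℕ × V → I) × (ℕ × V → Obs) =>
      magI G θ (mask S (fldS ε s x)) s.2 := (measurable_magI s.2).comp hf
  have hξ : Measurable fun x : (ℕ × V → I) × (ℕ × V → Obs) =>
      strength ε x.1 s * (x.2 s : ℝ) :=
    ((measurable_strengthR s).comp measurable_fst).mul
      (measurable_subtype_coe.comp ((measurable_pi_apply s).comp measurable_snd))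
  unfold jmp amp
  exact (((measurable_segProd _ _).comp hf).const_mul _).mul
    ((((hm.pow_const 2).const_sub 1).mul hξ).div ((hm.mul hξ).const_add 1))

variable {G θ}

lemma abs_jmp_le (h0 : 0 ≤ θ) (h1 : θ < 1) (hε : 0 ≤ ε) (hε2 : ε ≤ 1 / 2) {S : Finset V}
    (o : V) (s : ℕ × V) (x : (ℕ × V → I) × (ℕ × V → Obs)) :
    |jmp G θ ε S o s x| ≤ 2 * |strength ε x.1 s| * θ ^ G.dist o s.2 *
      segProd G θ (mask S (fldS ε s x)) (G.dist o s.2) (geod G o s.2) := by
  have hh : ∀ v, |mask S (fldS ε s x) v| < 1 :=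
    abs_mask_lt fun v _ => abs_field_lt hε (by linarith) _ _ _ v
  obtain ⟨hP0, -⟩ := segProd_mem (G := G) h0 h1 hh (G.dist o s.2) (geod G o s.2)
  have hξ := abs_strength_mul_le hε x.1 s (x.2 s)
  have hmag : |magI G θ (mask S (fldS ε s x)) s.2| ≤ 1 :=
    abs_limsup_le fun n => (abs_mag_lt h0 h1 hh n s.2).le
  have hA := abs_amp_le hmag (hξ.trans hε2)
  have he : |strength ε x.1 s * (x.2 s : ℝ)| ≤ |strength ε x.1 s| := by
    rw [abs_mul]; exact mul_le_of_le_one_right (abs_nonneg _) (Obs.abs_le _)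
  rw [jmp, abs_mul, abs_mul, abs_of_nonneg (pow_nonneg h0 _), abs_of_nonneg hP0]
  calc θ ^ G.dist o s.2 * segProd G θ (mask S (fldS ε s x)) (G.dist o s.2) (geod G o s.2) *
        |amp (magI G θ (mask S (fldS ε s x)) s.2) (strength ε x.1 s * (x.2 s : ℝ))|
      ≤ θ ^ G.dist o s.2 * segProd G θ (mask S (fldS ε s x)) (G.dist o s.2) (geod G o s.2) *
        (2 * |strength ε x.1 s|) := by
        refine mul_le_mul_of_nonneg_left (hA.trans ?_) (mul_nonneg (pow_nonneg h0 _) hP0)
        linarith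
    _ = _ := by ring

/-- Over a time window the magnetisation changes by the sum of the jumps of the window. -/
lemma telescope (hG : G.IsTree) (h0 : 0 ≤ θ) (h1 : θ < 1) (hε : 0 ≤ ε) (hε1 : ε < 1)
    (S : Finset V) (o : V) (k : ℕ) {x : (ℕ × V → I) × (ℕ × V → Obs)}
    (hinj : Set.InjOn (fun v => x.1 (k, v)) S) {p1 : ℝ} :
    ∀ p2, p1 ≤ p2 →
      magI G θ (mask S (field ε (k, p2) x.1 x.2)) o -
        magI G θ (mask S (field ε (k, p1) x.1 x.2)) o =
      ∑ w ∈ S, if p1 ≤ (x.1 (k, w) : ℝ) ∧ (x.1 (k, w) : ℝ) < p2 then jmp G θ ε S o (k, w) x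
        else 0 := by
  intro p2
  induction hn : (S.filter fun w => p1 ≤ (x.1 (k, w) : ℝ) ∧ (x.1 (k, w) : ℝ) < p2).card
      using Nat.strong_induction_on generalizing p2 with
  | _ n ih =>
    subst hn
    intro hp
    set W := S.filter fun w => p1 ≤ (x.1 (k, w) : ℝ) ∧ (x.1 (k, w) : ℝ) < p2
    rw [← Finset.sum_filter]
    show _ = ∑ a ∈ W, jmp G θ ε S o (k, a) x
    rcases W.eq_empty_or_nonempty with hW | hW
    · rw [hW, Finset.sum_empty]
      have : mask S (field ε (k, p2) x.1 x.2) = mask S (field ε (k, p1) x.1 x.2) := by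
        funext v
        unfold mask
        split_ifs with hv
        · refine field_eq_of_levels (levels_eq_of_iff ⟨fun h => ?_, fun h => lt_of_lt_of_le h hp⟩)
          by_contra h'
          have : v ∈ W := Finset.mem_filter.2 ⟨hv, not_lt.1 h', h⟩
          rw [hW] at this
          exact Finset.notMem_empty v this
        · rfl
      rw [this, sub_self]
    · obtain ⟨w, hw, hmax⟩ := Finset.exists_max_image W (fun w => (x.1 (k, w) : ℝ)) hW
      obtain ⟨hwS, hw1, hw2⟩ := Finset.mem_filter.1 hw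
      set u : ℝ := (x.1 (k, w) : ℝ) with hu
      have hsplit : W = insert w (S.filter fun v => p1 ≤ (x.1 (k, v) : ℝ) ∧ (x.1 (k, v) : ℝ) < u) := by
        ext v
        simp only [Finset.mem_insert, Finset.mem_filter, W]
        constructor
        · rintro ⟨hv, a, b⟩
          by_cases hvw : v = w
          · exact Or.inl hvw
          refine Or.inr ⟨hv, a, lt_of_le_of_ne (hmax v (Finset.mem_filter.2 ⟨hv, a, b⟩)) fun he => ?_⟩
          exact hvw (hinj hv hwS (Subtype.ext he))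
        · rintro (rfl | ⟨hv, a, b⟩)
          · exact ⟨hwS, hw1, hw2⟩
          · exact ⟨hv, a, b.trans hw2⟩
      have hnot : w ∉ S.filter fun v => p1 ≤ (x.1 (k, v) : ℝ) ∧ (x.1 (k, v) : ℝ) < u := by
        simp [hu]
      have IH := ih _ (by rw [hsplit, Finset.card_insert_of_notMem hnot]; omega) u rfl hw1
      rw [← Finset.sum_filter] at IH
      rw [hsplit, Finset.sum_insert hnot, ← IH]
      set H := mask S (field ε (k, u) x.1 x.2) with hH
      set H' := mask S (field ε (k, p2) x.1 x.2) with hH'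
      set ξ := strength ε x.1 (k, w) * (x.2 (k, w) : ℝ) with hξdef
      have hH1 : ∀ v, |H v| < 1 := abs_mask_lt fun v _ => abs_field_lt hε hε1 _ _ _ v
      have hξ : |ξ| < 1 := lt_of_le_of_lt (abs_strength_mul_le hε _ _ _) hε1
      obtain ⟨hs, hs0, hsk⟩ := geod_spec hG o w
      have hchange := magI_jump hG h0 h1 (h := H) (h' := H') hH1 (convAdj_mask hG S _)
        (convAdj_mask hG S _) hs (ξ := ξ) hξ ?_ ?_
      · rw [hs0, hsk] at hchange
        have e : fldS ε (k, w) x = field ε (k, u) x.1 x.2 := rfl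
        simp only [jmp, amp, e]
        rw [← hH, ← hchange]
        ring
      · rw [hsk]
        simp only [hH, hH', mask, if_pos hwS, field, levels]
        rw [if_pos hw2, if_neg (lt_irrefl _), Finset.range_add_one,
          cmb_insert Finset.notMem_range_self
            (lt_of_le_of_lt (abs_strength_mul_le hε x.1 (k, w) (x.2 (k, w))) hε1)
            fun j _ => lt_of_le_of_lt (abs_strength_mul_le hε x.1 (j, w) (x.2 (j, w))) hε1,
          mrg_comm]
      · intro v hv
        rw [hsk] at hv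
        simp only [hH, hH', mask]
        split_ifs with hvS
        · refine field_eq_of_levels (levels_eq_of_iff ⟨fun h => ?_, fun h => h.trans hw2⟩)
          by_contra h'
          push Not at h'
          have hvW : v ∈ W := Finset.mem_filter.2 ⟨hvS, hw1.trans h', h⟩
          exact hv (hinj hvS hwS (Subtype.ext (le_antisymm (hmax v hvW) h')))
        · rfl

end Vale.Agent.P161.Crit
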