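import Vale.Agent.P161.Crit.Broadcast

/-!
Posterior means at the strict past of a site along exhausting volumes: martingale convergence,
convergence in mean, and the limiting innovations.
-/

namespace Vale.Agent.P161.Crit

open MeasureTheory SimpleGraph Finset Function Filter
open scoped unitInterval Topology

variable {V : Type*} [DecidableEq V] {G : SimpleGraph V} {θ ε : ℝ}

/-- The posterior mean at the strict past of `s` in volume `S`. -/
noncomputable def meanS (G : SimpleGraph V) (θ ε : ℝ) (S : Finset V) (s : ℕ × V)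
    (ω : (ℕ × V → I) × (ℕ × V → Obs)) : ℝ :=
  mean G θ ε S (beforeR ω.1 S s) (sc ω.1 ω.2) s.2

/-- The innovation of `s` in volume `S`. -/
noncomputable def innovS (G : SimpleGraph V) (θ ε : ℝ) (S : Finset V) (s : ℕ × V)
    (ω : (ℕ × V → I) × (ℕ × V → Obs)) : I :=
  innovW G θ ε ω.1 S ω.2 s

lemma measurable_meanS (S : Finset V) (s : ℕ × V) : Measurable (meanS G θ ε S s) :=
  measurable_meanW2 S s s.2

lemma abs_meanS_le (h0 : 0 ≤ θ) (h1 : θ < 1) (hε : 0 ≤ ε) (hε1 : ε < 1) (S : Finset V)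
    (s : ℕ × V) (ω : (ℕ × V → I) × (ℕ × V → Obs)) : |meanS G θ ε S s ω| ≤ 1 :=
  abs_mean_le h0 h1 hε hε1 _ _ _ _

variable [G.LocallyFinite]

/-- The posterior mean at the strict past of `s`. -/
noncomputable def mInf (G : SimpleGraph V) [G.LocallyFinite] (θ ε : ℝ) (s : ℕ × V)
    (ω : (ℕ × V → I) × (ℕ × V → Obs)) : ℝ :=
  limsup (fun n => meanS G θ ε (ballF G s.2 n) s ω) atTop

/-- The innovation of `s`. -/
noncomputable def gInf (G : SimpleGraph V) [G.LocallyFinite] (θ ε : ℝ) (s : ℕ × V)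
    (ω : (ℕ × V → I) × (ℕ × V → Obs)) : I :=
  Set.projIcc 0 1 zero_le_one (cdfObs (strength ε ω.1 s * mInf G θ ε s ω) (ω.2 s))

/-- Rankings together with the innovations. -/
noncomputable def toPQ (G : SimpleGraph V) [G.LocallyFinite] (θ ε : ℝ)
    (ω : (ℕ × V → I) × (ℕ × V → Obs)) : (ℕ × V → I) × (ℕ × V → I) :=
  (ω.1, fun s => gInf G θ ε s ω)

lemma measurable_mInf (s : ℕ × V) : Measurable (mInf G θ ε s) :=
  Measurable.limsup fun n => measurable_meanS (ballF G s.2 n) s

lemma measurable_gInf (s : ℕ × V) : Measurable (gInf G θ ε s) := by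
  refine continuous_projIcc.measurable.comp ?_
  have h1 : Measurable fun ω : (ℕ × V → I) × (ℕ × V → Obs) => strength ε ω.1 s * mInf G θ ε s ω :=
    ((measurable_strength s).comp measurable_fst).mul (measurable_mInf s)
  have h2 : Measurable fun ω : (ℕ × V → I) × (ℕ × V → Obs) => (ω.2 s : ℝ) :=
    measurable_subtype_coe.comp ((measurable_pi_apply s).comp measurable_snd)
  unfold cdfObs
  exact ((h2.add_const 1).div_const 2).add ((h1.mul ((h2.pow_const 2).sub_const 1)).div_const 4)

lemma measurable_toPQ : Measurable (toPQ G θ ε) :=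
  measurable_fst.prodMk (measurable_pi_lambda _ fun s => measurable_gInf s)

omit [G.LocallyFinite] in
lemma meanS_image (e : G ≃g G) (S : Finset V) (k : ℕ) (v : V) (U : ℕ × V → I) (z : ℕ × V → Obs) :
    meanS G θ ε (S.image e) (k, e v)
        (fun q => U (q.1, e.symm q.2), fun q => z (q.1, e.symm q.2)) =
      meanS G θ ε S (k, v) (U, z) := by
  simp only [meanS]
  have hb : beforeR (fun q => U (q.1, e.symm q.2)) (S.image e) (k, e v) =
      (beforeR U S (k, v)).image (fun q => (q.1, e q.2)) := by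
    ext ⟨i, w⟩
    obtain ⟨w, rfl⟩ := e.surjective w
    simp [mem_beforeR, past, lev, e.injective.eq_iff]
  have hsc : sc (fun q => U (q.1, e.symm q.2)) (fun q => z (q.1, e.symm q.2)) =
      fun q => sc U z (q.1, e.symm q.2) := by
    funext q
    exact Subtype.ext (by simp [sc_coe, wgt])
  rw [hb, hsc, mean_image]

/-- Exact equivariance. -/
lemma toPQ_image (e : G ≃g G) (U : ℕ × V → I) (z : ℕ × V → Obs) :
    toPQ G θ ε (fun q => U (q.1, e.symm q.2), fun q => z (q.1, e.symm q.2)) =
      (fun q => U (q.1, e.symm q.2), fun q => (toPQ G θ ε (U, z)).2 (q.1, e.symm q.2)) := by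
  refine Prod.ext rfl (funext fun q => ?_)
  obtain ⟨k, w⟩ := q
  obtain ⟨v, rfl⟩ := e.surjective w
  simp only [toPQ, gInf, mInf, RelIso.symm_apply_apply, ← ballF_image e v, meanS_image]
  simp [strength]

/-- Rankings and the observations strictly before `s` inside `S`. -/
noncomputable def pastObs (S : Finset V) (s : ℕ × V) (ω : (ℕ × V → I) × (ℕ × V → Obs)) :
    (ℕ × V → I) × (ℕ × V → Obs) :=
  (ω.1, fun q => if q ∈ beforeR ω.1 S s then ω.2 q else zInit q)

omit [G.LocallyFinite] in
lemma measurable_pastObs (S : Finset V) (s : ℕ × V) : Measurable (pastObs S s) := by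
  refine measurable_fst.prodMk (measurable_pi_lambda _ fun q => ?_)
  by_cases hq : q ∈ sitesUpTo S s.1
  · have e : (fun ω : (ℕ × V → I) × (ℕ × V → Obs) => if q ∈ beforeR ω.1 S s then ω.2 q else zInit q) =
        fun ω => if past (lev ω.1 s.1) q s then ω.2 q else zInit q := by
      funext ω
      simp [beforeR, before, hq]
    rw [e]
    exact Measurable.ite (((measurable_lev s.1).comp measurable_fst) (measurableSet_past q s))
      ((measurable_pi_apply q).comp measurable_snd) measurable_const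
  · have e : (fun ω : (ℕ × V → I) × (ℕ × V → Obs) => if q ∈ beforeR ω.1 S s then ω.2 q else zInit q) =
        fun _ => zInit q := by
      funext ω
      simp [beforeR, before, hq]
    rw [e]
    exact measurable_const

omit [G.LocallyFinite] in
lemma pastObs_pastObs {S S' : Finset V} (h : S ⊆ S') (s : ℕ × V)
    (ω : (ℕ × V → I) × (ℕ × V → Obs)) : pastObs S s (pastObs S' s ω) = pastObs S s ω := by
  refine Prod.ext rfl (funext fun q => ?_)
  simp only [pastObs]
  by_cases hq : q ∈ beforeR ω.1 S s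
  · simp [hq, beforeR_mono h s hq]
  · simp [hq]

omit [G.LocallyFinite] in
lemma meanS_pastObs (S : Finset V) (s : ℕ × V) (ω : (ℕ × V → I) × (ℕ × V → Obs)) :
    meanS G θ ε S s (pastObs S s ω) = meanS G θ ε S s ω :=
  meanW_congr (fun q hq => by
    have hq' : q ∈ beforeR ω.1 S s := hq
    simp [pastObs, hq']) _

/-- A function of the strict past in `S` sees the same mean in a larger volume. -/
lemma integral_mul_meanS (hG : G.IsTree) (h0 : 0 ≤ θ) (h1 : θ < 1) (hε : 0 ≤ ε) (hε1 : ε < 1)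
    (o : V) {S S' : Finset V} (hS : Conn G S) (hS' : Conn G S') (hSS' : S ⊆ S') {s : ℕ × V}
    (hs : s.2 ∈ S) {H : (ℕ × V → I) × (ℕ × V → Obs) → ℝ} (hH : Measurable H) {C : ℝ}
    (hC : ∀ ω, |H ω| ≤ C) (hdep : ∀ ω, H (pastObs S s ω) = H ω) :
    ∫ ω, H ω * meanS G θ ε S' s ω ∂(PZ G θ ε o) = ∫ ω, H ω * meanS G θ ε S s ω ∂(PZ G θ ε o) := by
  have hHd : ∀ U z z', (∀ q ∈ beforeR U S s, z q = z' q) → H (U, z) = H (U, z') := by
    intro U z z' h
    rw [← hdep (U, z), ← hdep (U, z')]
    congr 1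
    refine Prod.ext rfl (funext fun q => ?_)
    simp only [pastObs]
    by_cases hq : q ∈ beforeR U S s
    · simp [hq, h q hq]
    · simp [hq]
  have hmd : ∀ T : Finset V, ∀ U z z', (∀ q ∈ beforeR U T s, z q = z' q) →
      meanS G θ ε T s (U, z) = meanS G θ ε T s (U, z') := fun T U z z' h => meanW_congr h _
  have hb : ∀ T : Finset V, ∀ ω, |H ω * meanS G θ ε T s ω| ≤ C * 1 := fun T ω => by
    rw [abs_mul]
    exact mul_le_mul (hC ω) (abs_meanS_le h0 h1 hε hε1 T s ω) (abs_nonneg _)
      ((abs_nonneg _).trans (hC ω))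
  have hsub : ∀ U, beforeR U S s ⊆ sitesUpTo S' s.1 := fun U =>
    beforeR_subset_sites.trans (sitesUpTo_subset hSS' le_rfl)
  rw [cylinder hG h0 h1 hε hε1 o hS' (hSS' hs) s.1 (F := fun ω => H ω * meanS G θ ε S' s ω)
      (hH.mul (measurable_meanS S' s)) (hb S')
      (fun U z z' h => by
        rw [hHd U z z' (fun q hq => h q (hsub U hq)),
          hmd S' U z z' (fun q hq => h q (beforeR_subset_sites hq))]),
    cylinder hG h0 h1 hε hε1 o hS' (hSS' hs) s.1 (F := fun ω => H ω * meanS G θ ε S s ω)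
      (hH.mul (measurable_meanS S s)) (hb S)
      (fun U z z' h => by
        rw [hHd U z z' (fun q hq => h q (hsub U hq)),
          hmd S U z z' (fun q hq => h q (hsub U hq))])]
  refine integral_congr_ae (ae_of_all _ fun U => ?_)
  simp only [den]
  have hHU : Measurable fun z : ℕ × V → Obs => H (U, z) := hH.fun_comp measurable_prodMk_left
  have hmU : ∀ T : Finset V, Measurable fun z : ℕ × V → Obs => meanS G θ ε T s (U, z) := fun T =>
    (measurable_meanS T s).fun_comp measurable_prodMk_left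
  rw [integral_margW h0 h1 hε hε1 S' (F := fun z => H (U, z) * meanS G θ ε S' s (U, z))
      (hHU.mul (hmU S')) (fun z => hb S' (U, z)) (P := beforeR U S' s)
      (fun z z' h => by
        rw [hHd U z z' (fun q hq => h q (beforeR_mono hSS' s hq)), hmd S' U z z' h])
      _ beforeR_subset_sites,
    integral_margW h0 h1 hε hε1 S' (F := fun z => H (U, z) * meanS G θ ε S s (U, z))
      (hHU.mul (hmU S)) (fun z => hb S (U, z)) (P := beforeR U S s)
      (fun z z' h => by rw [hHd U z z' h, hmd S U z z' h]) _ (hsub U)]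
  have e1 : ∀ (T : Finset V) (z : ℕ × V → Obs),
      H (U, z) * meanS G θ ε T s (U, z) * pexp G θ ε T (beforeR U T s) (sc U z) (fun _ => 1) =
        H (U, z) * pexp G θ ε T (beforeR U T s) (sc U z) (fun A => spin A s.2) := by
    intro T z
    have := (den_pos (G := G) h0 h1 hε hε1 T (beforeR U T s) (sc U z)).ne'
    simp only [meanS, mean, den] at this ⊢
    field_simp
  simp only [e1]
  rw [integral_margW h0 h1 hε hε1 S' (F := fun z => H (U, z)) hHU (fun z => hC _) (hHd U) _
    (beforeR_mono hSS' s)]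
  refine integral_congr_ae (ae_of_all _ fun z => ?_)
  have hP : ∀ q ∈ beforeR U S s, q.2 ∈ S := fun q hq => (mem_beforeR.1 hq).1
  simp only
  rw [pexp_consistent hG hS hs hS' hSS' hP (sc U z) (φ := fun _ => 1) (fun _ _ _ => rfl),
    pexp_consistent hG hS hs hS' hSS' hP (sc U z) (φ := fun A => spin A s.2)
      (fun A v hv => spin_insert_of_ne (fun h : s.2 = v => hv (h ▸ hs)))]
  exact (e1 S z).symm

lemma integrable_meanS_mul (h0 : 0 ≤ θ) (h1 : θ < 1) (hε : 0 ≤ ε) (hε1 : ε < 1) (o : V)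
    (S S' : Finset V) (s : ℕ × V) :
    Integrable (fun ω => meanS G θ ε S s ω * meanS G θ ε S' s ω) (PZ G θ ε o) :=
  integrable_of_bounded ((measurable_meanS S s).mul (measurable_meanS S' s)) (C := 1) fun ω => by
    rw [abs_mul]
    exact mul_le_one₀ (abs_meanS_le h0 h1 hε hε1 S s ω) (abs_nonneg _)
      (abs_meanS_le h0 h1 hε hε1 S' s ω)

/-- The tower property. -/
lemma integral_sq_meanS (hG : G.IsTree) (h0 : 0 ≤ θ) (h1 : θ < 1) (hε : 0 ≤ ε) (hε1 : ε < 1)
    (o : V) {S S' : Finset V} (hS : Conn G S) (hS' : Conn G S') (hSS' : S ⊆ S') {s : ℕ × V}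
    (hs : s.2 ∈ S) :
    ∫ ω, (meanS G θ ε S' s ω - meanS G θ ε S s ω) ^ 2 ∂(PZ G θ ε o) =
      ∫ ω, meanS G θ ε S' s ω ^ 2 ∂(PZ G θ ε o) - ∫ ω, meanS G θ ε S s ω ^ 2 ∂(PZ G θ ε o) := by
  have i := integrable_meanS_mul (G := G) (V := V) h0 h1 hε hε1 o
  have e : (fun ω => (meanS G θ ε S' s ω - meanS G θ ε S s ω) ^ 2) = fun ω =>
      meanS G θ ε S' s ω * meanS G θ ε S' s ω + meanS G θ ε S s ω * meanS G θ ε S s ω -
        2 * (meanS G θ ε S s ω * meanS G θ ε S' s ω) := by
    funext ω; ring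
  rw [e, integral_sub ((i S' S' s).fun_add (i S S s)) ((i S S' s).const_mul 2),
    integral_add (i S' S' s) (i S S s), integral_const_mul,
    integral_mul_meanS hG h0 h1 hε hε1 o hS hS' hSS' hs (H := meanS G θ ε S s)
      (measurable_meanS S s) (abs_meanS_le h0 h1 hε hε1 S s) (meanS_pastObs S s)]
  simp only [← sq]
  ring

/-- Almost sure convergence along an increasing sequence of volumes. -/
lemma exists_tendsto_meanS (hG : G.IsTree) (h0 : 0 ≤ θ) (h1 : θ < 1) (hε : 0 ≤ ε) (hε1 : ε < 1)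
    (o : V) {S : ℕ → Finset V} (hS : ∀ n, Conn G (S n)) (hmono : Monotone S) {s : ℕ × V}
    (hs : ∀ n, s.2 ∈ S n) :
    ∀ᵐ ω ∂(PZ G θ ε o), ∃ c, Tendsto (fun n => meanS G θ ε (S n) s ω) atTop (𝓝 c) := by
  let ℱ : Filtration ℕ (inferInstance : MeasurableSpace ((ℕ × V → I) × (ℕ × V → Obs))) :=
    { seq := fun n => MeasurableSpace.comap (pastObs (S n) s) inferInstance
      mono' := by
        intro i j hij
        simp only
        have e : pastObs (S i) s = pastObs (S i) s ∘ pastObs (S j) s := by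
          funext ω; exact (pastObs_pastObs (hmono hij) s ω).symm
        rw [e, ← MeasurableSpace.comap_comp]
        exact MeasurableSpace.comap_mono (measurable_pastObs (S i) s).comap_le
      le' := fun n => (measurable_pastObs (S n) s).comap_le }
  have hadp : StronglyAdapted ℱ fun n => meanS G θ ε (S n) s := by
    intro n
    have : meanS G θ ε (S n) s = meanS G θ ε (S n) s ∘ pastObs (S n) s := by
      funext ω; exact (meanS_pastObs (S n) s ω).symm
    simp only
    rw [this]
    exact ((measurable_meanS (S n) s).comp (comap_measurable _)).stronglyMeasurable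
  have hint : ∀ n, Integrable (meanS G θ ε (S n) s) (PZ G θ ε o) := fun n =>
    integrable_of_bounded (measurable_meanS _ _) (abs_meanS_le h0 h1 hε hε1 _ _)
  have hmart : Martingale (fun n => meanS G θ ε (S n) s) ℱ (PZ G θ ε o) := by
    refine martingale_of_setIntegral_eq_succ hadp hint fun i A hA => ?_
    obtain ⟨B, hB, rfl⟩ := hA
    set H := fun ω : (ℕ × V → I) × (ℕ × V → Obs) => B.indicator (fun _ => (1 : ℝ)) (pastObs (S i) s ω)
      with hH
    have hHm : Measurable H := (measurable_const.indicator hB).comp (measurable_pastObs _ _)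
    have hAm : MeasurableSet (pastObs (S i) s ⁻¹' B) := measurable_pastObs _ _ hB
    have e : ∀ T, ∫ ω in pastObs (S i) s ⁻¹' B, meanS G θ ε T s ω ∂(PZ G θ ε o) =
        ∫ ω, H ω * meanS G θ ε T s ω ∂(PZ G θ ε o) := by
      intro T
      rw [← integral_indicator hAm]
      refine integral_congr_ae (ae_of_all _ fun ω => ?_)
      by_cases hω : pastObs (S i) s ω ∈ B
      · simp only [hH, Set.indicator_of_mem hω, Set.indicator_of_mem (show ω ∈ pastObs (S i) s ⁻¹' B
          from hω), one_mul]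
      · simp only [hH, Set.indicator_of_notMem hω,
          Set.indicator_of_notMem (show ω ∉ pastObs (S i) s ⁻¹' B from hω), zero_mul]
    rw [e, e]
    refine (integral_mul_meanS hG h0 h1 hε hε1 o (hS i) (hS (i + 1)) (hmono i.le_succ) (hs i) hHm
      (C := 1) (fun ω => ?_) fun ω => ?_).symm
    · simp only [hH]
      by_cases hω : pastObs (S i) s ω ∈ B <;> simp [hω]
    · simp only [hH, pastObs_pastObs (Finset.Subset.refl (S i))]
  refine hmart.submartingale.exists_ae_tendsto_of_bdd (R := 1) fun n => ?_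
  have hle := eLpNorm_le_of_ae_bound (p := 1) (μ := PZ G θ ε o)
    (f := meanS G θ ε (S n) s) (C := 1) (ae_of_all _ fun ω => abs_meanS_le h0 h1 hε hε1 _ _ ω)
  simpa using hle

lemma tendsto_meanS_ball (hG : G.IsTree) (h0 : 0 ≤ θ) (h1 : θ < 1) (hε : 0 ≤ ε) (hε1 : ε < 1)
    (o : V) (s : ℕ × V) :
    ∀ᵐ ω ∂(PZ G θ ε o),
      Tendsto (fun n => meanS G θ ε (ballF G s.2 n) s ω) atTop (𝓝 (mInf G θ ε s ω)) := by
  filter_upwards [exists_tendsto_meanS hG h0 h1 hε hε1 o (fun n => conn_ballF hG s.2 n)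
    (monotone_nat_of_le_succ fun n => Finset.subset_union_left)
    (fun n => self_mem_ballF s.2 n)] with ω hω
  obtain ⟨c, hc⟩ := hω
  rw [mInf, hc.limsup_eq]
  exact hc

lemma abs_mInf_le (hG : G.IsTree) (h0 : 0 ≤ θ) (h1 : θ < 1) (hε : 0 ≤ ε) (hε1 : ε < 1)
    (o : V) (s : ℕ × V) : ∀ᵐ ω ∂(PZ G θ ε o), |mInf G θ ε s ω| ≤ 1 := by
  filter_upwards [tendsto_meanS_ball hG h0 h1 hε hε1 o s] with ω hω
  exact le_of_tendsto hω.abs (Eventually.of_forall fun n => abs_meanS_le h0 h1 hε hε1 _ _ ω)

/-- Volumes containing a large ball see almost the limiting mean. -/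
lemma meanS_approx (hG : G.IsTree) (h0 : 0 ≤ θ) (h1 : θ < 1) (hε : 0 ≤ ε) (hε1 : ε < 1)
    (o : V) (s : ℕ × V) {η : ℝ} (hη : 0 < η) :
    ∃ N, ∀ S, Conn G S → ballF G s.2 N ⊆ S →
      ∫ ω, |meanS G θ ε S s ω - mInf G θ ε s ω| ∂(PZ G θ ε o) ≤ η := by
  set A := fun T : Finset V => ∫ ω, meanS G θ ε T s ω ^ 2 ∂(PZ G θ ε o) with hA
  set 𝒮 := {T : Finset V | Conn G T ∧ s.2 ∈ T}
  have hne : (A '' 𝒮).Nonempty :=
    ⟨_, ballF G s.2 0, ⟨conn_ballF hG _ _, self_mem_ballF _ _⟩, rfl⟩
  have hb : BddAbove (A '' 𝒮) := ⟨1, by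
    rintro x ⟨T, -, rfl⟩
    refine (le_abs_self _).trans (abs_integral_le_of_bound fun ω => ?_)
    rw [abs_pow]
    exact pow_le_one₀ (abs_nonneg _) (abs_meanS_le h0 h1 hε hε1 T s ω)⟩
  set t := η / 2
  have ht : 0 < t := by positivity
  have hmono : ∀ {T T' : Finset V}, Conn G T → Conn G T' → T ⊆ T' → s.2 ∈ T → A T ≤ A T' := by
    intro T T' hT hT' hsub hs
    have := integral_sq_meanS hG h0 h1 hε hε1 o hT hT' hsub hs
    have hnn : (0 : ℝ) ≤ ∫ ω, (meanS G θ ε T' s ω - meanS G θ ε T s ω) ^ 2 ∂(PZ G θ ε o) :=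
      integral_nonneg fun _ => sq_nonneg _
    simp only [hA]
    linarith
  obtain ⟨a, ⟨T0, hT0, rfl⟩, ha⟩ := exists_lt_of_lt_csSup hne
    (sub_lt_self (sSup (A '' 𝒮)) (mul_pos ht ht))
  have hlim := tendsto_meanS_ball hG h0 h1 hε hε1 o s
  have hle := abs_mInf_le hG h0 h1 hε hε1 o s
  have hmm : ∀ T : Finset V, Measurable fun ω => |meanS G θ ε T s ω - mInf G θ ε s ω| := fun T =>
    ((measurable_meanS T s).sub (measurable_mInf s)).abs
  have hconv : Tendsto (fun n => ∫ ω, |meanS G θ ε (ballF G s.2 n) s ω - mInf G θ ε s ω|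
      ∂(PZ G θ ε o)) atTop (𝓝 0) := by
    have := tendsto_integral_of_dominated_convergence (μ := PZ G θ ε o) (fun _ => (2 : ℝ))
      (fun n => (hmm (ballF G s.2 n)).aestronglyMeasurable) (integrable_const _)
      (f := fun _ => (0 : ℝ)) (fun n => by
        filter_upwards [hle] with ω hω
        rw [Real.norm_eq_abs, abs_abs]
        have hb := abs_meanS_le (G := G) h0 h1 hε hε1 (ballF G s.2 n) s ω
        exact (abs_sub _ _).trans (by linarith))
      (by
        filter_upwards [hlim] with ω hω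
        simpa using (hω.sub_const (mInf G θ ε s ω)).abs)
    simpa using this
  obtain ⟨N1, hN1⟩ := (hconv.eventually (ge_mem_nhds (half_pos hη))).exists_forall_of_atTop
  set N := max N1 (T0.sup fun u => G.dist s.2 u)
  refine ⟨N, fun S hS hsub => ?_⟩
  set B := ballF G s.2 N
  have hT0B : T0 ⊆ B := fun u hu => (mem_ballF hG _ _ _).2
    ((Finset.le_sup (f := fun u => G.dist s.2 u) hu).trans (le_max_right _ _))
  have hsB : s.2 ∈ B := self_mem_ballF _ _
  have hgap : ∫ ω, (meanS G θ ε S s ω - meanS G θ ε B s ω) ^ 2 ∂(PZ G θ ε o) ≤ t * t := by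
    rw [integral_sq_meanS hG h0 h1 hε hε1 o (conn_ballF hG _ _) hS hsub hsB]
    have h1' := hmono hT0.1 (conn_ballF hG s.2 N) hT0B hT0.2
    have h2' : A S ≤ sSup (A '' 𝒮) := le_csSup hb ⟨S, ⟨hS, hsub hsB⟩, rfl⟩
    simp only [hA] at h1' h2' ha
    linarith
  have hd : ∫ ω, |meanS G θ ε S s ω - meanS G θ ε B s ω| ∂(PZ G θ ε o) ≤ η / 2 := by
    have hsqi : Integrable (fun ω => (meanS G θ ε S s ω - meanS G θ ε B s ω) ^ 2)
        (PZ G θ ε o) :=
      integrable_of_bounded (((measurable_meanS S s).sub (measurable_meanS B s)).pow_const 2)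
        (C := 2 ^ 2) fun ω => by
          rw [abs_pow]
          refine pow_le_pow_left₀ (abs_nonneg _) ((abs_sub _ _).trans ?_) 2
          have la := abs_meanS_le (G := G) h0 h1 hε hε1 S s ω
          have lb := abs_meanS_le (G := G) h0 h1 hε hε1 B s ω
          linarith
    refine (integral_mono (integrable_of_bounded
      ((measurable_meanS S s).sub (measurable_meanS B s)).abs (C := 2) fun ω => ?_)
      ((integrable_const (t / 2)).fun_add (hsqi.div_const (2 * t))) fun ω => ?_).trans ?_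
    · rw [abs_abs]
      have la := abs_meanS_le (G := G) h0 h1 hε hε1 S s ω
      have lb := abs_meanS_le (G := G) h0 h1 hε hε1 B s ω
      exact (abs_sub _ _).trans (by linarith)
    · set x := meanS G θ ε S s ω - meanS G θ ε B s ω with hx
      have key : ∀ y : ℝ, t / 2 + y ^ 2 / (2 * t) - |y| = (|y| - t) ^ 2 / (2 * t) := fun y => by
        field_simp; rw [sub_sq |y|, sq_abs]; ring
      have := key x
      have : 0 ≤ (|x| - t) ^ 2 / (2 * t) := by positivity
      simp only [Pi.sub_apply]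
      linarith
    · rw [integral_add (integrable_const _) (hsqi.div_const _)]
      have hdiv : (∫ ω, (meanS G θ ε S s ω - meanS G θ ε B s ω) ^ 2 ∂(PZ G θ ε o)) / (2 * t) ≤
          t / 2 := by
        rw [div_le_iff₀ (by positivity)]; linarith
      simp only [integral_div, integral_const, probReal_univ, smul_eq_mul, one_mul]
      rw [show η / 2 = t from rfl]
      linarith
  have hib : ∀ T : Finset V,
      Integrable (fun ω => |meanS G θ ε T s ω - mInf G θ ε s ω|) (PZ G θ ε o) := fun T => by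
    refine Integrable.mono' (integrable_const (2 : ℝ)) (hmm T).aestronglyMeasurable ?_
    filter_upwards [hle] with ω hω
    rw [Real.norm_eq_abs, abs_abs]
    exact (abs_sub _ _).trans (by linarith [abs_meanS_le (G := G) h0 h1 hε hε1 T s ω])
  have hiSB : Integrable (fun ω => |meanS G θ ε S s ω - meanS G θ ε B s ω|) (PZ G θ ε o) :=
    integrable_of_bounded ((measurable_meanS S s).sub (measurable_meanS B s)).abs (C := 2)
      fun ω => by
        rw [abs_abs]
        have la := abs_meanS_le (G := G) h0 h1 hε hε1 S s ω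
        have lb := abs_meanS_le (G := G) h0 h1 hε hε1 B s ω
        exact (abs_sub _ _).trans (by linarith)
  refine (integral_mono (hib S) (hiSB.fun_add (hib B)) fun ω => abs_sub_le _ _ _).trans ?_
  rw [integral_add hiSB (hib B)]
  have := hN1 N (le_max_left _ _)
  linarith

end Vale.Agent.P161.Crit
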