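import Vale.Agent.P161.Moments
import Vale.Agent.P161.Crit.World
import Vale.Agent.P161.Crit.Telescope
import Vale.Agent.P161.Crit.StatStatement

/-!
The single-site fields at a fixed time have the law of the free Ising spins seen through a
symmetric channel; the size of that channel.
-/

namespace Vale.Agent.P161.Crit

open MeasureTheory SimpleGraph Finset Function
open scoped unitInterval ENNReal

/-- The rankings and observations of all levels at one vertex. -/
abbrev Loc := (ℕ → I) × (ℕ → Obs)

/-- Their reference law. -/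
noncomputable def mu1 : Measure Loc :=
  (Measure.infinitePi fun _ : ℕ => (volume : Measure I)).prod (Measure.infinitePi fun _ : ℕ => nu)

instance : IsProbabilityMeasure mu1 := by unfold mu1; infer_instance

/-- The levels observed at time `T`. -/
noncomputable def locLevels (T : ℕ × ℝ) (u : ℕ → I) : Finset ℕ :=
  if (u T.1 : ℝ) < T.2 then Finset.range (T.1 + 1) else Finset.range T.1

/-- The tilt of one observation. -/
noncomputable def locTilt (ε : ℝ) (Y : Loc) (j : ℕ) : ℝ :=
  (if j = 0 then ε * (Y.1 j : ℝ) else ε) * (Y.2 j : ℝ)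

/-- The field of one vertex. -/
noncomputable def locField (ε : ℝ) (T : ℕ × ℝ) (Y : Loc) : ℝ :=
  cmb (locLevels T Y.1) (locTilt ε Y)

/-- The density of its observations. -/
noncomputable def locDens (ε : ℝ) (T : ℕ × ℝ) (Y : Loc) : ℝ :=
  ((∏ j ∈ locLevels T Y.1, (1 + locTilt ε Y j)) +
    ∏ j ∈ locLevels T Y.1, (1 - locTilt ε Y j)) / 2

/-- The law of the field of one vertex. -/
noncomputable def chanLaw (ε : ℝ) (T : ℕ × ℝ) : Measure ℝ :=
  (mu1.withDensity fun Y => ENNReal.ofReal (locDens ε T Y)).map (locField ε T)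

/-- Lower constant of the second moment. -/
noncomputable def chanC0 (ε : ℝ) : ℝ := ε ^ 2 * c2 ^ 2 / 16

variable {ε : ℝ} {T : ℕ × ℝ}

lemma chanC0_pos (hε : 0 < ε) : 0 < chanC0 ε := by
  have := c2_pos
  unfold chanC0; positivity

lemma c2_le_one : c2 ≤ 1 := by
  refine (le_abs_self _).trans (abs_integral_le_of_bound fun x => ?_)
  rw [abs_mul]; exact mul_le_one₀ x.abs_le (abs_nonneg _) x.abs_le

lemma abs_locTilt_le (hε : 0 ≤ ε) (Y : Loc) (j : ℕ) : |locTilt ε Y j| ≤ ε := by
  unfold locTilt
  rw [abs_mul]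
  refine (mul_le_of_le_one_right (abs_nonneg _) (Obs.abs_le _)).trans ?_
  split_ifs
  · rw [abs_mul, abs_of_nonneg hε, abs_of_nonneg (Y.1 j).2.1]
    exact mul_le_of_le_one_right hε (Y.1 j).2.2
  · rw [abs_of_nonneg hε]

lemma locLevels_subset (T : ℕ × ℝ) (u : ℕ → I) : locLevels T u ⊆ Finset.range (T.1 + 1) := by
  unfold locLevels; split_ifs
  · exact le_rfl
  · exact Finset.range_subset_range.2 (Nat.le_succ _)

lemma abs_locField_le (hε : 0 ≤ ε) (hε1 : ε < 1) (T : ℕ × ℝ) (Y : Loc) :
    |locField ε T Y| ≤ fieldBound ε T.1 := by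
  refine (abs_cmb_le hε1 fun j _ => abs_locTilt_le hε Y j).trans ?_
  have := pow_le_pow_of_le_one (by linarith : 0 ≤ (1 - ε) / 2) (by linarith)
    ((Finset.card_le_card (locLevels_subset T Y.1)).trans_eq (Finset.card_range (T.1 + 1)))
  unfold fieldBound; linarith

lemma abs_locField_le_one (hε : 0 ≤ ε) (hε1 : ε < 1) (T : ℕ × ℝ) (Y : Loc) :
    |locField ε T Y| ≤ 1 :=
  (abs_locField_le hε hε1 T Y).trans (fieldBound_lt_one hε1 _).le

lemma tilt_mem (hε : 0 ≤ ε) (hε1 : ε < 1) (Y : Loc) (j : ℕ) :
    0 < 1 + locTilt ε Y j ∧ 1 + locTilt ε Y j ≤ 2 ∧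
      0 < 1 - locTilt ε Y j ∧ 1 - locTilt ε Y j ≤ 2 := by
  have := abs_le.1 (abs_locTilt_le hε Y j)
  refine ⟨?_, ?_, ?_, ?_⟩ <;> linarith

lemma locDens_mem (hε : 0 ≤ ε) (hε1 : ε < 1) (T : ℕ × ℝ) (Y : Loc) :
    0 < locDens ε T Y ∧ locDens ε T Y ≤ 2 ^ (T.1 + 1) := by
  have hc : (locLevels T Y.1).card ≤ T.1 + 1 :=
    (Finset.card_le_card (locLevels_subset T Y.1)).trans_eq (Finset.card_range _)
  have hle : (2 : ℝ) ^ (locLevels T Y.1).card ≤ 2 ^ (T.1 + 1) := pow_le_pow_right₀ one_le_two hc
  have p1 : 0 < ∏ j ∈ locLevels T Y.1, (1 + locTilt ε Y j) :=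
    Finset.prod_pos fun j _ => (tilt_mem hε hε1 Y j).1
  have p2 : 0 < ∏ j ∈ locLevels T Y.1, (1 - locTilt ε Y j) :=
    Finset.prod_pos fun j _ => (tilt_mem hε hε1 Y j).2.2.1
  have q1 : ∏ j ∈ locLevels T Y.1, (1 + locTilt ε Y j) ≤ 2 ^ (locLevels T Y.1).card :=
    (Finset.prod_le_prod (fun j _ => (tilt_mem hε hε1 Y j).1.le)
      fun j _ => (tilt_mem hε hε1 Y j).2.1).trans_eq (Finset.prod_const 2)
  have q2 : ∏ j ∈ locLevels T Y.1, (1 - locTilt ε Y j) ≤ 2 ^ (locLevels T Y.1).card :=
    (Finset.prod_le_prod (fun j _ => (tilt_mem hε hε1 Y j).2.2.1.le)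
      fun j _ => (tilt_mem hε hε1 Y j).2.2.2).trans_eq (Finset.prod_const 2)
  unfold locDens
  constructor <;> linarith

/-- The likelihood of the observations of a vertex under a spin. -/
lemma prod_tilt (hε : 0 ≤ ε) (hε1 : ε < 1) (T : ℕ × ℝ) (Y : Loc) {s : ℝ}
    (hs : s = 1 ∨ s = -1) :
    ∏ j ∈ locLevels T Y.1, (1 + s * locTilt ε Y j) = locDens ε T Y * (1 + s * locField ε T Y) := by
  have p1 : 0 < ∏ j ∈ locLevels T Y.1, (1 + locTilt ε Y j) :=
    Finset.prod_pos fun j _ => (tilt_mem hε hε1 Y j).1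
  have p2 : 0 < ∏ j ∈ locLevels T Y.1, (1 - locTilt ε Y j) :=
    Finset.prod_pos fun j _ => (tilt_mem hε hε1 Y j).2.2.1
  unfold locDens locField cmb
  rcases hs with rfl | rfl
  · simp only [one_mul]
    field_simp
    ring
  · simp only [neg_mul, one_mul, ← sub_eq_add_neg]
    field_simp
    ring

lemma measurable_locTilt (j : ℕ) : Measurable fun Y : Loc => locTilt ε Y j := by
  unfold locTilt
  refine Measurable.mul ?_ (measurable_subtype_coe.comp ((measurable_pi_apply j).comp measurable_snd))
  split_ifs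
  · exact (measurable_subtype_coe.comp ((measurable_pi_apply j).comp measurable_fst)).const_mul ε
  · exact measurable_const

lemma measurableSet_locTime (T : ℕ × ℝ) : MeasurableSet {Y : Loc | (Y.1 T.1 : ℝ) < T.2} :=
  measurableSet_lt (measurable_subtype_coe.comp ((measurable_pi_apply T.1).comp measurable_fst))
    measurable_const

lemma measurable_locField : Measurable (locField ε T) := by
  have e : locField ε T = fun Y => if (Y.1 T.1 : ℝ) < T.2 then
      cmb (Finset.range (T.1 + 1)) (locTilt ε Y) else cmb (Finset.range T.1) (locTilt ε Y) := by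
    funext Y; unfold locField locLevels; split_ifs <;> rfl
  rw [e]
  exact Measurable.ite (measurableSet_locTime T) (measurable_cmb _ measurable_locTilt)
    (measurable_cmb _ measurable_locTilt)

lemma measurable_locDens : Measurable (locDens ε T) := by
  have hp : ∀ L : Finset ℕ, Measurable fun Y : Loc =>
      ((∏ j ∈ L, (1 + locTilt ε Y j)) + ∏ j ∈ L, (1 - locTilt ε Y j)) / 2 := fun L =>
    ((Finset.measurable_prod L fun j _ => (measurable_locTilt j).const_add 1).add
      (Finset.measurable_prod L fun j _ => (measurable_locTilt j).const_sub 1)).div_const 2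
  have e : locDens ε T = fun Y => if (Y.1 T.1 : ℝ) < T.2 then
      ((∏ j ∈ Finset.range (T.1 + 1), (1 + locTilt ε Y j)) +
        ∏ j ∈ Finset.range (T.1 + 1), (1 - locTilt ε Y j)) / 2
      else ((∏ j ∈ Finset.range T.1, (1 + locTilt ε Y j)) +
        ∏ j ∈ Finset.range T.1, (1 - locTilt ε Y j)) / 2 := by
    funext Y; unfold locDens locLevels; split_ifs <;> rfl
  rw [e]
  exact Measurable.ite (measurableSet_locTime T) (hp _) (hp _)

/-- Products of centred tilts integrate to one. -/
lemma integral_prod_tilt : ∀ (L : Finset ℕ) (c : ℕ → ℝ), (∀ j, |c j| ≤ 1) →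
    ∫ x, ∏ j ∈ L, (1 + c j * (x j : ℝ)) ∂(Measure.infinitePi fun _ : ℕ => nu) = 1 := by
  intro L c hc
  induction L using Finset.induction_on with
  | empty => simp
  | @insert a L ha ih =>
    have hm : ∀ M : Finset ℕ, Measurable fun x : ℕ → Obs => ∏ j ∈ M, (1 + c j * (x j : ℝ)) :=
      fun M => Finset.measurable_prod M fun j _ =>
        ((measurable_subtype_coe.comp (measurable_pi_apply j)).const_mul _).const_add _
    have hb : ∀ x : ℕ → Obs, |∏ j ∈ insert a L, (1 + c j * (x j : ℝ))| ≤ 2 ^ (insert a L).card := by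
      intro x
      rw [Finset.abs_prod]
      refine (Finset.prod_le_prod (fun q _ => abs_nonneg _) fun q _ => ?_).trans_eq
        (Finset.prod_const 2)
      have h : |c q * (x q : ℝ)| ≤ 1 := by
        rw [abs_mul]; exact mul_le_one₀ (hc q) (abs_nonneg _) (Obs.abs_le _)
      exact (abs_add_le _ _).trans (by rw [abs_one]; linarith)
    rw [integral_update nu a (hm _) hb]
    refine Eq.trans (integral_congr_ae (ae_of_all _ fun x => ?_)) ih
    simp only [Finset.prod_insert ha, update_self]
    have e : ∀ y, ∏ j ∈ L, (1 + c j * (update x a y j : ℝ)) = ∏ j ∈ L, (1 + c j * (x j : ℝ)) :=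
      fun y => Finset.prod_congr rfl fun j hj => by
        rw [update_of_ne (fun h : j = a => ha (h ▸ hj))]
    simp only [e]
    rw [integral_mul_const, integral_add (integrable_const _)
      ((integrable_of_bounded measurable_subtype_coe Obs.abs_le).const_mul _),
      integral_const, integral_const_mul, integral_nu_id]
    simp

/-- The weight of level `j`. -/
lemma locTilt_eq (ε : ℝ) (u : ℕ → I) (x : ℕ → Obs) (j : ℕ) :
    locTilt ε (u, x) j = (if j = 0 then ε * (u j : ℝ) else ε) * (x j : ℝ) := rfl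

lemma abs_weight_le (hε : 0 ≤ ε) (hε1 : ε < 1) (u : ℕ → I) (j : ℕ) :
    |if j = 0 then ε * (u j : ℝ) else ε| ≤ 1 := by
  split_ifs
  · rw [abs_mul, abs_of_nonneg hε, abs_of_nonneg (u j).2.1]
    exact mul_le_one₀ hε1.le (u j).2.1 (u j).2.2
  · rw [abs_of_nonneg hε]; exact hε1.le

lemma integral_locDens (hε : 0 ≤ ε) (hε1 : ε < 1) (T : ℕ × ℝ) :
    ∫ Y, locDens ε T Y ∂mu1 = 1 := by
  rw [mu1, integral_prod _ (integrable_of_bounded measurable_locDens fun Y => by
    rw [abs_of_pos (locDens_mem hε hε1 T Y).1]; exact (locDens_mem hε hε1 T Y).2)]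
  have h : ∀ u : ℕ → I,
      ∫ x, locDens ε T (u, x) ∂(Measure.infinitePi fun _ : ℕ => nu) = 1 := by
    intro u
    have hc := abs_weight_le hε hε1 u
    have hi : ∀ c : ℕ → ℝ, (∀ j, |c j| ≤ 1) → Integrable
        (fun x : ℕ → Obs => ∏ j ∈ locLevels T u, (1 + c j * (x j : ℝ)))
        (Measure.infinitePi fun _ : ℕ => nu) := fun c hc =>
      Integrable.of_integral_ne_zero (by rw [integral_prod_tilt _ c hc]; exact one_ne_zero)
    simp only [locDens, locTilt_eq, sub_eq_add_neg, ← neg_mul]
    rw [integral_div, integral_add (hi _ hc) (hi _ fun j => by rw [abs_neg]; exact hc j),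
      integral_prod_tilt _ _ hc, integral_prod_tilt _ _ fun j => by rw [abs_neg]; exact hc j]
    norm_num
  simp only [h, integral_const, probReal_univ, smul_eq_mul, mul_one]

lemma chanLaw_prob (hε : 0 ≤ ε) (hε1 : ε < 1) (T : ℕ × ℝ) :
    IsProbabilityMeasure (chanLaw ε T) := by
  have : IsProbabilityMeasure (mu1.withDensity fun Y => ENNReal.ofReal (locDens ε T Y)) := by
    constructor
    rw [withDensity_apply _ MeasurableSet.univ, Measure.restrict_univ,
      ← ofReal_integral_eq_lintegral_ofReal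
        (integrable_of_bounded measurable_locDens fun Y => by
          rw [abs_of_pos (locDens_mem hε hε1 T Y).1]; exact (locDens_mem hε hε1 T Y).2)
        (ae_of_all _ fun Y => (locDens_mem hε hε1 T Y).1.le),
      integral_locDens hε hε1, ENNReal.ofReal_one]
  exact Measure.isProbabilityMeasure_map measurable_locField.aemeasurable

/-- Integrals against the law of the field. -/
lemma integral_chanLaw (hε : 0 ≤ ε) (hε1 : ε < 1) (T : ℕ × ℝ) {f : ℝ → ℝ} (hf : Measurable f) :
    ∫ x, f x ∂(chanLaw ε T) = ∫ Y, locDens ε T Y * f (locField ε T Y) ∂mu1 := by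
  rw [chanLaw, integral_map measurable_locField.aemeasurable hf.aestronglyMeasurable,
    show (fun Y : Loc => ENNReal.ofReal (locDens ε T Y)) =
      fun Y => ((Real.toNNReal (locDens ε T Y) : NNReal) : ℝ≥0∞) from rfl,
    integral_withDensity_eq_integral_smul measurable_locDens.real_toNNReal]
  refine integral_congr_ae (ae_of_all _ fun Y => ?_)
  simp only [NNReal.smul_def, smul_eq_mul, Real.coe_toNNReal _ (locDens_mem hε hε1 T Y).1.le]

lemma chanLaw_supp (hε : 0 ≤ ε) (hε1 : ε < 1) (T : ℕ × ℝ) :
    ∀ᵐ x ∂(chanLaw ε T), |x| ≤ fieldBound ε T.1 := by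
  rw [chanLaw]
  refine (ae_map_iff measurable_locField.aemeasurable
    (measurableSet_le (measurable_id (α := ℝ)).abs measurable_const)).2 ?_
  exact ae_of_all _ fun Y => abs_locField_le hε hε1 T Y

/-- Negation of an observation. -/
noncomputable def negObs (x : Obs) : Obs :=
  ⟨-(x : ℝ), by obtain ⟨h1, h2⟩ := Obs.bounds x; constructor <;> linarith⟩

lemma measurable_negObs : Measurable negObs :=
  measurable_subtype_coe.neg.subtype_mk

lemma qObs_zero_coe (g : I) : (qObs 0 g : ℝ) = 2 * g - 1 := by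
  have := cdfObs_qObs (a := 0) (by norm_num) g
  unfold cdfObs at this
  linarith

lemma map_negObs : nu.map negObs = nu := by
  have e : negObs ∘ qObs 0 = qObs 0 ∘ unitInterval.symm := by
    funext g
    refine Subtype.ext ?_
    simp only [comp_apply, negObs, qObs_zero_coe, unitInterval.coe_symm_eq]
    ring
  rw [nu, Measure.map_map measurable_negObs (measurable_qObs_right 0), e,
    ← Measure.map_map (measurable_qObs_right 0) unitInterval.measurePreserving_symm.measurable,
    unitInterval.measurePreserving_symm.map_eq]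

lemma measurePreserving_negLoc :
    MeasurePreserving (fun Y : Loc => (Y.1, fun j => negObs (Y.2 j))) mu1 mu1 := by
  refine (MeasurePreserving.id _).prod (g := fun x : ℕ → Obs => fun j => negObs (x j))
    ⟨measurable_pi_lambda _ fun j => measurable_negObs.comp (measurable_pi_apply j), ?_⟩
  rw [Measure.infinitePi_map_pi _ fun _ => measurable_negObs, map_negObs]

lemma chanLaw_symm (hε : 0 ≤ ε) (hε1 : ε < 1) (T : ℕ × ℝ) :
    (chanLaw ε T).map (fun x => -x) = chanLaw ε T := by
  have := chanLaw_prob hε hε1 T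
  have : IsProbabilityMeasure ((chanLaw ε T).map fun x => -x) :=
    Measure.isProbabilityMeasure_map measurable_neg.aemeasurable
  refine ext_of_forall_integral_eq_of_IsFiniteMeasure fun f => ?_
  have hf : Measurable fun x => f x := f.continuous.measurable
  rw [integral_map measurable_neg.aemeasurable hf.aestronglyMeasurable,
    integral_chanLaw hε hε1 T (hf.fun_comp measurable_neg), integral_chanLaw hε hε1 T hf]
  set N := fun Y : Loc => (Y.1, fun j => negObs (Y.2 j)) with hN
  have et : ∀ Y j, locTilt ε (N Y) j = -locTilt ε Y j := fun Y j => by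
    simp [locTilt, hN, negObs]
  have el : ∀ Y, locLevels T (N Y).1 = locLevels T Y.1 := fun Y => rfl
  have ed : ∀ Y, locDens ε T (N Y) = locDens ε T Y := fun Y => by
    simp only [locDens, el, et, sub_neg_eq_add, ← sub_eq_add_neg]; ring
  have ef : ∀ Y, locField ε T (N Y) = -locField ε T Y := fun Y => by
    simp only [locField, el]
    rw [cmb_congr (g := fun j => -locTilt ε Y j) fun j _ => et Y j]
    simp only [cmb, sub_neg_eq_add, ← sub_eq_add_neg]
    rw [← neg_div]; ring
  have hpm : MeasurePreserving N mu1 mu1 := measurePreserving_negLoc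
  have hgm : Measurable fun Y : Loc => locDens ε T Y * f (locField ε T Y) :=
    measurable_locDens.mul (hf.comp measurable_locField)
  conv_rhs => rw [← hpm.map_eq, integral_map hpm.measurable.aemeasurable hgm.aestronglyMeasurable]
  simp only [ed, ef]

lemma chanLaw_chan (hε : 0 ≤ ε) (hε1 : ε < 1) (T : ℕ × ℝ) :
    Chan (fieldBound ε T.1) (chanLaw ε T) :=
  ⟨chanLaw_prob hε hε1 T, chanLaw_symm hε hε1 T, chanLaw_supp hε hε1 T⟩

lemma integral_zero {Φ : I × Obs → ℝ} (hΦ : Measurable Φ) :
    ∫ Y : Loc, Φ (Y.1 0, Y.2 0) ∂mu1 = ∫ p, Φ p ∂((volume : Measure I).prod nu) := by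
  have h : mu1.map (fun Y : Loc => (Y.1 0, Y.2 0)) = (volume : Measure I).prod nu := by
    rw [mu1, show (fun Y : Loc => (Y.1 0, Y.2 0)) =
      Prod.map (fun u : ℕ → I => u 0) (fun x : ℕ → Obs => x 0) from rfl,
      ← Measure.map_prod_map _ _ (measurable_pi_apply 0) (measurable_pi_apply 0),
      Measure.infinitePi_map_eval, Measure.infinitePi_map_eval]
  have hm : Measurable fun Y : Loc => (Y.1 0, Y.2 0) :=
    ((measurable_pi_apply 0).comp measurable_fst).prodMk
      ((measurable_pi_apply 0).comp measurable_snd)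
  rw [← h, integral_map hm.aemeasurable hΦ.aestronglyMeasurable]

/-- At level zero the field is the single observation. -/
lemma level_zero (p : ℝ) (Y : Loc) :
    locDens ε (0, p) Y = 1 ∧
      locField ε (0, p) Y = if (Y.1 0 : ℝ) < p then ε * (Y.1 0 : ℝ) * (Y.2 0 : ℝ) else 0 := by
  unfold locDens locField locLevels
  by_cases h : (Y.1 0 : ℝ) < p
  · simp only [if_pos h, zero_add, Finset.range_one, Finset.prod_singleton]
    refine ⟨by ring, ?_⟩
    simp only [cmb, Finset.prod_singleton, locTilt, if_pos]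
    ring
  · simp only [if_neg h, Finset.range_zero, Finset.prod_empty, cmb_empty]
    norm_num

lemma moment_zero (hε : 0 ≤ ε) (hε1 : ε < 1) (p : ℝ) (m : ℕ) :
    ∫ x, x ^ m ∂(chanLaw ε (0, p)) =
      ∫ q, (if (q.1 : ℝ) < p then ε * (q.1 : ℝ) * (q.2 : ℝ) else 0) ^ m
        ∂((volume : Measure I).prod nu) := by
  rw [integral_chanLaw hε hε1 _ (f := fun x => x ^ m) (measurable_id.pow_const m)]
  have hΦ : Measurable fun q : I × Obs =>
      (if (q.1 : ℝ) < p then ε * (q.1 : ℝ) * (q.2 : ℝ) else 0) ^ m := by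
    refine (Measurable.ite (measurableSet_lt (measurable_subtype_coe.comp measurable_fst)
      measurable_const) ?_ measurable_const).pow_const m
    exact ((measurable_subtype_coe.comp measurable_fst).const_mul ε).mul
      (measurable_subtype_coe.comp measurable_snd)
  rw [← integral_zero hΦ]
  refine integral_congr_ae (ae_of_all _ fun Y => ?_)
  simp only [(level_zero (ε := ε) p Y).1, (level_zero (ε := ε) p Y).2, one_mul]

lemma moment_zero_le (hε : 0 ≤ ε) (hε1 : ε < 1) {p : ℝ} (hp : 0 < p) (hp1 : p ≤ 1) (j : ℕ)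
    (hj : 1 ≤ j) : ∫ x, x ^ (2 * j) ∂(chanLaw ε (0, p)) ≤ p ^ (2 * j + 1) := by
  rw [moment_zero hε hε1]
  have hM : Measurable fun q : I × Obs => if (q.1 : ℝ) < p then p ^ (2 * j) else 0 :=
    Measurable.ite (measurableSet_lt (measurable_subtype_coe.comp measurable_fst) measurable_const)
      measurable_const measurable_const
  have hle : ∀ q : I × Obs,
      0 ≤ (if (q.1 : ℝ) < p then ε * (q.1 : ℝ) * (q.2 : ℝ) else 0) ^ (2 * j) ∧
      (if (q.1 : ℝ) < p then ε * (q.1 : ℝ) * (q.2 : ℝ) else 0) ^ (2 * j) ≤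
        if (q.1 : ℝ) < p then p ^ (2 * j) else 0 := by
    intro q
    refine ⟨(even_two_mul j).pow_nonneg _, ?_⟩
    split_ifs with h
    · rw [← (even_two_mul j).pow_abs]
      refine pow_le_pow_left₀ (abs_nonneg _) ?_ _
      rw [abs_mul, abs_mul, abs_of_nonneg hε, abs_of_nonneg q.1.2.1]
      calc ε * (q.1 : ℝ) * |(q.2 : ℝ)| ≤ 1 * (q.1 : ℝ) * 1 :=
            mul_le_mul (mul_le_mul_of_nonneg_right hε1.le q.1.2.1) (Obs.abs_le _) (abs_nonneg _)
              (by linarith [q.1.2.1])
        _ ≤ p := by linarith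
    · rw [zero_pow (by omega)]
  refine (integral_mono_of_nonneg (ae_of_all _ fun q => (hle q).1)
    (integrable_of_bounded hM (C := 1) fun q => ?_) (ae_of_all _ fun q => (hle q).2)).trans_eq ?_
  · split_ifs
    · rw [abs_of_nonneg (by positivity)]; exact pow_le_one₀ hp.le hp1
    · simp
  · rw [integral_fun_fst fun u : I => if (u : ℝ) < p then p ^ (2 * j) else 0,
      integral_step hp.le hp1, probReal_univ, one_smul]
    ring

lemma moment_zero_ge (hε : 0 < ε) (hε1 : ε < 1) {p : ℝ} (hp : 0 < p) (hp1 : p ≤ 1) :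
    chanC0 ε * p ^ 3 ≤ ∫ x, x ^ 2 ∂(chanLaw ε (0, p)) := by
  rw [moment_zero hε.le hε1]
  set φ := fun u : I => (if (u : ℝ) < p then (1 : ℝ) else 0) - if (u : ℝ) < p / 2 then 1 else 0
    with hφ
  have hite : ∀ c : ℝ, Measurable fun u : I => if (u : ℝ) < c then (1 : ℝ) else 0 := fun c =>
    Measurable.ite (measurableSet_lt measurable_subtype_coe measurable_const) measurable_const
      measurable_const
  have hiI : ∀ c : ℝ, Integrable (fun u : I => if (u : ℝ) < c then (1 : ℝ) else 0) volume :=
    fun c => integrable_of_bounded (hite c) (C := 1) fun u => by split_ifs <;> norm_num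
  have hint : ∫ u, φ u = p / 2 := by
    simp only [hφ]
    rw [integral_sub (hiI p) (hiI _), integral_step hp.le hp1,
      integral_step (by linarith) (by linarith)]
    ring
  have hsq : Measurable fun x : Obs => (x : ℝ) * (x : ℝ) :=
    measurable_subtype_coe.mul measurable_subtype_coe
  have hlow : ∫ q, ε ^ 2 * p ^ 2 / 4 * (φ q.1 * ((q.2 : ℝ) * (q.2 : ℝ)))
      ∂((volume : Measure I).prod nu) = ε ^ 2 * p ^ 3 / 8 * c2 := by
    rw [integral_const_mul, integral_prod_mul φ fun x : Obs => (x : ℝ) * (x : ℝ), hint, c2]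
    ring
  refine le_trans ?_ (hlow.ge.trans (integral_mono ?_ ?_ fun q => ?_))
  · unfold chanC0
    have := mul_le_mul_of_nonneg_left (mul_le_of_le_one_left c2_pos.le c2_le_one)
      (mul_pos (pow_pos hε 2) (pow_pos hp 3)).le
    nlinarith [mul_pos (mul_pos (pow_pos hε 2) (pow_pos hp 3)) c2_pos]
  · refine ((Integrable.mul_prod ((hiI p).sub (hiI _))
      (integrable_of_bounded hsq (C := 1) fun x => ?_)).const_mul _)
    rw [abs_mul]; exact mul_le_one₀ (Obs.abs_le x) (abs_nonneg _) (Obs.abs_le x)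
  · refine integrable_of_bounded ((Measurable.ite (measurableSet_lt
      (measurable_subtype_coe.comp measurable_fst) measurable_const)
      (((measurable_subtype_coe.comp measurable_fst).const_mul ε).mul
        (measurable_subtype_coe.comp measurable_snd)) measurable_const).pow_const 2) (C := 1)
      fun q => ?_
    rw [abs_pow]
    refine pow_le_one₀ (abs_nonneg _) ?_
    split_ifs
    · rw [abs_mul, abs_mul, abs_of_nonneg hε.le, abs_of_nonneg q.1.2.1]
      exact mul_le_one₀ (mul_le_one₀ hε1.le q.1.2.1 q.1.2.2) (abs_nonneg _) (Obs.abs_le _)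
    · simp
  · simp only [hφ]
    by_cases h1 : (q.1 : ℝ) < p
    · by_cases h2 : (q.1 : ℝ) < p / 2
      · rw [if_pos h1, if_pos h1, if_pos h2]
        have := sq_nonneg (ε * (q.1 : ℝ) * (q.2 : ℝ))
        linarith
      · rw [if_pos h1, if_pos h1, if_neg h2]
        have : (p / 2) ^ 2 ≤ (q.1 : ℝ) ^ 2 := pow_le_pow_left₀ (by linarith) (le_of_not_gt h2) 2
        nlinarith [mul_nonneg (sq_nonneg (ε * (q.2 : ℝ))) (sub_nonneg.2 this)]
    · rw [if_neg h1, if_neg h1, if_neg (fun h => h1 (by linarith))]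
      simp

/-- The channel at level zero has size `p ^ (3/2)`. -/
lemma vchan_zero (hε : 0 < ε) (hε1 : ε < 1) {p : ℝ} (hp : 0 < p) (hp1 : p ≤ 1) :
    VChan (fieldBound ε 0) (chanC0 ε) (p ^ (3 / 2 : ℝ)) (chanLaw ε (0, p)) := by
  have hpow : ∀ j : ℕ, (p ^ (3 / 2 : ℝ)) ^ j = p ^ ((3 / 2 : ℝ) * j) := fun j => by
    rw [← Real.rpow_natCast, ← Real.rpow_mul hp.le]
  have h2 : (p ^ (3 / 2 : ℝ)) ^ 2 = p ^ 3 := by
    rw [hpow, ← Real.rpow_natCast p 3]; norm_num
  refine ⟨chanLaw_chan hε.le hε1 (0, p), by positivity, Real.rpow_le_one hp.le hp1 (by norm_num),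
    ?_, ?_, fun j hj => ?_⟩
  · rw [h2]; exact moment_zero_ge hε hε1 hp hp1
  · rw [h2]; exact moment_zero_le hε.le hε1 hp hp1 1 le_rfl
  · refine (moment_zero_le hε.le hε1 hp hp1 j hj).trans ?_
    rw [hpow, ← Real.rpow_natCast p (2 * j + 1)]
    refine Real.rpow_le_rpow_of_exponent_ge hp hp1 ?_
    push_cast
    linarith [(Nat.cast_nonneg j : (0 : ℝ) ≤ j)]

/-- From level one on the second moment is bounded below. -/
lemma second_pos_level (hε : 0 < ε) (hε1 : ε < 1) {k : ℕ} (hk : 1 ≤ k) (p : ℝ) :
    chanC0 ε ≤ ∫ x, x ^ 2 ∂(chanLaw ε (k, p)) := by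
  set T : ℕ × ℝ := (k, p) with hT
  set w := ε * c2 / 4 with hw
  rw [integral_chanLaw hε.le hε1 T (f := fun x => x ^ 2) (measurable_id.pow_const 2)]
  set μO := Measure.infinitePi fun _ : ℕ => nu
  have hD := fun Y => locDens_mem hε.le hε1 T Y
  have h0L : ∀ u : ℕ → I, 0 ∈ locLevels T u := fun u => by
    unfold locLevels
    rw [hT]
    split_ifs <;> simp only [Finset.mem_range] <;> omega
  set H := fun Y : Loc => locDens ε T Y * (locField ε T Y * (Y.2 0 : ℝ)) with hH
  have hHm : Measurable H := measurable_locDens.mul (measurable_locField.mul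
    (measurable_subtype_coe.comp ((measurable_pi_apply 0).comp measurable_snd)))
  have hHb : ∀ Y, |H Y| ≤ 2 ^ (k + 1) * 1 := fun Y => by
    simp only [hH]
    rw [abs_mul, abs_of_pos (hD Y).1]
    refine mul_le_mul (hD Y).2 ?_ (abs_nonneg _) (by positivity)
    rw [abs_mul]
    exact mul_le_one₀ (abs_locField_le_one hε.le hε1 T Y) (abs_nonneg _) (Obs.abs_le _)
  have hcross : ∀ u : ℕ → I, ∫ x, H (u, x) ∂μO = ε * (u 0 : ℝ) * c2 := by
    intro u
    set c := fun j => if j = 0 then ε * (u j : ℝ) else ε with hc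
    have hc1 : ∀ j, |c j| ≤ 1 := abs_weight_le hε.le hε1 u
    have hprod : ∀ s : ℝ, s = 1 ∨ s = -1 →
        ∫ x, (x 0 : ℝ) * ∏ j ∈ locLevels T u, (1 + s * c j * (x j : ℝ)) ∂μO = s * c 0 * c2 := by
      intro s hs
      have hs1 : ∀ j, |s * c j| ≤ 1 := fun j => by
        rw [abs_mul, show |s| = 1 by rcases hs with rfl | rfl <;> norm_num, one_mul]
        exact hc1 j
      have hm : Measurable fun x : ℕ → Obs =>
          (x 0 : ℝ) * ∏ j ∈ locLevels T u, (1 + s * c j * (x j : ℝ)) :=
        (measurable_subtype_coe.comp (measurable_pi_apply 0)).mul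
          (Finset.measurable_prod _ fun j _ =>
            ((measurable_subtype_coe.comp (measurable_pi_apply j)).const_mul _).const_add _)
      rw [integral_update nu 0 hm (C := 1 * 2 ^ (locLevels T u).card) fun x => ?_]
      · have e : ∀ (x : ℕ → Obs) (y : Obs), (update x 0 y 0 : ℝ) *
            ∏ j ∈ locLevels T u, (1 + s * c j * (update x 0 y j : ℝ)) =
            ((y : ℝ) + s * c 0 * ((y : ℝ) * (y : ℝ))) *
              ∏ j ∈ (locLevels T u).erase 0, (1 + s * c j * (x j : ℝ)) := by
          intro x y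
          rw [← Finset.mul_prod_erase _ _ (h0L u), update_self,
            Finset.prod_congr rfl fun j hj => by rw [update_of_ne (Finset.mem_erase.1 hj).1]]
          ring
        simp only [e, integral_mul_const]
        have hi2 : Integrable (fun y : Obs => (y : ℝ) * (y : ℝ)) nu :=
          integrable_of_bounded (measurable_subtype_coe.mul measurable_subtype_coe) (C := 1)
            fun y => by
              rw [abs_mul]; exact mul_le_one₀ (Obs.abs_le y) (abs_nonneg _) (Obs.abs_le y)
        rw [integral_const_mul, integral_prod_tilt _ _ hs1, mul_one,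
          integral_add (integrable_of_bounded measurable_subtype_coe Obs.abs_le)
            (hi2.const_mul _), integral_const_mul, integral_nu_id, zero_add, c2]
      · rw [abs_mul, Finset.abs_prod]
        refine mul_le_mul (Obs.abs_le _) ?_ (Finset.prod_nonneg fun _ _ => abs_nonneg _) zero_le_one
        refine (Finset.prod_le_prod (fun q _ => abs_nonneg _) fun q _ => ?_).trans_eq
          (Finset.prod_const 2)
        have h : |s * c q * (x q : ℝ)| ≤ 1 := by
          rw [abs_mul]; exact mul_le_one₀ (hs1 q) (abs_nonneg _) (Obs.abs_le _)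
        exact (abs_add_le _ _).trans (by rw [abs_one]; linarith)
    have eH : ∀ x, H (u, x) = ((x 0 : ℝ) * ∏ j ∈ locLevels T u, (1 + 1 * c j * (x j : ℝ)) -
        (x 0 : ℝ) * ∏ j ∈ locLevels T u, (1 + -1 * c j * (x j : ℝ))) / 2 := by
      intro x
      have e1 : ∀ s : ℝ, ∀ j, 1 + s * c j * (x j : ℝ) = 1 + s * locTilt ε (u, x) j := fun s j => by
        rw [locTilt_eq, hc, mul_assoc]
      simp only [e1]
      rw [prod_tilt hε.le hε1 T (u, x) (Or.inl rfl), prod_tilt hε.le hε1 T (u, x) (Or.inr rfl), hH]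
      ring
    have hi : ∀ s : ℝ, s = 1 ∨ s = -1 → Integrable
        (fun x : ℕ → Obs => (x 0 : ℝ) * ∏ j ∈ locLevels T u, (1 + s * c j * (x j : ℝ))) μO := by
      intro s hs
      refine integrable_of_bounded ((measurable_subtype_coe.comp (measurable_pi_apply 0)).mul
        (Finset.measurable_prod _ fun j _ =>
          ((measurable_subtype_coe.comp (measurable_pi_apply j)).const_mul _).const_add _))
        (C := 1 * 2 ^ (locLevels T u).card) fun x => ?_
      rw [abs_mul, Finset.abs_prod]
      refine mul_le_mul (Obs.abs_le _) ?_ (Finset.prod_nonneg fun _ _ => abs_nonneg _) zero_le_one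
      refine (Finset.prod_le_prod (fun q _ => abs_nonneg _) fun q _ => ?_).trans_eq
        (Finset.prod_const 2)
      have h : |s * c q * (x q : ℝ)| ≤ 1 := by
        rw [abs_mul, abs_mul, show |s| = 1 by rcases hs with rfl | rfl <;> norm_num, one_mul]
        exact mul_le_one₀ (hc1 q) (abs_nonneg _) (Obs.abs_le _)
      exact (abs_add_le _ _).trans (by rw [abs_one]; linarith)
    simp only [eH]
    rw [integral_div, integral_sub (hi 1 (Or.inl rfl)) (hi (-1) (Or.inr rfl)),
      hprod 1 (Or.inl rfl), hprod (-1) (Or.inr rfl), show c 0 = ε * (u 0 : ℝ) from if_pos rfl]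
    ring
  have hI : w ≤ ∫ Y, H Y ∂mu1 := by
    rw [mu1, integral_prod _ (integrable_of_bounded hHm hHb)]
    have hc' : ∀ u : ℕ → I, ∫ x, H (u, x) ∂(Measure.infinitePi fun _ : ℕ => nu) =
        ε * (u 0 : ℝ) * c2 := hcross
    simp only [hc']
    rw [integral_mul_const, integral_const_mul]
    have hU : (1 / 4 : ℝ) ≤ ∫ u : ℕ → I, (u 0 : ℝ) ∂(Measure.infinitePi fun _ : ℕ => volume) := by
      rw [← integral_map (φ := fun u : ℕ → I => u 0) (f := fun x : I => (x : ℝ))
        (measurable_pi_apply 0).aemeasurable measurable_subtype_coe.aestronglyMeasurable,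
        Measure.infinitePi_map_eval]
      refine le_trans (le_of_eq ?_) (integral_mono (f := fun x : I => if (x : ℝ) < 1 / 2 then
        (0 : ℝ) else 1 / 2) (integrable_of_bounded (Measurable.ite (measurableSet_lt
          measurable_subtype_coe measurable_const) measurable_const measurable_const) (C := 1)
          fun x => by split_ifs <;> norm_num) (integrable_of_bounded measurable_subtype_coe
          (C := 1) fun x => by rw [abs_of_nonneg x.2.1]; exact x.2.2) fun x => ?_)
      · rw [integral_step (by norm_num) (by norm_num)]; norm_num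
      · simp only; split_ifs with h
        · exact x.2.1
        · linarith
    have := mul_pos hε c2_pos
    rw [hw]
    nlinarith
  have key : ∀ Y : Loc, 2 * w * H Y - w ^ 2 * locDens ε T Y ≤
      locDens ε T Y * locField ε T Y ^ 2 := by
    intro Y
    have h1 : (Y.2 0 : ℝ) ^ 2 ≤ 1 := by
      rw [← sq_abs]; exact pow_le_one₀ (abs_nonneg _) (Obs.abs_le _)
    have h2 : 0 ≤ (locField ε T Y - w * (Y.2 0 : ℝ)) ^ 2 := sq_nonneg _
    simp only [hH]
    nlinarith [mul_nonneg (hD Y).1.le h2,
      mul_nonneg (mul_nonneg (hD Y).1.le (sq_nonneg w)) (sub_nonneg.2 h1)]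
  have hiD : Integrable (locDens ε T) mu1 := integrable_of_bounded measurable_locDens fun Y => by
    rw [abs_of_pos (hD Y).1]; exact (hD Y).2
  have hiH : Integrable H mu1 := integrable_of_bounded hHm hHb
  refine le_trans ?_ (integral_mono ((hiH.const_mul _).sub (hiD.const_mul _))
    (integrable_of_bounded (measurable_locDens.mul (measurable_locField.pow_const 2))
      (C := 2 ^ (k + 1) * 1) fun Y => ?_) key)
  · simp only [Pi.sub_apply]
    rw [integral_sub (hiH.const_mul _) (hiD.const_mul _), integral_const_mul, integral_const_mul,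
      integral_locDens hε.le hε1]
    have : 0 ≤ w := by have := c2_pos; positivity
    unfold chanC0
    rw [show ε ^ 2 * c2 ^ 2 / 16 = w ^ 2 by rw [hw]; ring]
    nlinarith [mul_le_mul_of_nonneg_left hI this]
  · rw [abs_mul, abs_of_pos (hD Y).1, abs_pow]
    exact mul_le_mul (hD Y).2 (pow_le_one₀ (abs_nonneg _) (abs_locField_le_one hε.le hε1 T Y))
      (pow_nonneg (abs_nonneg _) _) (by positivity)

/-- From level one on the channel has size one. -/
lemma vchan_pos (hε : 0 < ε) (hε1 : ε < 1) {k : ℕ} (hk : 1 ≤ k) (p : ℝ) :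
    VChan (fieldBound ε k) (chanC0 ε) 1 (chanLaw ε (k, p)) := by
  have := chanLaw_prob hε.le hε1 (k, p)
  have hle : ∀ j : ℕ, ∫ x, x ^ (2 * j) ∂(chanLaw ε (k, p)) ≤ 1 := by
    intro j
    refine (integral_mono_of_nonneg (ae_of_all _ fun x => (even_two_mul j).pow_nonneg x)
      (integrable_const 1) ?_).trans_eq (by simp)
    filter_upwards [chanLaw_supp hε.le hε1 (k, p)] with x hx
    rw [← (even_two_mul j).pow_abs]
    exact pow_le_one₀ (abs_nonneg _) (hx.trans (fieldBound_lt_one hε1 _).le)
  refine ⟨chanLaw_chan hε.le hε1 (k, p), one_pos, le_rfl, ?_, ?_, fun j _ => by rw [one_pow]; exact hle j⟩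
  · rw [one_pow, mul_one]; exact second_pos_level hε hε1 hk p
  · rw [one_pow]; exact hle 1

section vertices

variable {ι α β : Type*} [MeasurableSpace α] [MeasurableSpace β]

lemma map_zip (μ : Measure α) [IsProbabilityMeasure μ] (μ' : Measure β) [IsProbabilityMeasure μ'] :
    ((Measure.infinitePi fun _ : ι => μ).prod (Measure.infinitePi fun _ : ι => μ')).map
        (fun p i => (p.1 i, p.2 i)) =
      Measure.infinitePi fun _ : ι => μ.prod μ' := by
  refine Measure.eq_infinitePi _ fun s t ht => ?_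
  have hm : Measurable fun p : (ι → α) × (ι → β) => fun i => (p.1 i, p.2 i) :=
    measurable_pi_lambda _ fun i => ((measurable_pi_apply i).comp measurable_fst).prodMk
      ((measurable_pi_apply i).comp measurable_snd)
  rw [Measure.map_apply hm (.pi s.countable_toSet fun i _ => ht i)]
  have hpre : (fun (p : (ι → α) × (ι → β)) i => (p.1 i, p.2 i)) ⁻¹' Set.pi (s : Set ι) t =
      Prod.map s.restrict s.restrict ⁻¹'
        ((MeasurableEquiv.arrowProdEquivProdArrow α β s).symm ⁻¹'
          Set.univ.pi fun i : s => t i) := by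
    ext p
    simp [MeasurableEquiv.arrowProdEquivProdArrow, Equiv.arrowProdEquivProdArrow]
  have hbox : MeasurableSet (Set.univ.pi fun i : s => t i) := .univ_pi fun i => ht _
  rw [hpre, ← Measure.map_apply ((measurable_restrict _).prodMap (measurable_restrict _))
      ((MeasurableEquiv.measurable _) hbox),
    ← Measure.map_prod_map _ _ (measurable_restrict _) (measurable_restrict _),
    Measure.infinitePi_map_restrict, Measure.infinitePi_map_restrict,
    ((measurePreserving_arrowProdEquivProdArrow α β s (fun _ => μ) fun _ => μ').symm _).measure_preimage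
      hbox.nullMeasurableSet, Measure.pi_pi, Finset.prod_coe_sort s fun i => μ.prod μ' (t i)]

lemma map_byVertex (μ : Measure α) [IsProbabilityMeasure μ] :
    (Measure.infinitePi fun _ : ℕ × ι => μ).map (fun x v j => x (j, v)) =
      Measure.infinitePi fun _ : ι => Measure.infinitePi fun _ : ℕ => μ := by
  rw [← Measure.infinitePi_map_curry (fun (_ : ι) (_ : ℕ) => μ),
    ← Measure.infinitePi_map_piCongrLeft (fun _ : ι × ℕ => μ) (Equiv.prodComm ℕ ι),
    Measure.map_map (MeasurableEquiv.measurable _) (MeasurableEquiv.measurable _)]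
  congr 1

end vertices

variable {V : Type*}

/-- The data of each vertex. -/
def vert (ω : (ℕ × V → I) × (ℕ × V → Obs)) (v : V) : Loc :=
  (fun j => ω.1 (j, v), fun j => ω.2 (j, v))

lemma measurable_vert : Measurable (vert : (ℕ × V → I) × (ℕ × V → Obs) → V → Loc) :=
  measurable_pi_lambda _ fun v =>
    (measurable_pi_lambda _ fun j => (measurable_pi_apply (j, v)).comp measurable_fst).prodMk
      (measurable_pi_lambda _ fun j => (measurable_pi_apply (j, v)).comp measurable_snd)

lemma map_vert : ((Pg V).prod (P0 V)).map vert = Measure.infinitePi fun _ : V => mu1 := by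
  have hA : ∀ {α : Type} [MeasurableSpace α],
      Measurable fun x : ℕ × V → α => fun v j => x (j, v) := fun {α} _ =>
    measurable_pi_lambda _ fun v => measurable_pi_lambda _ fun j => measurable_pi_apply (j, v)
  rw [mu1, ← map_zip, ← map_byVertex (ι := V) (volume : Measure I),
    ← map_byVertex (ι := V) nu, Measure.map_prod_map _ _ hA hA,
    Measure.map_map (g := fun (p : (V → ℕ → I) × (V → ℕ → Obs)) i => (p.1 i, p.2 i))
      (measurable_pi_lambda _ fun i => ((measurable_pi_apply i).comp measurable_fst).prodMk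
        ((measurable_pi_apply i).comp measurable_snd)) (hA.prodMap hA)]
  rfl

lemma field_eq (ω : (ℕ × V → I) × (ℕ × V → Obs)) (v : V) :
    field ε T ω.1 ω.2 v = locField ε T (vert ω v) := by
  simp only [field, locField, levels, locLevels, vert]
  exact cmb_congr fun j _ => by simp only [strength, locTilt]

variable [DecidableEq V]

/-- Independent vertices, each reweighted by its density, give independent fields. -/
lemma integral_locFields (hε : 0 ≤ ε) (hε1 : ε < 1) : ∀ (S : Finset V) (H : (V → ℝ) → ℝ) (C : ℝ),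
    Measurable H → (∀ h, |H h| ≤ C) → (∀ h h', (∀ v ∈ S, h v = h' v) → H h = H h') →
    ∫ Y, H (fun v => locField ε T (Y v)) * ∏ v ∈ S, locDens ε T (Y v)
        ∂(Measure.infinitePi fun _ : V => mu1) =
      ∫ h, H h ∂(Measure.infinitePi fun _ : V => chanLaw ε T) := by
  have := chanLaw_prob hε hε1 T
  intro S
  induction S using Finset.induction_on with
  | empty =>
    intro H C hH hC hdep
    have hc : ∀ h, H h = H 0 := fun h => hdep h 0 (by simp)
    simp [hc]
  | @insert a S ha ih =>
    intro H C hH hC hdep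
    have hC0 : 0 ≤ C := (abs_nonneg _).trans (hC 0)
    set H' := fun h : V → ℝ => ∫ r, H (update h a r) ∂(chanLaw ε T) with hH'
    have hH'm : Measurable H' :=
      ((hH.fun_comp (measurable_update2 a)).stronglyMeasurable.integral_prod_right').measurable
    have hH'b : ∀ h, |H' h| ≤ C := fun h => abs_integral_le_of_bound fun r => hC _
    have hH'dep : ∀ h h', (∀ v ∈ S, h v = h' v) → H' h = H' h' := fun h h' e =>
      integral_congr_ae (ae_of_all _ fun r => hdep _ _ fun v hv => by
        by_cases hva : v = a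
        · subst hva; simp
        · rw [update_of_ne hva, update_of_ne hva]
          exact e v (Finset.mem_of_mem_insert_of_ne hv hva))
    rw [integral_update (chanLaw ε T) a hH hC, ← ih H' C hH'm hH'b hH'dep,
      integral_update mu1 a (C := C * (2 ^ (T.1 + 1)) ^ (insert a S).card)
        (F := fun Y : V → Loc =>
          H (fun v => locField ε T (Y v)) * ∏ v ∈ insert a S, locDens ε T (Y v))
        ((hH.comp (measurable_pi_lambda _ fun v =>
          measurable_locField.comp (measurable_pi_apply v))).mul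
          (Finset.measurable_prod _ fun v _ => measurable_locDens.comp (measurable_pi_apply v)))
        fun Y => ?_]
    · refine integral_congr_ae (ae_of_all _ fun Y => ?_)
      simp only [hH']
      rw [integral_chanLaw hε hε1 T (f := fun r => H (update (fun v => locField ε T (Y v)) a r))
        (hH.fun_comp ((measurable_update2 a).fun_comp measurable_prodMk_left)),
        ← integral_mul_const]
      refine integral_congr_ae (ae_of_all _ fun x => ?_)
      have e1 : (fun v => locField ε T (update Y a x v)) =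
          update (fun v => locField ε T (Y v)) a (locField ε T x) := by
        funext v
        by_cases hva : v = a
        · subst hva; simp
        · simp [update_of_ne hva]
      have e2 : ∏ v ∈ S, locDens ε T (update Y a x v) = ∏ v ∈ S, locDens ε T (Y v) :=
        Finset.prod_congr rfl fun v hv => by rw [update_of_ne (fun h : v = a => ha (h ▸ hv))]
      simp only [e1, Finset.prod_insert ha, update_self, e2]
      ring
    · rw [abs_mul, Finset.abs_prod]
      refine mul_le_mul (hC _) ((Finset.prod_le_prod (fun _ _ => abs_nonneg _) fun v _ => ?_).trans_eq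
        (Finset.prod_const _)) (Finset.prod_nonneg fun _ _ => abs_nonneg _) hC0
      rw [abs_of_pos (locDens_mem hε hε1 T (Y v)).1]
      exact (locDens_mem hε hε1 T (Y v)).2

/-- The sites of `S` observed by time `T`. -/
noncomputable def infoSites (S : Finset V) (T : ℕ × ℝ) (U : ℕ × V → I) : Finset (ℕ × V) :=
  (sitesUpTo S T.1).filter fun q => q.1 ∈ levels T U q.2

variable {G : SimpleGraph V} {θ : ℝ}

omit [DecidableEq V] in
lemma levels_subset (T : ℕ × ℝ) (U : ℕ × V → I) (v : V) :
    levels T U v ⊆ Finset.range (T.1 + 1) :=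
  locLevels_subset T fun j => U (j, v)

/-- The likelihood at time `T` in terms of the fields. -/
lemma pexp_info (hε : 0 ≤ ε) (hε1 : ε < 1) (S : Finset V)
    (ω : (ℕ × V → I) × (ℕ × V → Obs)) (φ : Finset V → ℝ) :
    pexp G θ ε S (infoSites S T ω.1) (sc ω.1 ω.2) φ =
      (∏ v ∈ S, locDens ε T (vert ω v)) *
        zsum G θ S (fun v s => 1 + s * field ε T ω.1 ω.2 v) φ := by
  unfold pexp zsum
  rw [Finset.mul_sum]
  refine Finset.sum_congr rfl fun A _ => ?_
  have e : lik ε (infoSites S T ω.1) (sc ω.1 ω.2) A =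
      (∏ v ∈ S, locDens ε T (vert ω v)) * ∏ v ∈ S, (1 + spin A v * field ε T ω.1 ω.2 v) := by
    rw [lik, infoSites, Finset.prod_filter, sitesUpTo, Finset.prod_product_right,
      ← Finset.prod_mul_distrib]
    refine Finset.prod_congr rfl fun v _ => ?_
    simp only
    rw [← Finset.prod_filter, Finset.filter_mem_eq_inter,
      Finset.inter_eq_right.2 (levels_subset T ω.1 v), field_eq,
      ← prod_tilt hε hε1 T (vert ω v) (spin_cases A v)]
    refine Finset.prod_congr rfl fun j _ => ?_
    simp only [sc_coe, locTilt, vert, wgt]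
    split_ifs <;> ring
  rw [e]
  ring

lemma field_congr {S : Finset V} {U : ℕ × V → I} {z z' : ℕ × V → Obs}
    (h : ∀ q ∈ infoSites S T U, z q = z' q) : ∀ v ∈ S, field ε T U z v = field ε T U z' v := by
  intro v hv
  refine cmb_congr fun j hj => ?_
  rw [h (j, v) (Finset.mem_filter.2 ⟨Finset.mem_product.2 ⟨levels_subset T U v hj, hv⟩, hj⟩)]

omit [DecidableEq V] in
/-- Integrals over the data of independent vertices. -/
lemma integral_vert {Φ : (V → Loc) → ℝ} (hΦ : Measurable Φ) {C : ℝ} (hC : ∀ Y, |Φ Y| ≤ C) :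
    ∫ Y, Φ Y ∂(Measure.infinitePi fun _ : V => mu1) =
      ∫ U, ∫ z, Φ (vert (U, z)) ∂(P0 V) ∂(Pg V) := by
  rw [← map_vert, integral_map measurable_vert.aemeasurable hΦ.aestronglyMeasurable]
  exact integral_prod (fun ω => Φ (vert ω))
    (integrable_of_bounded (hΦ.fun_comp measurable_vert) fun ω => hC _)

lemma inner_eq (hε : 0 ≤ ε) (hε1 : ε < 1) {S : Finset V} {cl : (V → ℝ) → V → ℝ}
    (hcle : ∀ h : V → ℝ, ∀ v, |h v| ≤ 1 → cl h v = h v)
    (hdc : ∀ h h' : V → ℝ, (∀ v ∈ S, h v = h' v) → dens G θ S h = dens G θ S h')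
    (F : (V → ℝ) → ℝ) (U : ℕ × V → I) (z : ℕ × V → Obs) :
    F (field ε T U z) * pexp G θ ε S (infoSites S T U) (sc U z) (fun _ => 1) =
      F (fun v => locField ε T (vert (U, z) v)) *
        dens G θ S (cl fun v => locField ε T (vert (U, z) v)) *
        ∏ v ∈ S, locDens ε T (vert (U, z) v) := by
  have e : (fun v => locField ε T (vert (U, z) v)) = field ε T U z :=
    funext fun v => (field_eq (T := T) (ε := ε) (U, z) v).symm
  have hp := pexp_info (G := G) (θ := θ) (T := T) hε hε1 S (U, z) fun _ => 1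
  rw [e, hp, hdc (cl (field ε T U z)) (field ε T U z) fun u _ =>
    hcle _ u ((abs_field_le hε hε1 T U z u).trans (fieldBound_lt_one hε1 _).le)]
  unfold dens
  ring

variable [G.LocallyFinite]

/-- The law of the fields at time `T`. -/
theorem fieldLaw_PZ [Countable V] (hG : G.IsTree) (h0 : 0 ≤ θ) (h1 : θ < 1) (hε : 0 ≤ ε) (hε1 : ε < 1)
    (o : V) (T : ℕ × ℝ) :
    FieldLaw G θ (fieldBound ε T.1) (chanLaw ε T)
      ((PZ G θ ε o).map fun ω => field ε T ω.1 ω.2) := by
  have := chanLaw_prob hε hε1 T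
  have hmf := measurable_field (V := V) (ε := ε) T
  refine ⟨Measure.isProbabilityMeasure_map hmf.aemeasurable, ?_, ?_⟩
  · refine ae_map_iff hmf.aemeasurable ?_ |>.2
      (ae_of_all _ fun ω v => abs_field_le hε hε1 T ω.1 ω.2 v)
    rw [Set.ofPred_forall]
    exact MeasurableSet.iInter fun v => measurableSet_le (measurable_pi_apply v).abs measurable_const
  intro S hS F hF hF1 hFdep
  obtain ⟨⟨v, hv⟩⟩ := hS.nonempty
  rw [Finset.mem_coe] at hv
  set cl := fun (h : V → ℝ) (v : V) => max (-1) (min 1 (h v)) with hcl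
  have hclm : Measurable cl := measurable_pi_lambda _ fun v =>
    measurable_const.max (measurable_const.min (measurable_pi_apply v))
  have hclb : ∀ h v, |cl h v| ≤ 1 := fun h v =>
    abs_le.2 ⟨le_max_left _ _, max_le (by norm_num) (min_le_left _ _)⟩
  have hcle : ∀ h : V → ℝ, ∀ v, |h v| ≤ 1 → cl h v = h v := fun h v hv => by
    obtain ⟨ha, hb⟩ := abs_le.1 hv
    simp [hcl, min_eq_right hb, max_eq_right ha]
  have hdc : ∀ h h' : V → ℝ, (∀ v ∈ S, h v = h' v) → dens G θ S h = dens G θ S h' := by
    intro h h' e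
    refine Finset.sum_congr rfl fun A _ => ?_
    rw [Finset.prod_congr rfl fun u hu => show 1 + spin A u * h u = 1 + spin A u * h' u by
      rw [e u hu]]
  have hdm : Measurable fun h : V → ℝ => dens G θ S (cl h) := by
    unfold dens zsum
    refine Finset.measurable_sum _ fun A _ => (Measurable.const_mul ?_ _).mul_const _
    exact Finset.measurable_prod _ fun u _ =>
      (((measurable_pi_apply u).comp hclm).const_mul _).const_add _
  set D := ∑ A ∈ S.powerset, wt G θ S A * 2 ^ S.card with hD
  have hdb : ∀ h, |dens G θ S (cl h)| ≤ D := by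
    intro h
    unfold dens zsum
    refine (Finset.abs_sum_le_sum_abs _ _).trans (Finset.sum_le_sum fun A _ => ?_)
    rw [mul_one, abs_mul, abs_of_pos (wt_pos h0 h1 S A), Finset.abs_prod]
    refine mul_le_mul_of_nonneg_left ((Finset.prod_le_prod (fun _ _ => abs_nonneg _)
      fun u _ => ?_).trans_eq (Finset.prod_const 2)) (wt_pos h0 h1 S A).le
    refine (abs_add_le _ _).trans ?_
    rw [abs_one, abs_mul, abs_spin, one_mul]
    linarith [hclb h u]
  set H := fun h : V → ℝ => F h * dens G θ S (cl h) with hH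
  have hHm : Measurable H := hF.mul hdm
  have hHb : ∀ h, |H h| ≤ 1 * D := fun h => by
    simp only [hH]
    rw [abs_mul]; exact mul_le_mul (hF1 h) (hdb h) (abs_nonneg _) zero_le_one
  have hHdep : ∀ h h', (∀ v ∈ S, h v = h' v) → H h = H h' := fun h h' e => by
    simp only [hH]
    rw [hFdep h h' e, hdc (cl h) (cl h') fun u hu => by simp only [hcl, e u hu]]
  have hrhs : ∫ h, F h * dens G θ S h ∂(Measure.infinitePi fun _ : V => chanLaw ε T) =
      ∫ h, H h ∂(Measure.infinitePi fun _ : V => chanLaw ε T) := by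
    have hae : ∀ᵐ h ∂(Measure.infinitePi fun _ : V => chanLaw ε T), ∀ u ∈ S, |h u| ≤ 1 := by
      rw [Filter.eventually_all_finset]
      intro u _
      exact (measurePreserving_eval_infinitePi (fun _ : V => chanLaw ε T) u).quasiMeasurePreserving.ae
        ((chanLaw_supp hε hε1 T).mono fun x hx => hx.trans (fieldBound_lt_one hε1 _).le)
    refine integral_congr_ae ?_
    filter_upwards [hae] with h hh
    simp only [hH]
    rw [hdc (cl h) h fun u hu => hcle h u (hh u hu)]
  have hcyl : ∀ U z z', (∀ q ∈ infoSites S T U, z q = z' q) →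
      F (field ε T U z) = F (field ε T U z') :=
    fun U z z' h => hFdep _ _ (field_congr h)
  set Φ := fun Y : V → Loc =>
    H (fun v => locField ε T (Y v)) * ∏ v ∈ S, locDens ε T (Y v) with hΦ
  have hΦm : Measurable Φ :=
    (hHm.fun_comp (measurable_pi_lambda _ fun v =>
      measurable_locField.comp (measurable_pi_apply v))).mul
      (Finset.measurable_prod _ fun v _ => measurable_locDens.comp (measurable_pi_apply v))
  have hΦb : ∀ Y, |Φ Y| ≤ 1 * D * (2 ^ (T.1 + 1)) ^ S.card := fun Y => by
    simp only [hΦ]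
    rw [abs_mul, Finset.abs_prod]
    refine mul_le_mul (hHb _) ((Finset.prod_le_prod (fun _ _ => abs_nonneg _) fun v _ => ?_).trans_eq
      (Finset.prod_const _)) (Finset.prod_nonneg fun _ _ => abs_nonneg _)
      ((abs_nonneg _).trans (hHb 0))
    rw [abs_of_pos (locDens_mem hε hε1 T (Y v)).1]
    exact (locDens_mem hε hε1 T (Y v)).2
  have hinner : ∀ U, ∫ z, F (field ε T U z) *
      den G θ ε S (sitesUpTo S T.1) (sc U z) ∂(P0 V) = ∫ z, Φ (vert (U, z)) ∂(P0 V) := by
    intro U
    have hm : Measurable fun z : ℕ × V → Obs => F (field ε T U z) := by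
      have h := (hF.comp hmf).comp (measurable_prodMk_left (x := U))
      simp only [Function.comp_def] at h
      exact h
    simp only [den]
    rw [integral_margW h0 h1 hε hε1 S hm (fun z => hF1 _) (hcyl U) _
      (Finset.filter_subset _ _)]
    refine integral_congr_ae (ae_of_all _ fun z => ?_)
    exact inner_eq hε hε1 hcle hdc F U z
  rw [hrhs, integral_map hmf.aemeasurable hF.aestronglyMeasurable,
    cylinder hG h0 h1 hε hε1 o hS hv T.1 (F := fun ω => F (field ε T ω.1 ω.2))
      (hF.fun_comp hmf) (C := 1) (fun ω => hF1 _)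
      (fun U z z' h => hcyl U z z' fun q hq => h q (Finset.mem_filter.1 hq).1),
    ← integral_locFields hε hε1 S H _ hHm hHb hHdep]
  exact (integral_congr_ae (ae_of_all _ hinner)).trans (integral_vert hΦm hΦb).symm

/-- The posterior mean at the strict past is the magnetisation of the masked fields. -/
theorem meanS_eq_magI (hG : G.IsTree) (h0 : 0 ≤ θ) (h1 : θ < 1) (hε : 0 ≤ ε) (hε1 : ε < 1)
    {S : Finset V} (hS : Conn G S) {s : ℕ × V} (hs : s.2 ∈ S)
    (ω : (ℕ × V → I) × (ℕ × V → Obs)) :
    meanS G θ ε S s ω = magI G θ (mask S (field ε (s.1, (ω.1 s : ℝ)) ω.1 ω.2)) s.2 := by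
  set T : ℕ × ℝ := (s.1, (ω.1 s : ℝ)) with hT
  have hP : beforeR ω.1 S s = infoSites S T ω.1 := by
    obtain ⟨k, w⟩ := s
    ext ⟨i, v⟩
    simp only [mem_beforeR, past, lev, infoSites, sitesUpTo, Finset.mem_filter,
      Finset.mem_product, Finset.mem_range, levels, hT]
    by_cases hlt : ω.1 (k, v) < ω.1 (k, w)
    · rw [if_pos (Subtype.coe_lt_coe.2 hlt), Finset.mem_range]
      constructor
      · rintro ⟨hv, h | ⟨h, -⟩⟩ <;> exact ⟨⟨by omega, hv⟩, by omega⟩
      · rintro ⟨⟨h, hv⟩, -⟩
        rcases Nat.lt_succ_iff_lt_or_eq.1 h with h | h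
        · exact ⟨hv, Or.inl h⟩
        · exact ⟨hv, Or.inr ⟨h, hlt⟩⟩
    · rw [if_neg (fun h => hlt (Subtype.coe_lt_coe.1 h)), Finset.mem_range]
      constructor
      · rintro ⟨hv, h | ⟨-, h⟩⟩
        · exact ⟨⟨by omega, hv⟩, h⟩
        · exact absurd h hlt
      · rintro ⟨⟨-, hv⟩, h⟩; exact ⟨hv, Or.inl h⟩
  have hh : ∀ v ∈ S, |field ε T ω.1 ω.2 v| < 1 := fun v _ =>
    lt_of_le_of_lt (abs_field_le hε hε1 T ω.1 ω.2 v) (fieldBound_lt_one hε1 _)
  have key := magI_mask_mul_dens hG h0 h1 S hS hs _ hh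
  have hne := (den_pos (G := G) h0 h1 hε hε1 S (infoSites S T ω.1) (sc ω.1 ω.2)).ne'
  simp only [den, pexp_info hε hε1] at hne
  have hd : dens G θ S (field ε T ω.1 ω.2) ≠ 0 := (mul_ne_zero_iff.1 hne).2
  simp only [meanS, mean, den, hP, pexp_info hε hε1]
  rw [mul_div_mul_left _ _ (mul_ne_zero_iff.1 hne).1]
  exact ((eq_div_iff hd).2 key).symm

/-- The posterior mean at the strict past through the fields at that time. -/
theorem meanS_eq_magI_fldS (hG : G.IsTree) (h0 : 0 ≤ θ) (h1 : θ < 1) (hε : 0 ≤ ε) (hε1 : ε < 1)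
    {S : Finset V} (hS : Conn G S) {s : ℕ × V} (hs : s.2 ∈ S)
    (ω : (ℕ × V → I) × (ℕ × V → Obs)) :
    meanS G θ ε S s ω = magI G θ (mask S (fldS ε s ω)) s.2 :=
  meanS_eq_magI hG h0 h1 hε hε1 hS hs ω

/-- At every relevant time the fields are those of a channel of the stated size. -/
theorem exists_vchan [Countable V] (hG : G.IsTree) (h0 : 0 ≤ θ) (h1 : θ < 1) (hε : 0 < ε)
    (hε1 : ε < 1) (o : V) (k : ℕ) {p : ℝ} (hp : k = 0 → 0 < p ∧ p ≤ 1) :
    ∃ ν, FieldLaw G θ (fieldBound ε k) ν ((PZ G θ ε o).map fun ω => field ε (k, p) ω.1 ω.2) ∧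
      VChan (fieldBound ε k) (chanC0 ε) (if k = 0 then p ^ (3 / 2 : ℝ) else 1) ν := by
  refine ⟨chanLaw ε (k, p), fieldLaw_PZ hG h0 h1 hε.le hε1 o (k, p), ?_⟩
  rcases Nat.eq_zero_or_pos k with rfl | hk
  · rw [if_pos rfl]
    exact vchan_zero hε hε1 (hp rfl).1 (hp rfl).2
  · rw [if_neg hk.ne']
    exact vchan_pos hε hε1 hk p

end Vale.Agent.P161.Crit
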