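import Vale.Agent.P161.Bridge

/-!
Shared definitions for the critical point `(d-1) θ ^ 2 = 1`: message recursions on an arbitrary
field configuration, the normalised slopes along geodesic segments, and the revelation scheme
with a strength vanishing linearly at level zero.
-/

namespace Vale.Agent.P161.Crit

open Filter Finset
open scoped unitInterval

/-- Magnetisation of the product of two single-site tilts. -/
noncomputable def mrg (x y : ℝ) : ℝ := (x + y) / (1 + x * y)

/-- Magnetisation of the product of finitely many single-site tilts. -/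
noncomputable def cmb {ι : Type*} (s : Finset ι) (f : ι → ℝ) : ℝ :=
  ((∏ i ∈ s, (1 + f i)) - ∏ i ∈ s, (1 - f i)) / ((∏ i ∈ s, (1 + f i)) + ∏ i ∈ s, (1 - f i))

/-- Slope of the magnetisation of a vertex in that of its neighbour, divided by `θ`. -/
noncomputable def slp (θ a : ℝ) : ℝ := (1 - a ^ 2) / (1 - θ ^ 2 * a ^ 2)

/-- Logarithm of the normalised slope. -/
noncomputable def psi (θ a : ℝ) : ℝ := Real.log (slp θ a)

variable {V : Type*} [DecidableEq V]

/-- Magnetisation at `x` of the branch behind the edge `(x, y)`, to depth `n`. -/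
noncomputable def msg (G : SimpleGraph V) [G.LocallyFinite] (θ : ℝ) (h : V → ℝ) :
    ℕ → V → V → ℝ
  | 0, x, _ => h x
  | n + 1, x, y =>
    mrg (h x) (cmb ((G.neighborFinset x).erase y) fun c => θ * msg G θ h n c x)

/-- Magnetisation at `x` given the fields up to depth `n + 1`. -/
noncomputable def mag (G : SimpleGraph V) [G.LocallyFinite] (θ : ℝ) (h : V → ℝ) (n : ℕ)
    (x : V) : ℝ :=
  mrg (h x) (cmb (G.neighborFinset x) fun c => θ * msg G θ h n c x)

/-- The branch magnetisation of the whole configuration. -/
noncomputable def msgI (G : SimpleGraph V) [G.LocallyFinite] (θ : ℝ) (h : V → ℝ) (x y : V) : ℝ :=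
  limsup (fun n => msg G θ h n x y) atTop

/-- The magnetisation of the whole configuration. -/
noncomputable def magI (G : SimpleGraph V) [G.LocallyFinite] (θ : ℝ) (h : V → ℝ) (x : V) : ℝ :=
  limsup (fun n => mag G θ h n x) atTop

/-- The messages of `h` converge. -/
def Conv (G : SimpleGraph V) [G.LocallyFinite] (θ : ℝ) (h : V → ℝ) : Prop :=
  ∀ x y, Tendsto (fun n => msg G θ h n x y) atTop (nhds (msgI G θ h x y))

/-- The fields inside `S`, zero outside. For finite `S` this gives the finite-volume posterior. -/
def mask (S : Finset V) (h : V → ℝ) : V → ℝ := fun v => if v ∈ S then h v else 0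

/-- A geodesic segment `x 0, …, x k`. -/
def IsSeg (G : SimpleGraph V) (k : ℕ) (x : ℕ → V) : Prop :=
  (∀ i < k, G.Adj (x i) (x (i + 1))) ∧ ∀ i j, i ≤ j → j ≤ k → G.dist (x i) (x j) = j - i

/-- The product of the normalised slopes along a segment. -/
noncomputable def segProd (G : SimpleGraph V) [G.LocallyFinite] (θ : ℝ) (h : V → ℝ) (k : ℕ)
    (x : ℕ → V) : ℝ :=
  ∏ i ∈ Finset.range k, slp θ (msgI G θ h (x i) (x (i + 1)))

/-- Observation strength: linear in the time stamp at level zero, constant afterwards. -/
noncomputable def strength (ε : ℝ) (R : ℕ × V → I) (q : ℕ × V) : ℝ :=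
  if q.1 = 0 then ε * (R q : ℝ) else ε

/-- The levels already observed at `v` by time `T = (k, p)`; each level has its own ranking. -/
noncomputable def levels (T : ℕ × ℝ) (R : ℕ × V → I) (v : V) : Finset ℕ :=
  if (R (T.1, v) : ℝ) < T.2 then Finset.range (T.1 + 1) else Finset.range T.1

/-- The single-site fields at time `T`. -/
noncomputable def field (ε : ℝ) (T : ℕ × ℝ) (R : ℕ × V → I) (z : ℕ × V → Obs) (v : V) : ℝ :=
  cmb (levels T R v) fun k => strength ε R (k, v) * (z (k, v) : ℝ)

end Vale.Agent.P161.Crit
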