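import Vale.Agent.P161.Crit.World

/-!
The limiting innovations: their law, and the independence of the root and invariance of the law
of rankings and observations.
-/

namespace Vale.Agent.P161.Crit

open MeasureTheory SimpleGraph Finset Function Filter
open scoped unitInterval Topology BoundedContinuousFunction

variable {V : Type*} [DecidableEq V] {G : SimpleGraph V} [G.LocallyFinite] {θ ε : ℝ}

/-- The joint law of rankings and innovations. -/
noncomputable def PR (V : Type*) : Measure ((ℕ × V → I) × (ℕ × V → I)) := (Pg V).prod (Pg V)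

instance : IsProbabilityMeasure (PR V) := by unfold PR; infer_instance

omit [G.LocallyFinite] in
lemma ae_injective_lev [Countable V] :
    ∀ᵐ U ∂(Pg V), ∀ k, Function.Injective (lev U k) := by
  filter_upwards [(ae_injective (V := ℕ × V) : ∀ᵐ U ∂(Pg V), Function.Injective U)] with U hU
  intro k a b h
  exact congrArg Prod.snd (hU h)

/-- Keep the coordinates in a finite set. -/
noncomputable def trunc {ι α : Type*} [DecidableEq ι] (P : Finset ι) (d : α) (g : ι → α) : ι → α :=
  fun q => if q ∈ P then g q else d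

lemma measurable_trunc {ι α : Type*} [DecidableEq ι] [MeasurableSpace α] (P : Finset ι) (d : α) :
    Measurable (trunc P d : (ι → α) → ι → α) :=
  measurable_pi_lambda _ fun q => by
    unfold trunc
    split_ifs
    · exact measurable_pi_apply q
    · exact measurable_const

lemma tendsto_trunc {ι α : Type*} [DecidableEq ι] [TopologicalSpace α] {P : ℕ → Finset ι}
    (hP : ∀ q, ∀ᶠ n in atTop, q ∈ P n) (d : α) {g : ℕ → ι → α} {g' : ι → α}
    (h : ∀ q, Tendsto (fun n => g n q) atTop (𝓝 (g' q))) :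
    Tendsto (fun n => trunc (P n) d (g n)) atTop (𝓝 g') := by
  rw [tendsto_pi_nhds]
  intro q
  refine (h q).congr' ?_
  filter_upwards [hP q] with n hn
  simp [trunc, hn]

lemma exhaust (hG : G.IsTree) (o : V) (q : ℕ × V) :
    ∀ᶠ n in atTop, q ∈ sitesUpTo (ballF G o n) n := by
  filter_upwards [eventually_ge_atTop (max q.1 (G.dist o q.2))] with n hn
  simp only [sitesUpTo, Finset.mem_product, Finset.mem_range]
  exact ⟨by omega, (mem_ballF hG _ _ _).2 (by omega)⟩

/-- Expectations in finite volume are expectations of the finite-volume map. -/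
lemma integral_PZ_solW [Countable V] (hG : G.IsTree) (h0 : 0 ≤ θ) (h1 : θ < 1) (hε : 0 ≤ ε)
    (hε1 : ε < 1) (o : V) {S : Finset V} (hS : Conn G S) {v : V} (hv : v ∈ S) (N : ℕ)
    {F : (ℕ × V → I) × (ℕ × V → Obs) → ℝ} (hF : Measurable F) {C : ℝ} (hC : ∀ p, |F p| ≤ C)
    (hdep : ∀ U z z', (∀ q ∈ sitesUpTo S N, z q = z' q) → F (U, z) = F (U, z')) :
    ∫ ω, F ω ∂(PZ G θ ε o) = ∫ p, F (p.1, solW G θ ε p.1 S p.2) ∂(PR V) := by
  have hm : Measurable fun p : (ℕ × V → I) × (ℕ × V → I) => F (p.1, solW G θ ε p.1 S p.2) :=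
    hF.fun_comp (measurable_fst.prodMk (measurable_solW2 S))
  rw [cylinder hG h0 h1 hε hε1 o hS hv N hF hC hdep, PR,
    integral_prod _ (integrable_of_bounded hm fun p => hC _)]
  refine integral_congr_ae ?_
  filter_upwards [ae_injective_lev] with U hU
  exact (expect_solW hG h0 h1 hε hε1 hS hv (fun k => (hU k).injOn) N (F := fun z => F (U, z))
    (hF.fun_comp measurable_prodMk_left) (fun z => hC _) (hdep U)).symm

/-- Along every increasing exhausting sequence the means converge to `mInf`. -/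
lemma tendsto_meanS_seq (hG : G.IsTree) (h0 : 0 ≤ θ) (h1 : θ < 1) (hε : 0 ≤ ε) (hε1 : ε < 1)
    (o : V) {S : ℕ → Finset V} (hS : ∀ n, Conn G (S n)) (hmono : Monotone S)
    (hex : ∀ u, ∀ᶠ n in atTop, u ∈ S n) (s : ℕ × V) :
    ∀ᵐ ω ∂(PZ G θ ε o), Tendsto (fun n => meanS G θ ε (S n) s ω) atTop (𝓝 (mInf G θ ε s ω)) := by
  obtain ⟨n0, hn0⟩ := (hex s.2).exists_forall_of_atTop
  set L := fun ω => limsup (fun n => meanS G θ ε (S (n + n0)) s ω) atTop with hL
  have hLm : Measurable L := Measurable.limsup fun n => measurable_meanS _ s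
  have hc : ∀ᵐ ω ∂(PZ G θ ε o), Tendsto (fun n => meanS G θ ε (S (n + n0)) s ω) atTop (𝓝 (L ω)) := by
    filter_upwards [exists_tendsto_meanS hG h0 h1 hε hε1 o (S := fun n => S (n + n0))
      (fun n => hS _) (fun a b hab => hmono (by omega)) (s := s)
      (fun n => hn0 _ (Nat.le_add_left n0 n))] with ω hω
    obtain ⟨c, hc⟩ := hω
    simp only [hL]
    rw [hc.limsup_eq]
    exact hc
  have hle := abs_mInf_le hG h0 h1 hε hε1 o s
  have hLle : ∀ᵐ ω ∂(PZ G θ ε o), |L ω| ≤ 1 := by
    filter_upwards [hc] with ω hω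
    exact le_of_tendsto hω.abs (Eventually.of_forall fun n => abs_meanS_le h0 h1 hε hε1 _ _ ω)
  have hzero : ∫ ω, |L ω - mInf G θ ε s ω| ∂(PZ G θ ε o) = 0 := by
    have t1 : Tendsto (fun n => ∫ ω, |meanS G θ ε (S (n + n0)) s ω - mInf G θ ε s ω|
        ∂(PZ G θ ε o)) atTop (𝓝 (∫ ω, |L ω - mInf G θ ε s ω| ∂(PZ G θ ε o))) := by
      refine tendsto_integral_of_dominated_convergence (fun _ => (2 : ℝ))
        (fun n => ((measurable_meanS _ s).sub (measurable_mInf s)).abs.aestronglyMeasurable)
        (integrable_const _) (fun n => ?_) ?_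
      · filter_upwards [hle] with ω hω
        rw [Real.norm_eq_abs, abs_abs]
        have hb := abs_meanS_le (G := G) h0 h1 hε hε1 (S (n + n0)) s ω
        exact (abs_sub _ _).trans (by linarith)
      · filter_upwards [hc] with ω hω
        exact (hω.sub_const _).abs
    refine tendsto_nhds_unique t1 ?_
    rw [Metric.tendsto_atTop]
    intro η hη
    obtain ⟨N, hN⟩ := meanS_approx hG h0 h1 hε hε1 o s (half_pos hη)
    have hev : ∀ᶠ n in atTop, ballF G s.2 N ⊆ S n := by
      simp only [Finset.subset_iff]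
      exact (eventually_all_finset _).2 fun u _ => hex u
    obtain ⟨n1, hn1⟩ := hev.exists_forall_of_atTop
    refine ⟨n1, fun n hn => ?_⟩
    rw [Real.dist_eq, sub_zero, abs_of_nonneg (integral_nonneg fun ω => abs_nonneg _)]
    exact lt_of_le_of_lt (hN _ (hS _) (hn1 _ (by omega))) (by linarith)
  have heq : L =ᵐ[PZ G θ ε o] mInf G θ ε s := by
    have hint : Integrable (fun ω => |L ω - mInf G θ ε s ω|) (PZ G θ ε o) := by
      refine Integrable.mono' (integrable_const (2 : ℝ))
        (hLm.sub (measurable_mInf s)).abs.aestronglyMeasurable ?_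
      filter_upwards [hle, hLle] with ω hω hω'
      rw [Real.norm_eq_abs, abs_abs]
      exact (abs_sub _ _).trans (by linarith)
    filter_upwards [(integral_eq_zero_iff_of_nonneg (fun ω => abs_nonneg _) hint).1 hzero] with ω hω
    simpa [sub_eq_zero] using hω
  filter_upwards [hc, heq] with ω hω he
  rw [he] at hω
  exact (tendsto_add_atTop_iff_nat (f := fun n => meanS G θ ε (S n) s ω) n0).1 hω

/-- The finite-volume innovations converge to `gInf`. -/
lemma tendsto_innovS (hG : G.IsTree) (h0 : 0 ≤ θ) (h1 : θ < 1) (hε : 0 ≤ ε) (hε1 : ε < 1)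
    (o : V) {S : ℕ → Finset V} (hS : ∀ n, Conn G (S n)) (hmono : Monotone S)
    (hex : ∀ u, ∀ᶠ n in atTop, u ∈ S n) (s : ℕ × V) :
    ∀ᵐ ω ∂(PZ G θ ε o), Tendsto (fun n => innovS G θ ε (S n) s ω) atTop (𝓝 (gInf G θ ε s ω)) := by
  filter_upwards [tendsto_meanS_seq hG h0 h1 hε hε1 o hS hmono hex s] with ω hω
  have hc : Continuous fun m : ℝ =>
      Set.projIcc (0 : ℝ) 1 zero_le_one (cdfObs (strength ε ω.1 s * m) (ω.2 s)) := by
    refine continuous_projIcc.comp ?_
    unfold cdfObs
    fun_prop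
  exact (hc.tendsto _).comp hω

omit [G.LocallyFinite] in
lemma measurable_innovS (S : Finset V) (s : ℕ × V) : Measurable (innovS G θ ε S s) := by
  refine continuous_projIcc.measurable.comp ?_
  have h1 : Measurable fun ω : (ℕ × V → I) × (ℕ × V → Obs) =>
      strength ε ω.1 s * meanS G θ ε S s ω :=
    ((measurable_strength s).comp measurable_fst).mul (measurable_meanS S s)
  have h2 : Measurable fun ω : (ℕ × V → I) × (ℕ × V → Obs) => (ω.2 s : ℝ) :=
    measurable_subtype_coe.comp ((measurable_pi_apply s).comp measurable_snd)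
  unfold cdfObs
  exact ((h2.add_const 1).div_const 2).add ((h1.mul ((h2.pow_const 2).sub_const 1)).div_const 4)

/-- The finite-volume configuration of innovations. -/
noncomputable def toPQn (G : SimpleGraph V) [G.LocallyFinite] (θ ε : ℝ) (c : V) (n : ℕ)
    (ω : (ℕ × V → I) × (ℕ × V → Obs)) : (ℕ × V → I) × (ℕ × V → I) :=
  (ω.1, trunc (sitesUpTo (ballF G c n) n) 0 fun q => innovS G θ ε (ballF G c n) q ω)

lemma measurable_toPQn (c : V) (n : ℕ) : Measurable (toPQn G θ ε c n) :=
  measurable_fst.prodMk ((measurable_trunc _ _).comp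
    (measurable_pi_lambda _ fun q => measurable_innovS _ q))

lemma tendsto_toPQn [Countable V] (hG : G.IsTree) (h0 : 0 ≤ θ) (h1 : θ < 1) (hε : 0 ≤ ε)
    (hε1 : ε < 1) (o c : V) :
    ∀ᵐ ω ∂(PZ G θ ε o), Tendsto (fun n => toPQn G θ ε c n ω) atTop (𝓝 (toPQ G θ ε ω)) := by
  have h : ∀ᵐ ω ∂(PZ G θ ε o), ∀ q, Tendsto (fun n => innovS G θ ε (ballF G c n) q ω) atTop
      (𝓝 (gInf G θ ε q ω)) := by
    rw [ae_all_iff]
    refine fun q => tendsto_innovS hG h0 h1 hε hε1 o (fun n => conn_ballF hG c n)
      (monotone_nat_of_le_succ fun n => Finset.subset_union_left) (fun u => ?_) q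
    filter_upwards [eventually_ge_atTop (G.dist c u)] with n hn
    exact (mem_ballF hG _ _ _).2 hn
  filter_upwards [h] with ω hω
  exact Tendsto.prodMk_nhds tendsto_const_nhds (tendsto_trunc (exhaust hG c) 0 hω)

/-- Functions of the finite-volume innovations have the law of fresh uniforms. -/
lemma integral_toPQn [Countable V] (hG : G.IsTree) (h0 : 0 ≤ θ) (h1 : θ < 1) (hε : 0 ≤ ε)
    (hε1 : ε < 1) (o c : V) (n : ℕ) {F : (ℕ × V → I) × (ℕ × V → I) → ℝ} (hF : Measurable F) {C : ℝ}
    (hC : ∀ p, |F p| ≤ C) :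
    ∫ ω, F (toPQn G θ ε c n ω) ∂(PZ G θ ε o) =
      ∫ p, F (p.1, trunc (sitesUpTo (ballF G c n) n) 0 p.2) ∂(PR V) := by
  rw [integral_PZ_solW hG h0 h1 hε hε1 o (conn_ballF hG c n) (self_mem_ballF c n) n
    (F := fun ω => F (toPQn G θ ε c n ω)) (hF.fun_comp (measurable_toPQn c n)) (fun p => hC _)
    (fun U z z' h => by
      simp only [toPQn]
      congr 2
      funext q
      by_cases hq : q ∈ sitesUpTo (ballF G c n) n
      · simp only [trunc, if_pos hq, innovS, innovW]
        rw [h q hq, meanW_dep_sites (Finset.Subset.refl (ballF G c n))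
          (by simpa [Nat.lt_succ_iff] using (Finset.mem_product.1 hq).1) h]
      · simp [trunc, hq])]
  refine integral_congr_ae (ae_of_all _ fun p => ?_)
  simp only [toPQn, innovS]
  congr 2
  funext q
  simp only [trunc]
  split_ifs
  · exact innovW_solW h0 h1 hε hε1 _ _ _ _
  · rfl

/-- Rankings and limiting innovations are independent uniforms. -/
theorem map_toPQ [Countable V] (hG : G.IsTree) (h0 : 0 ≤ θ) (h1 : θ < 1) (hε : 0 ≤ ε)
    (hε1 : ε < 1) (o : V) : (PZ G θ ε o).map (toPQ G θ ε) = PR V := by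
  haveI : IsProbabilityMeasure ((PZ G θ ε o).map (toPQ G θ ε)) :=
    Measure.isProbabilityMeasure_map measurable_toPQ.aemeasurable
  refine ext_of_forall_integral_eq_of_IsFiniteMeasure fun F => ?_
  have hFm : Measurable fun p => F p := F.continuous.measurable
  have hFb : ∀ p, |F p| ≤ ‖F‖ := fun p => F.norm_coe_le_norm p
  rw [integral_map measurable_toPQ.aemeasurable hFm.aestronglyMeasurable]
  have t1 : Tendsto (fun n => ∫ ω, F (toPQn G θ ε o n ω) ∂(PZ G θ ε o)) atTop
      (𝓝 (∫ ω, F (toPQ G θ ε ω) ∂(PZ G θ ε o))) := by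
    refine tendsto_integral_of_dominated_convergence (fun _ => ‖F‖)
      (fun n => (hFm.comp (measurable_toPQn o n)).aestronglyMeasurable) (integrable_const _)
      (fun n => ae_of_all _ fun ω => hFb _) ?_
    filter_upwards [tendsto_toPQn hG h0 h1 hε hε1 o o] with ω hω
    exact (F.continuous.tendsto _).comp hω
  refine tendsto_nhds_unique t1 ?_
  simp only [integral_toPQn hG h0 h1 hε hε1 o o _ hFm hFb]
  refine tendsto_integral_of_dominated_convergence (fun _ => ‖F‖)
    (fun n => (hFm.comp (measurable_fst.prodMk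
      ((measurable_trunc _ _).comp measurable_snd))).aestronglyMeasurable) (integrable_const _)
    (fun n => ae_of_all _ fun ω => hFb _) (ae_of_all _ fun p => ?_)
  exact (F.continuous.tendsto p).comp (Tendsto.prodMk_nhds tendsto_const_nhds
    (tendsto_trunc (exhaust hG o) 0 fun q => tendsto_const_nhds))

/-- The law does not depend on the root. -/
theorem PZ_root [Countable V] (hG : G.IsTree) (h0 : 0 ≤ θ) (h1 : θ < 1) (hε : 0 ≤ ε) (hε1 : ε < 1)
    (o o' : V) : PZ G θ ε o = PZ G θ ε o' := by
  refine ext_of_forall_integral_eq_of_IsFiniteMeasure fun F => ?_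
  have hFm : Measurable fun p => F p := F.continuous.measurable
  have hFb : ∀ p, |F p| ≤ ‖F‖ := fun p => F.norm_coe_le_norm p
  set T := fun n (ω : (ℕ × V → I) × (ℕ × V → Obs)) =>
    (ω.1, trunc (sitesUpTo (ballF G o n) n) (zInit ((0, o) : ℕ × V)) ω.2) with hT
  have hTm : ∀ n, Measurable (T n) := fun n =>
    measurable_fst.prodMk ((measurable_trunc _ _).comp measurable_snd)
  have t : ∀ c, Tendsto (fun n => ∫ ω, F (T n ω) ∂(PZ G θ ε c)) atTop
      (𝓝 (∫ ω, F ω ∂(PZ G θ ε c))) := fun c =>
    tendsto_integral_of_dominated_convergence (fun _ => ‖F‖)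
      (fun n => (hFm.comp (hTm n)).aestronglyMeasurable) (integrable_const _)
      (fun n => ae_of_all _ fun ω => hFb _) (ae_of_all _ fun ω =>
        (F.continuous.tendsto ω).comp (Tendsto.prodMk_nhds tendsto_const_nhds
          (tendsto_trunc (exhaust hG o) _ fun q => tendsto_const_nhds)))
  have e : ∀ c n, ∫ ω, F (T n ω) ∂(PZ G θ ε c) = ∫ U, ∫ z, F (T n (U, z)) *
      den G θ ε (ballF G o n) (sitesUpTo (ballF G o n) n) (sc U z) ∂(P0 V) ∂(Pg V) := fun c n =>
    cylinder hG h0 h1 hε hε1 c (conn_ballF hG o n) (self_mem_ballF o n) n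
      (F := fun ω => F (T n ω)) (hFm.fun_comp (hTm n)) (fun p => hFb _)
      (fun U z z' h => by
        simp only [hT]
        congr 2
        funext q
        simp only [trunc]
        split_ifs with hq
        · exact h q hq
        · rfl)
  have h1' := t o
  have h2' := t o'
  simp only [e] at h1' h2'
  exact tendsto_nhds_unique h1' h2'

omit [G.LocallyFinite] in
lemma parent_image (hG : G.IsTree) (e : G ≃g G) (hdist : ∀ a b, G.dist (e a) (e b) = G.dist a b)
    {o v : V} (h : o ≠ v) : parent G (e o) (e v) = e (parent G o v) := by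
  obtain ⟨p, hp, hd⟩ := exists_closer hG h
  rw [parent_eq hG hp hd]
  exact parent_eq hG (e.map_rel_iff.2 hp) (by rw [hdist, hdist]; exact hd)

lemma dist_image (hG : G.IsTree) (e : G ≃g G) (a b : V) : G.dist (e a) (e b) = G.dist a b := by
  refine le_antisymm ?_ ?_
  · have := (mem_ballF hG (e a) (G.dist a b) (e b))
    rw [← this, ← ballF_image e a]
    exact Finset.mem_image_of_mem _ ((mem_ballF hG _ _ _).2 le_rfl)
  · have := (mem_ballF hG a (G.dist (e a) (e b)) b)
    rw [← this, ← e.injective.mem_finset_image, ballF_image e a]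
    exact (mem_ballF hG _ _ _).2 le_rfl

lemma sigmaB_image (hG : G.IsTree) (e : G ≃g G) (o : V) (r : V → I) (v : V) :
    sigmaB G θ (e o) (fun w => r (e.symm w)) (e v) = sigmaB G θ o r v := by
  induction hn : G.dist o v using Nat.strong_induction_on generalizing v with
  | _ n ih =>
    subst hn
    by_cases hov : o = v
    · subst hov; rw [sigmaB_root, sigmaB_root]; simp
    obtain ⟨p, hp, hd⟩ := exists_closer hG hov
    have he := dist_image hG e
    rw [sigmaB_step hG hp hd, sigmaB_step hG (e.map_rel_iff.2 hp) (by rw [he, he]; exact hd),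
      ih _ (by omega) p rfl]
    simp

omit [G.LocallyFinite] in
lemma map_relabel {ι α : Type*} [MeasurableSpace α] (μ : Measure α) [IsProbabilityMeasure μ]
    (f : ι ≃ ι) :
    (Measure.infinitePi fun _ : ι => μ).map (fun x i => x (f i)) =
      Measure.infinitePi fun _ : ι => μ := by
  classical
  refine Measure.eq_infinitePi _ fun s t ht => ?_
  rw [Measure.map_apply (measurable_pi_lambda _ fun i => measurable_pi_apply (f i))
    (.pi s.countable_toSet fun i _ => ht i)]
  have : (fun (x : ι → α) i => x (f i)) ⁻¹' Set.pi (s : Set ι) t =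
      Set.pi ((s.image f : Finset ι) : Set ι) (fun j => t (f.symm j)) := by
    ext x
    simp only [Set.mem_preimage, Set.mem_pi, Finset.mem_coe, Finset.mem_image]
    constructor
    · rintro h _ ⟨i, hi, rfl⟩
      simpa using h i hi
    · intro h i hi
      simpa using h (f i) ⟨i, hi, rfl⟩
  rw [this, Measure.infinitePi_pi _ (fun j _ => ht _), Finset.prod_image fun a _ b _ h => f.injective h]
  simp

/-- Invariance under automorphisms. -/
theorem PZ_invariant [Countable V] (hG : G.IsTree) (h0 : 0 ≤ θ) (h1 : θ < 1) (hε : 0 ≤ ε)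
    (hε1 : ε < 1) (o : V) (e : G ≃g G) :
    MeasurePreserving
      (fun ω : (ℕ × V → I) × (ℕ × V → Obs) =>
        ((fun q : ℕ × V => ω.1 (q.1, e.symm q.2)), fun q : ℕ × V => ω.2 (q.1, e.symm q.2)))
      (PZ G θ ε o) (PZ G θ ε o) := by
  set T := fun ω : (ℕ × V → I) × (ℕ × V → Obs) =>
    ((fun q : ℕ × V => ω.1 (q.1, e.symm q.2)), fun q : ℕ × V => ω.2 (q.1, e.symm q.2)) with hT
  have hTm : Measurable T :=
    (measurable_pi_lambda _ fun w => (measurable_pi_apply _).comp measurable_fst).prodMk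
      (measurable_pi_lambda _ fun q => (measurable_pi_apply _).comp measurable_snd)
  refine ⟨hTm, ?_⟩
  conv_rhs => rw [PZ_root hG h0 h1 hε hε1 o (e o)]
  set R := fun p : (ℕ × V → I) × (ℕ × V → I) × (V → I) =>
    ((fun q : ℕ × V => p.1 (q.1, e.symm q.2)), (fun q : ℕ × V => p.2.1 (q.1, e.symm q.2)),
      fun w => p.2.2 (e.symm w))
  have mU : MeasurePreserving (fun (x : V → I) w => x (e.symm w)) (PU V) (PU V) :=
    ⟨measurable_pi_lambda _ fun w => measurable_pi_apply _, map_relabel volume e.symm.toEquiv⟩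
  have mg : MeasurePreserving (fun (x : ℕ × V → I) (q : ℕ × V) => x (q.1, e.symm q.2))
      (Pg V) (Pg V) :=
    ⟨measurable_pi_lambda _ fun q => measurable_pi_apply _,
      map_relabel volume (Equiv.prodCongr (Equiv.refl ℕ) e.symm.toEquiv)⟩
  have mR : MeasurePreserving R ((Pg V).prod ((Pg V).prod (PU V)))
      ((Pg V).prod ((Pg V).prod (PU V))) := mg.prod (mg.prod mU)
  rw [PZ, Measure.map_map hTm (measurable_obsB ε o), PZ]
  conv_rhs => rw [← mR.map_eq, Measure.map_map (measurable_obsB ε (e o)) mR.measurable]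
  congr 1
  funext p
  refine Prod.ext rfl (funext fun q => ?_)
  obtain ⟨k, w⟩ := q
  obtain ⟨v, rfl⟩ := e.surjective w
  simp [hT, R, obsB, strength, spinB, sigmaB_image hG]

end Vale.Agent.P161.Crit
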