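import Vale.Agent.P161.Crit.Defs

/-!
The abstract one-copy and two-copy models at a fixed time: single-site fields with the law of a
symmetric channel observing the free Ising spins, and invariant pairs of such fields.
-/

namespace Vale.Agent.P161.Crit

open MeasureTheory Finset
open scoped unitInterval

variable {V : Type*} [DecidableEq V]

/-- A symmetric channel, described by the law of the magnetisation it produces. -/
structure Chan (b : ℝ) (ν : Measure ℝ) : Prop where
  prob : IsProbabilityMeasure ν
  symm : ν.map (fun x => -x) = ν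
  supp : ∀ᵐ x ∂ν, |x| ≤ b

/-- Density, with respect to independent channel magnetisations, of the fields on `S`. -/
noncomputable def dens (G : SimpleGraph V) (θ : ℝ) (S : Finset V) (h : V → ℝ) : ℝ :=
  zsum G θ S (fun v s => 1 + s * h v) fun _ => 1

/-- Unnormalised magnetisation of `x` given the fields on `S`. -/
noncomputable def densSpin (G : SimpleGraph V) (θ : ℝ) (S : Finset V) (h : V → ℝ) (x : V) : ℝ :=
  zsum G θ S (fun v s => 1 + s * h v) fun A => spin A x

/-- The law of the fields: free Ising spins observed through the channel `ν` at every site. -/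
structure FieldLaw (G : SimpleGraph V) (θ b : ℝ) (ν : Measure ℝ) (P : Measure (V → ℝ)) : Prop where
  prob : IsProbabilityMeasure P
  supp : ∀ᵐ h ∂P, ∀ v, |h v| ≤ b
  law : ∀ S : Finset V, Conn G S → ∀ F : (V → ℝ) → ℝ, Measurable F → (∀ h, |F h| ≤ 1) →
    (∀ h h', (∀ v ∈ S, h v = h' v) → F h = F h') →
    ∫ h, F h ∂P = ∫ h, F h * dens G θ S h ∂(Measure.infinitePi fun _ : V => ν)

/-- An invariant pair of fields, both with the law of the model. -/
structure PairLaw (G : SimpleGraph V) (θ b : ℝ) (ν : Measure ℝ)
    (P : Measure ((V → ℝ) × (V → ℝ))) : Prop where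
  fst : FieldLaw G θ b ν (P.map Prod.fst)
  snd : FieldLaw G θ b ν (P.map Prod.snd)
  inv : ∀ e : G ≃g G,
    MeasurePreserving (fun hh : (V → ℝ) × (V → ℝ) => (fun v => hh.1 (e v), fun v => hh.2 (e v))) P P

variable (G : SimpleGraph V) [G.LocallyFinite] (θ : ℝ)

/-- Average over the descendants at depth `i` in the branch behind `(x, y)` of the slope product
up to the edge `(x, y)`. -/
noncomputable def avgProd (h : V → ℝ) : ℕ → V → V → ℝ
  | 0, _, _ => 1
  | i + 1, x, y => slp θ (msgI G θ h x y) *
      ((∑ c ∈ (G.neighborFinset x).erase y, avgProd h i c x) / ((G.neighborFinset x).erase y).card)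

/-- Average over the descendants at depth `j` in the branch behind `(x, y)` of `psi` of their
branch magnetisation. -/
noncomputable def avgPsi (h : V → ℝ) : ℕ → V → V → ℝ
  | 0, x, y => psi θ (msgI G θ h x y)
  | j + 1, x, y =>
      (∑ c ∈ (G.neighborFinset x).erase y, avgPsi h j c x) / ((G.neighborFinset x).erase y).card

open Classical in
/-- A chosen geodesic from `o` to `w`. -/
noncomputable def geod (o w : V) : ℕ → V :=
  if h : ∃ x, IsSeg G (G.dist o w) x ∧ x 0 = o ∧ x (G.dist o w) = w then h.choose else fun _ => o

/-- Difference of the magnetisations of the two copies. -/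
noncomputable def uDiff (hh : (V → ℝ) × (V → ℝ)) (x : V) : ℝ :=
  magI G θ hh.2 x - magI G θ hh.1 x

/-- The contribution of `w` to the rate of growth of the squared difference at `o`. -/
noncomputable def dTerm (hh : (V → ℝ) × (V → ℝ)) (o w : V) : ℝ :=
  θ ^ (2 * G.dist o w) *
    ((segProd G θ hh.2 (G.dist o w) (geod G o w) - segProd G θ hh.1 (G.dist o w) (geod G o w)) ^ 2 +
      (segProd G θ hh.1 (G.dist o w) (geod G o w) ^ 2 +
        segProd G θ hh.2 (G.dist o w) (geod G o w) ^ 2) * uDiff G θ hh w ^ 2)

end Vale.Agent.P161.Crit
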