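import Vale.Agent.P161.Crit.Alg
import Vale.Agent.P161.Crit.Model

/-!
Deterministic properties of the message recursion: bounds, locality, measurability, recursions
for convergent configurations, the effect of one observation along a segment, equivariance, and
the identification with the finite-volume posterior.
-/

namespace Vale.Agent.P161.Crit

open Filter Finset SimpleGraph
open scoped Topology

variable {V : Type*} [DecidableEq V] {G : SimpleGraph V} [G.LocallyFinite] {θ : ℝ}

/-- `v` lies in the branch behind the oriented edge `(x, y)`. -/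
def Behind (G : SimpleGraph V) (x y v : V) : Prop := G.dist v y = G.dist v x + 1

omit [DecidableEq V] [G.LocallyFinite] in
lemma behind_self {x y : V} (h : G.Adj x y) : Behind G x y x := by
  simp [Behind, dist_eq_one_iff_adj.2 h]

omit [DecidableEq V] [G.LocallyFinite] in
lemma behind_child (hG : G.IsTree) {x y c v : V} (hxy : G.Adj x y) (hcx : G.Adj x c) (hcy : c ≠ y)
    (h : Behind G c x v) : Behind G x y v := by
  rcases hG.dist_eq_dist_add_one_of_adj v hxy with h' | h'
  · exact absurd (closer_unique hG hcx hxy h.symm h'.symm) hcy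
  · exact h'

omit [DecidableEq V] [G.LocallyFinite] in
lemma not_behind (hG : G.IsTree) {x y v : V} (hxy : G.Adj x y) (h : ¬ Behind G x y v) :
    G.dist v x = G.dist v y + 1 := by
  rcases hG.dist_eq_dist_add_one_of_adj v hxy with h' | h'
  · exact h'
  · exact absurd h' h

omit [DecidableEq V] [G.LocallyFinite] in
/-- Only the edge `{v, p}` separates the neighbours `v` and `p`. -/
lemma behind_iff_of_adj (hG : G.IsTree) {v p c a : V} (hvp : G.Adj v p) (hca : G.Adj c a)
    (hv : Behind G c a v) (hp : ¬ Behind G c a p) : c = v ∧ a = p := by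
  have hc := hG.connected
  have hp' := not_behind hG hca hp
  have e1 : G.dist v p = 1 := dist_eq_one_iff_adj.2 hvp
  have t1 : G.dist v a ≤ G.dist v p + G.dist p a := hc.dist_triangle
  have t2 : G.dist p c ≤ G.dist p v + G.dist v c := hc.dist_triangle
  have c1 : G.dist p v = G.dist v p := dist_comm
  unfold Behind at hv
  have hk : G.dist v c = G.dist p a := by omega
  by_cases h0 : G.dist v c = 0
  · exact ⟨(hc.dist_eq_zero_iff.1 h0).symm, (hc.dist_eq_zero_iff.1 (hk ▸ h0)).symm⟩
  · exfalso
    have hcv : c ≠ v := fun h => h0 (by rw [h, SimpleGraph.dist_self])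
    obtain ⟨w, hw, hwd⟩ := exists_closer hG hcv
    have hap : G.dist a p + 1 = G.dist a v := by
      rw [dist_comm (u := a) (v := p), dist_comm (u := a) (v := v)]; omega
    have d1 : G.dist a v = G.dist v a := dist_comm
    have d2 : G.dist c v = G.dist v c := dist_comm
    have d3 : G.dist a c = 1 := dist_eq_one_iff_adj.2 hca.symm
    have t3 : G.dist a w ≤ G.dist a c + G.dist c w := hc.dist_triangle
    have t4 : G.dist a v ≤ G.dist a w + G.dist w v := hc.dist_triangle
    have d4 : G.dist w v = 1 := dist_eq_one_iff_adj.2 hw.symm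
    have := closer_unique hG hvp hw hap (by omega)
    subst this
    have d5 : G.dist c p = G.dist p c := dist_comm
    omega

section bounds

variable {h : V → ℝ}

/-- A uniform bound on magnetisations of bounded fields. -/
noncomputable def magBound (d : ℕ) (θ b : ℝ) : ℝ := 1 - (1 - b) * ((1 - θ) / 2) ^ d / 2

lemma magBound_lt_one {d : ℕ} {b : ℝ} (h1 : θ < 1) (hb : b < 1) : magBound d θ b < 1 := by
  have : 0 < (1 - b) * ((1 - θ) / 2) ^ d := mul_pos (by linarith) (pow_pos (by linarith) d)
  unfold magBound; linarith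

lemma abs_theta_mul_le (h0 : 0 ≤ θ) {x : ℝ} (hx : |x| ≤ 1) : |θ * x| ≤ θ := by
  rw [abs_mul, abs_of_nonneg h0]; exact mul_le_of_le_one_right h0 hx

lemma abs_msg_lt (h0 : 0 ≤ θ) (h1 : θ < 1) (hh : ∀ v, |h v| < 1) :
    ∀ n x y, |msg G θ h n x y| < 1 := by
  intro n
  induction n with
  | zero => exact fun x y => hh x
  | succ n ih =>
    exact fun x y => abs_mrg_lt (hh x) (abs_cmb_lt fun c _ =>
      lt_of_le_of_lt (abs_theta_mul_le h0 (ih c x).le) h1)

lemma abs_mag_lt (h0 : 0 ≤ θ) (h1 : θ < 1) (hh : ∀ v, |h v| < 1) (n : ℕ) (x : V) :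
    |mag G θ h n x| < 1 :=
  abs_mrg_lt (hh x) (abs_cmb_lt fun c _ =>
    lt_of_le_of_lt (abs_theta_mul_le h0 (abs_msg_lt h0 h1 hh n c x).le) h1)

lemma abs_mrg_cmb_le {d : ℕ} {b : ℝ} (h0 : 0 ≤ θ) (h1 : θ < 1) (hb : b < 1) {x : ℝ} (hx : |x| ≤ b)
    {s : Finset V} (hs : s.card ≤ d) {f : V → ℝ} (hf : ∀ c ∈ s, |f c| ≤ θ) :
    |mrg x (cmb s f)| ≤ magBound d θ b := by
  have hc := abs_cmb_le h1 hf
  have h2 : ((1 - θ) / 2) ^ d ≤ ((1 - θ) / 2) ^ s.card :=
    pow_le_pow_of_le_one (by linarith) (by linarith) hs
  refine (abs_mrg_le (lt_of_le_of_lt hx hb)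
    (abs_cmb_lt fun c hc => lt_of_le_of_lt (hf c hc) h1).le).trans ?_
  have := mul_le_mul (by linarith : 1 - b ≤ 1 - |x|) (by linarith : _ ≤ 1 - |cmb s f|)
    (pow_nonneg (by linarith : (0 : ℝ) ≤ (1 - θ) / 2) d) (by linarith [lt_of_le_of_lt hx hb])
  unfold magBound; linarith

variable {d : ℕ} {b : ℝ}

lemma le_magBound (h0 : 0 ≤ θ) (h1 : θ < 1) (hb : b < 1) : b ≤ magBound d θ b := by
  have : ((1 - θ) / 2) ^ d ≤ 1 := pow_le_one₀ (by linarith) (by linarith)
  unfold magBound
  nlinarith

lemma abs_msg_le (hd : ∀ v, G.degree v ≤ d) (h0 : 0 ≤ θ) (h1 : θ < 1) (hb : b < 1)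
    (hh : ∀ v, |h v| ≤ b) : ∀ n x y, |msg G θ h n x y| ≤ magBound d θ b := by
  have hh1 : ∀ v, |h v| < 1 := fun v => lt_of_le_of_lt (hh v) hb
  rintro (_ | n) x y
  · exact (hh x).trans (le_magBound h0 h1 hb)
  · exact abs_mrg_cmb_le h0 h1 hb (hh x)
      ((Finset.card_erase_le).trans ((card_neighborFinset_eq_degree G x).trans_le (hd x)))
      fun c _ => abs_theta_mul_le h0 (abs_msg_lt h0 h1 hh1 n c x).le

lemma abs_mag_le (hd : ∀ v, G.degree v ≤ d) (h0 : 0 ≤ θ) (h1 : θ < 1) (hb : b < 1)
    (hh : ∀ v, |h v| ≤ b) (n : ℕ) (x : V) : |mag G θ h n x| ≤ magBound d θ b :=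
  abs_mrg_cmb_le h0 h1 hb (hh x) ((card_neighborFinset_eq_degree G x).trans_le (hd x))
    fun c _ => abs_theta_mul_le h0 (abs_msg_lt h0 h1 (fun v => lt_of_le_of_lt (hh v) hb) n c x).le

lemma abs_limsup_le {u : ℕ → ℝ} {r : ℝ} (hu : ∀ n, |u n| ≤ r) : |limsup u atTop| ≤ r := by
  have hb : IsBoundedUnder (· ≤ ·) atTop u :=
    isBoundedUnder_of ⟨r, fun n => (abs_le.1 (hu n)).2⟩
  have hb' : IsCoboundedUnder (· ≤ ·) atTop u :=
    IsBoundedUnder.isCoboundedUnder_le (isBoundedUnder_of ⟨-r, fun n => (abs_le.1 (hu n)).1⟩)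
  refine abs_le.2 ⟨?_, limsup_le_of_le hb' (Eventually.of_forall fun n => (abs_le.1 (hu n)).2)⟩
  exact le_limsup_of_frequently_le (Frequently.of_forall fun n => (abs_le.1 (hu n)).1) hb

lemma abs_msgI_le (hd : ∀ v, G.degree v ≤ d) (h0 : 0 ≤ θ) (h1 : θ < 1) (hb : b < 1)
    (hh : ∀ v, |h v| ≤ b) (x y : V) : |msgI G θ h x y| ≤ magBound d θ b :=
  abs_limsup_le fun n => abs_msg_le hd h0 h1 hb hh n x y

lemma abs_magI_le (hd : ∀ v, G.degree v ≤ d) (h0 : 0 ≤ θ) (h1 : θ < 1) (hb : b < 1)
    (hh : ∀ v, |h v| ≤ b) (x : V) : |magI G θ h x| ≤ magBound d θ b :=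
  abs_limsup_le fun n => abs_mag_le hd h0 h1 hb hh n x

lemma abs_msgI_le_one (h0 : 0 ≤ θ) (h1 : θ < 1) (hh : ∀ v, |h v| < 1) (x y : V) :
    |msgI G θ h x y| ≤ 1 :=
  abs_limsup_le fun n => (abs_msg_lt h0 h1 hh n x y).le

end bounds

section locality

variable {h h' : V → ℝ}

lemma msg_congr (hG : G.IsTree) : ∀ n x y, G.Adj x y →
    (∀ v, Behind G x y v → G.dist x v ≤ n → h v = h' v) → msg G θ h n x y = msg G θ h' n x y := by
  intro n
  induction n with
  | zero => exact fun x y hxy hh => hh x (behind_self hxy) (by simp)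
  | succ n ih =>
    intro x y hxy hh
    simp only [msg]
    rw [hh x (behind_self hxy) (by simp)]
    congr 1
    refine cmb_congr fun c hc => ?_
    obtain ⟨hcy, hcx⟩ := Finset.mem_erase.1 hc
    rw [mem_neighborFinset] at hcx
    rw [ih c x hcx.symm fun v hv hvn => hh v (behind_child hG hxy hcx hcy hv) ?_]
    have : G.dist x v ≤ G.dist x c + G.dist c v := hG.connected.dist_triangle
    have : G.dist x c = 1 := dist_eq_one_iff_adj.2 hcx
    omega

lemma msgI_congr (hG : G.IsTree) {x y : V} (hxy : G.Adj x y)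
    (hh : ∀ v, Behind G x y v → h v = h' v) : msgI G θ h x y = msgI G θ h' x y := by
  unfold msgI
  rw [funext fun n => msg_congr hG n x y hxy fun v hv _ => hh v hv]

lemma msg_zero_field : ∀ n x y, msg G θ (fun _ => (0 : ℝ)) n x y = 0 := by
  intro n
  induction n with
  | zero => exact fun x y => rfl
  | succ n ih => intro x y; simp [msg, ih, cmb]

lemma msgI_eq_zero (hG : G.IsTree) {x y : V} (hxy : G.Adj x y)
    (hh : ∀ v, Behind G x y v → h v = 0) : msgI G θ h x y = 0 := by
  rw [msgI_congr (h' := fun _ => 0) hG hxy hh]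
  simp [msgI, msg_zero_field]

lemma msg_stable (hG : G.IsTree) : ∀ n x y, G.Adj x y →
    (∀ v, Behind G x y v → h v ≠ 0 → G.dist x v ≤ n) →
    msg G θ h (n + 1) x y = msg G θ h n x y := by
  intro n
  induction n with
  | zero =>
    intro x y hxy hh
    have : ∀ c ∈ (G.neighborFinset x).erase y, θ * msg G θ h 0 c x = (fun _ => (0:ℝ)) c := by
      intro c hc
      obtain ⟨hcy, hcx⟩ := Finset.mem_erase.1 hc
      rw [mem_neighborFinset] at hcx
      have : h c = 0 := by
        by_contra h0
        have := hh c (behind_child hG hxy hcx hcy (behind_self hcx.symm)) h0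
        rw [dist_eq_one_iff_adj.2 hcx] at this
        omega
      simp [msg, this]
    rw [show msg G θ h (0 + 1) x y =
      mrg (h x) (cmb ((G.neighborFinset x).erase y) fun c => θ * msg G θ h 0 c x) from rfl,
      cmb_congr this]
    simp [msg, cmb]
  | succ n ih =>
    intro x y hxy hh
    simp only [msg]
    congr 1
    refine cmb_congr fun c hc => ?_
    obtain ⟨hcy, hcx⟩ := Finset.mem_erase.1 hc
    rw [mem_neighborFinset] at hcx
    have := ih c x hcx.symm fun v hv hv0 => ?_
    · simp only [msg] at this; rw [this]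
    · have h2 := hh v (behind_child hG hxy hcx hcy hv) hv0
      unfold Behind at hv
      have c1 : G.dist x v = G.dist v x := dist_comm
      have c2 : G.dist c v = G.dist v c := dist_comm
      omega

/-- Finitely supported configurations converge. -/
lemma tendsto_msg_mask (hG : G.IsTree) (S : Finset V) (h : V → ℝ) {x y : V} (hxy : G.Adj x y) :
    Tendsto (fun n => msg G θ (mask S h) n x y) atTop (𝓝 (msgI G θ (mask S h) x y)) := by
  set N := S.sup fun v => G.dist x v
  have hst : ∀ m, N ≤ m → msg G θ (mask S h) m x y = msg G θ (mask S h) N x y := by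
    intro m hm
    induction m, hm using Nat.le_induction with
    | base => rfl
    | succ m hm ih =>
      rw [msg_stable hG m x y hxy fun v _ hv => ?_, ih]
      by_cases hvS : v ∈ S
      · exact (Finset.le_sup (f := fun v => G.dist x v) hvS).trans hm
      · simp [mask, hvS] at hv
  have ht : Tendsto (fun n => msg G θ (mask S h) n x y) atTop
      (𝓝 (msg G θ (mask S h) N x y)) :=
    tendsto_nhds_of_eventually_eq (eventually_atTop.2 ⟨N, hst⟩)
  rwa [msgI, ht.limsup_eq]

end locality

section recursion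

variable {h : V → ℝ}

/-- All messages of the edges converge. -/
def ConvAdj (G : SimpleGraph V) [G.LocallyFinite] (θ : ℝ) (h : V → ℝ) : Prop :=
  ∀ x y, G.Adj x y → Tendsto (fun n => msg G θ h n x y) atTop (𝓝 (msgI G θ h x y))

lemma Conv.adj (hc : Conv G θ h) : ConvAdj G θ h := fun x y _ => hc x y

lemma convAdj_mask (hG : G.IsTree) (S : Finset V) (h : V → ℝ) : ConvAdj G θ (mask S h) :=
  fun _ _ hxy => tendsto_msg_mask hG S h hxy

lemma abs_mask_lt {S : Finset V} (hh : ∀ v ∈ S, |h v| < 1) (v : V) : |mask S h v| < 1 := by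
  unfold mask; split_ifs with hv
  · exact hh v hv
  · simp

lemma abs_mask_le {S : Finset V} {b : ℝ} (hb : 0 ≤ b) (hh : ∀ v ∈ S, |h v| ≤ b) (v : V) :
    |mask S h v| ≤ b := by
  unfold mask; split_ifs with hv
  · exact hh v hv
  · simpa using hb

lemma tendsto_mrg_cmb (h0 : 0 ≤ θ) (h1 : θ < 1) {x : ℝ} (hx : |x| < 1) (s : Finset V)
    {f : ℕ → V → ℝ} {g : V → ℝ} (hf : ∀ c ∈ s, Tendsto (fun n => f n c) atTop (𝓝 (g c)))
    (hg : ∀ c ∈ s, |g c| ≤ 1) :
    Tendsto (fun n => mrg x (cmb s fun c => θ * f n c)) atTop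
      (𝓝 (mrg x (cmb s fun c => θ * g c))) := by
  have hlt : ∀ c ∈ s, |θ * g c| < 1 := fun c hc =>
    lt_of_le_of_lt (abs_theta_mul_le h0 (hg c hc)) h1
  have hp : Tendsto (fun n => ∏ c ∈ s, (1 + θ * f n c)) atTop (𝓝 (∏ c ∈ s, (1 + θ * g c))) :=
    tendsto_finsetProd _ fun c hc => ((hf c hc).const_mul θ).const_add 1
  have hq : Tendsto (fun n => ∏ c ∈ s, (1 - θ * f n c)) atTop (𝓝 (∏ c ∈ s, (1 - θ * g c))) :=
    tendsto_finsetProd _ fun c hc => ((hf c hc).const_mul θ).const_sub 1
  have hC : Tendsto (fun n => cmb s fun c => θ * f n c) atTop (𝓝 (cmb s fun c => θ * g c)) :=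
    (hp.sub hq).div (hp.add hq)
      (add_pos (prod_one_add_pos hlt) (prod_one_sub_pos hlt)).ne'
  exact ((hC.const_add x).div ((hC.const_mul x).const_add 1)
    (one_add_mul_pos hx (abs_cmb_lt hlt).le).ne')

lemma msgI_rec (h0 : 0 ≤ θ) (h1 : θ < 1) (hh : ∀ v, |h v| < 1) (hc : ConvAdj G θ h) {x y : V}
    (hxy : G.Adj x y) :
    msgI G θ h x y = mrg (h x) (cmb ((G.neighborFinset x).erase y) fun c => θ * msgI G θ h c x) := by
  refine tendsto_nhds_unique ((tendsto_add_atTop_iff_nat 1).2 (hc x y hxy)) ?_
  exact tendsto_mrg_cmb h0 h1 (hh x) _ (fun c hc' => hc c x (by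
    have := (Finset.mem_erase.1 hc').2
    rw [mem_neighborFinset] at this
    exact this.symm)) fun c _ => abs_msgI_le_one h0 h1 hh c x

lemma tendsto_mag (h0 : 0 ≤ θ) (h1 : θ < 1) (hh : ∀ v, |h v| < 1) (hc : ConvAdj G θ h) (x : V) :
    Tendsto (fun n => mag G θ h n x) atTop
      (𝓝 (mrg (h x) (cmb (G.neighborFinset x) fun c => θ * msgI G θ h c x))) :=
  tendsto_mrg_cmb h0 h1 (hh x) _ (fun c hc' => hc c x (by
    rw [mem_neighborFinset] at hc'; exact hc'.symm)) fun c _ => abs_msgI_le_one h0 h1 hh c x

lemma magI_eq (h0 : 0 ≤ θ) (h1 : θ < 1) (hh : ∀ v, |h v| < 1) (hc : ConvAdj G θ h) (x : V) :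
    magI G θ h x = mrg (h x) (cmb (G.neighborFinset x) fun c => θ * msgI G θ h c x) :=
  (tendsto_mag h0 h1 hh hc x).limsup_eq

lemma abs_msgI_lt (h0 : 0 ≤ θ) (h1 : θ < 1) (hh : ∀ v, |h v| < 1) (hc : ConvAdj G θ h) {x y : V}
    (hxy : G.Adj x y) : |msgI G θ h x y| < 1 := by
  rw [msgI_rec h0 h1 hh hc hxy]
  exact abs_mrg_lt (hh x) (abs_cmb_lt fun c _ =>
    lt_of_le_of_lt (abs_theta_mul_le h0 (abs_msgI_le_one h0 h1 hh c x)) h1)

lemma abs_magI_lt (h0 : 0 ≤ θ) (h1 : θ < 1) (hh : ∀ v, |h v| < 1) (hc : ConvAdj G θ h) (x : V) :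
    |magI G θ h x| < 1 := by
  rw [magI_eq h0 h1 hh hc x]
  exact abs_mrg_lt (hh x) (abs_cmb_lt fun c _ =>
    lt_of_le_of_lt (abs_theta_mul_le h0 (abs_msgI_le_one h0 h1 hh c x)) h1)

/-- The magnetisation of a vertex from the two messages of one of its edges. -/
lemma magI_edge (h0 : 0 ≤ θ) (h1 : θ < 1) (hh : ∀ v, |h v| < 1) (hc : ConvAdj G θ h) {x y : V}
    (hxy : G.Adj x y) :
    magI G θ h x = mrg (msgI G θ h x y) (θ * msgI G θ h y x) := by
  have hlt : ∀ c, |θ * msgI G θ h c x| < 1 := fun c =>
    lt_of_le_of_lt (abs_theta_mul_le h0 (abs_msgI_le_one h0 h1 hh c x)) h1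
  rw [magI_eq h0 h1 hh hc x, msgI_rec h0 h1 hh hc hxy,
    ← Finset.insert_erase (by rwa [mem_neighborFinset] : y ∈ G.neighborFinset x),
    cmb_insert (Finset.notMem_erase y _) (hlt y) (fun c _ => hlt c),
    Finset.erase_insert (Finset.notMem_erase y _),
    mrg_assoc (hh x) (abs_cmb_lt fun c _ => hlt c) (hlt y), mrg_comm (cmb _ _)]

end recursion

section segment

variable {h : V → ℝ}

omit [DecidableEq V] [G.LocallyFinite] in
lemma IsSeg.dist {k : ℕ} {x : ℕ → V} (hx : IsSeg G k x) : G.dist (x 0) (x k) = k := by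
  simpa using hx.2 0 k (Nat.zero_le k) le_rfl

lemma magI_step (h0 : 0 ≤ θ) (h1 : θ < 1) (hh : ∀ v, |h v| < 1) (hc : ConvAdj G θ h) {x y : V}
    (hxy : G.Adj x y) :
    magI G θ h x = msgI G θ h x y * (1 - θ ^ 2) / (1 - θ ^ 2 * msgI G θ h x y ^ 2) +
      θ * slp θ (msgI G θ h x y) * magI G θ h y := by
  rw [magI_edge h0 h1 hh hc hxy, magI_edge h0 h1 hh hc hxy.symm]
  exact edge_affine h0 h1 (abs_msgI_lt h0 h1 hh hc hxy) (abs_msgI_lt h0 h1 hh hc hxy.symm)

/-- Effect of one more observation at the end of a segment on the magnetisation at its start. -/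
lemma magI_jump (hG : G.IsTree) (h0 : 0 ≤ θ) (h1 : θ < 1) {h' : V → ℝ} (hh : ∀ v, |h v| < 1)
    (hc : ConvAdj G θ h) (hc' : ConvAdj G θ h') {k : ℕ} {x : ℕ → V} (hx : IsSeg G k x) {ξ : ℝ}
    (hξ : |ξ| < 1) (hw : h' (x k) = mrg (h (x k)) ξ) (hne : ∀ v, v ≠ x k → h' v = h v) :
    magI G θ h' (x 0) - magI G θ h (x 0) =
      θ ^ k * segProd G θ h k x *
        ((1 - magI G θ h (x k) ^ 2) * ξ / (1 + magI G θ h (x k) * ξ)) := by
  set w := x k
  have hh' : ∀ v, |h' v| < 1 := fun v => by
    by_cases hv : v = w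
    · rw [hv, hw]; exact abs_mrg_lt (hh w) hξ
    · rw [hne v hv]; exact hh v
  have hedge : ∀ i < k, msgI G θ h' (x i) (x (i + 1)) = msgI G θ h (x i) (x (i + 1)) := by
    intro i hi
    refine msgI_congr hG (hx.1 i hi) fun v hv => hne v fun he => ?_
    rw [he, Behind, SimpleGraph.dist_comm (v := x (i + 1)), SimpleGraph.dist_comm (v := x i),
      hx.2 (i + 1) k (by omega) le_rfl, hx.2 i k hi.le le_rfl] at hv
    omega
  have hlast : magI G θ h' w = mrg (magI G θ h w) ξ := by
    have hm : ∀ c ∈ G.neighborFinset w, θ * msgI G θ h' c w = θ * msgI G θ h c w := by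
      intro c hc
      rw [mem_neighborFinset] at hc
      rw [msgI_congr hG hc.symm fun v hv => hne v fun he => ?_]
      rw [he, Behind, SimpleGraph.dist_self] at hv
      omega
    have hlt : |cmb (G.neighborFinset w) fun c => θ * msgI G θ h c w| < 1 := abs_cmb_lt fun c _ =>
      lt_of_le_of_lt (abs_theta_mul_le h0 (abs_msgI_le_one h0 h1 hh c w)) h1
    rw [magI_eq h0 h1 hh' hc' w, magI_eq h0 h1 hh hc w, cmb_congr hm, hw,
      mrg_assoc (hh w) hξ hlt, mrg_assoc (hh w) hlt hξ, mrg_comm ξ]
  have key : ∀ j, j ≤ k → magI G θ h' (x (k - j)) - magI G θ h (x (k - j)) =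
      θ ^ j * (∏ i ∈ Finset.Ico (k - j) k, slp θ (msgI G θ h (x i) (x (i + 1)))) *
        ((1 - magI G θ h w ^ 2) * ξ / (1 + magI G θ h w * ξ)) := by
    intro j
    induction j with
    | zero =>
      intro _
      rw [Nat.sub_zero, Finset.Ico_self, Finset.prod_empty, pow_zero, one_mul, one_mul, hlast,
        mrg_sub_left (abs_magI_lt h0 h1 hh hc w) hξ.le]
    | succ j ih =>
      intro hj
      have hi : k - (j + 1) < k := by omega
      have e : k - (j + 1) + 1 = k - j := by omega
      have s' := magI_step h0 h1 hh' hc' (hx.1 _ hi)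
      have s := magI_step h0 h1 hh hc (hx.1 _ hi)
      rw [hedge _ hi, e] at s'
      rw [e] at s
      rw [Finset.prod_eq_prod_Ico_succ_bot hi, e, s', s]
      linear_combination θ * slp θ (msgI G θ h (x (k - (j + 1))) (x (k - j))) * ih (by omega)
  have := key k le_rfl
  rw [Nat.sub_self, ← Finset.range_eq_Ico] at this
  exact this

/-- Detailed balance along a segment. -/
lemma segProd_symm (h0 : 0 ≤ θ) (h1 : θ < 1) (hh : ∀ v, |h v| < 1) (hc : ConvAdj G θ h) :
    ∀ k (x : ℕ → V), (∀ i < k, G.Adj (x i) (x (i + 1))) →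
    (1 - magI G θ h (x k) ^ 2) * segProd G θ h k x =
      (1 - magI G θ h (x 0) ^ 2) * ∏ i ∈ Finset.range k, slp θ (msgI G θ h (x (i + 1)) (x i)) := by
  intro k
  induction k with
  | zero => intro x _; simp [segProd]
  | succ k ih =>
    intro x hx
    have IH := ih x fun i hi => hx i (by omega)
    have e := edge_symm h0 h1 (abs_msgI_lt h0 h1 hh hc (hx k (by omega)))
      (abs_msgI_lt h0 h1 hh hc (hx k (by omega)).symm)
    rw [← magI_edge h0 h1 hh hc (hx k (by omega)),
      ← magI_edge h0 h1 hh hc (hx k (by omega)).symm] at e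
    rw [segProd] at IH ⊢
    rw [Finset.prod_range_succ, Finset.prod_range_succ]
    linear_combination (∏ i ∈ Finset.range k, slp θ (msgI G θ h (x i) (x (i + 1)))) * e +
      slp θ (msgI G θ h (x (k + 1)) (x k)) * IH

lemma segProd_mem (h0 : 0 ≤ θ) (h1 : θ < 1) (hh : ∀ v, |h v| < 1) (k : ℕ) (x : ℕ → V) :
    0 ≤ segProd G θ h k x ∧ segProd G θ h k x ≤ 1 :=
  ⟨Finset.prod_nonneg fun i _ => slp_nonneg h0 h1 (abs_msgI_le_one h0 h1 hh _ _),
    Finset.prod_le_one (fun i _ => slp_nonneg h0 h1 (abs_msgI_le_one h0 h1 hh _ _))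
      fun i _ => slp_le_one h0 h1 (abs_msgI_le_one h0 h1 hh _ _)⟩

end segment

section measurable

open MeasureTheory

lemma measurable_cmb {α ι : Type*} [MeasurableSpace α] (s : Finset ι) {f : α → ι → ℝ}
    (hf : ∀ i, Measurable fun a => f a i) : Measurable fun a => cmb s (f a) := by
  unfold cmb
  exact ((Finset.measurable_prod s fun i _ => (hf i).const_add 1).sub
    (Finset.measurable_prod s fun i _ => (hf i).const_sub 1)).div
    ((Finset.measurable_prod s fun i _ => (hf i).const_add 1).add
    (Finset.measurable_prod s fun i _ => (hf i).const_sub 1))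

lemma measurable_mrg {α : Type*} [MeasurableSpace α] {f g : α → ℝ} (hf : Measurable f)
    (hg : Measurable g) : Measurable fun a => mrg (f a) (g a) :=
  (hf.add hg).div ((hf.mul hg).const_add 1)

lemma measurable_msg : ∀ n x y, Measurable fun h : V → ℝ => msg G θ h n x y := by
  intro n
  induction n with
  | zero => exact fun x y => measurable_pi_apply x
  | succ n ih =>
    exact fun x y => measurable_mrg (measurable_pi_apply x)
      (measurable_cmb _ fun c => (ih c x).const_mul θ)

lemma measurable_mag (n : ℕ) (x : V) : Measurable fun h : V → ℝ => mag G θ h n x :=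
  measurable_mrg (measurable_pi_apply x)
    (measurable_cmb _ fun c => (measurable_msg n c x).const_mul θ)

lemma measurable_msgI (x y : V) : Measurable fun h : V → ℝ => msgI G θ h x y :=
  Measurable.limsup fun n => measurable_msg n x y

lemma measurable_magI (x : V) : Measurable fun h : V → ℝ => magI G θ h x :=
  Measurable.limsup fun n => measurable_mag n x

lemma measurable_slp {α : Type*} [MeasurableSpace α] {f : α → ℝ} (hf : Measurable f) :
    Measurable fun a => slp θ (f a) :=
  ((hf.pow_const 2).const_sub 1).div (((hf.pow_const 2).const_mul _).const_sub 1)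

lemma measurable_psi {α : Type*} [MeasurableSpace α] {f : α → ℝ} (hf : Measurable f) :
    Measurable fun a => psi θ (f a) :=
  Real.measurable_log.comp (measurable_slp hf)

lemma measurable_segProd (k : ℕ) (x : ℕ → V) :
    Measurable fun h : V → ℝ => segProd G θ h k x :=
  Finset.measurable_prod _ fun _ _ => measurable_slp (measurable_msgI _ _)

lemma measurable_mask (S : Finset V) : Measurable (mask S : (V → ℝ) → V → ℝ) := by
  refine measurable_pi_lambda _ fun v => ?_
  unfold mask
  split_ifs
  · exact measurable_pi_apply v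
  · exact measurable_const

lemma measurable_avgProd : ∀ i x y, Measurable fun h : V → ℝ => avgProd G θ h i x y := by
  intro i
  induction i with
  | zero => exact fun x y => measurable_const
  | succ i ih =>
    exact fun x y => (measurable_slp (measurable_msgI x y)).mul
      ((Finset.measurable_sum _ fun c _ => ih c x).div_const _)

lemma measurable_avgPsi : ∀ j x y, Measurable fun h : V → ℝ => avgPsi G θ h j x y := by
  intro j
  induction j with
  | zero => exact fun x y => measurable_psi (measurable_msgI x y)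
  | succ j ih => exact fun x y => (Finset.measurable_sum _ fun c _ => ih c x).div_const _

end measurable

section equivariance

variable (e : G ≃g G) (h : V → ℝ)

lemma neighborFinset_map (x : V) :
    G.neighborFinset (e x) = (G.neighborFinset x).map e.toEquiv.toEmbedding := by
  ext w
  obtain ⟨w, rfl⟩ := e.surjective w
  show e w ∈ G.neighborFinset (e x) ↔ e.toEquiv.toEmbedding w ∈ _
  rw [Finset.mem_map']
  simp [e.map_rel_iff]

lemma msg_image : ∀ n x y, msg G θ (fun v => h (e v)) n x y = msg G θ h n (e x) (e y) := by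
  intro n
  induction n with
  | zero => exact fun x y => rfl
  | succ n ih =>
    intro x y
    simp only [msg]
    rw [neighborFinset_map, show e y = e.toEquiv.toEmbedding y from rfl, ← Finset.map_erase,
      cmb_map]
    congr 1
    exact cmb_congr fun c _ => by rw [ih]; rfl

lemma mag_image (n : ℕ) (x : V) : mag G θ (fun v => h (e v)) n x = mag G θ h n (e x) := by
  simp only [mag, neighborFinset_map, cmb_map]
  congr 1
  exact cmb_congr fun c _ => by rw [msg_image]; rfl

lemma msgI_image (x y : V) : msgI G θ (fun v => h (e v)) x y = msgI G θ h (e x) (e y) := by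
  simp only [msgI, msg_image]

lemma magI_image (x : V) : magI G θ (fun v => h (e v)) x = magI G θ h (e x) := by
  simp only [magI, mag_image]

lemma segProd_image (k : ℕ) (x : ℕ → V) :
    segProd G θ (fun v => h (e v)) k x = segProd G θ h k fun i => e (x i) := by
  simp only [segProd, msgI_image]

lemma avgProd_image : ∀ i x y,
    avgProd G θ (fun v => h (e v)) i x y = avgProd G θ h i (e x) (e y) := by
  intro i
  induction i with
  | zero => exact fun x y => rfl
  | succ i ih =>
    intro x y
    simp only [avgProd, msgI_image, neighborFinset_map,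
      show e y = e.toEquiv.toEmbedding y from rfl, ← Finset.map_erase, Finset.card_map,
      Finset.sum_map, ih]
    rfl

lemma avgPsi_image : ∀ j x y,
    avgPsi G θ (fun v => h (e v)) j x y = avgPsi G θ h j (e x) (e y) := by
  intro j
  induction j with
  | zero => exact fun x y => by simp only [avgPsi, msgI_image]
  | succ j ih =>
    intro x y
    simp only [avgPsi, neighborFinset_map, show e y = e.toEquiv.toEmbedding y from rfl,
      ← Finset.map_erase, Finset.card_map, Finset.sum_map, ih]
    rfl

end equivariance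

section posterior

lemma zsum_scale {S : Finset V} {p : V} (hp : p ∈ S) (f : V → ℝ → ℝ) (g : ℝ → ℝ) (c : ℝ)
    (hg : ∀ s, s = 1 ∨ s = -1 → g s = c * f p s) (φ : Finset V → ℝ) :
    zsum G θ S (Function.update f p g) φ = c * zsum G θ S f φ := by
  unfold zsum
  rw [Finset.mul_sum]
  refine Finset.sum_congr rfl fun A _ => ?_
  rw [← Finset.mul_prod_erase S _ hp, ← Finset.mul_prod_erase S _ hp, Function.update_self,
    hg _ (spin_cases A p),
    Finset.prod_congr rfl fun u hu => by rw [Function.update_of_ne (Finset.mem_erase.1 hu).1]]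
  ring

/-- Absorbing the message of a leaf into the field of its parent. -/
lemma absorb {s : Finset V} {v : V} (hv : v ∈ s) {x : ℝ} (hx : |x| < 1) {f : V → ℝ}
    (hf : ∀ c ∈ s, |f c| < 1) :
    mrg (mrg x (f v)) (cmb (s.erase v) f) = mrg x (cmb s f) := by
  have hf' : ∀ c ∈ s.erase v, |f c| < 1 := fun c hc => hf c (Finset.mem_of_mem_erase hc)
  rw [mrg_assoc hx (hf v hv) (abs_cmb_lt hf'), ← cmb_insert (Finset.notMem_erase v s) (hf v hv) hf',
    Finset.insert_erase hv]

/-- The magnetisation of the masked fields is the finite-volume posterior. -/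
lemma magI_mask_mul_dens (hG : G.IsTree) (h0 : 0 ≤ θ) (h1 : θ < 1) {x : V} :
    ∀ S, Conn G S → x ∈ S → ∀ h : V → ℝ, (∀ v ∈ S, |h v| < 1) →
      magI G θ (mask S h) x * dens G θ S h = densSpin G θ S h x := by
  intro S
  induction hn : S.card using Nat.strong_induction_on generalizing S with
  | _ n ih =>
    subst hn
    intro hS hxS h hh
    set H := mask S h with hH
    have hH1 : ∀ v, |H v| < 1 := abs_mask_lt hh
    have hHc : ConvAdj G θ H := convAdj_mask hG S h
    by_cases hne : ({x} : Finset V) = S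
    · subst hne
      have hzero : ∀ c ∈ G.neighborFinset x, θ * msgI G θ H c x = (fun _ => (0 : ℝ)) c := by
        intro c hc
        rw [mem_neighborFinset] at hc
        rw [msgI_eq_zero hG hc.symm fun v hv => ?_, mul_zero]
        by_contra hv0
        have : v = x := by
          by_contra hvx; simp [hH, mask, hvx] at hv0
        rw [this, Behind, SimpleGraph.dist_self] at hv
        omega
      rw [magI_eq h0 h1 hH1 hHc x, cmb_congr hzero, dens, densSpin, zsum_singleton,
        zsum_singleton]
      simp [cmb, hH, mask, spin]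
      ring
    obtain ⟨v, hv, hvx, p, hp, hvp, hdist, huniq, hconn⟩ :=
      exists_leaf hG hS (conn_singleton x) (by simpa using hxS) (Finset.mem_singleton_self x) hne
    rw [Finset.mem_singleton] at hvx
    have hpS : p ∈ S := (Finset.mem_erase.1 hp).2
    have hxS' : x ∈ S.erase v := Finset.mem_erase.2 ⟨Ne.symm hvx, hxS⟩
    have hθv : |θ * h v| < 1 := lt_of_le_of_lt (abs_theta_mul_le h0 (hh v hv).le) h1
    set g := Function.update h p (mrg (h p) (θ * h v)) with hg
    have hg1 : ∀ u ∈ S.erase v, |g u| < 1 := fun u hu => by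
      by_cases hup : u = p
      · rw [hup, hg, Function.update_self]; exact abs_mrg_lt (hh p hpS) hθv
      · rw [hg, Function.update_of_ne hup]; exact hh u (Finset.mem_of_mem_erase hu)
    have IH := ih _ (Finset.card_erase_lt_of_mem hv) (S.erase v) rfl hconn hxS' g hg1
    set H' := mask (S.erase v) g with hH'
    have hH'1 : ∀ v, |H' v| < 1 := abs_mask_lt hg1
    have hH'c : ConvAdj G θ H' := convAdj_mask hG _ g
    have hsame : ∀ u, u ≠ v → u ≠ p → H' u = H u := fun u huv hup => by
      simp [hH, hH', mask, hg, huv, hup, Finset.mem_erase]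
    have hside : ∀ u ∈ S.erase v, ¬ Behind G v p u := by
      intro u hu
      induction hn : G.dist p u using Nat.strong_induction_on generalizing u with
      | _ n ih =>
        subst hn
        by_cases hpu : p = u
        · subst hpu; simp [Behind]
        obtain ⟨q, hq, hqa, hqd⟩ := hconn.closer hG hp hu hpu
        intro hbu
        exact (Finset.mem_erase.1 hu).1
          (behind_iff_of_adj hG hqa hvp hbu (ih _ (by omega) q hq rfl)).1.symm
    have hleaf : msgI G θ H v p = h v := by
      have hz : ∀ c ∈ (G.neighborFinset v).erase p, θ * msgI G θ H c v = (fun _ => (0 : ℝ)) c := by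
        intro c hc
        obtain ⟨hcp, hcv⟩ := Finset.mem_erase.1 hc
        rw [mem_neighborFinset] at hcv
        rw [msgI_eq_zero hG hcv.symm fun u hu => ?_, mul_zero]
        by_contra hu0
        have huS : u ∈ S := by by_contra h'; simp [hH, mask, h'] at hu0
        have huv : u ≠ v := by rintro rfl; rw [Behind, SimpleGraph.dist_self] at hu; omega
        exact hside u (Finset.mem_erase.2 ⟨huv, huS⟩) (behind_child hG hvp hcv hcp hu)
      rw [msgI_rec h0 h1 hH1 hHc hvp, cmb_congr hz]
      simp [cmb, hH, mask, hv]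
    -- messages pointing to `x`, apart from the one of the leaf
    have hmsg : ∀ a b, G.Adj a b → G.dist x a = G.dist x b + 1 → a ≠ v →
        msgI G θ H' a b = msgI G θ H a b := by
      intro a
      induction hn : G.dist a p using Nat.strong_induction_on generalizing a with
      | _ n ih =>
        intro b hab hdab hav
        subst hn
        by_cases hbp : Behind G a b p
        swap
        · refine msgI_congr hG hab fun u hu => hsame u ?_ fun h' => hbp (h' ▸ hu)
          rintro rfl
          exact hav (behind_iff_of_adj hG hvp hab hu hbp).1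
        have hchild : ∀ c ∈ (G.neighborFinset a).erase b, (a = p → c ≠ v) →
            θ * msgI G θ H' c a = θ * msgI G θ H c a := by
          intro c hc hcv
          obtain ⟨hcb, hca⟩ := Finset.mem_erase.1 hc
          rw [mem_neighborFinset] at hca
          have hdca : G.dist x c = G.dist x a + 1 := by
            rcases hG.dist_eq_dist_add_one_of_adj x hca with h' | h'
            · exact absurd (closer_unique hG hca hab h'.symm hdab.symm) hcb
            · exact h'
          have hcv' : c ≠ v := by
            rintro rfl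
            exact hcv (closer_unique hG hca.symm hvp hdca.symm hdist) rfl
          by_cases hcp : Behind G c a p
          · rw [ih (G.dist c p) (by
              unfold Behind at hcp
              rw [SimpleGraph.dist_comm (u := c) (v := p), SimpleGraph.dist_comm (u := a) (v := p)]
              omega) c rfl a hca.symm hdca hcv']
          · rw [msgI_congr hG hca.symm fun u hu => hsame u ?_ fun h' => hcp (h' ▸ hu)]
            rintro rfl
            exact hcv' (behind_iff_of_adj hG hvp hca.symm hu hcp).1
        rw [msgI_rec h0 h1 hH'1 hH'c hab, msgI_rec h0 h1 hH1 hHc hab]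
        by_cases hap : a = p
        · subst hap
          have hvb : v ≠ b := by rintro rfl; omega
          have hvm : v ∈ (G.neighborFinset a).erase b :=
            Finset.mem_erase.2 ⟨hvb, by rw [mem_neighborFinset]; exact hvp.symm⟩
          have hz : msgI G θ H' v a = 0 := msgI_eq_zero hG hvp fun u hu => by
            by_contra hu0
            have huS : u ∈ S.erase v := by by_contra h'; simp [hH', mask, h'] at hu0
            exact hside u huS hu
          have hlt : ∀ c ∈ (G.neighborFinset a).erase b, |θ * msgI G θ H c a| < 1 := fun c _ =>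
            lt_of_le_of_lt (abs_theta_mul_le h0 (abs_msgI_le_one h0 h1 hH1 c a)) h1
          have hlt' : ∀ c ∈ (G.neighborFinset a).erase b, |θ * msgI G θ H' c a| < 1 := fun c _ =>
            lt_of_le_of_lt (abs_theta_mul_le h0 (abs_msgI_le_one h0 h1 hH'1 c a)) h1
          rw [← absorb hvm (hH'1 a) hlt', ← absorb hvm (hH1 a) hlt, hz, hleaf,
            cmb_congr fun c hc => hchild c (Finset.mem_of_mem_erase hc)
              fun _ => (Finset.mem_erase.1 hc).1]
          simp [hH, hH', mask, hg, hpS, hp]
        · rw [cmb_congr fun c hc => hchild c hc fun h' => absurd h' hap, hsame a hav hap]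
    have hmagI : magI G θ H' x = magI G θ H x := by
      rw [magI_eq h0 h1 hH'1 hH'c x, magI_eq h0 h1 hH1 hHc x]
      have hnb : ∀ c ∈ G.neighborFinset x, c ≠ v → θ * msgI G θ H' c x = θ * msgI G θ H c x := by
        intro c hc hcv
        rw [mem_neighborFinset] at hc
        rw [hmsg c x hc.symm (by rw [SimpleGraph.dist_self, dist_eq_one_iff_adj.2 hc]) hcv]
      by_cases hxp : x = p
      · subst hxp
        have hvm : v ∈ G.neighborFinset x := by rw [mem_neighborFinset]; exact hvp.symm
        have hz : msgI G θ H' v x = 0 := msgI_eq_zero hG hvp fun u hu => by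
          by_contra hu0
          have huS : u ∈ S.erase v := by by_contra h'; simp [hH', mask, h'] at hu0
          exact hside u huS hu
        rw [← absorb hvm (hH'1 x) fun c _ =>
            lt_of_le_of_lt (abs_theta_mul_le h0 (abs_msgI_le_one h0 h1 hH'1 c x)) h1,
          ← absorb hvm (hH1 x) fun c _ =>
            lt_of_le_of_lt (abs_theta_mul_le h0 (abs_msgI_le_one h0 h1 hH1 c x)) h1,
          hz, hleaf, cmb_congr fun c hc =>
            hnb c (Finset.mem_of_mem_erase hc) (Finset.mem_erase.1 hc).1]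
        simp [hH, hH', mask, hg, hxS, hxS']
      · rw [cmb_congr fun c hc => hnb c hc fun hcv => ?_, hsame x (Ne.symm hvx) hxp]
        rw [mem_neighborFinset] at hc
        subst hcv
        exact hxp (closer_unique hG hc.symm hvp
          (by rw [SimpleGraph.dist_self, dist_eq_one_iff_adj.2 hc]) hdist)
    -- the sums
    have hc0 : 1 + h p * (θ * h v) ≠ 0 := (one_add_mul_pos (hh p hpS) hθv.le).ne'
    have hscale : ∀ φ : Finset V → ℝ, (∀ A, v ∉ A → φ (insert v A) = φ A) →
        zsum G θ S (fun u s => 1 + s * h u) φ =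
          (1 + h p * (θ * h v)) * zsum G θ (S.erase v) (fun u s => 1 + s * g u) φ := by
      intro φ hφ
      rw [zsum_leaf_update hv hp hvp huniq _ _ hφ,
        show (fun u s => 1 + s * h u) = Function.update (fun u s => 1 + s * g u) p
          (fun s => 1 + s * h p) from funext fun u => ?_]
      · rw [Function.update_idem]
        refine zsum_scale hp _ _ _ (fun s hs => ?_) φ
        have hu : (Function.update (fun u (s : ℝ) => 1 + s * g u) p (fun s => 1 + s * h p)) v =
            fun s => 1 + s * h v := by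
          rw [Function.update_of_ne hvp.ne, hg, Function.update_of_ne hvp.ne]
        simp only [Function.update_self, leafTilt, hg, mrg]
        have e := mul_div_cancel₀ (h p + θ * h v) hc0
        rcases hs with rfl | rfl
        · linear_combination (norm := ring1) (-1 : ℝ) * e
        · linear_combination (norm := ring1) (1 : ℝ) * e
      · by_cases hup : u = p
        · subst hup; rw [Function.update_self]
        · rw [Function.update_of_ne hup, hg, Function.update_of_ne hup]
    rw [← hmagI, dens, densSpin, hscale _ (fun A _ => rfl),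
      hscale (fun A => spin A x) (fun A _ => spin_insert_of_ne (Ne.symm hvx))]
    rw [dens, densSpin] at IH
    linear_combination (1 + h p * (θ * h v)) * IH

end posterior

end Vale.Agent.P161.Crit
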