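import Vale.Agent.P161.Limit
import Vale.Agent.P161.Crit.Innov
import Vale.Agent.P161.Crit.Msg

/-!
An observation determined by rankings and limiting innovations is approximated by the
finite-volume maps in large volumes.
-/

namespace Vale.Agent.P161.Crit

open MeasureTheory SimpleGraph Finset Function Filter
open scoped unitInterval Topology BoundedContinuousFunction

variable {V : Type*} [DecidableEq V] {G : SimpleGraph V} [G.LocallyFinite] {θ ε : ℝ}

lemma abs_mInf_le_one (h0 : 0 ≤ θ) (h1 : θ < 1) (hε : 0 ≤ ε) (hε1 : ε < 1) (s : ℕ × V)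
    (ω : (ℕ × V → I) × (ℕ × V → Obs)) : |mInf G θ ε s ω| ≤ 1 :=
  abs_limsup_le fun _ => abs_meanS_le h0 h1 hε hε1 _ _ _

/-- In large volumes the finite-volume map is close in mean to the limiting one. -/
theorem determined_approx [Countable V] (hG : G.IsTree) (h0 : 0 ≤ θ) (h1 : θ < 1) (hε : 0 ≤ ε)
    (hε1 : ε < 1) (o : V) (s : ℕ × V) {f : (ℕ × V → I) × (ℕ × V → I) → ℝ} (hf : Measurable f)
    (hfb : ∀ p, |f p| ≤ 1)
    (hfz : ∀ᵐ ω ∂(PZ G θ ε o), (ω.2 s : ℝ) = f (toPQ G θ ε ω)) {η : ℝ} (hη : 0 < η) :
    ∃ N, ∀ S, Conn G S → ballF G s.2 N ⊆ S →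
      ∫ p, |(solW G θ ε p.1 S p.2 s : ℝ) - f p| ∂(PR V) ≤ η := by
  obtain ⟨h, hhf, -⟩ := (integrable_of_bounded (P := PR V) hf hfb).exists_boundedContinuous_integral_sub_le
    (show (0 : ℝ) < η / 6 by positivity)
  set g := fun (M : ℕ) (p : (ℕ × V → I) × (ℕ × V → I)) =>
    h (p.1, trunc (sitesUpTo (ballF G o M) M) 0 p.2) with hgdef
  have hgm : ∀ M, Measurable (g M) := fun M => h.continuous.measurable.comp
    (measurable_fst.prodMk ((measurable_trunc _ _).comp measurable_snd))
  have hgb : ∀ M p, |g M p| ≤ ‖h‖ := fun M p => h.norm_coe_le_norm _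
  have hhm : Measurable fun p => h p := h.continuous.measurable
  have hlimM : Tendsto (fun M => ∫ p, |h p - g M p| ∂(PR V)) atTop (𝓝 0) := by
    have := tendsto_integral_of_dominated_convergence (μ := PR V) (fun _ => 2 * ‖h‖)
      (fun M => (hhm.sub (hgm M)).abs.aestronglyMeasurable) (integrable_const _)
      (f := fun _ => (0 : ℝ)) (fun M => ae_of_all _ fun p => by
        rw [Real.norm_eq_abs, abs_abs]
        exact (abs_sub _ _).trans (by
          have := h.norm_coe_le_norm p
          rw [Real.norm_eq_abs] at this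
          linarith [hgb M p]))
      (ae_of_all _ fun p => by
        have ht : Tendsto (fun M => g M p) atTop (𝓝 (h p)) :=
          (h.continuous.tendsto p).comp (Tendsto.prodMk_nhds tendsto_const_nhds
            (tendsto_trunc (exhaust hG o) 0 fun q => tendsto_const_nhds))
        simpa using (ht.const_sub (h p)).abs)
    simpa using this
  obtain ⟨M, hM⟩ := (hlimM.eventually (ge_mem_nhds (show (0 : ℝ) < η / 6 by positivity))).exists
  set P := sitesUpTo (ballF G o M) M with hP
  have hifg : Integrable (fun p => |f p - g M p|) (PR V) :=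
    integrable_of_bounded (hf.sub (hgm M)).abs (C := 1 + ‖h‖) fun p => by
      rw [abs_abs]; exact (abs_sub _ _).trans (add_le_add (hfb p) (hgb M p))
  have hclose : ∫ p, |f p - g M p| ∂(PR V) ≤ η / 3 := by
    have i1 : Integrable (fun p => |f p - h p|) (PR V) :=
      integrable_of_bounded (hf.sub hhm).abs (C := 1 + ‖h‖) fun p => by
        rw [abs_abs]; exact (abs_sub _ _).trans (add_le_add (hfb p) (h.norm_coe_le_norm p))
    have i2 : Integrable (fun p => |h p - g M p|) (PR V) :=
      integrable_of_bounded (hhm.sub (hgm M)).abs (C := ‖h‖ + ‖h‖) fun p => by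
        rw [abs_abs]; exact (abs_sub _ _).trans (add_le_add (h.norm_coe_le_norm p) (hgb M p))
    refine (integral_mono hifg (i1.fun_add i2) fun p => abs_sub_le _ _ _).trans ?_
    rw [integral_add i1 i2]
    simp only [Real.norm_eq_abs] at hhf
    linarith
  -- the finite-volume test function
  set F := fun (S : Finset V) (ω : (ℕ × V → I) × (ℕ × V → Obs)) =>
    |(ω.2 s : ℝ) - g M (ω.1, fun q => innovS G θ ε S q ω)| with hF
  have hFm : ∀ S, Measurable (F S) := fun S =>
    ((measurable_subtype_coe.comp ((measurable_pi_apply s).comp measurable_snd)).sub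
      ((hgm M).comp (measurable_fst.prodMk
        (measurable_pi_lambda _ fun q => measurable_innovS S q)))).abs
  have hFb : ∀ S ω, |F S ω| ≤ 1 + ‖h‖ := fun S ω => by
    simp only [hF]
    rw [abs_abs]; exact (abs_sub _ _).trans (add_le_add (Obs.abs_le _) (hgb M _))
  suffices ∃ N, ∀ S, Conn G S → ballF G s.2 N ⊆ S → ∫ ω, F S ω ∂(PZ G θ ε o) ≤ 2 * η / 3 by
    obtain ⟨N, hN⟩ := this
    refine ⟨max N (M + G.dist s.2 o), fun S hS hsub => ?_⟩
    have hballN : ballF G s.2 N ⊆ S := fun u hu => hsub ((mem_ballF hG _ _ _).2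
      (((mem_ballF hG _ _ _).1 hu).trans (le_max_left _ _)))
    have hballM : ballF G o M ⊆ S := fun u hu => hsub ((mem_ballF hG _ _ _).2 (by
      have := (mem_ballF hG _ _ _).1 hu
      have : G.dist s.2 u ≤ G.dist s.2 o + G.dist o u := hG.connected.dist_triangle
      omega))
    have hs : s.2 ∈ S := hballN (self_mem_ballF _ _)
    have hPsub : P ⊆ sitesUpTo S (max M s.1) := sitesUpTo_subset hballM (le_max_left _ _)
    have key := integral_PZ_solW hG h0 h1 hε hε1 o hS hs (max M s.1) (hFm S) (hFb S)
      (fun U z z' hz => by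
        simp only [hF, hgdef]
        have e1 : z s = z' s := hz s (Finset.mem_product.2
          ⟨Finset.mem_range.2 (by omega), hs⟩)
        have e2 : trunc P 0 (fun q => innovS G θ ε S q (U, z)) =
            trunc P 0 (fun q => innovS G θ ε S q (U, z')) := by
          funext q
          simp only [trunc]
          by_cases hq : q ∈ P
          · simp only [if_pos hq, innovS, innovW]
            rw [hz q (hPsub hq), meanW_dep_sites (Finset.Subset.refl S)
              (by simpa [Nat.lt_succ_iff] using (Finset.mem_product.1 (hPsub hq)).1) hz]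
          · simp [hq]
        rw [e1, ← hP, e2])
    have hrew : ∀ p : (ℕ × V → I) × (ℕ × V → I), F S (p.1, solW G θ ε p.1 S p.2) =
        |(solW G θ ε p.1 S p.2 s : ℝ) - g M p| := fun p => by
      simp only [hF, innovS, innovW_solW h0 h1 hε hε1]
    simp only [hrew] at key
    have hi0 : Integrable (fun p => |(solW G θ ε p.1 S p.2 s : ℝ) - f p|) (PR V) :=
      integrable_of_bounded ((measurable_subtype_coe.comp
        ((measurable_pi_apply s).comp (measurable_solW2 S))).sub hf).abs (C := 2) fun p => by
        rw [abs_abs]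
        exact (abs_sub _ _).trans ((add_le_add (Obs.abs_le _) (hfb p)).trans_eq (by norm_num))
    have hi1 : Integrable (fun p => |(solW G θ ε p.1 S p.2 s : ℝ) - g M p|) (PR V) :=
      integrable_of_bounded ((measurable_subtype_coe.comp
        ((measurable_pi_apply s).comp (measurable_solW2 S))).sub (hgm M)).abs (C := 1 + ‖h‖)
        fun p => by
        rw [abs_abs]; exact (abs_sub _ _).trans (add_le_add (Obs.abs_le _) (hgb M p))
    refine (integral_mono hi0 (hi1.fun_add hifg) fun p => ?_).trans ?_
    · have := abs_sub_le ((solW G θ ε p.1 S p.2 s : ℝ)) (g M p) (f p)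
      rw [abs_sub_comm (g M p)] at this
      exact this
    · rw [integral_add hi1 hifg, ← key]
      linarith [hN S hS hballN]
  by_contra hcon
  push Not at hcon
  choose R hR using fun (q : ℕ × V) (n : ℕ) =>
    meanS_approx (G := G) (θ := θ) (ε := ε) hG h0 h1 hε hε1 o q
      (pow_pos (by norm_num : (0 : ℝ) < 1 / 2) n)
  choose S hSc hSsub hSbad using fun n : ℕ => hcon (P.sup fun q => G.dist s.2 q.2 + R q n)
  have hmean : ∀ q ∈ P, ∀ᵐ ω ∂(PZ G θ ε o),
      Tendsto (fun n => meanS G θ ε (S n) q ω) atTop (𝓝 (mInf G θ ε q ω)) := by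
    intro q hq
    have hball : ∀ n, ballF G q.2 (R q n) ⊆ S n := fun n u hu => hSsub n ((mem_ballF hG _ _ _).2 (by
      have := (mem_ballF hG _ _ _).1 hu
      have : G.dist s.2 u ≤ G.dist s.2 q.2 + G.dist q.2 u := hG.connected.dist_triangle
      have : G.dist s.2 q.2 + R q n ≤ P.sup fun q => G.dist s.2 q.2 + R q n :=
        Finset.le_sup (f := fun q => G.dist s.2 q.2 + R q n) hq
      omega))
    filter_upwards [ae_tendsto_zero (P := PZ G θ ε o)
      (f := fun n ω => |meanS G θ ε (S n) q ω - mInf G θ ε q ω|)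
      (fun n => ((measurable_meanS _ q).sub (measurable_mInf q)).abs) (fun n ω => abs_nonneg _)
      (B := 2) (C := 1) (fun n ω => (abs_sub _ _).trans (by
        have := abs_meanS_le (G := G) h0 h1 hε hε1 (S n) q ω
        have := abs_mInf_le_one (G := G) h0 h1 hε hε1 q ω
        linarith))
      (fun n => by rw [one_mul]; exact hR q n (S n) (hSc n) (hball n))] with ω hω
    rw [tendsto_iff_norm_sub_tendsto_zero]
    simpa only [Real.norm_eq_abs] using hω.tendsto_atTop_zero
  have hae : ∀ᵐ ω ∂(PZ G θ ε o), Tendsto (fun n => F (S n) ω) atTop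
      (𝓝 |(ω.2 s : ℝ) - g M (toPQ G θ ε ω)|) := by
    filter_upwards [(eventually_all_finset P).2 hmean] with ω hω
    have ht : Tendsto (fun n => trunc P 0 fun q => innovS G θ ε (S n) q ω) atTop
        (𝓝 (trunc P 0 fun q => gInf G θ ε q ω)) := by
      rw [tendsto_pi_nhds]
      intro q
      simp only [trunc]
      by_cases hq : q ∈ P
      · simp only [if_pos hq]
        have hc : Continuous fun m : ℝ =>
            Set.projIcc (0 : ℝ) 1 zero_le_one (cdfObs (strength ε ω.1 q * m) (ω.2 q)) := by
          refine continuous_projIcc.comp ?_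
          unfold cdfObs
          fun_prop
        exact (hc.tendsto _).comp (hω q hq)
      · simp only [if_neg hq]
        exact tendsto_const_nhds
    exact (((h.continuous.tendsto _).comp
      (Tendsto.prodMk_nhds tendsto_const_nhds ht)).const_sub _).abs
  have hlim := tendsto_integral_of_dominated_convergence (μ := PZ G θ ε o) (fun _ => 1 + ‖h‖)
    (fun n => (hFm (S n)).aestronglyMeasurable) (integrable_const _)
    (fun n => ae_of_all _ fun ω => hFb _ ω) hae
  have hval : ∫ ω, |(ω.2 s : ℝ) - g M (toPQ G θ ε ω)| ∂(PZ G θ ε o) ≤ η / 3 := by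
    refine le_trans (le_of_eq ?_) hclose
    have hm : Measurable fun p => |f p - g M p| := (hf.sub (hgm M)).abs
    rw [← map_toPQ (G := G) (θ := θ) (ε := ε) hG h0 h1 hε hε1 o,
      integral_map measurable_toPQ.aemeasurable hm.aestronglyMeasurable]
    refine integral_congr_ae ?_
    filter_upwards [hfz] with ω hω
    rw [hω]
  obtain ⟨n, hn⟩ := (hlim.eventually (gt_mem_nhds
    (show ∫ ω, |(ω.2 s : ℝ) - g M (toPQ G θ ε ω)| ∂(PZ G θ ε o) < 2 * η / 3 by linarith))).exists
  linarith [hSbad n]

end Vale.Agent.P161.Crit
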