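import Vale.Agent.P161.Crit.Determined

/-!
Spins from the layer averages over levels at least one, when the observations are determined by
rankings and innovations.
-/

namespace Vale.Agent.P161.Crit

open MeasureTheory SimpleGraph Finset Function Filter
open scoped unitInterval Topology

variable {V : Type*}

/-- Drop level zero. -/
def shift (z : ℕ × V → Obs) (q : ℕ × V) : Obs := z (q.1 + 1, q.2)

lemma measurable_shift : Measurable (shift : (ℕ × V → Obs) → ℕ × V → Obs) :=
  measurable_pi_lambda _ fun q => measurable_pi_apply (q.1 + 1, q.2)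

lemma map_shift : (P0 V).map shift = P0 V := by
  classical
  refine Measure.eq_infinitePi _ fun s t ht => ?_
  rw [Measure.map_apply measurable_shift (.pi s.countable_toSet fun i _ => ht i)]
  have : (shift : (ℕ × V → Obs) → ℕ × V → Obs) ⁻¹' Set.pi (s : Set (ℕ × V)) t =
      Set.pi ((s.image fun q : ℕ × V => (q.1 + 1, q.2) : Finset (ℕ × V)) : Set (ℕ × V))
        (fun q => t (q.1 - 1, q.2)) := by
    ext z
    simp only [Set.mem_preimage, Set.mem_pi, Finset.mem_coe, Finset.mem_image]
    constructor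
    · rintro h _ ⟨q, hq, rfl⟩
      simpa [shift] using h q hq
    · intro h q hq
      simpa [shift] using h (q.1 + 1, q.2) ⟨q, hq, rfl⟩
  rw [this, P0, Measure.infinitePi_pi _ (fun q _ => ht _),
    Finset.prod_image fun a _ b _ h => by
      simp only [Prod.mk.injEq] at h
      exact Prod.ext (by omega) h.2]
  simp

variable [DecidableEq V] {G : SimpleGraph V} {θ ε : ℝ}

/-- The finite-volume observations of the levels at least one. -/
noncomputable def solS (G : SimpleGraph V) (θ ε : ℝ) (S : Finset V)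
    (p : (ℕ × V → I) × (ℕ × V → I)) : ℕ × V → Obs :=
  shift (solW G θ ε p.1 S p.2)

lemma measurable_solS (S : Finset V) :
    Measurable (solS G θ ε S : (ℕ × V → I) × (ℕ × V → I) → ℕ × V → Obs) :=
  measurable_shift.comp (measurable_solW2 S)

/-- Expectations under the joint law of rankings and innovations. -/
lemma expect_W [Countable V] (hG : G.IsTree) (h0 : 0 ≤ θ) (h1 : θ < 1) (hε : 0 ≤ ε) (hε1 : ε < 1)
    {S : Finset V} (hS : Conn G S) {o : V} (ho : o ∈ S) (L : ℕ) {F : (ℕ × V → Obs) → ℝ}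
    (hF : Measurable F) {C : ℝ} (hC : ∀ z, |F z| ≤ C)
    (hdep : ∀ z z', (∀ q ∈ sitesUpTo S L, z q = z' q) → F z = F z') :
    ∫ p, F (solS G θ ε S p) ∂(PR V) = jexp G θ ε S (sitesUpTo S L) (fun _ z => F z) := by
  set J := ∫ z, F z * den G θ ε S (sitesUpTo S L) z ∂(P0 V) with hJ
  have hj : jexp G θ ε S (sitesUpTo S L) (fun _ z => F z) = J := by
    have := jexp_prod (G := G) h0 h1 hε hε1 S (sitesUpTo S L) hF hC (fun _ => 1)
    simp only [mul_one] at this
    exact this
  rw [hj, PR, integral_prod _ (integrable_of_bounded (hF.fun_comp (measurable_solS S))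
    fun p => hC _), integral_congr_ae (g := fun _ => J)]
  · simp
  filter_upwards [ae_injective_lev] with U hU
  simp only [solS]
  set P := (sitesUpTo S L).image fun q : ℕ × V => (q.1 + 1, q.2) with hP
  have hPsub : P ⊆ sitesUpTo S (L + 1) := by
    intro q hq
    simp only [hP, Finset.mem_image, sitesUpTo, Finset.mem_product, Finset.mem_range] at hq ⊢
    obtain ⟨r, ⟨hr, hr'⟩, rfl⟩ := hq
    exact ⟨by simp only; omega, hr'⟩
  have hdepP : ∀ z z', (∀ q ∈ P, z q = z' q) → F (shift z) = F (shift z') := fun z z' h =>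
    hdep _ _ fun q hq => h (q.1 + 1, q.2) (Finset.mem_image.2 ⟨q, hq, rfl⟩)
  rw [expect_solW hG h0 h1 hε hε1 hS ho (fun k => (hU k).injOn) (L + 1)
    (F := fun z => F (shift z)) (hF.fun_comp measurable_shift) (fun z => hC _)
    (fun z z' h => hdepP z z' fun q hq => h q (hPsub hq))]
  simp only [den]
  rw [integral_margW h0 h1 hε hε1 S (F := fun z => F (shift z)) (hF.fun_comp measurable_shift)
    (fun z => hC _) hdepP _ hPsub]
  have e : ∀ z, pexp G θ ε S P (sc U z) (fun _ => 1) =
      pexp G θ ε S (sitesUpTo S L) (shift z) (fun _ => 1) := by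
    intro z
    simp only [pexp, lik, hP]
    refine Finset.sum_congr rfl fun A _ => ?_
    rw [Finset.prod_image fun a _ b _ h => by
      simp only [Prod.mk.injEq] at h
      exact Prod.ext (by omega) h.2]
    simp only [sc_of_succ, shift]
  simp only [e, hJ, den]
  conv_rhs => rw [← map_shift (V := V)]
  have hm : Measurable fun z : ℕ × V → Obs =>
      F z * pexp G θ ε S (sitesUpTo S L) z (fun _ => 1) := hF.mul (measurable_pexp S _ _)
  rw [integral_map measurable_shift.aemeasurable hm.aestronglyMeasurable]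

variable [G.LocallyFinite]

/-- The spin estimate at stage `i`. -/
noncomputable def est (G : SimpleGraph V) [G.LocallyFinite] (θ ε : ℝ) (n : ℕ → ℕ) (i : ℕ) (v : V)
    (p : (ℕ × V → I) × (ℕ × V → I)) : ℝ :=
  xav ε (4 ^ i) v (solS G θ ε (ballF G v (n i)) p)

/-- Positivity of the eventual sign. -/
def Pos (G : SimpleGraph V) [G.LocallyFinite] (θ ε : ℝ) (n : ℕ → ℕ) (v : V)
    (p : (ℕ × V → I) × (ℕ × V → I)) : Prop :=
  ∀ᶠ i in atTop, 0 < est G θ ε n i v p

open scoped Classical in
/-- The spin map. -/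
noncomputable def spinMap (G : SimpleGraph V) [G.LocallyFinite] (θ ε : ℝ) (n : ℕ → ℕ)
    (p : (ℕ × V → I) × (ℕ × V → I)) (v : V) : Bool :=
  decide (Pos G θ ε n v p)

lemma measurable_est (n : ℕ → ℕ) (i : ℕ) (v : V) : Measurable (est G θ ε n i v) :=
  (measurable_xav _ v).fun_comp (measurable_solS _)

lemma measurable_spinMap (n : ℕ → ℕ) : Measurable (spinMap G θ ε n) := by
  refine measurable_pi_lambda _ fun v => measurable_to_bool ?_
  have : (fun p => spinMap G θ ε n p v) ⁻¹' {true} = ⋃ N, ⋂ i, ⋂ (_ : N ≤ i),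
      {p | 0 < est G θ ε n i v p} := by
    ext p
    simp only [Set.mem_preimage, Set.mem_singleton_iff, spinMap, Pos, Set.mem_iUnion,
      Set.mem_iInter, Set.mem_ofPred_eq]
    classical
    exact decide_eq_true_iff.trans eventually_atTop
  rw [this]
  exact MeasurableSet.iUnion fun N => MeasurableSet.iInter fun i => MeasurableSet.iInter fun _ =>
    measurableSet_lt measurable_const (measurable_est n i v)

lemma est_image (e : G ≃g G) (n : ℕ → ℕ) (i : ℕ) (v : V) (U : ℕ × V → I) (g : ℕ × V → I) :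
    est G θ ε n i (e v) (fun q => U (q.1, e.symm q.2), fun q => g (q.1, e.symm q.2)) =
      est G θ ε n i v (U, g) := by
  simp only [est, xav, ← ballF_image e v, solS, shift, solW_image]

lemma spinMap_image (e : G ≃g G) (n : ℕ → ℕ) (U : ℕ × V → I) (g : ℕ × V → I) (v : V) :
    spinMap G θ ε n (fun q => U (q.1, e.symm q.2), fun q => g (q.1, e.symm q.2)) (e v) =
      spinMap G θ ε n (U, g) v := by
  classical
  simp only [spinMap, Pos]
  exact decide_eq_decide.2 (by simp only [est_image])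

omit [G.LocallyFinite] in
lemma measurable_X (S : Finset V) (i : ℕ) (v : V) :
    Measurable fun p : (ℕ × V → I) × (ℕ × V → I) => xav ε (4 ^ i) v (solS G θ ε S p) :=
  (measurable_xav _ v).fun_comp (measurable_solS S)

variable [Countable V]

/-- The balls of radii `n` approximate large volumes along the enumeration `e`. -/
def Good (G : SimpleGraph V) [G.LocallyFinite] (θ ε : ℝ) (n : ℕ → ℕ) (e : ℕ → V) : Prop :=
  ∀ j i, j ≤ i → ∀ S, Conn G S → ballF G (e j) (n i) ⊆ S →
    ∫ p, |xav ε (4 ^ i) (e j) (solS G θ ε S p) - est G θ ε n i (e j) p| ∂(PR V) ≤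
      1 / scl ε * (1 / 2) ^ i

/-- Consecutive stages are close. -/
lemma step_bound (hG : G.IsTree) (h0 : 0 ≤ θ) (h1 : θ < 1) (hε : 0 < ε) (hε1 : ε < 1)
    {n : ℕ → ℕ} {e : ℕ → V} (hgood : Good G θ ε n e) {j i : ℕ} (hji : j ≤ i) :
    ∫ p, |est G θ ε n (i + 1) (e j) p - est G θ ε n i (e j) p| ∂(PR V) ≤
      (2 * (1 / scl ε) + 2 * errK ε) * (1 / 2) ^ i := by
  have hc := scl_pos hε
  set v := e j
  set S := ballF G v (max (n i) (n (i + 1))) with hSdef
  have hS : Conn G S := conn_ballF hG _ _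
  have hv : v ∈ S := self_mem_ballF _ _
  have hb : ∀ m, m ≤ max (n i) (n (i + 1)) → ballF G v m ⊆ S := fun m hm u hu =>
    (mem_ballF hG _ _ _).2 (((mem_ballF hG _ _ _).1 hu).trans hm)
  have a1 := hgood j i hji S hS (hb _ (le_max_left _ _))
  have a2 := hgood j (i + 1) (by omega) S hS (hb _ (le_max_right _ _))
  set L := 4 ^ (i + 1) with hL
  have hiL : 4 ^ i ≤ L + 1 := by
    have : 4 ^ i ≤ 4 ^ (i + 1) := Nat.pow_le_pow_right (by norm_num) (by omega)
    omega
  have hm : ∀ m (r : ℝ), Measurable fun z => |xav ε (4 ^ m) v z - r| := fun m r =>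
    ((measurable_xav _ v).sub_const r).abs
  have a3 : ∫ p, |xav ε (4 ^ (i + 1)) v (solS G θ ε S p) -
      xav ε (4 ^ i) v (solS G θ ε S p)| ∂(PR V) ≤ 2 * errK ε * (1 / 2) ^ i := by
    rw [expect_W hG h0 h1 hε.le hε1 hS hv L
      (F := fun z => |xav ε (4 ^ (i + 1)) v z - xav ε (4 ^ i) v z|)
      ((measurable_xav _ v).sub (measurable_xav _ v)).abs
      (fun z => abs_xav_sub_xav_le hε _ _ v z z)
      (fun z z' h => by
        rw [xav_dep hv (by omega : 4 ^ (i + 1) ≤ L + 1) h, xav_dep hv hiL h])]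
    refine (jexp_mono (C := 2 / scl ε) (C' := 1 * (1 / scl ε + 1) + 1 * (1 / scl ε + 1))
      h0 h1 hε.le hε1 S _
      (fun _ => ((measurable_xav _ v).sub (measurable_xav _ v)).abs)
      (H' := fun A z => 1 * |xav ε (4 ^ (i + 1)) v z - spin A v| +
        1 * |xav ε (4 ^ i) v z - spin A v|)
      (fun A => ((hm _ _).const_mul 1).add ((hm _ _).const_mul 1))
      (fun A z => abs_xav_sub_xav_le hε _ _ v z z)
      (fun A z => by
        simp only [one_mul]
        exact (abs_add_le _ _).trans (add_le_add (abs_xav_sub_le hε _ v (abs_spin A v).le z)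
          (abs_xav_sub_le hε _ v (abs_spin A v).le z)))
      (fun A z => by
        simp only [one_mul]
        refine (abs_sub_le _ (spin A v) _).trans ?_
        rw [abs_sub_comm (spin A v)])).trans ?_
    rw [jexp_add h0 h1 hε.le hε1 S _ (fun A => hm _ _) (fun A => hm _ _)
      (fun A => abs_xav_sub_le hε _ v (abs_spin A v).le)
      (fun A => abs_xav_sub_le hε _ v (abs_spin A v).le)]
    have b1 := jexp_abs_le (θ := θ) hG h0 h1 hε hε1 hS hv (i := i + 1) (M := L) (by omega)
    have b2 := jexp_abs_le (θ := θ) hG h0 h1 hε hε1 hS hv (i := i) (M := L) hiL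
    have hb1 : errK ε * (1 / 2 : ℝ) ^ (i + 1) ≤ errK ε * (1 / 2) ^ i := by
      have : (0 : ℝ) ≤ errK ε * (1 / 2 : ℝ) ^ i := by unfold errK; positivity
      rw [pow_succ]; linarith
    simp only [errK, scl] at hb1 ⊢
    simp only [one_mul]
    linarith
  have hi : ∀ m, Integrable (fun p => |xav ε (4 ^ m) v (solS G θ ε S p) -
      est G θ ε n m v p|) (PR V) := fun m =>
    integrable_of_bounded ((measurable_X S m v).sub (measurable_est n _ _)).abs
      fun p => abs_xav_sub_xav_le hε _ _ v _ _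
  have hi3 : Integrable (fun p => |xav ε (4 ^ (i + 1)) v (solS G θ ε S p) -
      xav ε (4 ^ i) v (solS G θ ε S p)|) (PR V) :=
    integrable_of_bounded ((measurable_X S _ v).sub (measurable_X S _ v)).abs
      fun p => abs_xav_sub_xav_le hε _ _ v _ _
  refine (integral_mono (integrable_of_bounded
      ((measurable_est n _ _).sub (measurable_est n _ _)).abs
      fun p => abs_xav_sub_xav_le hε _ _ v _ _)
    (((hi (i + 1)).fun_add hi3).fun_add (hi i)) fun p => ?_).trans ?_
  · have t1 := abs_sub_le (est G θ ε n (i + 1) v p)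
      (xav ε (4 ^ (i + 1)) v (solS G θ ε S p)) (est G θ ε n i v p)
    have t2 := abs_sub_le (xav ε (4 ^ (i + 1)) v (solS G θ ε S p))
      (xav ε (4 ^ i) v (solS G θ ε S p)) (est G θ ε n i v p)
    rw [abs_sub_comm (est G θ ε n (i + 1) v p)
      (xav ε (4 ^ (i + 1)) v (solS G θ ε S p))] at t1
    simp only [Pi.sub_apply] at *
    linarith
  · rw [integral_add ((hi (i + 1)).fun_add hi3) (hi i), integral_add (hi (i + 1)) hi3]
    have : 1 / scl ε * (1 / 2 : ℝ) ^ (i + 1) ≤ 1 / scl ε * (1 / 2) ^ i :=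
      mul_le_mul_of_nonneg_left (pow_le_pow_of_le_one (by norm_num) (by norm_num) (by omega))
        (by positivity)
    linarith

/-- The estimates are nearly of absolute value one. -/
lemma norm_bound (hG : G.IsTree) (h0 : 0 ≤ θ) (h1 : θ < 1) (hε : 0 < ε) (hε1 : ε < 1)
    (n : ℕ → ℕ) (i : ℕ) (v : V) :
    ∫ p, |(|est G θ ε n i v p| - 1)| ∂(PR V) ≤ errK ε * (1 / 2) ^ i := by
  have hc := scl_pos hε
  set S := ballF G v (n i) with hSdef
  have hS : Conn G S := conn_ballF hG _ _
  have hv : v ∈ S := self_mem_ballF _ _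
  have hm : Measurable fun z => |(|xav ε (4 ^ i) v z| - 1)| :=
    (((measurable_xav _ v).abs).sub_const 1).abs
  have hb : ∀ z, |(|(|xav ε (4 ^ i) v z| - 1)|)| ≤ 1 / scl ε + 1 := fun z => by
    rw [abs_abs]
    refine (abs_sub _ _).trans ?_
    rw [abs_abs, abs_one]
    exact add_le_add (abs_xav_le hε (4 ^ i) v z) le_rfl
  have e1 : ∫ p, |(|est G θ ε n i v p| - 1)| ∂(PR V) =
      jexp G θ ε S (sitesUpTo S (4 ^ i)) (fun _ z => |(|xav ε (4 ^ i) v z| - 1)|) :=
    expect_W hG h0 h1 hε.le hε1 hS hv (4 ^ i) hm hb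
      (fun z z' h => by rw [xav_dep hv (by omega : 4 ^ i ≤ 4 ^ i + 1) h])
  rw [e1]
  refine (jexp_mono (C := 1 / scl ε + 1) (C' := 1 / scl ε + 1) h0 h1 hε.le hε1 S _
    (fun _ => hm) (H' := fun A z => |xav ε (4 ^ i) v z - spin A v|)
    (fun A => ((measurable_xav _ v).sub_const _).abs)
    (fun _ => hb) (fun A => abs_xav_sub_le hε _ v (abs_spin A v).le) fun A z => ?_).trans
    (jexp_abs_le hG h0 h1 hε hε1 hS hv (by omega))
  have := abs_abs_sub_abs_le_abs_sub (xav ε (4 ^ i) v z) (spin A v)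
  rwa [abs_spin] at this

/-- Almost sure stabilisation. -/
lemma ae_est (hG : G.IsTree) (h0 : 0 ≤ θ) (h1 : θ < 1) (hε : 0 < ε) (hε1 : ε < 1)
    {n : ℕ → ℕ} {e : ℕ → V} (hgood : Good G θ ε n e) (j : ℕ) :
    ∀ᵐ p ∂(PR V), Tendsto (fun i => est G θ ε n i (e j) p) atTop
      (𝓝 (if spinMap G θ ε n p (e j) = true then 1 else -1)) := by
  set w := e j
  set C1 := (2 * (1 / scl ε) + 2 * errK ε) * (1 / 2) ^ j
  have hb : ∀ i i' p, |est G θ ε n i w p - est G θ ε n i' w p| ≤ 2 / scl ε := fun i i' p =>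
    (le_abs_self _).trans (abs_xav_sub_xav_le hε i i' w _ _)
  have s1 : ∀ᵐ p ∂(PR V),
      Summable fun i => |est G θ ε n (i + j + 1) w p - est G θ ε n (i + j) w p| :=
    ae_tendsto_zero (fun i => ((measurable_est n _ _).sub (measurable_est n _ _)).abs)
      (fun i p => abs_nonneg _) (B := 2 / scl ε) (C := C1) (fun i p => hb _ _ p)
      fun i => (step_bound hG h0 h1 hε hε1 hgood (by omega : j ≤ i + j)).trans_eq
        (by simp only [C1]; rw [pow_add]; ring)
  have s2 : ∀ᵐ p ∂(PR V), Summable fun i => |(|est G θ ε n (i + j) w p| - 1)| :=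
    ae_tendsto_zero (fun i => (((measurable_est n _ _).abs).sub_const 1).abs)
      (fun i p => abs_nonneg _) (B := 1 / scl ε + 1) (C := errK ε * (1 / 2) ^ j)
      (fun i p => (abs_sub _ _).trans (by
        rw [abs_abs, abs_one]; exact add_le_add (abs_xav_le hε _ w _) le_rfl))
      fun i => (norm_bound hG h0 h1 hε hε1 n (i + j) w).trans_eq (by rw [pow_add]; ring)
  filter_upwards [s1, s2] with p hs1 hs2
  have hcau : CauchySeq fun i => est G θ ε n (i + j) w p := by
    refine cauchySeq_of_summable_dist ?_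
    simpa only [Real.dist_eq, abs_sub_comm, Nat.succ_eq_add_one, Nat.add_right_comm] using hs1
  obtain ⟨x, hx⟩ := cauchySeq_tendsto_of_complete hcau
  have hlim : Tendsto (fun i => est G θ ε n i w p) atTop (𝓝 x) :=
    (tendsto_add_atTop_iff_nat (f := fun i => est G θ ε n i w p) j).1 hx
  have habs : |x| = 1 := by
    have h3 : Tendsto (fun i => |(|est G θ ε n (i + j) w p| - 1)|) atTop (𝓝 |(|x| - 1)|) :=
      ((hx.abs).sub_const 1).abs
    have := tendsto_nhds_unique h3 hs2.tendsto_atTop_zero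
    rwa [abs_eq_zero, sub_eq_zero] at this
  rcases (abs_eq zero_le_one).1 habs with rfl | rfl
  · rw [if_pos]
    · exact hlim
    · simp only [spinMap, decide_eq_true_eq]
      exact hlim.eventually (lt_mem_nhds one_pos)
  · rw [if_neg]
    · exact hlim
    · simp only [spinMap, decide_eq_true_eq]
      intro h
      obtain ⟨i, hi, hi'⟩ := (Filter.Eventually.and h
        (hlim.eventually (gt_mem_nhds (by norm_num : (-1 : ℝ) < 0)))).exists
      linarith

/-- Test functions converge to the prescribed marginal. -/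
lemma pattern_bound (hG : G.IsTree) (h0 : 0 ≤ θ) (h1 : θ < 1) (hε : 0 < ε) (hε1 : ε < 1)
    {n : ℕ → ℕ} {e : ℕ → V} (hgood : Good G θ ε n e) {D : Finset V} (hD : Conn G D) {o : V}
    (ho : o ∈ D) (b : V → Bool) (idx : V → ℕ) (hidx : ∀ u, e (idx u) = u) {i : ℕ}
    (hi : D.sup idx ≤ i) :
    |∫ p, ∏ u ∈ D, bump (b u) (est G θ ε n i u p) ∂(PR V) -
      wt G θ D (D.filter fun u => b u = true)| ≤
      D.card * (1 / scl ε + errK ε) * (1 / 2) ^ i := by
  set R := D.sup (fun u => G.dist o u)
  set S := ballF G o (n i + R) with hSdef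
  have hS : Conn G S := conn_ballF hG _ _
  have hball : ∀ u ∈ D, ballF G u (n i) ⊆ S := by
    intro u hu w hw
    rw [mem_ballF hG] at hw
    rw [hSdef, mem_ballF hG]
    have h1 : G.dist o u ≤ R := Finset.le_sup (f := fun u => G.dist o u) hu
    have h2 : G.dist o w ≤ G.dist o u + G.dist u w := hG.connected.dist_triangle
    omega
  have hDS : D ⊆ S := fun u hu => hball u hu (self_mem_ballF _ _)
  set F := fun p : (ℕ × V → I) × (ℕ × V → I) => ∏ u ∈ D, bump (b u) (est G θ ε n i u p)
  set F' := fun p : (ℕ × V → I) × (ℕ × V → I) =>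
    ∏ u ∈ D, bump (b u) (xav ε (4 ^ i) u (solS G θ ε S p))
  have hiF : Integrable F (PR V) :=
    integrable_of_bounded (measurable_bump_prod D b fun u => measurable_est n i u)
      fun p => abs_bump_prod_le D b _
  have hiF' : Integrable F' (PR V) :=
    integrable_of_bounded (measurable_bump_prod D b fun u => measurable_X S i u)
      fun p => abs_bump_prod_le D b _
  have hu : ∀ u, Integrable (fun p => |xav ε (4 ^ i) u (solS G θ ε S p) -
      est G θ ε n i u p|) (PR V) := fun u =>
    integrable_of_bounded ((measurable_X S i u).sub (measurable_est n _ _)).abs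
      fun p => abs_xav_sub_xav_le hε _ _ u _ _
  have d1 : |∫ p, F p ∂(PR V) - ∫ p, F' p ∂(PR V)| ≤ D.card * (1 / scl ε) * (1 / 2) ^ i := by
    rw [← integral_sub hiF hiF']
    refine abs_integral_le_integral_abs.trans ((integral_mono (hiF.sub hiF').abs
      (integrable_finsetSum D fun u _ => hu u) fun p => ?_).trans ?_)
    · exact (prod_bump_lip D b _ _).trans_eq (Finset.sum_congr rfl fun u _ => abs_sub_comm _ _)
    · rw [integral_finsetSum _ fun u _ => hu u]
      refine (Finset.sum_le_sum (g := fun _ => 1 / scl ε * (1 / 2 : ℝ) ^ i) fun u hu => ?_).trans_eq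
        (by rw [Finset.sum_const, nsmul_eq_mul]; ring)
      have hb' := hball u hu
      rw [← hidx u] at hb' ⊢
      exact hgood (idx u) i ((Finset.le_sup (f := idx) hu).trans hi) S hS hb'
  have e1 : ∫ p, F' p ∂(PR V) = jexp G θ ε S (sitesUpTo S (4 ^ i))
      (fun _ z => ∏ u ∈ D, bump (b u) (xav ε (4 ^ i) u z)) :=
    expect_W hG h0 h1 hε.le hε1 hS (hDS ho) (4 ^ i)
      (F := fun z => ∏ u ∈ D, bump (b u) (xav ε (4 ^ i) u z))
      (measurable_bump_prod D b fun u => measurable_xav _ u) (fun z => abs_bump_prod_le D b _)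
      (fun z z' h => Finset.prod_congr rfl fun u hu => by
        rw [xav_dep (hDS hu) (by omega : 4 ^ i ≤ 4 ^ i + 1) h])
  have d2 := jexp_pattern hG h0 h1 hε hε1 hS hD ho hDS b i
  rw [← e1] at d2
  calc _ ≤ _ := abs_sub_le _ (∫ p, F' p ∂(PR V)) _
    _ ≤ _ := add_le_add d1 d2
    _ = _ := by ring

/-- A good choice of radii exists as soon as the observations are determined. -/
lemma exists_good (hG : G.IsTree) (h0 : 0 ≤ θ) (h1 : θ < 1) (hε : 0 < ε) (hε1 : ε < 1) (o : V)
    (hdet : ∀ s : ℕ × V, 1 ≤ s.1 → ∃ f : (ℕ × V → I) × (ℕ × V → I) → ℝ, Measurable f ∧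
      (∀ p, |f p| ≤ 1) ∧ ∀ᵐ ω ∂(PZ G θ ε o), (ω.2 s : ℝ) = f (toPQ G θ ε ω))
    (e : ℕ → V) : ∃ n : ℕ → ℕ, Good G θ ε n e := by
  choose f hfm hfb hf using fun (k : ℕ) (v : V) => hdet (k + 1, v) (Nat.le_add_left 1 k)
  choose N hN using fun (k : ℕ) (v : V) (i : ℕ) =>
    determined_approx hG h0 h1 hε.le hε1 o (k + 1, v) (hfm k v) (hfb k v) (hf k v)
      (η := (1 / 2) ^ i / 2) (by positivity)
  refine ⟨fun i => ∑ j ∈ Finset.range (i + 1), ∑ k ∈ Finset.range (4 ^ i), N k (e j) i,
    fun j i hji S hS hsubS => ?_⟩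
  set n := fun i : ℕ => ∑ j ∈ Finset.range (i + 1), ∑ k ∈ Finset.range (4 ^ i), N k (e j) i with hn
  have hc := scl_pos hε
  set B := ballF G (e j) (n i)
  set dd := fun (k : ℕ) (p : (ℕ × V → I) × (ℕ × V → I)) =>
    |(solS G θ ε S p (k, e j) : ℝ) - solS G θ ε B p (k, e j)|
  have hm : ∀ (T : Finset V) (k : ℕ), Measurable fun p : (ℕ × V → I) × (ℕ × V → I) =>
      (solW G θ ε p.1 T p.2 (k + 1, e j) : ℝ) := fun T k => by
    have h := (measurable_pi_apply (X := fun _ : ℕ × V => Obs) (k + 1, e j)).comp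
      (measurable_solW2 (G := G) (θ := θ) (ε := ε) T)
    exact measurable_subtype_coe.comp h
  have hdi : ∀ k, Integrable (dd k) (PR V) := fun k =>
    integrable_of_bounded ((hm S k).sub (hm B k)).abs (C := 2)
      fun p => by
        rw [abs_abs]
        exact (abs_sub _ _).trans ((add_le_add (Obs.abs_le _) (Obs.abs_le _)).trans_eq (by norm_num))
  have hd_le : ∀ k ∈ Finset.range (4 ^ i), ∫ p, dd k p ∂(PR V) ≤ (1 / 2) ^ i := by
    intro k hk
    have hNn : N k (e j) i ≤ n i :=
      (Finset.single_le_sum (f := fun k => N k (e j) i) (fun _ _ => Nat.zero_le _) hk).trans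
        (Finset.single_le_sum (f := fun j => ∑ k ∈ Finset.range (4 ^ i), N k (e j) i)
          (fun _ _ => Nat.zero_le _) (Finset.mem_range.2 (Nat.lt_succ_of_le hji)))
    have hsub : ballF G (e j) (N k (e j) i) ⊆ B := fun u hu =>
      (mem_ballF hG _ _ _).2 (((mem_ballF hG _ _ _).1 hu).trans hNn)
    have a1 := hN k (e j) i B (conn_ballF hG _ _) hsub
    have a2 := hN k (e j) i S hS (hsub.trans hsubS)
    have hi' : ∀ T : Finset V, Integrable (fun p : (ℕ × V → I) × (ℕ × V → I) =>
        |(solW G θ ε p.1 T p.2 (k + 1, e j) : ℝ) - f k (e j) p|) (PR V) := fun T =>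
      integrable_of_bounded ((hm T k).sub (hfm k (e j))).abs (C := 2) fun p => by
        rw [abs_abs]
        exact (abs_sub _ _).trans ((add_le_add (Obs.abs_le _) (hfb _ _ p)).trans_eq (by norm_num))
    refine (integral_mono (hdi k) ((hi' S).fun_add (hi' B)) fun p => ?_).trans ?_
    · have := abs_sub_le (solW G θ ε p.1 S p.2 (k + 1, e j) : ℝ) (f k (e j) p)
        (solW G θ ε p.1 B p.2 (k + 1, e j))
      rw [abs_sub_comm (f k (e j) p)] at this
      exact this
    · rw [integral_add (hi' S) (hi' B)]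
      linarith
  have h4 : (0 : ℝ) < ((4 ^ i : ℕ) : ℝ) := by positivity
  refine (integral_mono (integrable_of_bounded
      ((measurable_X S i (e j)).sub (measurable_est n i (e j))).abs
      fun p => abs_xav_sub_xav_le hε _ _ _ _ _)
    ((integrable_finsetSum (Finset.range (4 ^ i)) fun k _ => hdi k).div_const
      (((4 ^ i : ℕ) : ℝ) * scl ε)) fun p => ?_).trans ?_
  · simp only [est, xav, dd, B, Pi.sub_apply, hn]
    rw [show ε * c2 = scl ε from rfl, ← sub_div, ← Finset.sum_sub_distrib, abs_div,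
      abs_of_pos (mul_pos h4 hc)]
    exact div_le_div_of_nonneg_right (Finset.abs_sum_le_sum_abs _ _) (mul_pos h4 hc).le
  · rw [integral_div, integral_finsetSum _ fun k _ => hdi k, div_le_iff₀ (mul_pos h4 hc)]
    refine (Finset.sum_le_sum hd_le).trans_eq ?_
    rw [Finset.sum_const, Finset.card_range, nsmul_eq_mul]
    field_simp

/-- Joint existence statement on rankings and innovations. -/
theorem exists_spinMap (hG : G.IsTree) (h0 : 0 ≤ θ) (h1 : θ < 1) (hε : 0 < ε) (hε1 : ε < 1) (o : V)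
    (hdet : ∀ s : ℕ × V, 1 ≤ s.1 → ∃ f : (ℕ × V → I) × (ℕ × V → I) → ℝ, Measurable f ∧
      (∀ p, |f p| ≤ 1) ∧ ∀ᵐ ω ∂(PZ G θ ε o), (ω.2 s : ℝ) = f (toPQ G θ ε ω)) :
    ∃ Φ : (ℕ × V → I) × (ℕ × V → I) → V → Bool, Measurable Φ ∧
      (∀ (e : G ≃g G) U g v,
        Φ (fun q => U (q.1, e.symm q.2), fun q => g (q.1, e.symm q.2)) (e v) = Φ (U, g) v) ∧
      ∀ D : Finset V, Conn G D → ∀ b : V → Bool,
        (PR V).real {p | ∀ u ∈ D, Φ p u = b u} = wt G θ D (D.filter fun u => b u = true) := by
  obtain ⟨e, he⟩ : ∃ e : ℕ → V, Function.Surjective e := by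
    have : Nonempty V := hG.connected.nonempty
    exact exists_surjective_nat V
  obtain ⟨n, hgood⟩ := exists_good hG h0 h1 hε hε1 o hdet e
  refine ⟨spinMap G θ ε n, measurable_spinMap n, fun e U g v => spinMap_image e n U g v,
    fun D hD b => ?_⟩
  obtain ⟨⟨o, ho⟩⟩ := (SimpleGraph.Connected.nonempty hD)
  rw [Finset.mem_coe] at ho
  choose idx hidx using he
  have hE : MeasurableSet {p | ∀ u ∈ D, spinMap G θ ε n p u = b u} := by
    rw [Set.ofPred_forall]
    refine MeasurableSet.iInter fun u => ?_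
    rw [Set.ofPred_forall]
    refine MeasurableSet.iInter fun _ => ?_
    exact ((measurable_pi_apply u).comp (measurable_spinMap n)) (measurableSet_singleton (b u))
  have hae : ∀ u : V, ∀ᵐ p ∂(PR V), Tendsto (fun i => est G θ ε n i u p) atTop
      (𝓝 (if spinMap G θ ε n p u = true then 1 else -1)) := fun u => by
    have := ae_est hG h0 h1 hε hε1 hgood (idx u)
    simpa only [hidx u] using this
  have hlim1 : Tendsto (fun i => ∫ p, ∏ u ∈ D, bump (b u) (est G θ ε n i u p) ∂(PR V)) atTop
      (𝓝 ((PR V).real {p | ∀ u ∈ D, spinMap G θ ε n p u = b u})) := by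
    rw [← integral_indicator_one hE]
    refine tendsto_integral_of_dominated_convergence (fun _ => 1)
      (fun i => (measurable_bump_prod D b fun u => measurable_est n i u).aestronglyMeasurable)
      (integrable_const _) (fun i => ae_of_all _ fun p => abs_bump_prod_le D b _) ?_
    filter_upwards [(ae_all_iff (ι := V)).2 hae] with p hp
    have hlimF : Tendsto (fun i => ∏ u ∈ D, bump (b u) (est G θ ε n i u p)) atTop
        (𝓝 (∏ u ∈ D, bump (b u) (if spinMap G θ ε n p u = true then 1 else -1))) := by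
      refine tendsto_finsetProd _ fun u _ => ?_
      have hc : Continuous (bump (b u)) := by unfold bump; fun_prop
      exact (hc.tendsto _).comp (hp u)
    convert! hlimF using 1
    congr 1
    simp only [bump_sign, Bool.decide_eq_true]
    by_cases h : ∀ u ∈ D, spinMap G θ ε n p u = b u
    · rw [Set.indicator_of_mem (Set.mem_ofPred.2 h), Finset.prod_eq_one fun u hu => if_pos (h u hu)]
      rfl
    · rw [Set.indicator_of_notMem (by simpa using h)]
      push Not at h
      obtain ⟨u, hu, hne⟩ := h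
      rw [Finset.prod_eq_zero hu (if_neg hne)]
  refine tendsto_nhds_unique hlim1 ?_
  rw [tendsto_iff_norm_sub_tendsto_zero]
  refine squeeze_zero' (Eventually.of_forall fun i => norm_nonneg _)
    (eventually_atTop.2 ⟨D.sup idx, fun i hi =>
      pattern_bound hG h0 h1 hε hε1 hgood hD ho b idx hidx hi⟩) ?_
  simpa using (tendsto_pow_atTop_nhds_zero_of_lt_one (r := (1 / 2 : ℝ)) (by norm_num)
    (by norm_num)).const_mul ((D.card : ℝ) * (1 / scl ε + errK ε))

end Vale.Agent.P161.Crit
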