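import Vale.Agent.P161.Bridge
import Vale.Agent.P161.Crit.Channel
import Vale.Agent.P161.Crit.Estimate

/-!
From observations determined by rankings and innovations to a factor of one uniform variable per
vertex.
-/

namespace Vale.Agent.P161.Crit

open MeasureTheory SimpleGraph Finset Function
open scoped unitInterval

variable {V : Type*}

/-- Read off rankings and innovations from one pair of sequences per vertex. -/
def unvert (y : V → (ℕ → I) × (ℕ → I)) : (ℕ × V → I) × (ℕ × V → I) :=
  (fun q => (y q.2).1 q.1, fun q => (y q.2).2 q.1)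

lemma measurable_unvert : Measurable (unvert : (V → (ℕ → I) × (ℕ → I)) → _) :=
  (measurable_pi_lambda _ fun q => (measurable_pi_apply q.1).comp
      (measurable_fst.comp (measurable_pi_apply q.2))).prodMk
    (measurable_pi_lambda _ fun q => (measurable_pi_apply q.1).comp
      (measurable_snd.comp (measurable_pi_apply q.2)))

lemma map_unvert :
    (Measure.infinitePi fun _ : V => (Measure.infinitePi fun _ : ℕ => (volume : Measure I)).prod
      (Measure.infinitePi fun _ : ℕ => (volume : Measure I))).map unvert = PR V := by
  have hA : Measurable fun x : ℕ × V → I => fun v j => x (j, v) :=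
    measurable_pi_lambda _ fun v => measurable_pi_lambda _ fun j => measurable_pi_apply (j, v)
  have hz : Measurable fun (p : (V → ℕ → I) × (V → ℕ → I)) i => (p.1 i, p.2 i) :=
    measurable_pi_lambda _ fun i => ((measurable_pi_apply i).comp measurable_fst).prodMk
      ((measurable_pi_apply i).comp measurable_snd)
  rw [← map_zip, ← map_byVertex (ι := V) (volume : Measure I),
    Measure.map_prod_map _ _ hA hA, Measure.map_map hz (hA.prodMap hA),
    Measure.map_map measurable_unvert (hz.comp (hA.prodMap hA))]
  exact Measure.map_id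

variable [DecidableEq V] [Countable V] {G : SimpleGraph V} [G.LocallyFinite] {θ ε : ℝ}

/-- If every observation of level at least one is a function of rankings and innovations, the
free state is a factor of one uniform variable per vertex. -/
theorem exists_factor_of_determined (hG : G.IsTree) (h0 : 0 ≤ θ) (h1 : θ < 1) (hε : 0 < ε)
    (hε1 : ε < 1) (o : V)
    (hdet : ∀ s : ℕ × V, 1 ≤ s.1 → ∃ f : (ℕ × V → I) × (ℕ × V → I) → ℝ, Measurable f ∧
      ∀ᵐ ω ∂(PZ G θ ε o), (ω.2 s : ℝ) = f (toPQ G θ ε ω)) :
    ∃ Φ : (V → I) → V → Bool, Measurable Φ ∧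
      (∀ (φ : G ≃g G) (ω : V → I),
        Φ (fun v => ω (φ.symm v)) = fun v => Φ ω (φ.symm v)) ∧
      ∀ D : Finset V, Conn G D → ∀ b : V → Bool,
        (Measure.infinitePi fun _ : V => (volume : Measure I)).real
            {ω | ∀ u ∈ D, Φ ω u = b u} = wt G θ D (D.filter fun u => b u = true) := by
  obtain ⟨Ψ, hΨm, hΨe, hΨlaw⟩ := exists_spinMap hG h0 h1 hε hε1 o fun s hs => by
    obtain ⟨f, hfm, hf⟩ := hdet s hs
    refine ⟨fun p => max (-1) (min 1 (f p)), measurable_const.max (measurable_const.min hfm),
      fun p => abs_le.2 ⟨le_max_left _ _, max_le (by norm_num) (min_le_left _ _)⟩, ?_⟩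
    filter_upwards [hf] with ω hω
    obtain ⟨ha, hb⟩ := Obs.bounds (ω.2 s)
    rw [← hω, min_eq_right hb, max_eq_right ha]
  obtain ⟨f, hfm, hf⟩ := Measure.exists_measurable_map_eq
    ((Measure.infinitePi fun _ : ℕ => (volume : Measure I)).prod
      (Measure.infinitePi fun _ : ℕ => (volume : Measure I)))
  have hjm : Measurable fun ω : V → I => fun v => f (ω v) :=
    measurable_pi_lambda _ fun v => hfm.comp (measurable_pi_apply v)
  set dec := fun ω : V → I => unvert fun v => f (ω v) with hdec
  have hdm : Measurable dec := measurable_unvert.comp hjm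
  have hmap : (Measure.infinitePi fun _ : V => (volume : Measure I)).map dec = PR V := by
    rw [← map_unvert, hdec, ← Function.comp_def unvert, ← Measure.map_map measurable_unvert hjm,
      Measure.infinitePi_map_pi _ fun _ => hfm, hf]
  refine ⟨fun ω => Ψ (dec ω), hΨm.comp hdm, fun φ ω => ?_, fun D hD b => ?_⟩
  · funext w
    obtain ⟨v, rfl⟩ := φ.surjective w
    simp only [RelIso.symm_apply_apply]
    exact hΨe φ (dec ω).1 (dec ω).2 v
  · rw [← hΨlaw D hD b, ← hmap, map_measureReal_apply hdm]
    · rfl
    · rw [Set.ofPred_forall]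
      refine MeasurableSet.iInter fun u => ?_
      rw [Set.ofPred_forall]
      refine MeasurableSet.iInter fun _ => ?_
      exact ((measurable_pi_apply u).comp hΨm) (measurableSet_singleton (b u))

end Vale.Agent.P161.Crit
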