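import Vale.Agent.P161.Crit.PairFin
import Vale.Agent.P161.Sums

/-!
The increment property of the squared difference of the two copies: finite-volume decomposition
over a time window, and the limit of exhausting balls.
-/

namespace Vale.Agent.P161.Crit

open MeasureTheory Function Filter Finset
open scoped unitInterval Topology

variable {V : Type*} [DecidableEq V] [Countable V] {G : SimpleGraph V} [G.LocallyFinite]
  {θ ε : ℝ}

/-- The mixed terms of a window in volume `S`. -/
noncomputable def mixErr (G : SimpleGraph V) [G.LocallyFinite] (θ ε : ℝ) (o : V) (S W : Finset V)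
    (k : ℕ) : ℝ :=
  ∑ w ∈ W, 8 * mErr G θ ε o S (k, w) +
    ∑ w ∈ W, ∑ w' ∈ W.erase w, 4 * (mErr G θ ε o S (k, w) + mErr G θ ε o S (k, w'))

section finite

variable (hG : G.IsTree) (h0 : 0 ≤ θ) (h1 : θ < 1) (hε : 0 ≤ ε) (hε4 : ε ≤ 1 / 4) (o : V)
include hG h0 h1 hε hε4

/-- Finite-volume bounds for the squared difference at the end of a window. -/
lemma window_bounds {S W : Finset V} (hS : Conn G S) (hW : W ⊆ S) (k : ℕ) {p1 p2 : ℝ}
    (hp : p1 ≤ p2) {η : ℝ} (hη : 0 < η) (hη1 : η ≤ 1) :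
    (∫ u, uDiff G θ (pairN ε S k p2 u) o ^ 2 ∂(P2 G θ ε o) ≤
      (1 + η) * (∫ u, uDiff G θ (pairN ε S k p1 u) o ^ 2 ∂(P2 G θ ε o) +
        ∑ w ∈ W, ∫ u, dJ G θ ε p1 p2 S o k w u ^ 2 ∂(P2 G θ ε o) + mixErr G θ ε o S W k) +
      (1 + 1 / η) * (4 * ∑ w ∈ S \ W, ∫ x, wJmp G θ ε p1 p2 S o k w x ^ 2 ∂(PZ G θ ε o))) ∧
    (1 - η) * (∫ u, uDiff G θ (pairN ε S k p1 u) o ^ 2 ∂(P2 G θ ε o) - mixErr G θ ε o S W k) -
        1 / η * (4 * ∑ w ∈ S \ W, ∫ x, wJmp G θ ε p1 p2 S o k w x ^ 2 ∂(PZ G θ ε o)) ≤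
      ∫ u, uDiff G θ (pairN ε S k p2 u) o ^ 2 ∂(P2 G θ ε o) := by
  have hε1 : ε < 1 := by linarith
  have hε2 : ε ≤ 1 / 2 := by linarith
  set P := P2 G θ ε o
  set T := S \ W with hT
  set a : Conf V × Conf V → ℝ := fun u => uDiff G θ (pairN ε S k p1 u) o with ha
  set f : V → Conf V × Conf V → ℝ := fun w u => dJ G θ ε p1 p2 S o k w u with hf
  set X : Conf V × Conf V → ℝ := fun u => a u + ∑ w ∈ W, f w u with hX
  set L : Conf V → ℝ := fun x => ∑ w ∈ T, wJmp G θ ε p1 p2 S o k w x with hL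
  set Y : Conf V × Conf V → ℝ := fun u => L u.2 - L u.1 with hY
  have ham : Measurable a := (Boot.measurable_uDiff o).comp (measurable_pairN S k p1)
  have hab : ∀ u, |a u| ≤ 2 := fun u => pairN_bound h0 h1 hε hε1 S k p1 u o
  have hfm : ∀ w, Measurable (f w) := fun w => measurable_dJ p1 p2 S o k w
  have hfb : ∀ w u, |f w u| ≤ 2 := fun w u => abs_dJ_le h0 h1 hε hε2 p1 p2 S o k w u
  have hLm : Measurable L := Finset.measurable_sum _ fun w _ => measurable_wJmp p1 p2 S o k w
  have hLb : ∀ x, |L x| ≤ T.card := fun x => by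
    refine (Finset.abs_sum_le_sum_abs _ _).trans ((Finset.sum_le_sum fun w _ =>
      abs_wJmp_le h0 h1 hε hε2 p1 p2 S o k w x).trans_eq ?_)
    simp
  have hXm : Measurable X := ham.add (Finset.measurable_sum _ fun w _ => hfm w)
  have hXb : ∀ u, |X u| ≤ 2 + W.card * 2 := fun u => by
    refine (abs_add_le _ _).trans (add_le_add (hab u) ?_)
    refine (Finset.abs_sum_le_sum_abs _ _).trans ((Finset.sum_le_sum fun w _ =>
      hfb w u).trans_eq ?_)
    simp
  have hYm : Measurable Y := (hLm.comp measurable_snd).sub (hLm.comp measurable_fst)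
  have hYb : ∀ u, |Y u| ≤ T.card + T.card := fun u =>
    (abs_sub _ _).trans (add_le_add (hLb _) (hLb _))
  have hint : ∀ {Z : Conf V × Conf V → ℝ}, Measurable Z → ∀ {B : ℝ}, (∀ u, |Z u| ≤ B) →
      Integrable (fun u => Z u ^ 2) P := fun {Z} hZ {B} hB =>
    integrable_of_bounded (hZ.pow_const 2) (C := B ^ 2) fun u => by
      rw [abs_pow]; exact pow_le_pow_left₀ (abs_nonneg _) (hB u) 2
  have iX := hint hXm hXb
  have iY := hint hYm hYb
  have ib : Integrable (fun u => uDiff G θ (pairN ε S k p2 u) o ^ 2) P :=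
    hint ((Boot.measurable_uDiff o).comp (measurable_pairN S k p2))
      fun u => pairN_bound h0 h1 hε hε1 S k p2 u o
  -- the decomposition
  have hdec : ∀ᵐ u ∂P, uDiff G θ (pairN ε S k p2 u) o = X u + Y u := by
    filter_upwards [ae_toPQ_eq hG h0 h1 hε hε1 o,
      ae_ranking hG h0 h1 hε hε1 o ae_injective_lev] with u hy hinj
    have hR : u.1.1 = u.2.1 := (congrArg Prod.fst hy :)
    have tel : ∀ x : Conf V, x.1 = u.1.1 →
        magI G θ (mask S (stF ε k p2 x)) o - magI G θ (mask S (stF ε k p1 x)) o =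
          ∑ w ∈ S, wJmp G θ ε p1 p2 S o k w x := by
      intro x hx
      have t := telescope (x := x) hG h0 h1 hε hε1 S o k (hx ▸ (hinj k).injOn) p2 hp
      exact t.trans (Finset.sum_congr rfl fun w _ => rfl)
    have t1 := tel u.1 rfl
    have t2 := tel u.2 hR.symm
    have hdJ : ∀ w, f w u = wJmp G θ ε p1 p2 S o k w u.2 - wJmp G θ ε p1 p2 S o k w u.1 := by
      intro w
      simp only [hf, dJ, wJmp]
      by_cases hw : Win p1 p2 (k, w) u.1
      · have hw' : Win p1 p2 (k, w) u.2 := by simpa [Win, hR] using hw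
        rw [if_pos hw, if_pos hw', if_pos hw]
      · have hw' : ¬ Win p1 p2 (k, w) u.2 := by simpa [Win, hR] using hw
        rw [if_neg hw, if_neg hw', if_neg hw, sub_zero]
    have s1 := Finset.sum_sdiff (f := fun w => wJmp G θ ε p1 p2 S o k w u.1) hW
    have s2 := Finset.sum_sdiff (f := fun w => wJmp G θ ε p1 p2 S o k w u.2) hW
    simp only [hX, hY, hL, ha, hT, hdJ, Finset.sum_sub_distrib, uDiff, pairN] at t1 t2 s1 s2 ⊢
    linarith
  -- the square of the inner part
  have i_a : Integrable (fun u => a u ^ 2) P := hint ham hab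
  have i_af : ∀ w, Integrable (fun u => a u * f w u) P := fun w =>
    integrable_of_bounded (ham.mul (hfm w)) (C := 2 * 2) fun u => by
      rw [abs_mul]; exact mul_le_mul (hab u) (hfb w u) (abs_nonneg _) zero_le_two
  have i_ff : ∀ w w', Integrable (fun u => f w u * f w' u) P := fun w w' =>
    integrable_of_bounded ((hfm w).mul (hfm w')) (C := 2 * 2) fun u => by
      rw [abs_mul]; exact mul_le_mul (hfb w u) (hfb w' u) (abs_nonneg _) zero_le_two
  set D := ∑ w ∈ W, ∫ u, f w u ^ 2 ∂P with hD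
  set E := mixErr G θ ε o S W k with hE
  have hexp : ∀ u, X u ^ 2 = a u ^ 2 + ∑ w ∈ W, f w u * f w u +
      (∑ w ∈ W, 2 * (a u * f w u) + ∑ w ∈ W, ∑ w' ∈ W.erase w, f w u * f w' u) := fun u => by
    have e : ∀ w ∈ W, f w u * f w u + ∑ w' ∈ W.erase w, f w u * f w' u =
        ∑ w' ∈ W, f w u * f w' u := fun w hw =>
      Finset.add_sum_erase W (fun w' => f w u * f w' u) hw
    have e2 : ∑ w ∈ W, f w u * f w u + ∑ w ∈ W, ∑ w' ∈ W.erase w, f w u * f w' u =
        (∑ w ∈ W, f w u) * ∑ w ∈ W, f w u := by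
      rw [← Finset.sum_add_distrib, Finset.sum_mul_sum]
      exact Finset.sum_congr rfl e
    simp only [hX, ← Finset.mul_sum] at e2 ⊢
    linear_combination -e2
  set Cx := ∫ u, (∑ w ∈ W, 2 * (a u * f w u) + ∑ w ∈ W, ∑ w' ∈ W.erase w, f w u * f w' u) ∂P
    with hCx
  have i1 : Integrable (fun u => ∑ w ∈ W, f w u * f w u) P :=
    integrable_finsetSum _ fun w _ => i_ff w w
  have i2 : Integrable (fun u => ∑ w ∈ W, 2 * (a u * f w u)) P :=
    integrable_finsetSum _ fun w _ => (i_af w).const_mul 2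
  have i3 : Integrable (fun u => ∑ w ∈ W, ∑ w' ∈ W.erase w, f w u * f w' u) P :=
    integrable_finsetSum _ fun w _ => integrable_finsetSum _ fun w' _ => i_ff w w'
  have hX2 : ∫ u, X u ^ 2 ∂P = ∫ u, a u ^ 2 ∂P + D + Cx := by
    simp only [hexp]
    rw [integral_add (i_a.fun_add i1) (i2.fun_add i3), integral_add i_a i1,
      integral_finsetSum _ fun w _ => i_ff w w]
    simp only [hD, hCx, sq]
  have hCxb : |Cx| ≤ E := by
    rw [hCx, integral_add i2 i3, integral_finsetSum _ fun w _ => (i_af w).const_mul 2,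
      integral_finsetSum _ fun w _ => integrable_finsetSum _ fun w' _ => i_ff w w', hE, mixErr]
    refine (abs_add_le _ _).trans (add_le_add ?_ ?_)
    · refine (Finset.abs_sum_le_sum_abs _ _).trans (Finset.sum_le_sum fun w hw => ?_)
      have := abs_integral_uDiff_dJ_le hG h0 h1 hε hε4 o hS k (hW hw) (p1 := p1) (p2 := p2)
      rw [integral_const_mul, abs_mul, abs_two]
      simp only [ha, hf]
      linarith
    · refine (Finset.abs_sum_le_sum_abs _ _).trans (Finset.sum_le_sum fun w hw => ?_)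
      rw [integral_finsetSum _ fun w' _ => i_ff w w']
      refine (Finset.abs_sum_le_sum_abs _ _).trans (Finset.sum_le_sum fun w' hw' => ?_)
      obtain ⟨hne, hw'W⟩ := Finset.mem_erase.1 hw'
      simp only [hf]
      exact abs_integral_dJ_dJ_le hG h0 h1 hε hε4 o hS k (hW hw) (hW hw'W) (Ne.symm hne)
  -- the outer part
  set t := ∑ w ∈ T, ∫ x, wJmp G θ ε p1 p2 S o k w x ^ 2 ∂(PZ G θ ε o) with ht
  have hL2 : ∫ x, L x ^ 2 ∂(PZ G θ ε o) = t :=
    integral_wJmp_sum_sq hG h0 h1 hε hε4 o hS k Finset.sdiff_subset p1 p2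
  have hY2 : ∫ u, Y u ^ 2 ∂P ≤ 4 * t := by
    have j1 := hint (hLm.comp measurable_fst) fun u => hLb u.1
    have j2 := hint (hLm.comp measurable_snd) fun u => hLb u.2
    refine (integral_mono iY ((j2.add j1).const_mul 2) fun u => ?_).trans_eq ?_
    · simp only [hY, Pi.add_apply, Function.comp_apply]
      nlinarith [sq_nonneg (L u.2 + L u.1)]
    · rw [integral_const_mul]
      simp only [Pi.add_apply, Function.comp_apply] at j1 j2 ⊢
      rw [integral_add j2 j1, integral_fst hG h0 h1 hε o hε1 (hLm.pow_const 2),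
        integral_snd hG h0 h1 hε o hε1 (hLm.pow_const 2), hL2]
      ring
  have hD0 : 0 ≤ D := Finset.sum_nonneg fun w _ => integral_nonneg fun u => sq_nonneg _
  obtain ⟨c1, c2⟩ := abs_le.1 hCxb
  constructor
  · refine (integral_mono_ae ib ((iX.const_mul (1 + η)).add (iY.const_mul (1 + 1 / η)))
      (hdec.mono fun u hu => ?_)).trans ?_
    · simp only [Pi.add_apply, hu]
      have key : (1 + η) * X u ^ 2 + (1 + 1 / η) * Y u ^ 2 - (X u + Y u) ^ 2 =
          (η * X u - Y u) ^ 2 / η := by field_simp; ring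
      have : 0 ≤ (η * X u - Y u) ^ 2 / η := by positivity
      linarith
    · simp only [Pi.add_apply]
      rw [integral_add (iX.const_mul _) (iY.const_mul _), integral_const_mul, integral_const_mul,
        hX2]
      exact add_le_add (mul_le_mul_of_nonneg_left (by linarith) (by linarith))
        (mul_le_mul_of_nonneg_left hY2 (by positivity))
  · refine le_trans ?_ (integral_mono_ae ((iX.const_mul (1 - η)).sub (iY.const_mul (1 / η))) ib
      (hdec.mono fun u hu => ?_))
    · simp only [Pi.sub_apply]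
      rw [integral_sub (iX.const_mul _) (iY.const_mul _), integral_const_mul, integral_const_mul,
        hX2]
      exact sub_le_sub (mul_le_mul_of_nonneg_left (by linarith) (by linarith))
        (mul_le_mul_of_nonneg_left hY2 (by positivity))
    · simp only [Pi.sub_apply, hu]
      have key : (X u + Y u) ^ 2 - ((1 - η) * X u ^ 2 - 1 / η * Y u ^ 2) =
          (η * X u + Y u) ^ 2 / η + Y u ^ 2 := by field_simp; ring
      have : 0 ≤ (η * X u + Y u) ^ 2 / η := by positivity
      linarith [sq_nonneg (Y u)]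

end finite

omit [Countable V] in
/-- A slope product is continuous in its messages. -/
lemma tendsto_segProd (h0 : 0 ≤ θ) (h1 : θ < 1) {hs : ℕ → V → ℝ} {h : V → ℝ} {j : ℕ} {y : ℕ → V}
    (hl : ∀ i < j, Tendsto (fun n => msgI G θ (hs n) (y i) (y (i + 1))) atTop
      (𝓝 (msgI G θ h (y i) (y (i + 1)))))
    (hb : ∀ i < j, |msgI G θ h (y i) (y (i + 1))| ≤ 1) :
    Tendsto (fun n => segProd G θ (hs n) j y) atTop (𝓝 (segProd G θ h j y)) := by
  refine tendsto_finsetProd _ fun i hi => ?_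
  have hi' := Finset.mem_range.1 hi
  exact (((hl i hi').pow 2).const_sub 1).div
    ((((hl i hi').pow 2).const_mul (θ ^ 2)).const_sub 1) (one_sub_sq_mul_pos h0 h1 (hb i hi')).ne'

section limits

variable (hG : G.IsTree) (h0 : 0 ≤ θ) (h1 : θ < 1) (hε : 0 ≤ ε) (hε1 : ε < 1) (o : V) (k : ℕ)
  (hconv : StatConvProp G θ (fieldBound ε k))
include hG h0 h1 hε hε1 hconv

/-- Magnetisations in balls converge. -/
lemma tendsto_magI_ball (p : ℝ) (c v : V) :
    ∀ᵐ x ∂(PZ G θ ε o),
      Tendsto (fun n => magI G θ (mask (ballF G c n) (stF ε k p x)) v) atTop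
        (𝓝 (magI G θ (stF ε k p x) v)) :=
  ae_of_ae_map (measurable_stF k p).aemeasurable
    (((hconv _ _ (chanLaw_chan hε hε1 (k, p)) (fieldLaw_PZ hG h0 h1 hε hε1 o (k, p))).2.2.2
      c v).1)

/-- Slope products in balls converge. -/
lemma tendsto_segProd_ball (p : ℝ) (c : V) {j : ℕ} {y : ℕ → V} (hy : IsSeg G j y) :
    ∀ᵐ x ∂(PZ G θ ε o),
      Tendsto (fun n => segProd G θ (mask (ballF G c n) (stF ε k p x)) j y) atTop
        (𝓝 (segProd G θ (stF ε k p x) j y)) := by
  obtain ⟨-, ⟨R, hR1, hR⟩, hmsg, -⟩ :=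
    hconv _ _ (chanLaw_chan hε hε1 (k, p)) (fieldLaw_PZ hG h0 h1 hε hε1 o (k, p))
  have hm : AEMeasurable (stF (V := V) ε k p) (PZ G θ ε o) := (measurable_stF k p).aemeasurable
  have hb : ∀ᵐ x ∂(PZ G θ ε o), ∀ u v, |msgI G θ (stF ε k p x) u v| ≤ R := by
    filter_upwards [ae_of_ae_map hm hR] with x hx u v using (hx u v).1
  have hall : ∀ᵐ x ∂(PZ G θ ε o), ∀ i, i < j →
      Tendsto (fun n => msgI G θ (mask (ballF G c n) (stF ε k p x)) (y i) (y (i + 1))) atTop
        (𝓝 (msgI G θ (stF ε k p x) (y i) (y (i + 1)))) :=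
    ae_all_iff.2 fun i => by
      by_cases hi : i < j
      · filter_upwards [ae_of_ae_map hm (hmsg c _ _ (hy.1 i hi)).1] with x hx using fun _ => hx
      · exact ae_of_all _ fun x h' => absurd h' hi
  filter_upwards [hb, hall] with x hx hl
  exact tendsto_segProd h0 h1 hl fun i _ => (hx _ _).trans hR1.le

lemma tendsto_uDiff_ball (p : ℝ) (c v : V) :
    ∀ᵐ u ∂(P2 G θ ε o),
      Tendsto (fun n => uDiff G θ (pairN ε (ballF G c n) k p u) v) atTop
        (𝓝 (uDiff G θ (pairI ε k p u) v)) := by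
  filter_upwards [ae_fst hG h0 h1 hε hε1 o (tendsto_magI_ball hG h0 h1 hε hε1 o k hconv p c v),
    ae_snd hG h0 h1 hε hε1 o (tendsto_magI_ball hG h0 h1 hε hε1 o k hconv p c v)] with u a b
  exact b.sub a

lemma tendsto_dTerm_ball (p : ℝ) (c a w : V) :
    ∀ᵐ u ∂(P2 G θ ε o),
      Tendsto (fun n => dTerm G θ (pairN ε (ballF G c n) k p u) a w) atTop
        (𝓝 (dTerm G θ (pairI ε k p u) a w)) := by
  have hs := tendsto_segProd_ball hG h0 h1 hε hε1 o k hconv p c (geod_spec hG a w).1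
  filter_upwards [ae_fst hG h0 h1 hε hε1 o hs, ae_snd hG h0 h1 hε hε1 o hs,
    tendsto_uDiff_ball hG h0 h1 hε hε1 o k hconv p c w] with u e1 e2 e3
  exact (((e2.sub e1).pow 2).add (((e1.pow 2).add (e2.pow 2)).mul (e3.pow 2))).const_mul _

/-- Squared differences in balls converge in mean. -/
lemma tendsto_integral_uDiff_ball (p : ℝ) (c v : V) :
    Tendsto (fun n => ∫ u, uDiff G θ (pairN ε (ballF G c n) k p u) v ^ 2 ∂(P2 G θ ε o)) atTop
      (𝓝 (∫ u, uDiff G θ (pairI ε k p u) v ^ 2 ∂(P2 G θ ε o))) := by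
  refine tendsto_integral_of_dominated_convergence (fun _ => (4 : ℝ))
    (fun n => (((Boot.measurable_uDiff v).comp
      (measurable_pairN _ k p)).pow_const 2).aestronglyMeasurable)
    (integrable_const _) (fun n => ae_of_all _ fun u => ?_) ?_
  · rw [Real.norm_eq_abs, abs_pow]
    exact (pow_le_pow_left₀ (abs_nonneg _) (pairN_bound h0 h1 hε hε1 _ k p u v) 2).trans
      (by norm_num)
  · filter_upwards [tendsto_uDiff_ball hG h0 h1 hε hε1 o k hconv p c v] with u hu using hu.pow 2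

/-- Integrated rates in balls converge, and the limit is integrable. -/
lemma tendsto_rate_ball (p1 p2 : ℝ) (c a w : V) :
    Tendsto (fun n => ∫ p in Set.Ico p1 p2,
        ∫ u, dTerm G θ (pairN ε (ballF G c n) k p u) a w ∂(P2 G θ ε o)) atTop
      (𝓝 (∫ p in Set.Ico p1 p2, ∫ u, dTerm G θ (pairI ε k p u) a w ∂(P2 G θ ε o))) ∧
    Integrable (fun p => ∫ u, dTerm G θ (pairI ε k p u) a w ∂(P2 G θ ε o))
      ((volume : Measure ℝ).restrict (Set.Ico p1 p2)) := by
  have : IsFiniteMeasure ((volume : Measure ℝ).restrict (Set.Ico p1 p2)) :=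
    isFiniteMeasure_restrict.2 measure_Ico_lt_top.ne
  set g : ℕ → ℝ → ℝ := fun n p =>
    ∫ u, dTerm G θ (pairN ε (ballF G c n) k p u) a w ∂(P2 G θ ε o) with hg
  have hpt : ∀ p, Tendsto (fun n => g n p) atTop
      (𝓝 (∫ u, dTerm G θ (pairI ε k p u) a w ∂(P2 G θ ε o))) := fun p => by
    refine tendsto_integral_of_dominated_convergence (fun _ => (9 : ℝ))
      (fun n => ((Boot.measurable_dTerm a w).comp
        (measurable_pairN _ k p)).aestronglyMeasurable)
      (integrable_const _) (fun n => ae_of_all _ fun u => ?_)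
      (tendsto_dTerm_ball hG h0 h1 hε hε1 o k hconv p c a w)
    obtain ⟨l, h⟩ := dTerm_pairN_mem (G := G) h0 h1 hε hε1 (ballF G c n) k p u a w
    rw [Real.norm_eq_abs, abs_of_nonneg l]; exact h
  have hgm : ∀ n, Measurable (g n) := fun n =>
    (((Boot.measurable_dTerm a w).comp
      (measurable_pairN2 (ballF G c n) k)).stronglyMeasurable.integral_prod_right').measurable
  have hgb : ∀ n p, ‖g n p‖ ≤ 9 := fun n p => by
    rw [Real.norm_eq_abs]
    refine abs_integral_le_of_bound fun u => ?_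
    obtain ⟨l, h⟩ := dTerm_pairN_mem (G := G) h0 h1 hε hε1 (ballF G c n) k p u a w
    rw [abs_of_nonneg l]; exact h
  refine ⟨tendsto_integral_of_dominated_convergence (fun _ => (9 : ℝ))
    (fun n => (hgm n).aestronglyMeasurable) (integrable_const _)
    (fun n => ae_of_all _ (hgb n)) (ae_of_all _ hpt), ?_⟩
  refine Integrable.mono' (integrable_const (9 : ℝ))
    (measurable_of_tendsto_metrizable hgm (tendsto_pi_nhds.2 hpt)).aestronglyMeasurable
    (ae_of_all _ fun p => ?_)
  exact le_of_tendsto (hpt p).norm (Eventually.of_forall fun n => hgb n p)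

omit hconv in
/-- The means of a site in balls converge in mean. -/
lemma tendsto_mErr (c : V) (s : ℕ × V) :
    Tendsto (fun n => mErr G θ ε o (ballF G c n) s) atTop (𝓝 0) := by
  have hex : ∀ v, ∀ᶠ n in atTop, v ∈ ballF G c n := fun v => by
    filter_upwards [eventually_ge_atTop (G.dist c v)] with n hn
    exact (mem_ballF hG _ _ _).2 hn
  have hle := abs_mInf_le hG h0 h1 hε hε1 o s
  have := tendsto_integral_of_dominated_convergence (μ := PZ G θ ε o) (fun _ => (2 : ℝ))
    (F := fun n x => |mInf G θ ε s x - meanS G θ ε (ballF G c n) s x|) (f := fun _ => (0 : ℝ))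
    (fun n => ((measurable_mInf s).sub (measurable_meanS _ s)).abs.aestronglyMeasurable)
    (integrable_const _) (fun n => by
      filter_upwards [hle] with x hx
      rw [Real.norm_eq_abs, abs_abs]
      exact (abs_sub _ _).trans (by linarith [abs_meanS_le (G := G) h0 h1 hε hε1 (ballF G c n) s x]))
    (by
      filter_upwards [tendsto_meanS_seq hG h0 h1 hε hε1 o (fun n => conn_ballF hG c n)
        (monotone_nat_of_le_succ fun n => Finset.subset_union_left) hex s] with x hx
      simpa using (hx.const_sub (mInf G θ ε s x)).abs)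
  simpa [mErr] using this

omit hconv in
lemma tendsto_mixErr (c : V) (W : Finset V) :
    Tendsto (fun n => mixErr G θ ε o (ballF G c n) W k) atTop (𝓝 0) := by
  have h := fun w => tendsto_mErr hG h0 h1 hε hε1 o c (k, w)
  have t : Tendsto (fun n => mixErr G θ ε o (ballF G c n) W k) atTop
      (𝓝 (∑ w ∈ W, 8 * (0 : ℝ) + ∑ w ∈ W, ∑ w' ∈ W.erase w, 4 * ((0 : ℝ) + 0))) :=
    (tendsto_finsetSum _ fun w _ => (h w).const_mul 8).add
      (tendsto_finsetSum _ fun w _ => tendsto_finsetSum _ fun w' _ =>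
        ((h w).add (h w')).const_mul 4)
  simpa using t

/-- The mean squared difference of limiting means on a window. -/
theorem limit_mean_k (w : V) {p1 p2 : ℝ} (hp1 : 0 ≤ p1) (hp2 : p2 < 1) :
    ∫ u, (if p1 ≤ (u.1.1 (k, w) : ℝ) ∧ (u.1.1 (k, w) : ℝ) < p2 then
        (mInf G θ ε (k, w) u.2 - mInf G θ ε (k, w) u.1) ^ 2 else 0) ∂(P2 G θ ε o) ≤
      1 / (1 - p2) *
        ∫ p in Set.Ico p1 p2, ∫ u, uDiff G θ (pairI ε k p u) w ^ 2 ∂(P2 G θ ε o) := by
  have : IsFiniteMeasure ((volume : Measure ℝ).restrict (Set.Ico p1 p2)) :=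
    isFiniteMeasure_restrict.2 measure_Ico_lt_top.ne
  have hR : Measurable fun u : Conf V × Conf V => (u.1.1 (k, w) : ℝ) :=
    measurable_subtype_coe.comp ((measurable_pi_apply _).comp (measurable_fst.comp measurable_fst))
  set S : ℕ → Finset V := fun n => ballF G w n
  set Θ : ℕ → ℝ → Conf V → Conf V → ℝ := fun n p x x' =>
    uDiff G θ (pairN ε (S n) k p (x, x')) w ^ 2 with hΘ
  have hΘm : ∀ n, Measurable fun z : ℝ × Conf V × Conf V => Θ n z.1 z.2.1 z.2.2 := fun n =>
    ((Boot.measurable_uDiff w).comp (measurable_pairN2 (S n) k)).pow_const 2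
  have hΘ4 : ∀ n p x x', Θ n p x x' ≤ 4 := fun n p x x' => by
    simp only [hΘ]
    rw [← sq_abs]
    exact (pow_le_pow_left₀ (abs_nonneg _) (pairN_bound h0 h1 hε hε1 _ k p _ w) 2).trans
      (by norm_num)
  set W : ℕ → Conf V × Conf V → ℝ := fun n u =>
    if p1 ≤ (u.1.1 (k, w) : ℝ) ∧ (u.1.1 (k, w) : ℝ) < p2 then Θ n (u.1.1 (k, w)) u.1 u.2 else 0
    with hW
  have hWm : ∀ n, Measurable (W n) := fun n =>
    Measurable.ite ((measurableSet_le measurable_const hR).inter
      (measurableSet_lt hR measurable_const))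
      ((hΘm n).comp (f := fun u : Conf V × Conf V => ((u.1.1 (k, w) : ℝ), u.1, u.2))
        (hR.prodMk measurable_id)) measurable_const
  have hlim : ∀ᵐ u ∂(P2 G θ ε o), Tendsto (fun n => W n u) atTop
      (𝓝 (if p1 ≤ (u.1.1 (k, w) : ℝ) ∧ (u.1.1 (k, w) : ℝ) < p2 then
        (mInf G θ ε (k, w) u.2 - mInf G θ ε (k, w) u.1) ^ 2 else 0)) := by
    filter_upwards [ae_toPQ_eq hG h0 h1 hε hε1 o,
      ae_fst hG h0 h1 hε hε1 o (tendsto_meanS_ball hG h0 h1 hε hε1 o (k, w)),
      ae_snd hG h0 h1 hε hε1 o (tendsto_meanS_ball hG h0 h1 hε hε1 o (k, w))] with u hy e1 e2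
    have hR' : u.1.1 = u.2.1 := (congrArg Prod.fst hy :)
    have e : ∀ n, Θ n (u.1.1 (k, w)) u.1 u.2 =
        (meanS G θ ε (S n) (k, w) u.2 - meanS G θ ε (S n) (k, w) u.1) ^ 2 := fun n => by
      have hw : w ∈ S n := self_mem_ballF w n
      rw [meanS_eq_magI hG h0 h1 hε hε1 (conn_ballF hG w n) (s := (k, w)) hw u.1,
        meanS_eq_magI hG h0 h1 hε hε1 (conn_ballF hG w n) (s := (k, w)) hw u.2]
      simp only [hΘ, uDiff, pairN, stF, ← hR']
      rfl
    by_cases h : p1 ≤ (u.1.1 (k, w) : ℝ) ∧ (u.1.1 (k, w) : ℝ) < p2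
    · simp only [hW, if_pos h, e]; exact (e2.sub e1).pow 2
    · simp only [hW, if_neg h]; exact tendsto_const_nhds
  have tL := tendsto_integral_of_dominated_convergence (fun _ => (4 : ℝ))
    (fun n => (hWm n).aestronglyMeasurable) (integrable_const _)
    (fun n => ae_of_all _ fun u => by
      simp only [hW]
      split_ifs
      · rw [Real.norm_eq_abs, abs_of_nonneg (sq_nonneg _)]; exact hΘ4 _ _ _ _
      · norm_num) hlim
  have tR : Tendsto (fun n => 1 / (1 - p2) *
      ∫ p in Set.Ico p1 p2, ∫ u, Θ n p u.1 u.2 ∂(P2 G θ ε o)) atTop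
      (𝓝 (1 / (1 - p2) *
        ∫ p in Set.Ico p1 p2, ∫ u, uDiff G θ (pairI ε k p u) w ^ 2 ∂(P2 G θ ε o))) := by
    refine (tendsto_integral_of_dominated_convergence (fun _ => (4 : ℝ))
      (fun n => (hΘm n).stronglyMeasurable.integral_prod_right'.measurable.aestronglyMeasurable)
      (integrable_const _) (fun n => ae_of_all _ fun p => ?_) (ae_of_all _ fun p => ?_)).const_mul _
    · rw [Real.norm_eq_abs]
      exact abs_integral_le_of_bound fun u => by
        rw [abs_of_nonneg (sq_nonneg _)]; exact hΘ4 _ _ _ _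
    · exact tendsto_integral_uDiff_ball hG h0 h1 hε hε1 o k hconv p w w
  refine le_of_tendsto_of_tendsto' tL tR fun n => ?_
  exact window_le hG h0 h1 hε hε1 o k w hp1 hp2 (hΘm n) (fun p x x' => sq_nonneg _)
    (hΘ4 n) (fun p hp x x' => by simp only [hΘ, pairN_timeM (S n) k w hp])
    (fun r x x' => by
      filter_upwards [pairN_left (ε := ε) (S n) k r x x'] with p hp
      simp only [hΘ, hp])

end limits

variable {d : ℕ} (hG : G.IsTree) (hd : 3 ≤ d) (hreg : ∀ v, G.degree v = d) (h0 : 0 ≤ θ)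
  (hθ : ((d : ℝ) - 1) * θ ^ 2 = 1) (hε : 0 < ε) (hε4 : ε ≤ 1 / 4) (o : V)
include hG hd h0 hθ hε hε4

omit [DecidableEq V] [Countable V] hG hε hε4 in
lemma theta_lt_one_crit : θ < 1 := by
  have hd' : (3 : ℝ) ≤ d := by exact_mod_cast hd
  nlinarith

/-- The difference of limiting means is controlled by that of the states. -/
theorem limit_mean (hconv : ∀ k, StatConvProp G θ (fieldBound ε k)) : LimitMeanProp G θ ε o :=
  fun k w p1 p2 hp1 _ _ hp2 =>
    limit_mean_k hG h0 (theta_lt_one_crit hd h0 hθ) hε.le (by linarith) o k (hconv k) w hp1 hp2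

include hreg

/-- The increment property. -/
theorem inc (hconv : ∀ k, StatConvProp G θ (fieldBound ε k))
    (hseg : ∀ k, StatSegProp G θ (fieldBound ε k) (chanC0 ε)) : IncProp G θ ε o := by
  intro k p1 p2 hp1 hk0 hp hp2
  have h1 : θ < 1 := theta_lt_one_crit hd h0 hθ
  have hε1 : ε < 1 := by linarith
  obtain ⟨Cs, cs, hCs, hcs, hcs2, hs⟩ := hseg k
  set v1 : ℝ := if k = 0 then p1 ^ (3 / 2 : ℝ) else 1 with hv1
  have hv0 : 0 < v1 := by
    simp only [hv1]; split_ifs with hk
    · exact Real.rpow_pos_of_pos (hk0 hk) _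
    · exact one_pos
  have hv1le : v1 ≤ 1 := by
    simp only [hv1]; split_ifs with hk
    · exact Real.rpow_le_one hp1 (by linarith) (by norm_num)
    · exact le_rfl
  set q : ℝ := 1 - cs * v1 ^ 2 with hqdef
  have hq1 : q < 1 := by
    have : 0 < cs * v1 ^ 2 := mul_pos hcs (pow_pos hv0 2)
    simp only [hqdef]; linarith
  have hq0 : 0 ≤ q := by
    have : cs * v1 ^ 2 ≤ 1 / 2 * 1 :=
      mul_le_mul hcs2 (pow_le_one₀ hv0.le hv1le) (sq_nonneg _) (by norm_num)
    simp only [hqdef]; linarith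
  set K : ℝ := 1 / (1 - p2) with hK
  have hK0 : 0 ≤ K := one_div_nonneg.2 (by linarith)
  -- slope products in finite volume
  have hgeom : ∀ p ∈ Set.Ico p1 p2, ∀ n : ℕ, ∀ w ∈ ballF G o n,
      ∫ x, segProd G θ (mask (ballF G o n) (stF ε k p x)) (G.dist o w) (geod G o w)
        ∂(PZ G θ ε o) ≤ Cs * q ^ G.dist o w := by
    intro p hpI n w hw
    have hpk : k = 0 → 0 < p ∧ p ≤ 1 := fun hk =>
      ⟨lt_of_lt_of_le (hk0 hk) hpI.1, by linarith [hpI.2]⟩
    obtain ⟨ν, hlaw, hν⟩ := exists_vchan hG h0 h1 hε hε1 o k hpk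
    obtain ⟨hseg', hs0, hsk⟩ := geod_spec hG o w
    have hin : ∀ i ≤ G.dist o w, geod G o w i ∈ ballF G o n := fun i hi => by
      refine (mem_ballF hG _ _ _).2 ?_
      have hdi : G.dist (geod G o w 0) (geod G o w i) = i - 0 :=
        hseg'.2 0 i (Nat.zero_le i) hi
      rw [hs0] at hdi
      rw [hdi]
      exact (Nat.sub_le i 0).trans (hi.trans ((mem_ballF hG _ _ _).1 hw))
    have h := ((hs _ ν _ hν hlaw _ _ hseg').2 (ballF G o n) hin)
    have hmap : ∫ h, segProd G θ (mask (ballF G o n) h) (G.dist o w) (geod G o w)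
        ∂((PZ G θ ε o).map fun ω => field ε (k, p) ω.1 ω.2) =
        ∫ x, segProd G θ (mask (ballF G o n) (stF ε k p x)) (G.dist o w) (geod G o w)
          ∂(PZ G θ ε o) :=
      integral_map (measurable_field (k, p)).aemeasurable
        ((measurable_segProd _ _).comp (measurable_mask _)).aestronglyMeasurable
    rw [hmap] at h
    refine h.trans (mul_le_mul_of_nonneg_left (pow_le_pow_left₀ ?_ ?_ _) hCs.le)
    · have h1' : (if k = 0 then p ^ (3 / 2 : ℝ) else 1) ^ 2 ≤ 1 :=
        pow_le_one₀ hν.pos.le hν.le_one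
      have : cs * (if k = 0 then p ^ (3 / 2 : ℝ) else 1) ^ 2 ≤ 1 / 2 * 1 :=
        mul_le_mul hcs2 h1' (sq_nonneg _) (by norm_num)
      linarith
    · have hv : v1 ≤ if k = 0 then p ^ (3 / 2 : ℝ) else 1 := by
        simp only [hv1]; split_ifs
        · exact Real.rpow_le_rpow hp1 hpI.1 (by norm_num)
        · exact le_rfl
      have := mul_le_mul_of_nonneg_left (pow_le_pow_left₀ hv0.le hv 2) hcs.le
      simp only [hqdef]; linarith
  -- the outer part
  set tau : ℕ → ℝ := fun r => 4 * (4 * ε ^ 2 * (K * ((p2 - p1) * Cs)) * (2 * q ^ r / (1 - q)))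
    with htau
  have hx : 0 ≤ θ ^ 2 * q := mul_nonneg (sq_nonneg _) hq0
  have hxd : ((d : ℝ) - 1) * (θ ^ 2 * q) = q := by rw [← mul_assoc, hθ, one_mul]
  have htail : ∀ r n, 4 * ∑ w ∈ ballF G o n \ ballF G o r,
      ∫ x, wJmp G θ ε p1 p2 (ballF G o n) o k w x ^ 2 ∂(PZ G θ ε o) ≤ tau r := by
    intro r n
    refine mul_le_mul_of_nonneg_left ((Finset.sum_le_sum (g := fun w =>
      4 * ε ^ 2 * (K * ((p2 - p1) * Cs)) * (θ ^ 2 * q) ^ G.dist o w) fun w hw => ?_).trans ?_)
      (by norm_num)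
    · refine (integral_wJmp_sq_le hG h0 h1 hε.le hε4 o k w hp1 hp2).trans ?_
      have hI : ∫ p in Set.Ico p1 p2,
          ∫ x, segProd G θ (mask (ballF G o n) (stF ε k p x)) (G.dist o w) (geod G o w)
            ∂(PZ G θ ε o) ≤ (p2 - p1) * (Cs * q ^ G.dist o w) := by
        refine (le_abs_self _).trans (le_trans (Real.norm_eq_abs _).ge
          ((norm_setIntegral_le_of_norm_le_const (C := Cs * q ^ G.dist o w)
            (μ := (volume : Measure ℝ)) measure_Ico_lt_top fun p hpI => ?_).trans_eq ?_))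
        · rw [Real.norm_eq_abs, abs_of_nonneg (integral_nonneg fun x => (segProd_mem h0 h1
            (abs_mask_lt fun v _ => abs_field_lt hε.le hε1 (k, p) x.1 x.2 v) _ _).1)]
          exact hgeom p hpI n w (Finset.mem_sdiff.1 hw).1
        · rw [measureReal_def, Real.volume_Ico, ENNReal.toReal_ofReal (by linarith)]
          ring
      refine (mul_le_mul_of_nonneg_left (mul_le_mul_of_nonneg_left hI hK0)
        (mul_nonneg (by positivity) (pow_nonneg h0 _))).trans_eq ?_
      rw [mul_pow, ← pow_mul]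
      ring
    · rw [← Finset.mul_sum]
      refine mul_le_mul_of_nonneg_left ((sum_pow_dist_tail hG hd hreg o r hx (by rw [hxd]; exact hq1)
        _ fun t ht => ?_).trans_eq (by rw [hxd])) (by
          have : 0 ≤ p2 - p1 := by linarith
          positivity)
      have := mt (mem_ballF hG o r t).2 (Finset.mem_sdiff.1 ht).2
      omega
  have htau0 : Tendsto tau atTop (𝓝 0) := by
    have h := tendsto_pow_atTop_nhds_zero_of_lt_one hq0 hq1
    have := ((((h.const_mul 2).div_const (1 - q)).const_mul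
      (4 * ε ^ 2 * (K * ((p2 - p1) * Cs))))).const_mul 4
    simpa [htau] using this
  -- limits of the balls
  set F : ℝ → ℝ := fun p => FF G θ ε o k p with hF
  have hFlim := fun p => tendsto_integral_uDiff_ball hG h0 h1 hε.le hε1 o k (hconv k) p o o
  have hsub : ∀ r, ∀ᶠ n in atTop, ballF G o r ⊆ ballF G o n := fun r => by
    filter_upwards [eventually_ge_atTop r] with n hn v hv
    exact (mem_ballF hG _ _ _).2 (((mem_ballF hG _ _ _).1 hv).trans hn)
  have hlow : ∀ η : ℝ, 0 < η → η ≤ 1 → ∀ r, (1 - η) * F p1 - 1 / η * tau r ≤ F p2 := by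
    intro η hη hη1 r
    refine le_of_tendsto_of_tendsto
      ((((hFlim p1).sub (tendsto_mixErr hG h0 h1 hε.le hε1 o k o (ballF G o r))).const_mul
        (1 - η)).sub_const (1 / η * tau r) |>.trans (by simp [hF, FF])) (hFlim p2) ?_
    filter_upwards [hsub r] with n hn
    refine le_trans ?_ (window_bounds hG h0 h1 hε.le hε4 o (conn_ballF hG o n) hn k hp hη hη1).2
    exact sub_le_sub_left (mul_le_mul_of_nonneg_left (htail r n) (by positivity)) _
  have hη0 : Tendsto (fun m : ℕ => (1 : ℝ) / ((m : ℝ) + 1)) atTop (𝓝 0) :=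
    tendsto_one_div_add_atTop_nhds_zero_nat
  have hηm : ∀ m : ℕ, 0 < (1 : ℝ) / ((m : ℝ) + 1) ∧ (1 : ℝ) / ((m : ℝ) + 1) ≤ 1 := fun m =>
    ⟨by positivity, (div_le_one (by positivity)).2 (by linarith [(Nat.cast_nonneg m : (0:ℝ) ≤ m)])⟩
  refine ⟨?_, fun B hB => ?_⟩
  · have h2 : ∀ η : ℝ, 0 < η → η ≤ 1 → (1 - η) * F p1 ≤ F p2 := fun η hη hη1 => by
      refine le_of_tendsto' ((htau0.const_mul (1 / η)).const_sub ((1 - η) * F p1) |>.trans
        (by simp)) (hlow η hη hη1)
    refine le_of_tendsto' ((hη0.const_sub 1).mul_const (F p1) |>.trans (by simp [hF]))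
      fun m => h2 _ (hηm m).1 (hηm m).2
  set Ke : ℝ := 2000 * emax ε k p2 ^ 2 * K with hKe
  have hKe0 : 0 ≤ Ke := by positivity
  have hup : ∀ η : ℝ, 0 < η → η ≤ 1 → ∀ r,
      F p2 ≤ (1 + η) * (F p1 + Ke * ((p2 - p1) * B)) + (1 + 1 / η) * tau r := by
    intro η hη hη1 r
    set W := ballF G o r
    have hfin : IsFiniteMeasure ((volume : Measure ℝ).restrict (Set.Ico p1 p2)) :=
      isFiniteMeasure_restrict.2 measure_Ico_lt_top.ne
    have hr := fun w => tendsto_rate_ball hG h0 h1 hε.le hε1 o k (hconv k) p1 p2 o o w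
    set Lim := ∑ w ∈ W, ∫ p in Set.Ico p1 p2, ∫ u, dTerm G θ (pairI ε k p u) o w ∂(P2 G θ ε o)
    have hLim : Lim ≤ (p2 - p1) * B := by
      simp only [Lim]
      rw [← integral_finsetSum _ fun w _ => (hr w).2]
      refine (setIntegral_mono_on (integrable_finsetSum _ fun w _ => (hr w).2)
        (integrable_const B) measurableSet_Ico fun p hpI => hB p hpI W).trans_eq ?_
      rw [setIntegral_const, measureReal_def, Real.volume_Ico,
        ENNReal.toReal_ofReal (by linarith), smul_eq_mul]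
    set S : ℕ → Finset V := fun n => ballF G o n
    have tG := tendsto_finsetSum W fun w _ => (hr w).1
    have tE := tendsto_mixErr hG h0 h1 hε.le hε1 o k o W
    have te : Tendsto (fun n => ∑ w ∈ W, 8000 * mErr G θ ε o (S n) (k, w)) atTop (𝓝 0) := by
      have := tendsto_finsetSum W fun w _ =>
        (tendsto_mErr hG h0 h1 hε.le hε1 o o (k, w)).const_mul (8000 : ℝ)
      simpa using this
    have trhs := ((((hFlim p1).add ((tG.const_mul Ke).add te)).add tE).const_mul (1 + η)).add_const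
      ((1 + 1 / η) * tau r)
    refine le_trans (le_of_tendsto_of_tendsto (hFlim p2) trhs ?_) ?_
    · filter_upwards [hsub r] with n hn
      refine ((window_bounds hG h0 h1 hε.le hε4 o (conn_ballF hG o n) hn k hp hη hη1).1).trans
        (add_le_add (mul_le_mul_of_nonneg_left (add_le_add (add_le_add le_rfl ?_) le_rfl)
          (by linarith)) (mul_le_mul_of_nonneg_left (htail r n) (by positivity)))
      rw [Finset.mul_sum, ← Finset.sum_add_distrib]
      refine Finset.sum_le_sum fun w hw => (integral_dJ_sq_le hG h0 h1 hε.le hε4 o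
        (conn_ballF hG o n) k (hn hw) hp1 hp2).trans_eq ?_
      simp only [hKe, hK, S]
      ring
    · simp only [hF, FF, add_zero]
      exact add_le_add (mul_le_mul_of_nonneg_left
        (add_le_add le_rfl (mul_le_mul_of_nonneg_left hLim hKe0)) (by linarith)) le_rfl
  have h2 : ∀ η : ℝ, 0 < η → η ≤ 1 → F p2 ≤ (1 + η) * (F p1 + Ke * ((p2 - p1) * B)) :=
    fun η hη hη1 => ge_of_tendsto' ((htau0.const_mul (1 + 1 / η)).const_add
      ((1 + η) * (F p1 + Ke * ((p2 - p1) * B))) |>.trans (by simp)) (hup η hη hη1)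
  have h3 : F p2 ≤ F p1 + Ke * ((p2 - p1) * B) :=
    ge_of_tendsto' ((hη0.const_add 1).mul_const (F p1 + Ke * ((p2 - p1) * B)) |>.trans (by simp))
      fun m => h2 _ (hηm m).1 (hηm m).2
  refine h3.trans_eq ?_
  simp only [hF, hKe, hK]
  ring

end Vale.Agent.P161.Crit
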