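import Vale.Agent.P161.Crit.PairWindow
import Vale.Agent.P161.Crit.Channel

/-!
The states of the two copies at a time `(k, p)`, their squared difference, and its increment
property.
-/

namespace Vale.Agent.P161.Crit

open MeasureTheory
open scoped unitInterval

variable {V : Type*}

/-- The fields of one copy at time `(k, p)`. -/
noncomputable def stF (ε : ℝ) (k : ℕ) (p : ℝ) (x : Conf V) : V → ℝ := field ε (k, p) x.1 x.2

/-- The fields of both copies at time `(k, p)`. -/
noncomputable def pairI (ε : ℝ) (k : ℕ) (p : ℝ) (u : Conf V × Conf V) : (V → ℝ) × (V → ℝ) :=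
  (stF ε k p u.1, stF ε k p u.2)

/-- The fields of both copies at time `(k, p)` in volume `S`. -/
noncomputable def pairN [DecidableEq V] (ε : ℝ) (S : Finset V) (k : ℕ) (p : ℝ)
    (u : Conf V × Conf V) : (V → ℝ) × (V → ℝ) :=
  (mask S (stF ε k p u.1), mask S (stF ε k p u.2))

/-- The largest strength of a level-`k` site revealed before `p`. -/
noncomputable def emax (ε : ℝ) (k : ℕ) (p : ℝ) : ℝ := if k = 0 then ε * p else ε

lemma measurable_stF (k : ℕ) (p : ℝ) {ε : ℝ} : Measurable (stF (V := V) ε k p) :=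
  measurable_field (k, p)

lemma measurable_pairI (k : ℕ) (p : ℝ) {ε : ℝ} : Measurable (pairI (V := V) ε k p) :=
  ((measurable_stF k p).comp measurable_fst).prodMk ((measurable_stF k p).comp measurable_snd)

variable [DecidableEq V] [Countable V] (G : SimpleGraph V) [G.LocallyFinite] (θ ε : ℝ) (o : V)

/-- The mean squared difference of the magnetisations at time `(k, p)`. -/
noncomputable def FF (k : ℕ) (p : ℝ) : ℝ :=
  ∫ u, uDiff G θ (pairI ε k p u) o ^ 2 ∂(P2 G θ ε o)

/-- Between two times the squared difference increases, by no more than the integrated rate. -/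
def IncProp : Prop :=
  ∀ (k : ℕ) (p1 p2 : ℝ), 0 ≤ p1 → (k = 0 → 0 < p1) → p1 ≤ p2 → p2 < 1 →
    FF G θ ε o k p1 ≤ FF G θ ε o k p2 ∧
    ∀ B : ℝ, (∀ p ∈ Set.Ico p1 p2, ∀ W : Finset V,
        ∑ w ∈ W, ∫ u, dTerm G θ (pairI ε k p u) o w ∂(P2 G θ ε o) ≤ B) →
      FF G θ ε o k p2 ≤
        FF G θ ε o k p1 + 2000 * emax ε k p2 ^ 2 / (1 - p2) * (p2 - p1) * B

/-- The difference of the limiting means of a site is controlled by that of the states. -/
def LimitMeanProp : Prop :=
  ∀ (k : ℕ) (w : V) (p1 p2 : ℝ), 0 ≤ p1 → (k = 0 → 0 < p1) → p1 ≤ p2 → p2 < 1 →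
    ∫ u, (if p1 ≤ (u.1.1 (k, w) : ℝ) ∧ (u.1.1 (k, w) : ℝ) < p2 then
        (mInf G θ ε (k, w) u.2 - mInf G θ ε (k, w) u.1) ^ 2 else 0) ∂(P2 G θ ε o) ≤
      1 / (1 - p2) *
        ∫ p in Set.Ico p1 p2, ∫ u, uDiff G θ (pairI ε k p u) w ^ 2 ∂(P2 G θ ε o)

variable {G θ ε}
variable (hG : G.IsTree) (h0 : 0 ≤ θ) (h1 : θ < 1) (hε : 0 < ε) (hε1 : ε < 1)
include hG h0 h1 hε hε1

/-- Automorphisms act on the pair. -/
lemma P2_invariant (e : G ≃g G) :
    MeasurePreserving
      (Prod.map (fun x : Conf V => (((fun q : ℕ × V => x.1 (q.1, e.symm q.2)),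
        fun q : ℕ × V => x.2 (q.1, e.symm q.2)) : Conf V))
        fun x : Conf V => (((fun q : ℕ × V => x.1 (q.1, e.symm q.2)),
          fun q : ℕ × V => x.2 (q.1, e.symm q.2)) : Conf V))
      (P2 G θ ε o) (P2 G θ ε o) :=
  P2_symmetry hG h0 h1 hε.le hε1 o
    (Ey := fun y => ((fun q => y.1 (q.1, e.symm q.2)), fun q => y.2 (q.1, e.symm q.2)))
    (Ey' := fun y => ((fun q => y.1 (q.1, e q.2)), fun q => y.2 (q.1, e q.2)))
    (PZ_invariant hG h0 h1 hε.le hε1 o e)
    ((measurable_pi_lambda _ fun q => (measurable_pi_apply _).comp measurable_fst).prodMk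
      (measurable_pi_lambda _ fun q => (measurable_pi_apply _).comp measurable_snd))
    ((measurable_pi_lambda _ fun q => (measurable_pi_apply _).comp measurable_fst).prodMk
      (measurable_pi_lambda _ fun q => (measurable_pi_apply _).comp measurable_snd))
    (fun y => by simp) (fun ω => toPQ_image e ω.1 ω.2)

/-- At every time the two states form an invariant pair. -/
theorem pairLaw_P2 (k : ℕ) (p : ℝ) :
    PairLaw G θ (fieldBound ε k) (chanLaw ε (k, p)) ((P2 G θ ε o).map (pairI ε k p)) := by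
  have hm := measurable_pairI (V := V) (ε := ε) k p
  have hf := measurable_stF (V := V) (ε := ε) k p
  refine ⟨?_, ?_, fun e => ⟨?_, ?_⟩⟩
  · rw [Measure.map_map measurable_fst hm,
      show Prod.fst ∘ pairI (V := V) ε k p = stF ε k p ∘ Prod.fst from rfl,
      ← Measure.map_map hf measurable_fst, P2_map_fst hG h0 h1 hε.le hε1 o]
    exact fieldLaw_PZ hG h0 h1 hε.le hε1 o (k, p)
  · rw [Measure.map_map measurable_snd hm,
      show Prod.snd ∘ pairI (V := V) ε k p = stF ε k p ∘ Prod.snd from rfl,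
      ← Measure.map_map hf measurable_snd, P2_map_snd hG h0 h1 hε.le hε1 o]
    exact fieldLaw_PZ hG h0 h1 hε.le hε1 o (k, p)
  · exact (measurable_pi_lambda _ fun v => (measurable_pi_apply _).comp measurable_fst).prodMk
      (measurable_pi_lambda _ fun v => (measurable_pi_apply _).comp measurable_snd)
  · have hP := P2_invariant o hG h0 h1 hε hε1 e.symm
    have hg : Measurable fun hh : (V → ℝ) × (V → ℝ) =>
        ((fun v => hh.1 (e v)), fun v => hh.2 (e v)) :=
      (measurable_pi_lambda _ fun v => (measurable_pi_apply (e v)).comp measurable_fst).prodMk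
        (measurable_pi_lambda _ fun v => (measurable_pi_apply (e v)).comp measurable_snd)
    rw [Measure.map_map hg hm]
    conv_rhs => rw [← hP.map_eq, Measure.map_map hm hP.measurable]
    congr 1

omit [DecidableEq V] [Countable V] [G.LocallyFinite] hG h0 h1 in
/-- The model at a time where the channel has a size. -/
theorem pair_vchan (k : ℕ) {p : ℝ} (hp : k = 0 → 0 < p ∧ p ≤ 1) :
    VChan (fieldBound ε k) (chanC0 ε) (if k = 0 then p ^ (3 / 2 : ℝ) else 1) (chanLaw ε (k, p)) := by
  rcases Nat.eq_zero_or_pos k with rfl | hk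
  · rw [if_pos rfl]
    exact vchan_zero hε hε1 (hp rfl).1 (hp rfl).2
  · rw [if_neg hk.ne']
    exact vchan_pos hε hε1 hk p

end Vale.Agent.P161.Crit
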