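import Vale.Agent.P161.Crit.BootCrude
import Vale.Agent.P161.Crit.BootRefined
import Vale.Agent.P161.Crit.BootReal
import Vale.Agent.P161.Crit.PairState
import Vale.Agent.P161.Crit.Final

/-!
Uniqueness: two copies with the same rankings and innovations coincide, so every observation is a
function of rankings and innovations.
-/

namespace Vale.Agent.P161.Crit

open MeasureTheory ProbabilityTheory Filter Set
open scoped unitInterval Topology

variable {V : Type*} [DecidableEq V] [Countable V]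

/-- The one-copy estimates at every level. -/
structure StatAll (G : SimpleGraph V) [G.LocallyFinite] (θ ε : ℝ) : Prop where
  conv : ∀ k, StatConvProp G θ (fieldBound ε k)
  second : ∀ k, StatSecondProp G θ (fieldBound ε k) (chanC0 ε)
  high : ∀ k, StatHighProp G θ (fieldBound ε k) (chanC0 ε)
  seg : ∀ k, StatSegProp G θ (fieldBound ε k) (chanC0 ε)
  avg : ∀ k, StatAvgProp G θ (fieldBound ε k) (chanC0 ε)
  psi : ∀ k, StatPsiProp G θ (fieldBound ε k) (chanC0 ε)

/-- The size of the channel at time `(k, p)`. -/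
noncomputable def vsize (k : ℕ) (p : ℝ) : ℝ := if k = 0 then p ^ (3 / 2 : ℝ) else 1

variable {G : SimpleGraph V} [G.LocallyFinite] {d : ℕ} {θ ε : ℝ} (o : V)
variable (hG : G.IsTree) (hd : 3 ≤ d) (hreg : ∀ v, G.degree v = d) (h0 : 0 ≤ θ)
  (hθ : ((d : ℝ) - 1) * θ ^ 2 = 1) (hε : 0 < ε) (hε1 : ε < 1) (hs : StatAll G θ ε)
include hG hd hreg h0 hθ hε hε1 hs

omit [Countable V] hG hreg hε hε1 hs in
lemma theta_lt_one : θ < 1 := by
  have hd' : (3 : ℝ) ≤ d := by exact_mod_cast hd
  nlinarith [sq_nonneg θ]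

omit [Countable V] hs in
lemma setup_level (k : ℕ) : Boot.Setup G d θ (fieldBound ε k) :=
  ⟨hG, hd, hreg, h0, hθ, fieldBound_nonneg hε.le hε1 k, fieldBound_lt_one hε1 k⟩

lemma ready_level (k : ℕ) {p : ℝ} (hp : k = 0 → 0 < p ∧ p ≤ 1) :
    Boot.Ready G θ (fieldBound ε k) (chanLaw ε (k, p)) ((P2 G θ ε o).map (pairI ε k p)) :=
  Boot.ready_of (hs.conv k) (pair_vchan hε hε1 k hp)
    (pairLaw_P2 o hG h0 (theta_lt_one hd h0 hθ) hε hε1 k p)

omit hG hd hreg h0 hθ hε hε1 hs in
lemma integral_pairI (k : ℕ) (p : ℝ) {f : (V → ℝ) × (V → ℝ) → ℝ} (hf : Measurable f) :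
    ∫ hh, f hh ∂((P2 G θ ε o).map (pairI ε k p)) = ∫ u, f (pairI ε k p u) ∂(P2 G θ ε o) :=
  integral_map (measurable_pairI k p).aemeasurable hf.aestronglyMeasurable

omit hG hd hreg h0 hθ hε hε1 hs in
lemma FF_eq (k : ℕ) (p : ℝ) : FF G θ ε o k p =
    ∫ hh, uDiff G θ hh o ^ 2 ∂((P2 G θ ε o).map (pairI ε k p)) :=
  (integral_pairI o k p ((Boot.measurable_uDiff o).pow_const 2)).symm

omit hG hd hreg h0 hθ hε hε1 hs in
lemma FF_nonneg (k : ℕ) (p : ℝ) : 0 ≤ FF G θ ε o k p :=
  integral_nonneg fun _ => sq_nonneg _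

lemma FF_le_four (k : ℕ) {p : ℝ} (hp : k = 0 → 0 < p ∧ p ≤ 1) : FF G θ ε o k p ≤ 4 := by
  have R := ready_level o hG hd hreg h0 hθ hε hε1 hs k hp
  have := R.prob
  have S := setup_level hG hd hreg h0 hθ hε hε1 k
  rw [FF_eq]
  refine (R.integral_mono (R.integrable ((Boot.measurable_uDiff o).pow_const 2) 4 fun hh H => ?_)
    (integrable_const (4 : ℝ)) fun hh H => Boot.uDiff_sq_le S H o).trans_eq (by simp)
  rw [abs_pow, sq_abs]
  exact Boot.uDiff_sq_le S H o

omit [Countable V] hG hd hreg h0 hθ hε hε1 hs in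
lemma vsize_pos (k : ℕ) {p : ℝ} (hp : k = 0 → 0 < p) : 0 < vsize k p := by
  unfold vsize
  split_ifs with hk
  · exact Real.rpow_pos_of_pos (hp hk) _
  · exact one_pos

omit [Countable V] hG hd hreg h0 hθ hε hε1 hs in
lemma vsize_le_one (k : ℕ) {p : ℝ} (hp : k = 0 → 0 < p ∧ p ≤ 1) : vsize k p ≤ 1 := by
  unfold vsize
  split_ifs with hk
  · exact Real.rpow_le_one (hp hk).1.le (hp hk).2 (by norm_num)
  · exact le_rfl

/-- The crude rate. -/
lemma rate_crude (k : ℕ) : ∃ C c : ℝ, 0 < C ∧ 0 < c ∧ ∀ p : ℝ, (k = 0 → 0 < p ∧ p ≤ 1) →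
    ∀ (W : Finset V) (M : ℕ), 1 ≤ M →
      ∑ w ∈ W, ∫ u, dTerm G θ (pairI ε k p u) o w ∂(P2 G θ ε o) ≤
        C * (M : ℝ) ^ 2 / vsize k p ^ 2 * FF G θ ε o k p +
          C / vsize k p ^ 2 * Real.exp (-(c * (2 : ℝ) ^ (c * M / vsize k p))) := by
  obtain ⟨C, c, hC, hc, h⟩ := dTerm_crude hG hd hreg h0 hθ (fieldBound_nonneg hε.le hε1 k)
    (fieldBound_lt_one hε1 k) (hs.conv k) (hs.avg k)
  refine ⟨C, c, hC, hc, fun p hp W M hM => ?_⟩
  have e : ∑ w ∈ W, ∫ u, dTerm G θ (pairI ε k p u) o w ∂(P2 G θ ε o) =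
      ∑ w ∈ W, ∫ hh, dTerm G θ hh o w ∂((P2 G θ ε o).map (pairI ε k p)) :=
    Finset.sum_congr rfl fun w _ => (integral_pairI o k p (Boot.measurable_dTerm o w)).symm
  rw [e, FF_eq]
  exact h _ _ _ (pair_vchan hε hε1 k hp)
    (pairLaw_P2 o hG h0 (theta_lt_one hd h0 hθ) hε hε1 k p) o W M hM

/-- The refined rate. -/
lemma rate_refined (P L : ℕ) (hP : 1 ≤ P) : ∃ C : ℝ, 0 < C ∧ ∀ p : ℝ, 0 < p → p ≤ 1 →
    ∀ W : Finset V, ∑ w ∈ W, ∫ u, dTerm G θ (pairI ε 0 p u) o w ∂(P2 G θ ε o) ≤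
      C * ((p ^ (3 / 2 : ℝ)) ^ (-(5 / 4) : ℝ) * FF G θ ε o 0 p ^ (1 - 1 / (P : ℝ))) +
        C * (p ^ (3 / 2 : ℝ)) ^ L := by
  obtain ⟨C, hC, h⟩ := dTerm_refined hG hd hreg h0 hθ (fieldBound_nonneg hε.le hε1 0)
    (fieldBound_lt_one hε1 0) (hs.conv 0) (hs.high 0) (hs.seg 0) (hs.psi 0) P hP L
  refine ⟨C, hC, fun p hp hp1 W => ?_⟩
  have e : ∑ w ∈ W, ∫ u, dTerm G θ (pairI ε 0 p u) o w ∂(P2 G θ ε o) =
      ∑ w ∈ W, ∫ hh, dTerm G θ hh o w ∂((P2 G θ ε o).map (pairI ε 0 p)) :=
    Finset.sum_congr rfl fun w _ => (integral_pairI o 0 p (Boot.measurable_dTerm o w)).symm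
  rw [e, FF_eq]
  exact h _ _ _ (vchan_zero hε hε1 hp hp1)
    (pairLaw_P2 o hG h0 (theta_lt_one hd h0 hθ) hε hε1 0 p) o W

/-- The squared difference at level zero is at most of the size of the channel. -/
lemma FF_small : ∃ C : ℝ, ∀ p : ℝ, 0 < p → p ≤ 1 → FF G θ ε o 0 p ≤ C * p ^ (3 / 2 : ℝ) := by
  obtain ⟨C, c, hC, hc, h⟩ := hs.second 0
  refine ⟨4 * C, fun p hp hp1 => ?_⟩
  have hk : (0 : ℕ) = 0 → 0 < p ∧ p ≤ 1 := fun _ => ⟨hp, hp1⟩
  have R := ready_level o hG hd hreg h0 hθ hε hε1 hs 0 hk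
  have := R.prob
  have S := setup_level hG hd hreg h0 hθ hε hε1 0
  have hν := vchan_zero (ε := ε) hε hε1 hp hp1
  have hmag : ∀ c : Bool, ∫ hh, magI G θ (Boot.cpy c hh) o ^ 2
      ∂((P2 G θ ε o).map (pairI ε 0 p)) ≤ C * p ^ (3 / 2 : ℝ) := fun c => by
    rw [R.integral_cpy c ((measurable_magI o).pow_const 2)]
    exact (h _ _ _ hν (R.law c)).2.1 o
  have hi : ∀ c : Bool, Integrable (fun hh => magI G θ (Boot.cpy c hh) o ^ 2)
      ((P2 G θ ε o).map (pairI ε 0 p)) := fun c =>
    R.integrable (((measurable_magI o).comp (Boot.measurable_cpy c)).pow_const 2) 1 fun hh H => by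
      rw [abs_pow]
      exact pow_le_one₀ (abs_nonneg _) (((H c).magI_le S o).trans S.bound_lt.le)
  rw [FF_eq]
  refine (integral_mono (R.integrable ((Boot.measurable_uDiff o).pow_const 2) 4 fun hh H => by
    rw [abs_pow, sq_abs]; exact Boot.uDiff_sq_le S H o)
    (((hi false).const_mul 2).fun_add ((hi true).const_mul 2)) fun hh => ?_).trans ?_
  · simp only [uDiff, Boot.cpy]
    nlinarith [sq_nonneg (magI G θ hh.2 o + magI G θ hh.1 o)]
  · rw [integral_add ((hi false).const_mul 2) ((hi true).const_mul 2), integral_const_mul,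
      integral_const_mul]
    linarith [hmag false, hmag true]

variable (hinc : IncProp G θ ε o)
include hinc

/-- A vanishing squared difference stays zero. -/
lemma FF_stays_zero (k : ℕ) {a t : ℝ} (ha : 0 ≤ a) (hka : k = 0 → 0 < a)
    (hz : FF G θ ε o k a = 0) (hat : a ≤ t) (ht : t < 1) : FF G θ ε o k t = 0 := by
  rcases hat.eq_or_lt with rfl | hlt
  · exact hz
  obtain ⟨C, c, hC, hc, hr⟩ := rate_crude o hG hd hreg h0 hθ hε hε1 hs k
  set v0 := vsize k a with hv0
  have hv0p : 0 < v0 := vsize_pos k hka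
  have hp : ∀ q, a ≤ q → q < 1 → (k = 0 → 0 < q ∧ q ≤ 1) := fun q hq hq1 hk =>
    ⟨(hka hk).trans_le hq, hq1.le⟩
  have hv : ∀ q, a ≤ q → v0 ≤ vsize k q := fun q hq => by
    rw [hv0]
    unfold vsize
    split_ifs with hk
    · exact Real.rpow_le_rpow ha hq (by norm_num)
    · exact le_rfl
  set K := 2000 / (1 - t) with hK
  have hK0 : 0 < K := by rw [hK]; have := sub_pos.2 ht; positivity
  set C' := K * (C / v0 ^ 2) with hC'
  have hC'0 : 0 < C' := by positivity
  have main : ∀ p u : ℝ, a ≤ p → p ≤ u → u ≤ t → ∀ M : ℕ, 1 ≤ M →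
      FF G θ ε o k u - FF G θ ε o k p ≤ (u - p) * (C' * (M : ℝ) ^ 2 * FF G θ ε o k u +
        C' * Real.exp (-c * (2 : ℝ) ^ (c * (M : ℝ)))) := by
    intro p u hap hpu hut M hM
    have hu1 : u < 1 := hut.trans_lt ht
    obtain ⟨-, hB⟩ := hinc k p u (ha.trans hap) (fun hk => (hka hk).trans_le hap) hpu hu1
    set B := C * (M : ℝ) ^ 2 / v0 ^ 2 * FF G θ ε o k u +
      C / v0 ^ 2 * Real.exp (-c * (2 : ℝ) ^ (c * (M : ℝ))) with hBdef
    have hB0 : 0 ≤ B := by
      have := FF_nonneg (G := G) (θ := θ) (ε := ε) o k u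
      positivity
    have hbound : ∀ q ∈ Set.Ico p u, ∀ W : Finset V,
        ∑ w ∈ W, ∫ x, dTerm G θ (pairI ε k q x) o w ∂(P2 G θ ε o) ≤ B := by
      intro q hq W
      have haq := hap.trans hq.1
      have hq1 : q < 1 := hq.2.trans hu1
      have hvq : 0 < vsize k q := hv0p.trans_le (hv q haq)
      have hsq : v0 ^ 2 ≤ vsize k q ^ 2 := pow_le_pow_left₀ hv0p.le (hv q haq) 2
      have hmono := (hinc k q u (ha.trans haq) (fun hk => (hka hk).trans_le haq) hq.2.le hu1).1
      refine (hr q (hp q haq hq1) W M hM).trans (add_le_add ?_ ?_)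
      · exact mul_le_mul (div_le_div_of_nonneg_left (by positivity) (by positivity) hsq) hmono
          (FF_nonneg o k q) (by positivity)
      · refine mul_le_mul (div_le_div_of_nonneg_left hC.le (by positivity) hsq) ?_
          (Real.exp_pos _).le (by positivity)
        refine Real.exp_le_exp.2 ?_
        rw [neg_mul]
        refine neg_le_neg (mul_le_mul_of_nonneg_left ?_ hc.le)
        refine Real.rpow_le_rpow_of_exponent_le one_le_two ?_
        rw [le_div_iff₀ hvq]
        exact mul_le_of_le_one_right (by positivity) (vsize_le_one k (hp q haq hq1))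
    have he : 2000 * emax ε k u ^ 2 / (1 - u) ≤ K := by
      have he1 : emax ε k u ^ 2 ≤ 1 := by
        unfold emax
        have hu0 : 0 ≤ u := ha.trans (hap.trans hpu)
        split_ifs
        · exact pow_le_one₀ (by positivity) (mul_le_one₀ hε1.le hu0 hu1.le)
        · exact pow_le_one₀ hε.le hε1.le
      rw [hK]
      exact div_le_div₀ (by norm_num) (by linarith) (sub_pos.2 ht) (by linarith)
    have hb := hB B hbound
    have : 2000 * emax ε k u ^ 2 / (1 - u) * (u - p) * B ≤ K * (u - p) * B :=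
      mul_le_mul_of_nonneg_right (mul_le_mul_of_nonneg_right he (by linarith)) hB0
    rw [show (u - p) * (C' * (M : ℝ) ^ 2 * FF G θ ε o k u +
      C' * Real.exp (-c * (2 : ℝ) ^ (c * (M : ℝ)))) = K * (u - p) * B by rw [hC', hBdef]; ring]
    linarith
  have hT : 0 < t - a := sub_pos.2 hlt
  have := boot_high (F := fun s => FF G θ ε o k (a + s)) hT (fun s _ => FF_nonneg o k _) ?_
    ⟨C', c, hc, fun M hM p u hp0 hpu huT => by
      have h := main (a + p) (a + u) (by linarith) (by linarith) (by linarith) M hM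
      rwa [show a + u - (a + p) = u - p by ring] at h⟩
  · simpa using this
  · set K' := C' * 4 + C' * Real.exp (-c * (2 : ℝ) ^ c) with hK'
    have hlim : Tendsto (fun s : ℝ => s * K') (𝓝[>] 0) (𝓝 0) := by
      have h : Tendsto (fun s : ℝ => s * K') (𝓝 0) (𝓝 (0 * K')) := tendsto_id.mul_const K'
      rw [zero_mul] at h
      exact h.mono_left nhdsWithin_le_nhds
    refine squeeze_zero' (Eventually.of_forall fun s => FF_nonneg o k _) ?_ hlim
    filter_upwards [Ioc_mem_nhdsGT hT] with s hs'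
    have h := main a (a + s) le_rfl (by linarith [hs'.1]) (by linarith [hs'.2]) 1 le_rfl
    rw [hz, sub_zero, Nat.cast_one, one_pow, mul_one, mul_one, add_sub_cancel_left] at h
    refine h.trans (mul_le_mul_of_nonneg_left (add_le_add ?_ le_rfl) hs'.1.le)
    exact mul_le_mul_of_nonneg_left (FF_le_four o hG hd hreg h0 hθ hε hε1 hs k
      (hp _ (by linarith [hs'.1]) (by linarith [hs'.2]))) hC'0.le

/-- The squared difference vanishes at level zero. -/
lemma FF_zero_level {t : ℝ} (ht0 : 0 < t) (ht1 : t < 1) : FF G θ ε o 0 t = 0 := by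
  have hmono : ∀ p q : ℝ, 0 < p → p ≤ q → q < 1 → FF G θ ε o 0 p ≤ FF G θ ε o 0 q :=
    fun p q hp hpq hq => (hinc 0 p q hp.le (fun _ => hp) hpq hq).1
  have he : ∀ p q : ℝ, 0 < p → p ≤ q → q ≤ 2 * p → q ≤ 1 / 2 →
      2000 * emax ε 0 q ^ 2 / (1 - q) ≤ 16000 * p ^ 2 := by
    intro p q hp hpq hq2 hq
    have hsq : emax ε 0 q ^ 2 ≤ (2 * p) ^ 2 := by
      refine pow_le_pow_left₀ ?_ ?_ 2 <;> rw [emax, if_pos rfl]
      · exact mul_nonneg hε.le (by linarith)
      · exact (mul_le_of_le_one_left (by linarith) hε1.le).trans hq2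
    rw [div_le_iff₀ (by linarith)]
    nlinarith [mul_le_mul_of_nonneg_left (show 1 / 2 ≤ 1 - q by linarith)
      (show 0 ≤ 16000 * p ^ 2 by positivity)]
  have hhalf : ∀ s ∈ Ioc (0 : ℝ) (1 / 2), FF G θ ε o 0 s = 0 := by
    refine boot_zero (fun s _ => FF_nonneg o 0 s)
      (fun p hp q hq hpq => hmono p q hp.1 hpq (by linarith [hq.2])) ?_ ?_ ?_
    · obtain ⟨C, hC⟩ := FF_small o hG hd hreg h0 hθ hε hε1 hs
      have hlim : Tendsto (fun p : ℝ => C * p ^ (3 / 2 : ℝ)) (𝓝[>] 0) (𝓝 0) := by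
        have h := ((Real.continuousAt_rpow_const (0 : ℝ) (3 / 2) (Or.inr (by norm_num))).tendsto).const_mul C
        rw [Real.zero_rpow (by norm_num), mul_zero] at h
        exact h.mono_left nhdsWithin_le_nhds
      refine squeeze_zero' (Eventually.of_forall fun p => FF_nonneg o 0 p) ?_ hlim
      filter_upwards [Ioc_mem_nhdsGT one_pos] with p hp using hC p hp.1 hp.2
    · intro P hP
      obtain ⟨C, hC, hr⟩ := rate_refined o hG hd hreg h0 hθ hε hε1 hs P P hP
      refine ⟨16000 * C * 2 ^ P, fun p q hp hpq hq2 hq => ?_⟩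
      obtain ⟨-, hB⟩ := hinc 0 p q hp.le (fun _ => hp) hpq (by linarith)
      set e := 1 - 1 / (P : ℝ) with hedef
      have he0 : 0 ≤ e := by
        have : 1 / (P : ℝ) ≤ 1 := by rw [div_le_one (by positivity)]; exact_mod_cast hP
        rw [hedef]; linarith
      set B := C * (p ^ (-(15 / 8) : ℝ) * FF G θ ε o 0 q ^ e) + C * (2 * p) ^ P with hBdef
      have hF := FF_nonneg (G := G) (θ := θ) (ε := ε) o 0 q
      have hFe := Real.rpow_nonneg hF e
      have hB0 : 0 ≤ B := by positivity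
      have hbound : ∀ r ∈ Set.Ico p q, ∀ W : Finset V,
          ∑ w ∈ W, ∫ x, dTerm G θ (pairI ε 0 r x) o w ∂(P2 G θ ε o) ≤ B := by
        intro r hr' W
        have hr0 : 0 < r := hp.trans_le hr'.1
        have hr1 : r ≤ 1 := by linarith [hr'.2]
        refine (hr r hr0 hr1 W).trans (add_le_add ?_ ?_)
        · refine mul_le_mul_of_nonneg_left (mul_le_mul ?_ ?_
            (Real.rpow_nonneg (FF_nonneg o 0 r) _) (Real.rpow_nonneg hp.le _)) hC.le
          · rw [← Real.rpow_mul hr0.le, show (3 / 2 : ℝ) * -(5 / 4) = -(15 / 8) by norm_num]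
            exact Real.rpow_le_rpow_of_nonpos hp hr'.1 (by norm_num)
          · exact Real.rpow_le_rpow (FF_nonneg o 0 r)
              (hmono r q hr0 hr'.2.le (by linarith)) he0
        · refine mul_le_mul_of_nonneg_left (pow_le_pow_left₀ (Real.rpow_nonneg hr0.le _) ?_ P) hC.le
          calc r ^ (3 / 2 : ℝ) ≤ r ^ (1 : ℝ) :=
                Real.rpow_le_rpow_of_exponent_ge hr0 hr1 (by norm_num)
            _ ≤ 2 * p := by rw [Real.rpow_one]; linarith [hr'.2]
      have h1' := hB B hbound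
      have h2' : 2000 * emax ε 0 q ^ 2 / (1 - q) * (q - p) * B ≤ 16000 * p ^ 2 * p * B :=
        mul_le_mul_of_nonneg_right (mul_le_mul (he p q hp hpq hq2 hq) (by linarith) (by linarith)
          (by positivity)) hB0
      have e3 : p ^ 2 * p * p ^ (-(15 / 8) : ℝ) = p ^ (9 / 8 : ℝ) := by
        rw [← pow_succ, ← Real.rpow_natCast, ← Real.rpow_add hp]
        norm_num
      have e4 : 16000 * p ^ 2 * p * B = 16000 * C * (p ^ (9 / 8 : ℝ) * FF G θ ε o 0 q ^ e) +
          16000 * C * 2 ^ P * (p ^ 3 * p ^ P) := by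
        rw [hBdef, ← e3, mul_pow]; ring
      have e5 : 16000 * C * (p ^ (9 / 8 : ℝ) * FF G θ ε o 0 q ^ e) ≤
          16000 * C * 2 ^ P * (p ^ (9 / 8 : ℝ) * FF G θ ε o 0 q ^ e) :=
        mul_le_mul_of_nonneg_right (le_mul_of_one_le_right (by positivity) (one_le_pow₀ one_le_two))
          (mul_nonneg (Real.rpow_nonneg hp.le _) hFe)
      have e6 : 16000 * C * 2 ^ P * (p ^ 3 * p ^ P) ≤ 16000 * C * 2 ^ P * p ^ P :=
        mul_le_mul_of_nonneg_left (mul_le_of_le_one_left (by positivity)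
          (pow_le_one₀ hp.le (by linarith))) (by positivity)
      linarith
    · obtain ⟨C, c, hC, hc, hr⟩ := rate_crude o hG hd hreg h0 hθ hε hε1 hs 0
      refine ⟨16000 * C, c / 4, by linarith, fun M hM p q hp hpq hq2 hq => ?_⟩
      obtain ⟨-, hB⟩ := hinc 0 p q hp.le (fun _ => hp) hpq (by linarith)
      set X := Real.exp (-(c / 4) * (2 : ℝ) ^ (c / 4 * (M : ℝ) * p ^ (-(3 / 2) : ℝ))) with hX
      set B := C * (M : ℝ) ^ 2 / p ^ 3 * FF G θ ε o 0 q + C / p ^ 3 * X with hBdef
      have hF := FF_nonneg (G := G) (θ := θ) (ε := ε) o 0 q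
      have hB0 : 0 ≤ B := by positivity
      have hbound : ∀ r ∈ Set.Ico p q, ∀ W : Finset V,
          ∑ w ∈ W, ∫ x, dTerm G θ (pairI ε 0 r x) o w ∂(P2 G θ ε o) ≤ B := by
        intro r hr' W
        have hr0 : 0 < r := hp.trans_le hr'.1
        have hr1 : r ≤ 1 := by linarith [hr'.2]
        have hv2 : p ^ 3 ≤ vsize 0 r ^ 2 := by
          rw [vsize, if_pos rfl, ← Real.rpow_natCast _ 2, ← Real.rpow_mul hr0.le,
            show (3 / 2 : ℝ) * ((2 : ℕ) : ℝ) = ((3 : ℕ) : ℝ) by norm_num, Real.rpow_natCast]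
          exact pow_le_pow_left₀ hp.le hr'.1 3
        refine (hr r (fun _ => ⟨hr0, hr1⟩) W M hM).trans (add_le_add ?_ ?_)
        · exact mul_le_mul (div_le_div_of_nonneg_left (by positivity) (by positivity) hv2)
            (hmono r q hr0 hr'.2.le (by linarith)) (FF_nonneg o 0 r) (by positivity)
        · refine mul_le_mul (div_le_div_of_nonneg_left hC.le (by positivity) hv2) ?_
            (Real.exp_pos _).le (by positivity)
          refine Real.exp_le_exp.2 ?_
          rw [neg_mul]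
          refine neg_le_neg (mul_le_mul (by linarith) ?_ (Real.rpow_nonneg two_pos.le _) hc.le)
          refine Real.rpow_le_rpow_of_exponent_le one_le_two ?_
          have h4 : p ^ (-(3 / 2) : ℝ) ≤ 4 * r ^ (-(3 / 2) : ℝ) := by
            have h := Real.rpow_le_rpow_of_nonpos hr0 (show r ≤ 2 * p by linarith [hr'.2])
              (show (-(3 / 2) : ℝ) ≤ 0 by norm_num)
            rw [Real.mul_rpow two_pos.le hp.le] at h
            have h2 : (2 : ℝ) ^ (-2 : ℝ) ≤ 2 ^ (-(3 / 2) : ℝ) :=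
              Real.rpow_le_rpow_of_exponent_le one_le_two (by norm_num)
            rw [show (2 : ℝ) ^ (-2 : ℝ) = 1 / 4 by
              rw [Real.rpow_neg two_pos.le, show (2 : ℝ) = ((2 : ℕ) : ℝ) from rfl,
                Real.rpow_natCast]; norm_num] at h2
            nlinarith [mul_le_mul_of_nonneg_right h2 (Real.rpow_nonneg hp.le (-(3 / 2) : ℝ))]
          rw [vsize, if_pos rfl, div_eq_mul_inv _ (r ^ (3 / 2 : ℝ)), ← Real.rpow_neg hr0.le]
          have := mul_le_mul_of_nonneg_left h4 (show 0 ≤ c / 4 * (M : ℝ) by positivity)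
          linarith
      have h1' := hB B hbound
      have h2' : 2000 * emax ε 0 q ^ 2 / (1 - q) * (q - p) * B ≤ 16000 * p ^ 2 * (q - p) * B :=
        mul_le_mul_of_nonneg_right (mul_le_mul_of_nonneg_right (he p q hp hpq hq2 hq) (by linarith))
          hB0
      have e4 : 16000 * p ^ 2 * (q - p) * B =
          (q - p) / p * (16000 * C * (M : ℝ) ^ 2 * FF G θ ε o 0 q + 16000 * C * X) := by
        rw [hBdef]; field_simp
      have e5 : (q - p) / p * (16000 * C * (M : ℝ) ^ 2 * FF G θ ε o 0 q + 16000 * C * X) ≤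
          (q - p) / p * (16000 * C * (M : ℝ) ^ 2 * FF G θ ε o 0 q +
            16000 * C * (p ^ 10)⁻¹ * X) := by
        refine mul_le_mul_of_nonneg_left (add_le_add le_rfl (mul_le_mul_of_nonneg_right
          (le_mul_of_one_le_right (by positivity) ?_) (Real.exp_pos _).le))
          (div_nonneg (by linarith) hp.le)
        exact one_le_inv_iff₀.2 ⟨by positivity, pow_le_one₀ hp.le (by linarith)⟩
      linarith
  rcases le_or_gt t (1 / 2) with h | h
  · exact hhalf t ⟨ht0, h⟩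
  · exact FF_stays_zero o hG hd hreg h0 hθ hε hε1 hs hinc 0 (by norm_num)
      (fun _ => by norm_num) (hhalf _ ⟨by norm_num, le_rfl⟩) h.le ht1

variable (hlm : LimitMeanProp G θ ε o)
include hlm

omit hd hreg hθ hs hinc hlm in
lemma ae_rankings (h1 : θ < 1) :
    ∀ᵐ u ∂(P2 G θ ε o), ∀ q, u.1.1 q = u.2.1 q := by
  filter_upwards [ae_toPQ_eq hG h0 h1 hε.le hε1 o] with u hu q
  exact congrFun (congrArg Prod.fst hu) q

/-- The observations of the two copies agree. -/
theorem ae_obs_eq : ∀ (k : ℕ) (w : V), ∀ᵐ u ∂(P2 G θ ε o), u.1.2 (k, w) = u.2.2 (k, w) := by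
  have h1 := theta_lt_one hd h0 hθ
  intro k
  induction k using Nat.strong_induction_on with
  | _ k ih =>
    have hFF : ∀ p : ℝ, 0 < p → p < 1 → FF G θ ε o k p = 0 := by
      intro p hp hp1
      rcases Nat.eq_zero_or_pos k with rfl | hk
      · exact FF_zero_level o hG hd hreg h0 hθ hε hε1 hs hinc hp hp1
      refine FF_stays_zero o hG hd hreg h0 hθ hε hε1 hs hinc k le_rfl (fun h => by omega) ?_
        hp.le hp1
      have hsame : ∀ᵐ u ∂(P2 G θ ε o), ∀ j, j < k → ∀ w, u.1.2 (j, w) = u.2.2 (j, w) :=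
        ae_all_iff.2 fun j => eventually_imp_distrib_left.2 fun hj => ae_all_iff.2 fun w => ih j hj w
      have hz : (fun u => uDiff G θ (pairI ε k 0 u) o ^ 2) =ᵐ[P2 G θ ε o] fun _ => (0 : ℝ) := by
        filter_upwards [ae_rankings o hG h0 hε hε1 h1, hsame] with u hR hZ
        have e : stF ε k 0 u.1 = stF ε k 0 u.2 := by
          funext v
          have hl : ∀ R : ℕ × V → I, levels (k, (0 : ℝ)) R v = Finset.range k := fun R => by
            simp only [levels, if_neg (not_lt.2 (R (k, v)).2.1)]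
          simp only [stF, field, hl]
          refine cmb_congr fun j hj => ?_
          rw [hZ j (Finset.mem_range.1 hj) v]
          simp only [strength, hR]
        simp [uDiff, pairI, e]
      rw [FF, integral_congr_ae hz, MeasureTheory.integral_zero]
    intro w
    have hm : Measurable fun u : Conf V × Conf V =>
        (mInf G θ ε (k, w) u.2 - mInf G θ ε (k, w) u.1) ^ 2 :=
      (((measurable_mInf (k, w)).comp measurable_snd).sub
        ((measurable_mInf (k, w)).comp measurable_fst)).pow_const 2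
    have hwin : ∀ n : ℕ, ∀ᵐ u ∂(P2 G θ ε o), 1 / ((n : ℝ) + 2) ≤ (u.1.1 (k, w) : ℝ) →
        (u.1.1 (k, w) : ℝ) < 1 - 1 / ((n : ℝ) + 2) →
          mInf G θ ε (k, w) u.1 = mInf G θ ε (k, w) u.2 := by
      intro n
      set p1 := 1 / ((n : ℝ) + 2) with hp1
      have hp10 : 0 < p1 := by rw [hp1]; positivity
      have hp12 : p1 ≤ 1 / 2 := by
        rw [hp1]
        exact div_le_div_of_nonneg_left zero_le_one two_pos (by linarith [n.cast_nonneg (α := ℝ)])
      have h := hlm k w p1 (1 - p1) hp10.le (fun _ => hp10) (by linarith) (by linarith)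
      have hzero : ∀ q ∈ Set.Ico p1 (1 - p1),
          ∫ u, uDiff G θ (pairI ε k q u) w ^ 2 ∂(P2 G θ ε o) = 0 := by
        intro q hq
        have hk : k = 0 → 0 < q ∧ q ≤ 1 := fun _ => ⟨hp10.trans_le hq.1, by linarith [hq.2]⟩
        have R := ready_level o hG hd hreg h0 hθ hε hε1 hs k hk
        rw [← integral_pairI o k q ((Boot.measurable_uDiff w).pow_const 2),
          Boot.integral_uDiff_sq_eq (setup_level hG hd hreg h0 hθ hε hε1 k) R w o, ← FF_eq]
        exact hFF q (hp10.trans_le hq.1) (by linarith [hq.2])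
      rw [setIntegral_congr_fun measurableSet_Ico hzero, MeasureTheory.integral_zero, mul_zero] at h
      set f := fun u : Conf V × Conf V =>
        if p1 ≤ (u.1.1 (k, w) : ℝ) ∧ (u.1.1 (k, w) : ℝ) < 1 - p1 then
          (mInf G θ ε (k, w) u.2 - mInf G θ ε (k, w) u.1) ^ 2 else 0 with hf
      have hR : Measurable fun u : Conf V × Conf V => (u.1.1 (k, w) : ℝ) :=
        measurable_subtype_coe.comp
          ((measurable_pi_apply _).comp (measurable_fst.comp measurable_fst))
      have hfm : Measurable f :=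
        Measurable.ite ((measurableSet_le measurable_const hR).inter
          (measurableSet_lt hR measurable_const)) hm measurable_const
      have hf0 : ∀ u, 0 ≤ f u := fun u => by simp only [hf]; split_ifs <;> positivity
      have hfi : Integrable f (P2 G θ ε o) := integrable_of_bounded hfm (C := 4) fun u => by
        rw [abs_of_nonneg (hf0 u)]
        simp only [hf]
        split_ifs
        · have a := abs_mInf_le_one (G := G) h0 h1 hε.le hε1 (k, w) u.1
          have b := abs_mInf_le_one (G := G) h0 h1 hε.le hε1 (k, w) u.2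
          rw [← sq_abs]
          exact (pow_le_pow_left₀ (abs_nonneg _) ((abs_sub _ _).trans (add_le_add b a)) 2).trans_eq
            (by norm_num)
        · norm_num
      have := (integral_eq_zero_iff_of_nonneg hf0 hfi).1 (le_antisymm h (integral_nonneg hf0))
      filter_upwards [this] with u hu ha hb
      simp only [hf, if_pos (And.intro ha hb), Pi.zero_apply] at hu
      exact (sub_eq_zero.1 (sq_eq_zero_iff.1 hu)).symm
    have hne : ∀ c : ℝ, ∀ᵐ u ∂(P2 G θ ε o), (u.1.1 (k, w) : ℝ) ≠ c := fun c =>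
      ae_ranking hG h0 h1 hε.le hε1 o (ae_ranking_ne (k, w) c)
    filter_upwards [ae_toPQ_eq hG h0 h1 hε.le hε1 o, ae_all_iff.2 hwin, hne 0, hne 1]
      with u hu hw h0' h1'
    have hI0 : 0 < (u.1.1 (k, w) : ℝ) := lt_of_le_of_ne (u.1.1 (k, w)).2.1 (Ne.symm h0')
    have hI1 : (u.1.1 (k, w) : ℝ) < 1 := lt_of_le_of_ne (u.1.1 (k, w)).2.2 h1'
    obtain ⟨n, hn⟩ := exists_nat_gt (1 / min (u.1.1 (k, w) : ℝ) (1 - (u.1.1 (k, w) : ℝ)))
    have hn2 : 1 / ((n : ℝ) + 2) < min (u.1.1 (k, w) : ℝ) (1 - (u.1.1 (k, w) : ℝ)) := by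
      have hm0 := lt_min hI0 (show 0 < 1 - (u.1.1 (k, w) : ℝ) by linarith)
      rw [div_lt_iff₀ hm0] at hn
      rw [div_lt_iff₀ (by positivity)]
      nlinarith
    have hmeq := hw n (hn2.le.trans (min_le_left _ _))
      (by linarith [min_le_right (u.1.1 (k, w) : ℝ) (1 - (u.1.1 (k, w) : ℝ))])
    have hU : u.1.1 = u.2.1 := (congrArg Prod.fst hu :)
    have hg : gInf G θ ε (k, w) u.1 = gInf G θ ε (k, w) u.2 :=
      congrFun (congrArg Prod.snd hu) (k, w)
    set a := strength ε u.1.1 (k, w) * mInf G θ ε (k, w) u.1 with ha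
    have haa : |a| < 1 := by
      rw [ha, abs_mul]
      exact lt_of_le_of_lt (mul_le_of_le_one_right (abs_nonneg _)
        (abs_mInf_le_one h0 h1 hε.le hε1 _ _))
        (lt_of_le_of_lt (abs_strength_le hε.le _ _) hε1)
    simp only [gInf, ← hU, ← hmeq, ← ha] at hg
    rw [Set.projIcc_of_mem _ (cdfObs_mem haa _), Set.projIcc_of_mem _ (cdfObs_mem haa _),
      Subtype.mk_eq_mk] at hg
    exact Subtype.ext (le_antisymm
      ((cdfObs_le_iff haa (Obs.abs_le _) (Obs.abs_le _)).1 hg.le)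
      ((cdfObs_le_iff haa (Obs.abs_le _) (Obs.abs_le _)).1 hg.ge))

/-- Every observation is a function of rankings and innovations. -/
theorem determined (s : ℕ × V) :
    ∃ f : (ℕ × V → I) × (ℕ × V → I) → ℝ, Measurable f ∧
      ∀ᵐ ω ∂(PZ G θ ε o), (ω.2 s : ℝ) = f (toPQ G θ ε ω) := by
  have h1 := theta_lt_one hd h0 hθ
  have hz : Measurable fun x : Conf V => (x.2 s : ℝ) :=
    measurable_subtype_coe.comp ((measurable_pi_apply s).comp measurable_snd)
  set f := fun y : Noise V => ∫ x, (x.2 s : ℝ) ∂(kap G θ ε o y) with hf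
  have hfm : Measurable f := hz.stronglyMeasurable.integral_kernel.measurable
  refine ⟨f, hfm, ?_⟩
  have he := ae_obs_eq o hG hd hreg h0 hθ hε hε1 hs hinc hlm s.1 s.2
  rw [P2] at he
  have hy := Measure.ae_ae_of_ae_comp he
  have hset : MeasurableSet {p : Noise V × Conf V | (p.2.2 s : ℝ) = f p.1} :=
    measurableSet_eq_fun (hz.comp measurable_snd) (hfm.comp measurable_fst)
  have hall : ∀ᵐ p ∂(PR V ⊗ₘ kap G θ ε o), (p.2.2 s : ℝ) = f p.1 := by
    refine Measure.ae_compProd_of_ae_ae hset ?_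
    filter_upwards [hy] with y hy'
    rw [Kernel.prod_apply] at hy'
    filter_upwards [Measure.ae_ae_of_ae_prod hy'] with x hx
    have : (fun x' : Conf V => (x'.2 s : ℝ)) =ᵐ[kap G θ ε o y] fun _ => (x.2 s : ℝ) :=
      hx.mono fun x' h => congrArg Subtype.val h.symm
    simp only [hf]
    rw [integral_congr_ae this, integral_const, probReal_univ, one_smul]
  rw [compProd_kap hG h0 h1 hε.le hε1 o] at hall
  exact ae_of_ae_map (measurable_toPQ.prodMk measurable_id).aemeasurable hall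

/-- The free state at the reconstruction threshold is a factor of IID. -/
theorem exists_factor_of_estimates :
    ∃ Φ : (V → I) → V → Bool, Measurable Φ ∧
      (∀ (φ : G ≃g G) (ω : V → I),
        Φ (fun v => ω (φ.symm v)) = fun v => Φ ω (φ.symm v)) ∧
      ∀ D : Finset V, Conn G D → ∀ b : V → Bool,
        (Measure.infinitePi fun _ : V => (volume : Measure I)).real
            {ω | ∀ u ∈ D, Φ ω u = b u} = wt G θ D (D.filter fun u => b u = true) :=
  exists_factor_of_determined hG h0 (theta_lt_one hd h0 hθ) hε hε1 o fun s _ =>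
    determined o hG hd hreg h0 hθ hε hε1 hs hinc hlm s

end Vale.Agent.P161.Crit
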