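import Mathlib

/-!
Series used in the tail bound for the sums of averaged slope products.
-/

namespace Vale.Agent.P161.Crit.Stat

open Finset Filter
open scoped Topology

lemma sum_inv_succ_sq_le (n : ℕ) : ∑ m ∈ Finset.range n, (1 : ℝ) / ((m : ℝ) + 1) ^ 2 ≤ 2 := by
  have h : ∀ k : ℕ, ∑ m ∈ Finset.range (k + 1), (1 : ℝ) / ((m : ℝ) + 1) ^ 2 ≤
      2 - 1 / ((k : ℝ) + 1) := by
    intro k
    induction k with
    | zero => norm_num
    | succ k ih =>
      rw [Finset.sum_range_succ]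
      push_cast
      have hk : (0 : ℝ) < (k : ℝ) + 1 := by positivity
      have h2 : (1 : ℝ) / ((k : ℝ) + 1 + 1) ^ 2 ≤ 1 / ((k : ℝ) + 1) - 1 / ((k : ℝ) + 1 + 1) := by
        rw [div_sub_div _ _ hk.ne' (by positivity), div_le_div_iff₀ (by positivity) (by positivity)]
        nlinarith
      linarith
  cases n with
  | zero => simp
  | succ k =>
    have : (0 : ℝ) ≤ 1 / ((k : ℝ) + 1) := by positivity
    linarith [h k]

lemma sum_pow_le {w : ℝ} (h0 : 0 ≤ w) (h1 : w < 1) (n : ℕ) :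
    ∑ m ∈ Finset.range n, w ^ m ≤ 1 / (1 - w) := by
  rw [one_div, ← tsum_geometric_of_lt_one h0 h1]
  exact (summable_geometric_of_lt_one h0 h1).sum_le_tsum _ fun m _ => pow_nonneg h0 m

/-- The exceptional probabilities add up to a double exponential. -/
lemma tail_series : ∃ C κ : ℝ, 0 < C ∧ 0 < κ ∧ ∀ J : ℕ,
    (Summable fun k : ℕ =>
      Real.exp (-((2 : ℝ) ^ ((2 * J + k) / 2) / (((2 * J + k : ℕ) : ℝ) + 1) ^ 2))) ∧
    ∑' k : ℕ, Real.exp (-((2 : ℝ) ^ ((2 * J + k) / 2) / (((2 * J + k : ℕ) : ℝ) + 1) ^ 2)) ≤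
      C * Real.exp (-(κ * (2 : ℝ) ^ ((J : ℝ) / 2))) := by
  set r := Real.sqrt 2 with hr
  have hr1 : 1 < r := by
    rw [hr, Real.lt_sqrt zero_le_one]; norm_num
  have hr0 : 0 < r := zero_lt_one.trans hr1
  have hrr : r * r = 2 := Real.mul_self_sqrt zero_le_two
  obtain ⟨B0, hB0⟩ := (tendsto_pow_const_div_const_pow_of_one_lt 2 hr1).bddAbove_range
  set B := max B0 1 * r with hB
  have hBpos : 0 < B := mul_pos (lt_of_lt_of_le one_pos (le_max_right _ _)) hr0
  have hsq : ∀ j : ℕ, ((j : ℝ) + 1) ^ 2 ≤ B * r ^ j := fun j => by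
    have h := (hB0 (Set.mem_range_self (j + 1))).trans (le_max_left B0 1)
    rw [div_le_iff₀ (pow_pos hr0 _)] at h
    push_cast at h
    rw [hB, mul_assoc, ← pow_succ']
    exact h
  set κ := 1 / (4 * B) with hκ
  have hκ0 : 0 < κ := by positivity
  set δ := κ * (r - 1) / 2 with hδ
  have hδ0 : 0 < δ := by
    have : 0 < r - 1 := by linarith
    positivity
  set s := Real.exp (-δ) with hs
  have hs1 : s < 1 := Real.exp_lt_one_iff.2 (by linarith)
  have hs0 : 0 ≤ s := (Real.exp_pos _).le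
  refine ⟨Real.exp δ * (1 / (1 - s)), κ, by have : 0 < 1 - s := by linarith
                                            positivity, hκ0, fun J => ?_⟩
  have hrJ : r ^ J = (2 : ℝ) ^ ((J : ℝ) / 2) := by
    rw [hr, Real.sqrt_eq_rpow, ← Real.rpow_natCast, ← Real.rpow_mul zero_le_two]
    congr 1
    ring
  rw [← hrJ]
  have hle : ∀ k : ℕ,
      Real.exp (-((2 : ℝ) ^ ((2 * J + k) / 2) / (((2 * J + k : ℕ) : ℝ) + 1) ^ 2)) ≤
        Real.exp δ * Real.exp (-(κ * r ^ J)) * s ^ k := by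
    intro k
    set j := (2 * J + k) / 2 with hj
    have hjk : j = J + k / 2 := by omega
    have hmj : ((2 * J + k : ℕ) : ℝ) + 1 ≤ 2 * ((j : ℝ) + 1) := by
      have : 2 * J + k + 1 ≤ 2 * (j + 1) := by omega
      exact_mod_cast this
    have h1 : (((2 * J + k : ℕ) : ℝ) + 1) ^ 2 ≤ 4 * B * r ^ j := by
      have := pow_le_pow_left₀ (by positivity) hmj 2
      linarith [hsq j]
    have h2 : κ * r ^ j ≤ (2 : ℝ) ^ j / (((2 * J + k : ℕ) : ℝ) + 1) ^ 2 := by
      rw [le_div_iff₀ (by positivity), ← hrr, mul_pow]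
      calc κ * r ^ j * (((2 * J + k : ℕ) : ℝ) + 1) ^ 2 ≤ κ * r ^ j * (4 * B * r ^ j) :=
            mul_le_mul_of_nonneg_left h1 (by positivity)
        _ = r ^ j * r ^ j := by rw [hκ]; field_simp
    have h3 : r ^ J + ((k / 2 : ℕ) : ℝ) * (r - 1) ≤ r ^ j := by
      have hb := one_add_mul_le_pow (a := r - 1) (by linarith) (k / 2)
      rw [add_sub_cancel] at hb
      rw [hjk, pow_add]
      have hJ1 : 1 ≤ r ^ J := one_le_pow₀ hr1.le
      have := mul_le_mul_of_nonneg_left hb (zero_le_one.trans hJ1)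
      have hk0 : (0 : ℝ) ≤ ((k / 2 : ℕ) : ℝ) * (r - 1) := by
        have : 0 ≤ r - 1 := by linarith
        positivity
      have := le_mul_of_one_le_left hk0 hJ1
      linarith
    have h4 : ((k : ℝ) - 1) / 2 ≤ ((k / 2 : ℕ) : ℝ) := by
      have : k ≤ 2 * (k / 2) + 1 := by omega
      have h' : (k : ℝ) ≤ 2 * ((k / 2 : ℕ) : ℝ) + 1 := by exact_mod_cast this
      linarith
    have h5 := mul_le_mul_of_nonneg_left h3 hκ0.le
    have h6 := mul_le_mul_of_nonneg_left (mul_le_mul_of_nonneg_right h4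
      (by linarith : (0 : ℝ) ≤ r - 1)) hκ0.le
    rw [hs, ← Real.exp_nat_mul, ← Real.exp_add, ← Real.exp_add, Real.exp_le_exp, hδ]
    linarith
  have hgeo := (summable_geometric_of_lt_one hs0 hs1).mul_left
    (Real.exp δ * Real.exp (-(κ * r ^ J)))
  have hsum := Summable.of_nonneg_of_le (fun k => (Real.exp_pos _).le) hle hgeo
  refine ⟨hsum, (hsum.tsum_le_tsum hle hgeo).trans (le_of_eq ?_)⟩
  rw [tsum_mul_left, tsum_geometric_of_lt_one hs0 hs1]
  ring

end Vale.Agent.P161.Crit.Stat
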