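import Vale.Agent.P161.Crit.StatLimit
import Vale.Agent.P161.Crit.StatSeries

/-!
The one-copy estimates at the critical point.
-/

namespace Vale.Agent.P161.Crit.Stat

open MeasureTheory SimpleGraph Finset Filter
open scoped Topology

variable {V : Type*} [DecidableEq V] {G : SimpleGraph V} [G.LocallyFinite] {θ b c0 : ℝ} {d : ℕ}

/-- The constant in the lower bound on the second moment of a message. -/
noncomputable def lowConst (d : ℕ) (θ b c0 : ℝ) : ℝ :=
  Real.sqrt (c0 * (1 - magBound d θ b ^ 2) / 16)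

omit [DecidableEq V] in
lemma lowConst_pos (p : Par G θ b d) (hc0 : 0 < c0) : 0 < lowConst d θ b c0 :=
  Real.sqrt_pos.2 (div_pos (mul_pos hc0 (one_sub_R_sq_pos p)) (by norm_num))

omit [DecidableEq V] in
lemma small_const {v : ℝ} {ν : Measure ℝ} (hv : VChan b c0 v ν) :
    Small v b (fun _ : V => ν) :=
  ⟨fun _ => hv.chan, hv.pos.le, hv.le_one, fun _ => hv.upper, fun _ j hj => hv.mom j hj⟩

lemma pow_shift {ρ a t : ℝ} (hρ0 : 0 ≤ ρ) (hρ : ρ ≤ 1 - a) (ha : a ≤ 1 / 2) (ht : 0 < 1 - t)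
    (i : ℕ) : ρ ^ i / (1 - t) ≤ 2 / (1 - t) * (1 - a) ^ (i + 1) := by
  rw [div_mul_eq_mul_div, pow_succ]
  refine div_le_div_of_nonneg_right ?_ ht.le
  have h1 := pow_le_pow_left₀ hρ0 hρ i
  have h2 : 0 ≤ (1 - a) ^ i := pow_nonneg (by linarith) i
  nlinarith

lemma loc_segF_full (p : Par G θ b d) (n : ℕ) {k : ℕ} {x : ℕ → V} (hx : IsSeg G (k + 1) x) :
    Loc b (br G (n + k) (x k) (x (k + 1))) (segF G θ n x (k + 1)) := by
  convert (loc_segF p n hx k (Nat.lt_succ_self k)).mul (loc_slp_msg p (n + k) (hx.1 k (by omega)))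
    using 2
  simp [segF, Finset.prod_range_succ]

section

variable [Countable V] {v : ℝ} {ν : Measure ℝ} {P : Measure (V → ℝ)}
variable (p : Par G θ b d) (hv : VChan b c0 v ν) (hc0 : 0 < c0)
include p hv hc0

/-- The uniform lower bound on the second moments of partial merges. -/
lemma lower : ∃ N, (∀ m, N ≤ m → ∀ (x : V) (s : Finset V), s.Nonempty → (∀ e ∈ s, G.Adj x e) →
      θ ^ 2 * lowConst d θ b c0 * v ≤ m2 G θ (fun _ => ν) m x s) ∧
    θ ^ 2 * lowConst d θ b c0 * v ≤ 1 := by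
  have := hv.chan.prob
  obtain ⟨N, hN⟩ := m2_lower (ν := fun _ : V => ν) p (fun _ => hv.chan) (fun _ _ => rfl) hc0 hv.pos
    fun _ => hv.lower
  refine ⟨N, hN, ?_⟩
  obtain ⟨o⟩ := p.tree.connected.nonempty
  have hs : (G.neighborFinset o).Nonempty := by
    rw [← Finset.card_pos, card_neighborFinset_eq_degree, p.deg]
    have := p.three; omega
  have hadj : ∀ e ∈ G.neighborFinset o, G.Adj o e := fun e he => p.adj_of_mem he
  exact (hN N le_rfl o _ hs hadj).trans (m2_mem p (fun _ => hv.chan) N o hadj).2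

/-- Geometric decay of the averaged products at finite depth. -/
lemma aP_bound {c : ℝ} (hc : 0 ≤ c) (hc1 : c ≤ (1 - θ ^ 2) * (θ ^ 2 * lowConst d θ b c0))
    (hc2 : c ≤ 1 / 2) :
    ∃ N, ∀ n, N ≤ n → ∀ i x y, G.Adj x y →
      ex G θ (fun _ => ν) (br G (n + i) x y) (aP G θ n i x y) ≤
        2 / (1 - θ ^ 2) * (1 - c * v) ^ i := by
  have := hv.chan.prob
  obtain ⟨N, hN, hβ1⟩ := lower p hv hc0
  have hθ := p.sq_lt_one
  have hcv : c * v ≤ 1 / 2 := le_trans (mul_le_of_le_one_right hc hv.le_one) hc2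
  refine ⟨N, fun n hn i x y hxy => ?_⟩
  cases i with
  | zero =>
    refine le_trans (le_of_eq (ex_one (fun _ => hv.chan) p.b1 p.tree (conn_br p.tree (n + 0) x y hxy)
      (self_mem_br G _ x y))) ?_
    rw [pow_zero, mul_one, le_div_iff₀ (by linarith)]
    linarith [sq_nonneg θ]
  | succ i =>
    rw [ex_marg p (fun _ => hv.chan) (show n + i ≤ n + (i + 1) by omega) hxy (loc_aP p n i x y hxy)]
    refine (aP_decay p (fun _ => hv.chan) n hβ1
      (fun m hm => hN m (hn.trans hm)) i hxy).trans (pow_shift ?_ ?_ hcv (by linarith) i)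
    · nlinarith [mul_le_mul_of_nonneg_left hβ1 (by linarith : (0:ℝ) ≤ 1 - θ ^ 2), sq_nonneg θ]
    · nlinarith [mul_le_mul_of_nonneg_right hc1 hv.pos.le]

variable (hP : FieldLaw G θ b ν P)
include hP

omit hc0 in
lemma tendsto_ex_aP (i : ℕ) {x y : V} (hxy : G.Adj x y) :
    Tendsto (fun n => ex G θ (fun _ => ν) (br G (n + i) x y) (aP G θ n i x y)) atTop
      (𝓝 (∫ h, avgProd G θ h i x y ∂P)) := by
  refine (tendsto_box hP (fun n => (loc_aP' p n i hxy).meas) (C := 1) (fun n h hh => ?_)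
    ((ae_conv p hv.chan hP).mono fun h ⟨hh, hc⟩ => tendsto_aP p hh hc i x y)).congr fun n => ?_
  · rw [abs_of_nonneg (aP_mem p hh n i x y).1]; exact (aP_mem p hh n i x y).2
  · exact expect_univ hv.chan hP p.b0 (conn_br p.tree (n + i) x y hxy) (loc_aP' p n i hxy)

omit hc0 in
lemma tendsto_ex_two (i j : ℕ) {x y : V} (hxy : G.Adj x y) :
    Tendsto (fun n => ex G θ (fun _ => ν) (br G (n + i) x y) (aP G θ n i x y) *
      ex G θ (fun _ => ν) (br G (n + j) y x) (aP G θ n j y x)) atTop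
      (𝓝 (∫ h, avgProd G θ h i x y * avgProd G θ h j y x ∂P)) := by
  have := hv.chan.prob
  refine (tendsto_box hP (fun n => (loc_aP' p n i hxy).meas.mul (loc_aP' p n j hxy.symm).meas)
    (C := 1) (fun n h hh => ?_) ((ae_conv p hv.chan hP).mono fun h ⟨hh, hc⟩ =>
      (tendsto_aP p hh hc i x y).mul (tendsto_aP p hh hc j y x))).congr fun n => ?_
  · obtain ⟨a0, a1⟩ := aP_mem p hh n i x y
    obtain ⟨b0, b1⟩ := aP_mem p hh n j y x
    rw [Pi.mul_apply, abs_of_nonneg (mul_nonneg a0 b0)]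
    exact mul_le_one₀ a1 b0 b1
  · rw [← aP_two p (fun _ => hv.chan) n i n j hxy]
    exact expect_univ hv.chan hP p.b0 (conn_edge p.tree hxy).1
      (((loc_aP' p n i hxy).mono Finset.subset_union_left).mul
        ((loc_aP' p n j hxy.symm).mono Finset.subset_union_right))

/-- One exceptional event. -/
lemma tail_event {c : ℝ} (hc : 0 ≤ c) (hc1 : c ≤ (1 - θ ^ 2) * (θ ^ 2 * lowConst d θ b c0))
    (hc2 : c ≤ 1 / 2) (i j : ℕ) {x y : V} (hxy : G.Adj x y) {s : ℝ} (hs : 0 ≤ s) :
    P.real {h | s + 2 * (2 / (1 - θ ^ 2) * (1 - c * v) ^ i) ≤ avgProd G θ h (i + j) x y} ≤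
      Real.exp (-((2 : ℝ) ^ j * s)) := by
  have := hv.chan.prob
  have := hP.prob
  set q := 2 / (1 - θ ^ 2) * (1 - c * v) ^ i with hq
  set t := ((d : ℝ) - 1) ^ j with ht
  have ht0 : 0 < t := pow_pos (by linarith [p.d_two]) j
  obtain ⟨N, hN⟩ := aP_bound p hv hc0 hc hc1 hc2
  have hloc : ∀ n, Loc b (br G (n + (i + j)) x y)
      fun h => Real.exp (t * aP G θ n (i + j) x y h) := fun n => by
    refine (loc_aP' p n (i + j) hxy).comp (r := 1) (fun h hh => ?_)
      (g := fun a => Real.exp (t * a)) (by fun_prop) (C := Real.exp t) fun a ha => ?_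
    · rw [abs_of_nonneg (aP_mem p hh n _ x y).1]; exact (aP_mem p hh n _ x y).2
    · rw [Real.abs_exp, Real.exp_le_exp]
      exact mul_le_of_le_one_right ht0.le ((le_abs_self a).trans ha)
  have hlim : Tendsto (fun n => ∫ h, Real.exp (t * aP G θ n (i + j) x y h) ∂P) atTop
      (𝓝 (∫ h, Real.exp (t * avgProd G θ h (i + j) x y) ∂P)) := by
    refine tendsto_box hP (fun n => (hloc n).meas) (C := Real.exp t) (fun n h hh => ?_)
      ((ae_conv p hv.chan hP).mono fun h ⟨hh, hc⟩ =>
        (Real.continuous_exp.tendsto _).comp ((tendsto_aP p hh hc _ x y).const_mul t))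
    rw [Real.abs_exp, Real.exp_le_exp]
    exact mul_le_of_le_one_right ht0.le (aP_mem p hh n _ x y).2
  have hmgf : ∫ h, Real.exp (t * avgProd G θ h (i + j) x y) ∂P ≤ Real.exp (2 * (t * q)) := by
    refine le_of_tendsto hlim ?_
    filter_upwards [eventually_ge_atTop N] with n hn
    rw [expect_univ hv.chan hP p.b0 (conn_br p.tree _ x y hxy) (hloc n)]
    have hY := loc_exp_aY p n i j t hxy
    rw [Nat.add_assoc] at hY
    refine (ex_mono (fun _ => hv.chan) p.b1 p.nn p.lt_one (hloc n) hY fun h hh =>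
      Real.exp_le_exp.2 (mul_le_mul_of_nonneg_left (aP_le_aY p hh n i j x y) ht0.le)).trans ?_
    rw [← Nat.add_assoc]
    exact aY_mgf p (fun _ => hv.chan) (fun a e hae => hN n hn i a e hae) j x y hxy t ht0.le le_rfl
  have hint : Integrable (fun h => Real.exp (t * avgProd G θ h (i + j) x y)) P :=
    integrable_box hP (((measurable_avgProd _ x y).const_mul t).exp) (C := Real.exp t) fun h hh => by
      rw [Real.abs_exp, Real.exp_le_exp]
      exact mul_le_of_le_one_right ht0.le (avgProd_mem p hh _ x y).2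
  have hmark := mul_meas_ge_le_integral_of_nonneg
    (Eventually.of_forall fun h => (Real.exp_pos _).le) hint (Real.exp (t * (s + 2 * q)))
  have hsub : {h : V → ℝ | s + 2 * q ≤ avgProd G θ h (i + j) x y} ⊆
      {h | Real.exp (t * (s + 2 * q)) ≤ Real.exp (t * avgProd G θ h (i + j) x y)} := fun h hh =>
    Real.exp_le_exp.2 (mul_le_mul_of_nonneg_left hh ht0.le)
  have h1 : P.real {h | s + 2 * q ≤ avgProd G θ h (i + j) x y} * Real.exp (t * (s + 2 * q)) ≤
      Real.exp (2 * (t * q)) := by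
    rw [mul_comm]
    exact ((mul_le_mul_of_nonneg_left (measureReal_mono hsub) (Real.exp_pos _).le).trans
      hmark).trans hmgf
  rw [← le_div_iff₀ (Real.exp_pos _), ← Real.exp_sub] at h1
  refine h1.trans (Real.exp_le_exp.2 ?_)
  have h2 : (2 : ℝ) ^ j * s ≤ t * s :=
    mul_le_mul_of_nonneg_right (pow_le_pow_left₀ zero_le_two p.d_two j) hs
  linarith

end

end Stat

variable {V : Type*} [DecidableEq V] (G : SimpleGraph V) [G.LocallyFinite] {d : ℕ} {θ b c0 : ℝ}

open MeasureTheory Filter SimpleGraph Stat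
open scoped Topology

theorem stat_conv (hG : G.IsTree) (hd : 3 ≤ d) (hdeg : ∀ v, G.degree v = d) (h0 : 0 ≤ θ)
    (hcrit : ((d : ℝ) - 1) * θ ^ 2 = 1) (hb0 : 0 ≤ b) (hb1 : b < 1) :
    StatConvProp G θ b := by
  have p : Par G θ b d := ⟨hG, hdeg, hd, h0, hcrit, hb0, hb1⟩
  have := p.countable
  intro ν P hν hP
  have := hP.prob
  have hmask : ∀ (K : Finset V) (h : V → ℝ), (∀ v, |h v| ≤ b) → ∀ v, |mask K h v| ≤ b :=
    fun K h hh => abs_mask_le hb0 fun v _ => hh v
  refine ⟨(ae_conv p hν hP).mono fun h hh => hh.2,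
    ⟨magBound d θ b, p.R_lt_one, hP.supp.mono fun h hh x y =>
      ⟨abs_msgI_box p hh x y, abs_magI_box p hh x⟩⟩,
    fun o x y hxy => ⟨ae_tendsto_ball p hν hP hxy o, ?_⟩,
    fun o x => ⟨ae_tendsto_mag_ball p hν hP o x, ?_⟩⟩
  · have h := tendsto_box hP
      (F := fun n h => (msgI G θ (mask (ballF G o n) h) x y - msgI G θ h x y) ^ 2)
      (f := fun _ => (0 : ℝ))
      (fun n => (((measurable_msgI x y).comp (measurable_mask _)).sub (measurable_msgI x y)).pow_const 2)
      (C := 4)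
      (fun n h hh => by
        rw [abs_pow]
        refine (pow_le_pow_left₀ (abs_nonneg _) ((abs_sub _ _).trans
          (add_le_add ((abs_msgI_box p (hmask _ h hh) x y).trans p.R_lt_one.le)
            ((abs_msgI_box p hh x y).trans p.R_lt_one.le))) 2).trans (by norm_num))
      ((ae_tendsto_ball p hν hP hxy o).mono fun h hh => by simpa using (hh.sub_const (msgI G θ h x y)).pow 2)
    simpa using h
  · have h := tendsto_box hP
      (F := fun n h => (magI G θ (mask (ballF G o n) h) x - magI G θ h x) ^ 2)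
      (f := fun _ => (0 : ℝ))
      (fun n => (((measurable_magI x).comp (measurable_mask _)).sub (measurable_magI x)).pow_const 2)
      (C := 4)
      (fun n h hh => by
        rw [abs_pow]
        refine (pow_le_pow_left₀ (abs_nonneg _) ((abs_sub _ _).trans
          (add_le_add ((abs_magI_box p (hmask _ h hh) x).trans p.R_lt_one.le)
            ((abs_magI_box p hh x).trans p.R_lt_one.le))) 2).trans (by norm_num))
      ((ae_tendsto_mag_ball p hν hP o x).mono fun h hh => by simpa using (hh.sub_const (magI G θ h x)).pow 2)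
    simpa using h

theorem stat_second (hG : G.IsTree) (hd : 3 ≤ d) (hdeg : ∀ v, G.degree v = d) (h0 : 0 ≤ θ)
    (hcrit : ((d : ℝ) - 1) * θ ^ 2 = 1) (hb0 : 0 ≤ b) (hb1 : b < 1) (hc0 : 0 < c0) :
    StatSecondProp G θ b c0 := by
  have p : Par G θ b d := ⟨hG, hdeg, hd, h0, hcrit, hb0, hb1⟩
  have := p.countable
  refine ⟨(d : ℝ) + 1, lowConst d θ b c0, by positivity, lowConst_pos p hc0, fun v ν P hv hP => ?_⟩
  have := hv.chan.prob
  refine ⟨fun x y hxy => ?_, fun x => ?_, fun x y x' y' hxy hxy' f hf => ?_⟩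
  · have ht := tendsto_ex_msg p hv.chan hP hxy (f := fun a => a ^ 2) (by fun_prop)
    obtain ⟨N, hN⟩ := v2_lower (ν := fun _ : V => ν) p (fun _ => hv.chan) (fun _ _ => rfl) hc0
      hv.pos (fun _ => hv.lower) hxy
    refine ⟨ge_of_tendsto ht (eventually_atTop.2 ⟨N, hN⟩), le_of_tendsto' ht fun n => ?_⟩
    exact (v2_le p (small_const hv) n hxy).trans
      (mul_le_mul_of_nonneg_right (by linarith) hv.pos.le)
  · exact le_of_tendsto' (tendsto_ex_mag p hv.chan hP x (f := fun a => a ^ 2) (by fun_prop))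
      fun n => m2_le p (small_const hv) n x fun e he => p.adj_of_mem he
  · obtain ⟨C, hC⟩ := (isCompact_Icc (a := (-1 : ℝ)) (b := 1)).exists_bound_of_continuousOn
      hf.continuousOn
    refine tendsto_nhds_unique (tendsto_ex_msg p hv.chan hP hxy hf)
      ((tendsto_ex_msg p hv.chan hP hxy' hf).congr fun n => ?_)
    have h := same_msg (ν := fun _ : V => ν) p (fun _ => hv.chan) (fun _ _ => rfl) n x' y' x y
      hxy' hxy (fun a => f (clamp a)) (hf.measurable.comp measurable_clamp) C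
      fun a => (Real.norm_eq_abs _).symm.le.trans (hC _ (abs_le.1 (abs_clamp_le a)))
    refine Eq.trans (ex_congr (fun _ => hv.chan) _ fun h hh => ?_)
      (h.trans (ex_congr (fun _ => hv.chan) _ fun h hh => ?_))
    · rw [clamp_eq ((p.abs_msg hh n x' y').trans p.R_lt_one.le)]
    · rw [clamp_eq ((p.abs_msg hh n x y).trans p.R_lt_one.le)]

theorem stat_high (hG : G.IsTree) (hd : 3 ≤ d) (hdeg : ∀ v, G.degree v = d) (h0 : 0 ≤ θ)
    (hcrit : ((d : ℝ) - 1) * θ ^ 2 = 1) (hb0 : 0 ≤ b) (hb1 : b < 1) :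
    StatHighProp G θ b c0 := by
  have p : Par G θ b d := ⟨hG, hdeg, hd, h0, hcrit, hb0, hb1⟩
  have := p.countable
  intro P0 hP0
  obtain ⟨C, hC, hmom⟩ := high_moments p P0 hP0
  refine ⟨C, hC, fun v ν P hv hP => ?_⟩
  have := hv.chan.prob
  refine ⟨fun x y hxy => le_of_tendsto' (tendsto_ex_msg p hv.chan hP hxy
      (f := fun a => a ^ (2 * P0)) (by fun_prop))
    fun n => (hmom v (fun _ => ν) (small_const hv) n x).1 y hxy, fun x => ?_⟩
  exact le_of_tendsto' (tendsto_ex_mag p hv.chan hP x (f := fun a => a ^ (2 * P0)) (by fun_prop))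
    fun n => (hmom v (fun _ => ν) (small_const hv) n x).2 _ fun e he => p.adj_of_mem he

theorem stat_seg (hG : G.IsTree) (hd : 3 ≤ d) (hdeg : ∀ v, G.degree v = d) (h0 : 0 ≤ θ)
    (hcrit : ((d : ℝ) - 1) * θ ^ 2 = 1) (hb0 : 0 ≤ b) (hb1 : b < 1) (hc0 : 0 < c0) :
    StatSegProp G θ b c0 := by
  have p : Par G θ b d := ⟨hG, hdeg, hd, h0, hcrit, hb0, hb1⟩
  have := p.countable
  have hθ := p.sq_lt_one
  set c := min (min ((1 - θ ^ 2) * (θ ^ 2 * lowConst d θ b c0)) ((1 - θ ^ 2) * c0)) (1 / 2) with hcdef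
  have hc : 0 < c := lt_min (lt_min (mul_pos (by linarith) (mul_pos p.sq_pos (lowConst_pos p hc0)))
    (mul_pos (by linarith) hc0)) (by norm_num)
  have hc1 : c ≤ (1 - θ ^ 2) * (θ ^ 2 * lowConst d θ b c0) :=
    (min_le_left _ _).trans (min_le_left _ _)
  have hc1' : c ≤ (1 - θ ^ 2) * c0 := (min_le_left _ _).trans (min_le_right _ _)
  have hc2 : c ≤ 1 / 2 := min_le_right _ _
  refine ⟨2 / (1 - θ ^ 2), c, div_pos two_pos (by linarith), hc, hc2, fun v ν P hv hP k x hx => ?_⟩
  have := hv.chan.prob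
  have := hP.prob
  have hcv : c * v ≤ 1 / 2 := le_trans (mul_le_of_le_one_right hc.le hv.le_one) hc2
  have hv2 : v ^ 2 ≤ 1 := pow_le_one₀ hv.pos.le hv.le_one
  have hcv2 : c * v ^ 2 ≤ 1 / 2 := le_trans (mul_le_of_le_one_right hc.le hv2) hc2
  have hC1 : 1 ≤ 2 / (1 - θ ^ 2) := by
    rw [le_div_iff₀ (by linarith)]; linarith [sq_nonneg θ]
  cases k with
  | zero => refine ⟨?_, fun _ _ => ?_⟩ <;> simpa [segProd] using hC1
  | succ k =>
    have hchild : ∀ i, i < k → x i ∈ (G.neighborFinset (x (i + 1))).erase (x (i + 2)) ∧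
        G.Adj (x (i + 1)) (x (i + 2)) := fun i hi => by
      obtain ⟨h1, h2⟩ := seg_child_mem hx (i := i) (by omega)
      exact ⟨Finset.mem_erase.2 ⟨h2, by simpa using h1⟩, hx.1 (i + 1) (by omega)⟩
    refine ⟨?_, fun S hS => ?_⟩
    · obtain ⟨N, hN, hβ1⟩ := lower p hv hc0
      have ht : Tendsto (fun n => ex G θ (fun _ => ν) (br G (n + k) (x k) (x (k + 1)))
          (segF G θ n x (k + 1))) atTop (𝓝 (∫ h, segProd G θ h (k + 1) x ∂P)) :=
        (tendsto_box hP (fun n => (loc_segF_full p n hx).meas) (C := 1)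
          (fun n h hh => by
            rw [abs_of_nonneg (segF_mem p hh n x _).1]; exact (segF_mem p hh n x _).2)
          ((ae_conv p hv.chan hP).mono fun h ⟨hh, hc⟩ => tendsto_segF p hh hc x _)).congr fun n =>
            expect_univ hv.chan hP hb0 (conn_br hG _ _ _ (hx.1 k (by omega))) (loc_segF_full p n hx)
      refine le_of_tendsto ht ?_
      filter_upwards [eventually_ge_atTop N] with n hn
      refine (seg_decay (ν := fun _ : V => ν) p (fun _ => hv.chan) hx n hβ1 fun i hi m hm => ?_).trans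
        (pow_shift ?_ ?_ hcv (by linarith) k)
      · obtain ⟨hmem, hadj⟩ := hchild i hi
        refine hN m (hn.trans hm) _ _ ?_ fun e he => p.adj_children e (Finset.mem_of_mem_erase he)
        rw [← Finset.card_pos, Finset.card_erase_of_mem hmem, p.card_children hadj]
        omega
      · nlinarith [mul_le_mul_of_nonneg_left hβ1 (by linarith : (0:ℝ) ≤ 1 - θ ^ 2), sq_nonneg θ]
      · nlinarith [mul_le_mul_of_nonneg_right hc1 hv.pos.le]
    · have : ∀ z, IsProbabilityMeasure (chanOn ν S z) := fun z =>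
        (chan_chanOn hb0 hv.chan S z).prob
      have hmask : ∀ h : V → ℝ, (∀ v, |h v| ≤ b) → ∀ v, |mask S h v| ≤ b :=
        fun h hh => abs_mask_le hb0 fun v _ => hh v
      have ht : Tendsto (fun n => ex G θ (chanOn ν S) (br G (n + k) (x k) (x (k + 1)))
          (segF G θ n x (k + 1))) atTop (𝓝 (∫ h, segProd G θ (mask S h) (k + 1) x ∂P)) :=
        (tendsto_box hP (fun n => (loc_segF_full p n hx).meas.comp (measurable_mask S)) (C := 1)
          (fun n h hh => by
            rw [Function.comp_apply, abs_of_nonneg (segF_mem p (hmask h hh) n x _).1]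
            exact (segF_mem p (hmask h hh) n x _).2)
          (hP.supp.mono fun h hh =>
            tendsto_segF p (hmask h hh) (conv_of_convAdj p (hmask h hh) (convAdj_mask hG S h)) x _)).congr
          fun n => expect_mask hv.chan hP hb0 hb1 (conn_br hG _ _ _ (hx.1 k (by omega))) S
            (loc_segF_full p n hx)
      refine le_of_tendsto' ht fun n => ?_
      have hβ1 : c0 * v ^ 2 ≤ 1 := hv.lower.trans (hv.upper.trans hv2)
      refine (seg_decay p (chan_chanOn hb0 hv.chan S) hx n hβ1 fun i hi m hm => ?_).trans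
        (pow_shift ?_ ?_ hcv2 (by linarith) k)
      · refine le_trans ?_ (site_le_m2 p (chan_chanOn hb0 hv.chan S) m _
          fun e he => p.adj_children e (Finset.mem_of_mem_erase he))
        rw [chanOn, if_pos (hS (i + 1) (by omega))]
        exact hv.lower
      · nlinarith [mul_le_mul_of_nonneg_left hβ1 (by linarith : (0:ℝ) ≤ 1 - θ ^ 2), sq_nonneg θ]
      · nlinarith [mul_le_mul_of_nonneg_right hc1' (sq_nonneg v)]

theorem stat_avg (hG : G.IsTree) (hd : 3 ≤ d) (hdeg : ∀ v, G.degree v = d) (h0 : 0 ≤ θ)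
    (hcrit : ((d : ℝ) - 1) * θ ^ 2 = 1) (hb0 : 0 ≤ b) (hb1 : b < 1) (hc0 : 0 < c0) :
    StatAvgProp G θ b c0 := by
  have p : Par G θ b d := ⟨hG, hdeg, hd, h0, hcrit, hb0, hb1⟩
  have := p.countable
  have hθ := p.sq_lt_one
  obtain ⟨Cs, κ, hCs, hκ, hser⟩ := tail_series
  set C0 := 2 / (1 - θ ^ 2) with hC0
  have hC0pos : 0 < C0 := div_pos two_pos (by linarith)
  have hC01 : 1 ≤ C0 := by rw [hC0, le_div_iff₀ (by linarith)]; linarith [sq_nonneg θ]
  set c := min (min ((1 - θ ^ 2) * (θ ^ 2 * lowConst d θ b c0)) κ) (1 / 2) with hcdef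
  have hc : 0 < c := lt_min (lt_min (mul_pos (by linarith) (mul_pos p.sq_pos (lowConst_pos p hc0)))
    hκ) (by norm_num)
  have hc1 : c ≤ (1 - θ ^ 2) * (θ ^ 2 * lowConst d θ b c0) :=
    (min_le_left _ _).trans (min_le_left _ _)
  have hc1' : c ≤ κ := (min_le_left _ _).trans (min_le_right _ _)
  have hc2 : c ≤ 1 / 2 := min_le_right _ _
  refine ⟨C0 ^ 2 + Cs + (6 + 4 * C0 / c), c, by positivity, hc, hc2, fun v ν P hv hP x y hxy => ?_⟩
  have := hv.chan.prob
  have := hP.prob
  have hcv : c * v ≤ 1 / 2 := le_trans (mul_le_of_le_one_right hc.le hv.le_one) hc2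
  have hcv0 : 0 < c * v := mul_pos hc hv.pos
  have hq0 : 0 ≤ 1 - c * v := by linarith
  obtain ⟨N, hN⟩ := aP_bound p hv hc0 hc.le hc1 hc2
  have hpos : 0 ≤ 6 + 4 * C0 / c := by positivity
  refine ⟨fun i => ?_, fun i j => ?_, fun M hM => ?_⟩
  · refine (le_of_tendsto (tendsto_ex_aP p hv hP i hxy)
      (eventually_atTop.2 ⟨N, fun n hn => hN n hn i x y hxy⟩)).trans ?_
    refine mul_le_mul_of_nonneg_right ?_ (pow_nonneg hq0 i)
    nlinarith
  · refine (le_of_tendsto (tendsto_ex_two p hv hP i j hxy) (b := C0 ^ 2 * (1 - c * v) ^ (i + j))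
      (eventually_atTop.2 ⟨N, fun n hn => ?_⟩)).trans ?_
    · refine (mul_le_mul (hN n hn i x y hxy) (hN n hn j y x hxy.symm)
        (ex_nonneg p (fun _ => hv.chan) hxy.symm (loc_aP' p n j hxy.symm)
          fun h hh => (aP_mem p hh n j y x).1)
        (mul_nonneg hC0pos.le (pow_nonneg hq0 i))).trans (le_of_eq ?_)
      rw [pow_add, ← hC0]; ring
    · exact mul_le_mul_of_nonneg_right (by linarith) (pow_nonneg hq0 _)
  · have hMv : 1 ≤ (M : ℝ) / v := by
      rw [le_div_iff₀ hv.pos, one_mul]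
      exact hv.le_one.trans (by exact_mod_cast hM)
    set J := ⌈(M : ℝ) / v⌉₊ with hJ
    have hJ1 : (M : ℝ) / v ≤ J := Nat.le_ceil _
    have hJ2 : (J : ℝ) ≤ 2 * ((M : ℝ) / v) := by
      linarith [Nat.ceil_lt_add_one (zero_le_one.trans hMv)]
    set E : ℕ → Set (V → ℝ) := fun k => {h | 1 / (((2 * J + k : ℕ) : ℝ) + 1) ^ 2 +
      2 * (C0 * (1 - c * v) ^ (2 * J + k - (2 * J + k) / 2)) ≤ avgProd G θ h (2 * J + k) x y}
    set B0 : Set (V → ℝ) := {h | ∃ u, b < |h u|} with hB0
    have hB0m : MeasurableSet B0 := by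
      rw [hB0, Set.ofPred_exists]
      exact MeasurableSet.iUnion fun u =>
        measurableSet_lt measurable_const (measurable_pi_apply u).abs
    refine ⟨B0 ∪ ⋃ k, E k, hB0m.union (MeasurableSet.iUnion fun k =>
      measurableSet_le measurable_const (measurable_avgProd _ x y)), ?_, fun h hh n => ?_⟩
    · have hz : P.real B0 = 0 := by
        rw [measureReal_eq_zero_iff]
        have hsub : B0 ⊆ {h : V → ℝ | ¬ ∀ u, |h u| ≤ b} := fun h hh hall => by
          obtain ⟨u, hu⟩ := hh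
          exact absurd (hall u) (not_le.2 hu)
        exact measure_mono_null hsub (ae_iff.1 hP.supp)
      have hE : ∀ k, P.real (E k) ≤
          Real.exp (-((2 : ℝ) ^ ((2 * J + k) / 2) / (((2 * J + k : ℕ) : ℝ) + 1) ^ 2)) := fun k => by
        have h := tail_event p hv hc0 hP hc.le hc1 hc2 (2 * J + k - (2 * J + k) / 2)
          ((2 * J + k) / 2) hxy (s := 1 / (((2 * J + k : ℕ) : ℝ) + 1) ^ 2) (by positivity)
        rw [Nat.sub_add_cancel (Nat.div_le_self _ _), mul_one_div] at h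
        exact h
      obtain ⟨hsum, hle⟩ := hser J
      have hU : P.real (⋃ k, E k) ≤
          ∑' k, Real.exp (-((2 : ℝ) ^ ((2 * J + k) / 2) / (((2 * J + k : ℕ) : ℝ) + 1) ^ 2)) := by
        refine ENNReal.toReal_le_of_le_ofReal (tsum_nonneg fun k => (Real.exp_pos _).le) ?_
        rw [ENNReal.ofReal_tsum_of_nonneg (fun k => (Real.exp_pos _).le) hsum]
        refine (measure_iUnion_le _).trans (ENNReal.tsum_le_tsum fun k => ?_)
        rw [← ofReal_measureReal (measure_ne_top P (E k))]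
        exact ENNReal.ofReal_le_ofReal (hE k)
      refine (measureReal_union_le _ _).trans ?_
      rw [hz, zero_add]
      refine hU.trans (hle.trans (mul_le_mul (by linarith [sq_nonneg C0]) ?_ (Real.exp_pos _).le
        (by linarith [sq_nonneg C0])))
      rw [Real.exp_le_exp, neg_le_neg_iff]
      refine mul_le_mul hc1' (Real.rpow_le_rpow_of_exponent_le one_le_two ?_)
        (Real.rpow_nonneg zero_le_two _) hκ.le
      rw [mul_div_assoc]
      have := mul_le_mul hc2 hJ1 (by positivity) (by norm_num : (0:ℝ) ≤ 1 / 2)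
      linarith
    · simp only [Set.mem_union, Set.mem_iUnion, not_or, not_exists, hB0, Set.mem_ofPred_eq, not_lt,
        E, not_le] at hh
      obtain ⟨hbox, hE⟩ := hh
      set w := 1 - c * v / 2 with hw
      have hw0 : 0 ≤ w := by linarith
      have hw1 : w < 1 := by linarith
      have hterm : ∀ m, avgProd G θ h m x y ≤ (if m < 2 * J then (1 : ℝ) else 0) +
          (1 / ((m : ℝ) + 1) ^ 2 + 2 * C0 * w ^ m) := by
        intro m
        have hnn : 0 ≤ 1 / ((m : ℝ) + 1) ^ 2 + 2 * C0 * w ^ m := by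
          have := pow_nonneg hw0 m
          positivity
        by_cases hm : m < 2 * J
        · rw [if_pos hm]; linarith [(avgProd_mem p hbox m x y).2]
        · rw [if_neg hm, zero_add]
          have hk := (hE (m - 2 * J)).le
          rw [show 2 * J + (m - 2 * J) = m by omega] at hk
          refine hk.trans (add_le_add le_rfl ?_)
          rw [← mul_assoc]
          refine mul_le_mul_of_nonneg_left ?_ (by positivity)
          calc (1 - c * v) ^ (m - m / 2) ≤ (w ^ 2) ^ (m - m / 2) :=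
                pow_le_pow_left₀ hq0 (by rw [hw]; nlinarith [sq_nonneg (c * v)]) _
            _ = w ^ (2 * (m - m / 2)) := (pow_mul _ _ _).symm
            _ ≤ w ^ m := pow_le_pow_of_le_one hw0 hw1.le (by omega)
      have hbool : ∑ m ∈ Finset.range n, (if m < 2 * J then (1 : ℝ) else 0) ≤ 2 * J := by
        rw [Finset.sum_boole]
        have : ((Finset.range n).filter fun m => m < 2 * J).card ≤ 2 * J :=
          (Finset.card_le_card (t := Finset.range (2 * J)) fun m hm => by
            simp only [Finset.mem_filter] at hm; simpa using hm.2).trans_eq (Finset.card_range _)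
        exact_mod_cast this
      have hgeo : ∑ m ∈ Finset.range n, 2 * C0 * w ^ m ≤ 4 * C0 / c * ((M : ℝ) / v) := by
        rw [← Finset.mul_sum]
        refine (mul_le_mul_of_nonneg_left (sum_pow_le hw0 hw1 n) (by positivity)).trans ?_
        have e : 2 * C0 * (1 / (1 - w)) = 4 * C0 / c * (1 / v) := by
          rw [hw, sub_sub_cancel]
          have := hv.pos.ne'
          have := hc.ne'
          field_simp
          ring
        rw [e]
        refine mul_le_mul_of_nonneg_left (div_le_div_of_nonneg_right ?_ hv.pos.le) (by positivity)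
        exact_mod_cast hM
      refine (Finset.sum_le_sum fun m _ => hterm m).trans ?_
      rw [Finset.sum_add_distrib, Finset.sum_add_distrib, mul_div_assoc]
      have h2 := sum_inv_succ_sq_le n
      have : 0 ≤ (C0 ^ 2 + Cs) * ((M : ℝ) / v) := mul_nonneg (by positivity) (zero_le_one.trans hMv)
      linarith

theorem stat_psi (hG : G.IsTree) (hd : 3 ≤ d) (hdeg : ∀ v, G.degree v = d) (h0 : 0 ≤ θ)
    (hcrit : ((d : ℝ) - 1) * θ ^ 2 = 1) (hb0 : 0 ≤ b) (hb1 : b < 1) :
    StatPsiProp G θ b c0 := by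
  have p : Par G θ b d := ⟨hG, hdeg, hd, h0, hcrit, hb0, hb1⟩
  have := p.countable
  obtain ⟨o⟩ := hG.connected.nonempty
  obtain ⟨o', ho'⟩ : (G.neighborFinset o).Nonempty := by
    rw [← Finset.card_pos, card_neighborFinset_eq_degree, hdeg]; omega
  have hoo : G.Adj o o' := p.adj_of_mem ho'
  set L := psiBound d θ b with hL
  have hL0 := psiBound_nonneg p
  refine ⟨(2 * L) ^ 2 + 1, by positivity, fun v ν P hv hP =>
    ⟨∫ h, avgPsi G θ h 0 o o' ∂P, fun x y hxy j => ?_⟩⟩
  have := hv.chan.prob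
  set m := fun n => ex G θ (fun _ => ν) (br G n o o') (aS G θ n 0 o o') with hm
  have hmL : ∀ n, |m n| ≤ L := fun n =>
    abs_ex_le p (fun _ => hv.chan) hoo (loc_aS p n 0 o o' hoo) fun h hh => abs_aS_le p hh n 0 o o'
  have hm0 : Tendsto m atTop (𝓝 (∫ h, avgPsi G θ h 0 o o' ∂P)) :=
    (tendsto_box hP (fun n => (loc_aS p n 0 o o' hoo).meas) (C := L)
      (fun n h hh => abs_aS_le p hh n 0 o o')
      ((ae_conv p hv.chan hP).mono fun h ⟨hh, hc⟩ => tendsto_aS p hh hc 0 o o')).congr fun n =>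
        expect_univ hv.chan hP hb0 (conn_br hG n o o' hoo) (loc_aS p n 0 o o' hoo)
  have hsq : ∀ n a, |a| ≤ L → |(a - m n) ^ 2| ≤ (2 * L) ^ 2 := fun n a ha => by
    rw [abs_pow]
    exact pow_le_pow_left₀ (abs_nonneg _) ((abs_sub _ _).trans (by linarith [hmL n])) 2
  have ht : Tendsto (fun n => ex G θ (fun _ => ν) (br G (n + j) x y)
      fun h => (aS G θ n j x y h - m n) ^ 2) atTop
      (𝓝 (∫ h, (avgPsi G θ h j x y - ∫ k, avgPsi G θ k 0 o o' ∂P) ^ 2 ∂P)) :=
    (tendsto_box hP (fun n => ((loc_aS p n j x y hxy).meas.sub_const _).pow_const 2)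
      (C := (2 * L) ^ 2) (fun n h hh => hsq n _ (abs_aS_le p hh n j x y))
      ((ae_conv p hv.chan hP).mono fun h ⟨hh, hc⟩ =>
        ((tendsto_aS p hh hc j x y).sub hm0).pow 2)).congr fun n =>
      expect_univ hv.chan hP hb0 (conn_br hG (n + j) x y hxy)
        (((loc_aS p n j x y hxy).sub (Loc.const b _ (m n))).pow 2)
  refine (le_of_tendsto' ht fun n => (aS_var (ν := fun _ : V => ν) p (fun _ => hv.chan)
    (fun a e hae => psi_same p (fun _ => hv.chan) (fun _ _ => rfl) n hae hoo)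
    (fun a ha => (le_abs_self _).trans (hsq n _ (abs_psi_le p ha))) j x y hxy).2).trans ?_
  rw [mul_comm]
  exact mul_le_mul_of_nonneg_right (by linarith) (pow_nonneg h0 _)

end Vale.Agent.P161.Crit
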