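import Vale.Agent.P161.Bridge
import Vale.Agent.P161.Crit.PairUniq
import Vale.Agent.P161.Crit.PairInc
import Vale.Agent.P161.Crit.Stat

/-!
The free Ising state on a regular tree is a factor of IID up to and including the threshold.
-/

namespace Vale.Agent.P161.Crit

open MeasureTheory
open scoped unitInterval

variable {V : Type*} [Countable V]

/-- The one-copy estimates hold at every level at the threshold. -/
theorem statAll [DecidableEq V] {G : SimpleGraph V} [G.LocallyFinite] (hG : G.IsTree)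
    {d : ℕ} (hd : 3 ≤ d) (hreg : ∀ v, G.degree v = d) {θ ε : ℝ} (h0 : 0 ≤ θ)
    (hθ : ((d : ℝ) - 1) * θ ^ 2 = 1) (hε : 0 < ε) (hε1 : ε < 1) : StatAll G θ ε :=
  have hb := fun k => fieldBound_nonneg hε.le hε1 k
  have hb' := fun k => fieldBound_lt_one hε1 k
  have hc := chanC0_pos hε
  ⟨fun k => stat_conv G hG hd hreg h0 hθ (hb k) (hb' k),
    fun k => stat_second G hG hd hreg h0 hθ (hb k) (hb' k) hc,
    fun k => stat_high G hG hd hreg h0 hθ (hb k) (hb' k),
    fun k => stat_seg G hG hd hreg h0 hθ (hb k) (hb' k) hc,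
    fun k => stat_avg G hG hd hreg h0 hθ (hb k) (hb' k) hc,
    fun k => stat_psi G hG hd hreg h0 hθ (hb k) (hb' k)⟩

/-- For `(d - 1) θ ^ 2 ≤ 1` the free state is a factor of one uniform variable per vertex. -/
theorem exists_factor_le [DecidableEq V] {G : SimpleGraph V} [G.LocallyFinite] (hG : G.IsTree)
    {d : ℕ} (hd : 3 ≤ d) (hreg : ∀ v, G.degree v = d) {θ : ℝ} (h0 : 0 ≤ θ)
    (hθ : ((d : ℝ) - 1) * θ ^ 2 ≤ 1) :
    ∃ Φ : (V → I) → V → Bool, Measurable Φ ∧
      (∀ (φ : G ≃g G) (ω : V → I),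
        Φ (fun v => ω (φ.symm v)) = fun v => Φ ω (φ.symm v)) ∧
      ∀ D : Finset V, Conn G D → ∀ b : V → Bool,
        (Measure.infinitePi fun _ : V => (volume : Measure I)).real
            {ω | ∀ u ∈ D, Φ ω u = b u} = wt G θ D (D.filter fun u => b u = true) := by
  rcases hθ.lt_or_eq with h | h
  · exact exists_factor hG hd hreg h0 h
  · obtain ⟨o⟩ := hG.connected.nonempty
    have hs := statAll (ε := 1 / 4) hG hd hreg h0 h (by norm_num) (by norm_num)
    exact exists_factor_of_estimates o hG hd hreg h0 h (by norm_num) (by norm_num) hs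
      (inc hG hd hreg h0 h (by norm_num) le_rfl o hs.conv hs.seg)
      (limit_mean hG hd h0 h (by norm_num) le_rfl o hs.conv)

end Vale.Agent.P161.Crit
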