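import Vale.Agent.P161.Crit.Innov

/-!
Two copies of the observations, conditionally independent given the rankings and the limiting
innovations: marginals, common innovations, invariance, and the transfer of a resampling
invariance of one copy to both copies.
-/

namespace Vale.Agent.P161.Crit

open MeasureTheory ProbabilityTheory
open scoped unitInterval ENNReal

/-- Rankings and observations. -/
abbrev Conf (V : Type*) : Type _ := (ℕ × V → I) × (ℕ × V → Obs)

/-- Rankings and innovations. -/
abbrev Noise (V : Type*) : Type _ := (ℕ × V → I) × (ℕ × V → I)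

variable {V : Type*} [DecidableEq V] [Countable V] {G : SimpleGraph V} [G.LocallyFinite] {θ ε : ℝ}

instance : Nonempty (Conf V) := ⟨(fun _ => 0, zInit)⟩

/-- The law of rankings and observations given rankings and innovations. -/
noncomputable def kap (G : SimpleGraph V) [G.LocallyFinite] (θ ε : ℝ) (o : V) :
    Kernel (Noise V) (Conf V) :=
  condDistrib id (toPQ G θ ε) (PZ G θ ε o)

instance (o : V) : IsMarkovKernel (kap G θ ε o) := by unfold kap; infer_instance

/-- Two copies with common rankings and innovations, conditionally independent given these. -/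
noncomputable def P2 (G : SimpleGraph V) [G.LocallyFinite] (θ ε : ℝ) (o : V) :
    Measure (Conf V × Conf V) :=
  (kap G θ ε o ×ₖ kap G θ ε o) ∘ₘ PR V

instance (o : V) : IsProbabilityMeasure (P2 G θ ε o) := by unfold P2; infer_instance

lemma P2_prod (o : V) {A B : Set (Conf V)} (hA : MeasurableSet A) (hB : MeasurableSet B) :
    P2 G θ ε o (A ×ˢ B) = ∫⁻ y, kap G θ ε o y A * kap G θ ε o y B ∂(PR V) := by
  rw [P2, Measure.bind_apply (hA.prod hB) (Kernel.measurable _).aemeasurable]
  simp [Kernel.prod_apply, Measure.prod_prod]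

variable (hG : G.IsTree) (h0 : 0 ≤ θ) (h1 : θ < 1) (hε : 0 ≤ ε) (hε1 : ε < 1) (o : V)
include hG h0 h1 hε hε1

lemma compProd_kap :
    PR V ⊗ₘ kap G θ ε o = (PZ G θ ε o).map fun ω => (toPQ G θ ε ω, ω) := by
  conv_lhs => rw [← map_toPQ hG h0 h1 hε hε1 o]
  exact compProd_map_condDistrib aemeasurable_id

lemma setLIntegral_kap {A : Set (Conf V)} (hA : MeasurableSet A) {C : Set (Noise V)}
    (hC : MeasurableSet C) :
    ∫⁻ y in C, kap G θ ε o y A ∂(PR V) = PZ G θ ε o (toPQ G θ ε ⁻¹' C ∩ A) := by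
  rw [← Measure.compProd_apply_prod hC hA, compProd_kap hG h0 h1 hε hε1 o,
    Measure.map_apply (measurable_toPQ.prodMk measurable_id') (hC.prod hA)]
  rfl

lemma lintegral_kap {A : Set (Conf V)} (hA : MeasurableSet A) :
    ∫⁻ y, kap G θ ε o y A ∂(PR V) = PZ G θ ε o A := by
  simpa using setLIntegral_kap hG h0 h1 hε hε1 o hA MeasurableSet.univ

/-- The kernel is carried by the fibre. -/
lemma kap_inter {A : Set (Conf V)} (hA : MeasurableSet A) {C : Set (Noise V)}
    (hC : MeasurableSet C) :
    (fun y => kap G θ ε o y (toPQ G θ ε ⁻¹' C ∩ A)) =ᵐ[PR V]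
      C.indicator fun y => kap G θ ε o y A := by
  refine ae_eq_of_forall_setLIntegral_eq_of_sigmaFinite
    (Kernel.measurable_coe _ ((measurable_toPQ hC).inter hA))
    ((Kernel.measurable_coe _ hA).indicator hC) fun D hD _ => ?_
  rw [setLIntegral_kap hG h0 h1 hε hε1 o ((measurable_toPQ hC).inter hA) hD,
    setLIntegral_indicator hC, setLIntegral_kap hG h0 h1 hε hε1 o hA (hC.inter hD)]
  congr 1
  ext ω
  simp only [Set.mem_inter_iff, Set.mem_preimage]
  tauto

lemma P2_map_fst : (P2 G θ ε o).map Prod.fst = PZ G θ ε o := by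
  refine Measure.ext fun A hA => ?_
  rw [Measure.map_apply measurable_fst hA, ← Set.prod_univ, P2_prod o hA MeasurableSet.univ]
  simp [lintegral_kap hG h0 h1 hε hε1 o hA]

lemma P2_map_snd : (P2 G θ ε o).map Prod.snd = PZ G θ ε o := by
  refine Measure.ext fun A hA => ?_
  rw [Measure.map_apply measurable_snd hA, ← Set.univ_prod, P2_prod o MeasurableSet.univ hA]
  simp [lintegral_kap hG h0 h1 hε hε1 o hA]

lemma ae_fst {p : Conf V → Prop} (h : ∀ᵐ ω ∂(PZ G θ ε o), p ω) :
    ∀ᵐ w ∂(P2 G θ ε o), p w.1 :=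
  ae_of_ae_map measurable_fst.aemeasurable (by rwa [P2_map_fst hG h0 h1 hε hε1 o])

lemma ae_snd {p : Conf V → Prop} (h : ∀ᵐ ω ∂(PZ G θ ε o), p ω) :
    ∀ᵐ w ∂(P2 G θ ε o), p w.2 :=
  ae_of_ae_map measurable_snd.aemeasurable (by rwa [P2_map_snd hG h0 h1 hε hε1 o])

/-- The two copies have the same rankings and innovations. -/
lemma ae_toPQ_eq : ∀ᵐ w ∂(P2 G θ ε o), toPQ G θ ε w.1 = toPQ G θ ε w.2 := by
  have hm : Measurable fun w : Conf V × Conf V => (toPQ G θ ε w.1, toPQ G θ ε w.2) :=
    (measurable_toPQ.comp measurable_fst).prodMk (measurable_toPQ.comp measurable_snd)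
  have hd : Measurable fun y : Noise V => (y, y) := measurable_id.prodMk measurable_id
  have e : (P2 G θ ε o).map (fun w => (toPQ G θ ε w.1, toPQ G θ ε w.2)) =
      (PR V).map fun y => (y, y) := by
    refine Measure.ext_prod fun {C C'} hC hC' => ?_
    rw [Measure.map_apply hm (hC.prod hC'), Measure.map_apply hd (hC.prod hC')]
    show P2 G θ ε o ((toPQ G θ ε ⁻¹' C) ×ˢ (toPQ G θ ε ⁻¹' C')) = PR V (C ∩ C')
    rw [P2_prod o (measurable_toPQ hC) (measurable_toPQ hC'), ← lintegral_indicator_one (hC.inter hC')]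
    refine lintegral_congr_ae ?_
    filter_upwards [kap_inter hG h0 h1 hε hε1 o MeasurableSet.univ hC,
      kap_inter hG h0 h1 hε hε1 o MeasurableSet.univ hC'] with y e1 e2
    simp only [Set.inter_univ] at e1 e2
    rw [e1, e2]
    by_cases a : y ∈ C <;> by_cases b : y ∈ C' <;> simp [a, b]
  have hs : MeasurableSet {p : Noise V × Noise V | p.1 = p.2} :=
    measurableSet_eq_fun measurable_fst measurable_snd
  refine ae_of_ae_map (p := fun p : Noise V × Noise V => p.1 = p.2) hm.aemeasurable ?_
  rw [e]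
  exact (ae_map_iff hd.aemeasurable hs).2 (ae_of_all _ fun y => rfl)

/-- Invariance of the pair under a symmetry of one copy. -/
lemma P2_symmetry {E : Conf V → Conf V} {Ey Ey' : Noise V → Noise V}
    (hE : MeasurePreserving E (PZ G θ ε o) (PZ G θ ε o)) (hEy : Measurable Ey)
    (hEy' : Measurable Ey') (hleft : ∀ y, Ey' (Ey y) = y)
    (heq : ∀ ω, toPQ G θ ε (E ω) = Ey (toPQ G θ ε ω)) :
    MeasurePreserving (Prod.map E E) (P2 G θ ε o) (P2 G θ ε o) := by
  have hPR : (PR V).map Ey = PR V := by
    conv_lhs => rw [← map_toPQ hG h0 h1 hε hε1 o, Measure.map_map hEy measurable_toPQ]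
    conv_rhs => rw [← map_toPQ hG h0 h1 hε hε1 o, ← hE.map_eq,
      Measure.map_map measurable_toPQ hE.measurable]
    congr 1
    funext ω
    exact (heq ω).symm
  have hk : ∀ A, MeasurableSet A → (fun y => kap G θ ε o (Ey y) A) =ᵐ[PR V]
      fun y => kap G θ ε o y (E ⁻¹' A) := by
    intro A hA
    refine ae_eq_of_forall_setLIntegral_eq_of_sigmaFinite
      ((Kernel.measurable_coe _ hA).comp hEy) (Kernel.measurable_coe _ (hE.measurable hA))
      fun C hC _ => ?_
    have eC : C = Ey ⁻¹' (Ey' ⁻¹' C) := by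
      ext y
      simp [hleft]
    conv_lhs => rw [eC, ← setLIntegral_map (hEy' hC) (Kernel.measurable_coe _ hA) hEy, hPR]
    rw [setLIntegral_kap hG h0 h1 hε hε1 o hA (hEy' hC),
      setLIntegral_kap hG h0 h1 hε hε1 o (hE.measurable hA) hC,
      ← hE.measure_preimage ((measurable_toPQ (hEy' hC)).inter hA).nullMeasurableSet]
    congr 1
    ext ω
    simp [heq, hleft]
  refine ⟨hE.measurable.prodMap hE.measurable, Measure.ext_prod fun {A B} hA hB => ?_⟩
  have hm : Measurable fun y => kap G θ ε o y A * kap G θ ε o y B :=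
    (Kernel.measurable_coe _ hA).mul (Kernel.measurable_coe _ hB)
  have e : Prod.map E E ⁻¹' (A ×ˢ B) = (E ⁻¹' A) ×ˢ (E ⁻¹' B) := rfl
  rw [Measure.map_apply (hE.measurable.prodMap hE.measurable) (hA.prod hB), e,
    P2_prod o (hE.measurable hA) (hE.measurable hB), P2_prod o hA hB]
  conv_rhs => rw [← hPR, lintegral_map hm hEy]
  refine lintegral_congr_ae ?_
  filter_upwards [hk A hA, hk B hB] with y e1 e2
  rw [e1, e2]

/-- Integration against the conditional law. -/
lemma integral_kap_mul {A : Set (Conf V)} (hA : MeasurableSet A) {φ : Noise V → ℝ}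
    (hφ : Measurable φ) {C : ℝ} (hC : ∀ y, |φ y| ≤ C) :
    ∫ ω, A.indicator (fun _ => (1 : ℝ)) ω * φ (toPQ G θ ε ω) ∂(PZ G θ ε o) =
      ∫ y, (kap G θ ε o y).real A * φ y ∂(PR V) := by
  have hf : Measurable fun p : Noise V × Conf V =>
      A.indicator (fun _ => (1 : ℝ)) p.2 * φ p.1 :=
    ((measurable_const.indicator hA).comp measurable_snd).mul (hφ.comp measurable_fst)
  have hb : ∀ p : Noise V × Conf V, |A.indicator (fun _ => (1 : ℝ)) p.2 * φ p.1| ≤ C := fun p => by
    rw [abs_mul]
    refine (mul_le_of_le_one_left (abs_nonneg _) ?_).trans (hC _)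
    by_cases h : p.2 ∈ A <;> simp [h]
  have e : ∫ p, A.indicator (fun _ => (1 : ℝ)) p.2 * φ p.1 ∂(PR V ⊗ₘ kap G θ ε o) =
      ∫ ω, A.indicator (fun _ => (1 : ℝ)) ω * φ (toPQ G θ ε ω) ∂(PZ G θ ε o) := by
    rw [compProd_kap hG h0 h1 hε hε1 o]
    exact integral_map (measurable_toPQ.prodMk measurable_id).aemeasurable hf.aestronglyMeasurable
  rw [← e, Measure.integral_compProd (integrable_of_bounded hf hb)]
  refine integral_congr_ae (ae_of_all _ fun y => ?_)
  simp only
  rw [integral_mul_const, integral_indicator_const (1 : ℝ) hA]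
  simp

/-- If resampling the noise by `τ` leaves the joint law of `m ω` and the noise of one copy
unchanged, the same holds for the pair. -/
lemma P2_resample {β : Type*} [MeasurableSpace β] {m : Conf V → β} (hm : Measurable m)
    {τ : Noise V × I → Noise V} (hτ : Measurable τ)
    (hτP : ((PR V).prod (volume : Measure I)).map τ = PR V)
    (hH : (PZ G θ ε o).map (fun ω => (m ω, toPQ G θ ε ω)) =
      ((PZ G θ ε o).prod (volume : Measure I)).map
        fun p => (m p.1, τ (toPQ G θ ε p.1, p.2))) :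
    (P2 G θ ε o).map (fun w => (m w.1, m w.2, toPQ G θ ε w.1)) =
      ((P2 G θ ε o).prod (volume : Measure I)).map
        fun p => (m p.1.1, m p.1.2, τ (toPQ G θ ε p.1.1, p.2)) := by
  set Q : Measure (Noise V × I) := (PR V).prod volume with hQ
  have hτ' : ∀ {F : Noise V → ℝ}, Measurable F → ∫ p, F (τ p) ∂Q = ∫ y, F y ∂(PR V) := fun {F} hF => by
    conv_rhs => rw [← hτP, integral_map hτ.aemeasurable hF.aestronglyMeasurable]
  have hinv : ∀ A, MeasurableSet A →
      (fun p => kap G θ ε o (τ p) (m ⁻¹' A)) =ᵐ[Q] fun p => kap G θ ε o p.1 (m ⁻¹' A) := by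
    intro A hA
    set f : Noise V → ℝ := fun y => (kap G θ ε o y).real (m ⁻¹' A) with hfdef
    have hfm : Measurable f := (Kernel.measurable_coe _ (hm hA)).ennreal_toReal
    have hfb : ∀ y, |f y| ≤ 1 := fun y => by
      rw [abs_of_nonneg measureReal_nonneg]; exact measureReal_le_one
    have key : ∀ {φ : Noise V → ℝ}, Measurable φ → (∀ y, |φ y| ≤ 1) →
        ∫ p, f p.1 * φ (τ p) ∂Q = ∫ y, f y * φ y ∂(PR V) := by
      intro φ hφ hφb
      have hgm : Measurable fun y => ∫ a, φ (τ (y, a)) ∂(volume : Measure I) :=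
        (hφ.comp hτ).stronglyMeasurable.integral_prod_right'.measurable
      have hgb : ∀ y, |∫ a, φ (τ (y, a)) ∂(volume : Measure I)| ≤ 1 := fun y =>
        abs_integral_le_of_bound fun a => hφb _
      have hi : Integrable (fun p : Noise V × I => f p.1 * φ (τ p)) Q :=
        integrable_of_bounded ((hfm.comp measurable_fst).mul (hφ.comp hτ)) (C := 1) fun p => by
          rw [abs_mul]; exact mul_le_one₀ (hfb _) (abs_nonneg _) (hφb _)
      rw [integral_prod _ hi]
      simp only [integral_const_mul]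
      rw [← integral_kap_mul hG h0 h1 hε hε1 o (hm hA) hgm hgb,
        ← integral_kap_mul hG h0 h1 hε hε1 o (hm hA) hφ hφb]
      have hFm : Measurable fun x : β × Noise V =>
          A.indicator (fun _ => (1 : ℝ)) x.1 * φ x.2 :=
        ((measurable_const.indicator hA).comp measurable_fst).mul (hφ.comp measurable_snd)
      have e := congrArg
        (fun μ : Measure (β × Noise V) => ∫ x, A.indicator (fun _ => (1 : ℝ)) x.1 * φ x.2 ∂μ) hH
      have hm2 : Measurable fun p : Conf V × I => (m p.1, τ (toPQ G θ ε p.1, p.2)) :=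
        (hm.comp measurable_fst).prodMk (hτ.comp
          ((measurable_toPQ.comp measurable_fst).prodMk measurable_snd))
      rw [integral_map (hm.prodMk measurable_toPQ).aemeasurable hFm.aestronglyMeasurable,
        integral_map hm2.aemeasurable hFm.aestronglyMeasurable, integral_prod] at e
      · simp only [integral_const_mul] at e
        exact e.symm
      · refine integrable_of_bounded (hFm.comp hm2) (C := 1) fun p => ?_
        rw [abs_mul]
        refine mul_le_one₀ ?_ (abs_nonneg _) (hφb _)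
        by_cases h : m p.1 ∈ A <;> simp [h]
    have hone : ∀ {φ : Noise V → ℝ}, Measurable φ → (∀ y, |φ y| ≤ 1) →
        ∫ p, φ p.1 ∂Q = ∫ y, φ y ∂(PR V) := fun {φ} hφ hφb => by
      rw [hQ, integral_prod _ (integrable_of_bounded (hφ.fun_comp measurable_fst) fun p => hφb _)]
      simp
    have hsq : Measurable fun y => f y * f y := hfm.mul hfm
    have hsqb : ∀ y, |f y * f y| ≤ 1 := fun y => by
      rw [abs_mul]; exact mul_le_one₀ (hfb y) (abs_nonneg _) (hfb y)
    have i1 : Integrable (fun p : Noise V × I => f (τ p) * f (τ p)) Q :=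
      integrable_of_bounded (hsq.comp hτ) fun p => hsqb _
    have i2 : Integrable (fun p : Noise V × I => f p.1 * f p.1) Q :=
      integrable_of_bounded (hsq.comp measurable_fst) fun p => hsqb _
    have i3 : Integrable (fun p : Noise V × I => f p.1 * f (τ p)) Q :=
      integrable_of_bounded ((hfm.comp measurable_fst).mul (hfm.comp hτ)) (C := 1) fun p => by
        rw [abs_mul]; exact mul_le_one₀ (hfb _) (abs_nonneg _) (hfb _)
    have e0 : ∫ p, (f (τ p) - f p.1) ^ 2 ∂Q = 0 := by
      have e : (fun p : Noise V × I => (f (τ p) - f p.1) ^ 2) =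
          fun p => f (τ p) * f (τ p) + f p.1 * f p.1 - 2 * (f p.1 * f (τ p)) := by
        funext p; ring
      rw [e, integral_sub (i1.fun_add i2) (i3.const_mul 2), integral_add i1 i2,
        integral_const_mul, hτ' (F := fun y => f y * f y) hsq,
        hone (φ := fun y => f y * f y) hsq hsqb, key hfm hfb]
      ring
    have hi : Integrable (fun p : Noise V × I => (f (τ p) - f p.1) ^ 2) Q :=
      integrable_of_bounded (((hfm.comp hτ).sub (hfm.comp measurable_fst)).pow_const 2) (C := 2 ^ 2)
        fun p => by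
          rw [abs_pow]
          exact pow_le_pow_left₀ (abs_nonneg _)
            ((abs_sub _ _).trans (by linarith [hfb (τ p), hfb p.1])) 2
    filter_upwards [(integral_eq_zero_iff_of_nonneg (fun p => sq_nonneg _) hi).1 e0] with p hp
    simp only [Pi.zero_apply, ne_eq, OfNat.ofNat_ne_zero, not_false_eq_true, pow_eq_zero_iff,
      sub_eq_zero, hfdef, measureReal_def] at hp
    exact (ENNReal.toReal_eq_toReal_iff' (measure_ne_top _ _) (measure_ne_top _ _)).1 hp
  have hmL : Measurable fun w : Conf V × Conf V => (m w.1, m w.2, toPQ G θ ε w.1) :=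
    (hm.comp measurable_fst).prodMk ((hm.comp measurable_snd).prodMk
      (measurable_toPQ.comp measurable_fst))
  have hmR : Measurable fun p : (Conf V × Conf V) × I =>
      (m p.1.1, m p.1.2, τ (toPQ G θ ε p.1.1, p.2)) :=
    (hm.comp (measurable_fst.comp measurable_fst)).prodMk
      ((hm.comp (measurable_snd.comp measurable_fst)).prodMk (hτ.comp
        ((measurable_toPQ.comp (measurable_fst.comp measurable_fst)).prodMk measurable_snd)))
  refine Measure.ext_prod₃ fun {A} {B} {C} hA hB hC => ?_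
  have hABC : MeasurableSet (A ×ˢ (B ×ˢ C)) := hA.prod (hB.prod hC)
  rw [Measure.map_apply hmL hABC, Measure.map_apply hmR hABC, Measure.prod_apply_symm (hmR hABC)]
  set k : Noise V → ℝ≥0∞ := fun y => kap G θ ε o y (m ⁻¹' A) * kap G θ ε o y (m ⁻¹' B)
  have hkm : Measurable k :=
    (Kernel.measurable_coe _ (hm hA)).mul (Kernel.measurable_coe _ (hm hB))
  have hrect : ∀ D : Set (Noise V), MeasurableSet D →
      P2 G θ ε o ((toPQ G θ ε ⁻¹' D ∩ m ⁻¹' A) ×ˢ (m ⁻¹' B)) =
        ∫⁻ y, D.indicator (fun _ => 1) y * k y ∂(PR V) := by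
    intro D hD
    rw [P2_prod o ((measurable_toPQ hD).inter (hm hA)) (hm hB)]
    refine lintegral_congr_ae ?_
    filter_upwards [kap_inter hG h0 h1 hε hε1 o (hm hA) hD] with y hy
    rw [hy]
    by_cases h : y ∈ D <;> simp [h, k]
  have eL : (fun w : Conf V × Conf V => (m w.1, m w.2, toPQ G θ ε w.1)) ⁻¹' (A ×ˢ (B ×ˢ C)) =
      (toPQ G θ ε ⁻¹' C ∩ m ⁻¹' A) ×ˢ (m ⁻¹' B) := by
    ext w
    simp only [Set.mem_preimage, Set.mem_prod, Set.mem_inter_iff]
    tauto
  have eR : ∀ a : I, (fun w : Conf V × Conf V => (w, a)) ⁻¹'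
      ((fun p : (Conf V × Conf V) × I => (m p.1.1, m p.1.2, τ (toPQ G θ ε p.1.1, p.2))) ⁻¹'
        (A ×ˢ (B ×ˢ C))) =
      (toPQ G θ ε ⁻¹' ((fun y => τ (y, a)) ⁻¹' C) ∩ m ⁻¹' A) ×ˢ (m ⁻¹' B) := by
    intro a
    ext w
    simp only [Set.mem_preimage, Set.mem_prod, Set.mem_inter_iff]
    tauto
  simp only [eR, eL, hrect C hC]
  have hF : Measurable fun p : Noise V × I => C.indicator (fun _ => (1 : ℝ≥0∞)) (τ p) * k p.1 :=
    ((measurable_const.indicator hC).comp hτ).mul (hkm.comp measurable_fst)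
  have hG' : Measurable fun y : Noise V => C.indicator (fun _ => (1 : ℝ≥0∞)) y * k y :=
    (measurable_const.indicator hC).mul hkm
  calc ∫⁻ y, C.indicator (fun _ => 1) y * k y ∂(PR V)
      = ∫⁻ p, C.indicator (fun _ => 1) (τ p) * k (τ p) ∂Q := by
        conv_lhs => rw [← hτP, lintegral_map hG' hτ]
    _ = ∫⁻ p, C.indicator (fun _ => 1) (τ p) * k p.1 ∂Q := by
        refine lintegral_congr_ae ?_
        filter_upwards [hinv A hA, hinv B hB] with p e1 e2
        simp only [k, e1, e2]
    _ = ∫⁻ a, ∫⁻ y, C.indicator (fun _ => 1) (τ (y, a)) * k y ∂(PR V) ∂(volume : Measure I) :=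
        lintegral_prod_symm _ hF.aemeasurable
    _ = _ := lintegral_congr fun a =>
        ((hrect _ ((hτ.comp measurable_prodMk_right) hC)).trans
          (lintegral_congr fun y => rfl)).symm

end Vale.Agent.P161.Crit
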