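import Vale.Agent.P161.Crit.PairJump
import Vale.Agent.P161.Crit.BootBase

/-!
Estimates in finite volume for the jumps of a time window: the squared differences of the jumps
of the two copies, the squared jumps of one copy, and the mixed terms.
-/

namespace Vale.Agent.P161.Crit

open MeasureTheory Function Filter
open scoped unitInterval Topology

variable {V : Type*}

/-- The site `s` is revealed during `[p1, p2)`. -/
def Win (p1 p2 : ℝ) (s : ℕ × V) (x : Conf V) : Prop :=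
  p1 ≤ (x.1 s : ℝ) ∧ (x.1 s : ℝ) < p2

noncomputable instance (p1 p2 : ℝ) (s : ℕ × V) (x : Conf V) : Decidable (Win p1 p2 s x) :=
  inferInstanceAs (Decidable (_ ∧ _))

lemma measurableSet_win (p1 p2 : ℝ) (s : ℕ × V) : MeasurableSet {x : Conf V | Win p1 p2 s x} :=
  have h : Measurable fun x : Conf V => ((x.1 s : I) : ℝ) :=
    measurable_subtype_coe.comp ((measurable_pi_apply s).comp measurable_fst)
  (measurableSet_le (measurable_const (a := p1)) h).inter
    (measurableSet_lt h (measurable_const (a := p2)))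

lemma emax_spec {ε : ℝ} (hε : 0 ≤ ε) {k : ℕ} {w : V} {R : ℕ × V → I} {p : ℝ}
    (h : (R (k, w) : ℝ) < p) : strength ε R (k, w) ≤ emax ε k p := by
  unfold strength emax
  split_ifs
  · exact mul_le_mul_of_nonneg_left h.le hε
  · exact le_rfl

lemma diag_alg {t e em a b m1 m2 μ1 μ2 J : ℝ} (ht0 : 0 ≤ t) (ht1 : t ≤ 1) (he0 : 0 ≤ e)
    (he1 : e ≤ 1) (hem : e ≤ em) (ha0 : 0 ≤ a) (ha1 : a ≤ 1) (hm1 : |m1| ≤ 1) (hm2 : |m2| ≤ 1)
    (hμ1 : |μ1| ≤ 1) (hμ2 : |μ2| ≤ 1)
    (hJ : J ≤ 1000 * e ^ 2 * ((b - a) ^ 2 + a ^ 2 * ((m2 - m1) ^ 2 + (μ2 - μ1) ^ 2))) :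
    t * J ≤ 2000 * em ^ 2 * (t * ((b - a) ^ 2 + (a ^ 2 + b ^ 2) * (m2 - m1) ^ 2)) +
      4000 * (|μ1 - m1| + |μ2 - m2|) := by
  set δ := |μ1 - m1| + |μ2 - m2|
  have hδ0 : 0 ≤ δ := add_nonneg (abs_nonneg _) (abs_nonneg _)
  have hd1 : |(μ2 - μ1) - (m2 - m1)| ≤ δ := by
    rw [show (μ2 - μ1) - (m2 - m1) = (μ2 - m2) - (μ1 - m1) by ring]
    exact (abs_sub _ _).trans_eq (add_comm _ _)
  have hd2 : |(μ2 - μ1) + (m2 - m1)| ≤ 4 := by
    obtain ⟨c1, c2⟩ := abs_le.1 hm1
    obtain ⟨c3, c4⟩ := abs_le.1 hm2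
    obtain ⟨c5, c6⟩ := abs_le.1 hμ1
    obtain ⟨c7, c8⟩ := abs_le.1 hμ2
    rw [abs_le]; constructor <;> linarith
  have h3 := mul_le_mul hd1 hd2 (abs_nonneg _) hδ0
  rw [← abs_mul] at h3
  have hδ : (μ2 - μ1) ^ 2 ≤ (m2 - m1) ^ 2 + 4 * δ := by
    have := le_abs_self (((μ2 - μ1) - (m2 - m1)) * ((μ2 - μ1) + (m2 - m1)))
    nlinarith
  have ha2 : a ^ 2 ≤ 1 := pow_le_one₀ ha0 ha1
  have s1 : (b - a) ^ 2 + a ^ 2 * ((m2 - m1) ^ 2 + (μ2 - μ1) ^ 2) ≤
      2 * ((b - a) ^ 2 + (a ^ 2 + b ^ 2) * (m2 - m1) ^ 2) + 4 * δ := by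
    have := mul_le_mul_of_nonneg_left hδ (sq_nonneg a)
    have := mul_le_of_le_one_left hδ0 ha2
    have := mul_nonneg (sq_nonneg b) (sq_nonneg (m2 - m1))
    have := sq_nonneg (b - a)
    linarith
  have hD : 0 ≤ (b - a) ^ 2 + (a ^ 2 + b ^ 2) * (m2 - m1) ^ 2 := by positivity
  calc t * J ≤ t * (1000 * e ^ 2 *
        (2 * ((b - a) ^ 2 + (a ^ 2 + b ^ 2) * (m2 - m1) ^ 2) + 4 * δ)) :=
        mul_le_mul_of_nonneg_left (hJ.trans (mul_le_mul_of_nonneg_left s1 (by positivity))) ht0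
    _ = e ^ 2 * (2000 * (t * ((b - a) ^ 2 + (a ^ 2 + b ^ 2) * (m2 - m1) ^ 2))) +
          t * e ^ 2 * (4000 * δ) := by ring
    _ ≤ em ^ 2 * (2000 * (t * ((b - a) ^ 2 + (a ^ 2 + b ^ 2) * (m2 - m1) ^ 2))) +
          1 * (4000 * δ) :=
        add_le_add (mul_le_mul_of_nonneg_right (pow_le_pow_left₀ he0 hem 2) (by positivity))
          (mul_le_mul_of_nonneg_right (mul_le_one₀ ht1 (sq_nonneg e) (pow_le_one₀ he0 he1))
            (by positivity))
    _ = _ := by ring

variable [DecidableEq V]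

lemma measurable_maskField2 (S : Finset V) (k : ℕ) {ε : ℝ} :
    Measurable fun z : ℝ × Conf V => mask S (stF ε k z.1 z.2) := by
  refine (measurable_mask S).comp (measurable_pi_lambda _ fun v => ?_)
  have hterm : ∀ j, Measurable fun z : ℝ × Conf V =>
      strength ε z.2.1 (j, v) * (z.2.2 (j, v) : ℝ) := fun j =>
    ((measurable_strengthR (j, v)).comp (measurable_fst.comp measurable_snd)).mul
      (measurable_subtype_coe.comp ((measurable_pi_apply (j, v)).comp
        (measurable_snd.comp measurable_snd)))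
  have e : (fun z : ℝ × Conf V => stF ε k z.1 z.2 v) = fun z =>
      if (z.2.1 (k, v) : ℝ) < z.1 then
        cmb (Finset.range (k + 1)) (fun j => strength ε z.2.1 (j, v) * (z.2.2 (j, v) : ℝ))
      else cmb (Finset.range k) (fun j => strength ε z.2.1 (j, v) * (z.2.2 (j, v) : ℝ)) := by
    funext z; unfold stF field levels; split_ifs <;> rfl
  rw [e]
  exact Measurable.ite (measurableSet_lt (measurable_subtype_coe.comp
    ((measurable_pi_apply (k, v)).comp (measurable_fst.comp measurable_snd))) measurable_fst)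
    (measurable_cmb _ hterm) (measurable_cmb _ hterm)

lemma measurable_pairN2 (S : Finset V) (k : ℕ) {ε : ℝ} :
    Measurable fun z : ℝ × Conf V × Conf V => pairN ε S k z.1 (z.2.1, z.2.2) :=
  ((measurable_maskField2 S k).comp (f := fun z : ℝ × Conf V × Conf V => (z.1, z.2.1))
    (measurable_fst.prodMk (measurable_fst.comp measurable_snd))).prodMk
  ((measurable_maskField2 S k).comp (f := fun z : ℝ × Conf V × Conf V => (z.1, z.2.2))
    (measurable_fst.prodMk (measurable_snd.comp measurable_snd)))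

lemma measurable_pairN (S : Finset V) (k : ℕ) (p : ℝ) {ε : ℝ} :
    Measurable (pairN (V := V) ε S k p) :=
  (measurable_pairN2 S k).comp (f := fun u : Conf V × Conf V => (p, u.1, u.2)) measurable_prodMk_left

lemma pairN_timeM {ε : ℝ} (S : Finset V) (k : ℕ) (w : V) {p : ℝ} (hp : p ≤ 1) (x x' : Conf V) :
    pairN ε S k p (timeM k w p x, timeM k w p x') = pairN ε S k p (x, x') := by
  simp only [pairN, stF, field_timeM k w hp]

lemma pairN_left {ε : ℝ} (S : Finset V) (k : ℕ) (r : ℝ) (x x' : Conf V) :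
    ∀ᶠ p in 𝓝[≤] r, pairN ε S k p (x, x') = pairN ε S k r (x, x') := by
  filter_upwards [maskField_left (ε := ε) S k r x, maskField_left (ε := ε) S k r x'] with p h1 h2
  simp only [pairN, stF, h1, h2]

variable (G : SimpleGraph V) [G.LocallyFinite] (θ : ℝ)

/-- The jump of `(k, w)` if it is revealed in the window. -/
noncomputable def wJmp (ε p1 p2 : ℝ) (S : Finset V) (o : V) (k : ℕ) (w : V) (x : Conf V) : ℝ :=
  if Win p1 p2 (k, w) x then jmp G θ ε S o (k, w) x else 0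

/-- The difference of the jumps of the two copies at `(k, w)`, if revealed in the window. -/
noncomputable def dJ (ε p1 p2 : ℝ) (S : Finset V) (o : V) (k : ℕ) (w : V)
    (u : Conf V × Conf V) : ℝ :=
  if Win p1 p2 (k, w) u.1 then jmp G θ ε S o (k, w) u.2 - jmp G θ ε S o (k, w) u.1 else 0

variable {G θ} {ε : ℝ}

lemma measurable_wJmp (p1 p2 : ℝ) (S : Finset V) (o : V) (k : ℕ) (w : V) :
    Measurable (wJmp G θ ε p1 p2 S o k w) := by
  exact Measurable.ite (measurableSet_win p1 p2 (k, w)) (measurable_jmp G θ S o _) measurable_const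

lemma measurable_dJ (p1 p2 : ℝ) (S : Finset V) (o : V) (k : ℕ) (w : V) :
    Measurable (dJ G θ ε p1 p2 S o k w) := by
  exact Measurable.ite (measurable_fst (measurableSet_win p1 p2 (k, w)))
    (((measurable_jmp G θ S o _).comp measurable_snd).sub
      ((measurable_jmp G θ S o _).comp measurable_fst)) measurable_const

lemma abs_wJmp_le (h0 : 0 ≤ θ) (h1 : θ < 1) (hε : 0 ≤ ε) (hε2 : ε ≤ 1 / 2) (p1 p2 : ℝ)
    (S : Finset V) (o : V) (k : ℕ) (w : V) (x : Conf V) :
    |wJmp G θ ε p1 p2 S o k w x| ≤ 1 := by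
  unfold wJmp
  split_ifs
  · exact abs_jmp_le_one h0 h1 hε hε2 S o _ x
  · simp

lemma abs_dJ_le (h0 : 0 ≤ θ) (h1 : θ < 1) (hε : 0 ≤ ε) (hε2 : ε ≤ 1 / 2) (p1 p2 : ℝ)
    (S : Finset V) (o : V) (k : ℕ) (w : V) (u : Conf V × Conf V) :
    |dJ G θ ε p1 p2 S o k w u| ≤ 2 := by
  unfold dJ
  split_ifs
  · exact (abs_sub _ _).trans (by
      linarith [abs_jmp_le_one (G := G) h0 h1 hε hε2 S o (k, w) u.1,
        abs_jmp_le_one (G := G) h0 h1 hε hε2 S o (k, w) u.2])
  · simp

lemma pairN_bound (h0 : 0 ≤ θ) (h1 : θ < 1) (hε : 0 ≤ ε) (hε1 : ε < 1) (S : Finset V) (k : ℕ)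
    (p : ℝ) (u : Conf V × Conf V) (x : V) : |uDiff G θ (pairN ε S k p u) x| ≤ 2 := by
  have hb : ∀ y : Conf V, |magI G θ (mask S (stF ε k p y)) x| ≤ 1 := fun y =>
    abs_limsup_le fun n => (abs_mag_lt h0 h1
      (abs_mask_lt fun v _ => abs_field_lt hε hε1 (k, p) y.1 y.2 v) n x).le
  exact (abs_sub _ _).trans (by simp only [pairN]; linarith [hb u.1, hb u.2])

lemma dTerm_pairN_mem (h0 : 0 ≤ θ) (h1 : θ < 1) (hε : 0 ≤ ε) (hε1 : ε < 1) (S : Finset V) (k : ℕ)
    (p : ℝ) (u : Conf V × Conf V) (o w : V) :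
    0 ≤ dTerm G θ (pairN ε S k p u) o w ∧ dTerm G θ (pairN ε S k p u) o w ≤ 9 := by
  have hs : ∀ y : Conf V, 0 ≤ segProd G θ (mask S (stF ε k p y)) (G.dist o w) (geod G o w) ∧
      segProd G θ (mask S (stF ε k p y)) (G.dist o w) (geod G o w) ≤ 1 := fun y =>
    segProd_mem h0 h1 (abs_mask_lt fun v _ => abs_field_lt hε hε1 (k, p) y.1 y.2 v) _ _
  obtain ⟨a0, a1⟩ := hs u.1
  obtain ⟨b0, b1⟩ := hs u.2
  have hu : uDiff G θ (pairN ε S k p u) w ^ 2 ≤ 4 := by
    have := pairN_bound (G := G) h0 h1 hε hε1 S k p u w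
    rw [← sq_abs]; nlinarith [abs_nonneg (uDiff G θ (pairN ε S k p u) w)]
  simp only [dTerm, pairN] at hu ⊢
  set a := segProd G θ (mask S (stF ε k p u.1)) (G.dist o w) (geod G o w)
  set b := segProd G θ (mask S (stF ε k p u.2)) (G.dist o w) (geod G o w)
  set m := uDiff G θ (mask S (stF ε k p u.1), mask S (stF ε k p u.2)) w ^ 2 with hm
  have hm0 : 0 ≤ m := sq_nonneg _
  have h2 : (b - a) ^ 2 + (a ^ 2 + b ^ 2) * m ≤ 9 := by
    have : (b - a) ^ 2 ≤ 1 := by nlinarith
    have : (a ^ 2 + b ^ 2) * m ≤ 2 * 4 :=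
      mul_le_mul (by nlinarith) hu hm0 (by norm_num)
    linarith
  refine ⟨mul_nonneg (pow_nonneg h0 _) (by positivity), ?_⟩
  exact (mul_le_mul (pow_le_one₀ h0 h1.le) h2 (by positivity) zero_le_one).trans_eq (one_mul 9)

/-- The error of replacing the limiting mean by the mean in `S`. -/
noncomputable def mErr [Countable V] (G : SimpleGraph V) [G.LocallyFinite] (θ ε : ℝ) (o : V)
    (S : Finset V) (s : ℕ × V) : ℝ :=
  ∫ x, |mInf G θ ε s x - meanS G θ ε S s x| ∂(PZ G θ ε o)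

/-- One term of the diagonal: pointwise bound by the rate term and the approximation errors. -/
lemma dJump_sq_le (hG : G.IsTree) (h0 : 0 ≤ θ) (h1 : θ < 1) (hε : 0 ≤ ε) (hε4 : ε ≤ 1 / 4)
    {S : Finset V} (hS : Conn G S) (o : V) {k : ℕ} {w : V} (hw : w ∈ S) {p2 : ℝ}
    {u : Conf V × Conf V} (hR : u.1.1 = u.2.1) (hwin : (u.1.1 (k, w) : ℝ) < p2)
    (hg : gInf G θ ε (k, w) u.1 = gInf G θ ε (k, w) u.2)
    (h_1 : u.1.2 (k, w) =
      qObs (strength ε u.1.1 (k, w) * mInf G θ ε (k, w) u.1) (gInf G θ ε (k, w) u.1))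
    (h_2 : u.2.2 (k, w) =
      qObs (strength ε u.2.1 (k, w) * mInf G θ ε (k, w) u.2) (gInf G θ ε (k, w) u.2))
    (hm1 : |mInf G θ ε (k, w) u.1| ≤ 1) (hm2 : |mInf G θ ε (k, w) u.2| ≤ 1) :
    (jmp G θ ε S o (k, w) u.2 - jmp G θ ε S o (k, w) u.1) ^ 2 ≤
      2000 * emax ε k p2 ^ 2 * dTerm G θ (pairN ε S k (u.1.1 (k, w)) u) o w +
      4000 * (|mInf G θ ε (k, w) u.1 - meanS G θ ε S (k, w) u.1| +
        |mInf G θ ε (k, w) u.2 - meanS G θ ε S (k, w) u.2|) := by
  have hε1 : ε < 1 := by linarith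
  set s : ℕ × V := (k, w)
  set e := strength ε u.1.1 s with he
  have he2 : strength ε u.2.1 s = e := by rw [he, hR]
  obtain ⟨e0, e1⟩ := strength_mem hε u.1.1 s
  have hee : e ≤ emax ε k p2 := emax_spec hε hwin
  have hem : e ^ 2 ≤ emax ε k p2 ^ 2 := pow_le_pow_left₀ e0 hee 2
  set μ1 := mInf G θ ε s u.1
  set μ2 := mInf G θ ε s u.2
  set m1 := meanS G θ ε S s u.1 with hm1def
  set m2 := meanS G θ ε S s u.2 with hm2def
  set a := segProd G θ (mask S (fldS ε s u.1)) (G.dist o w) (geod G o w)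
  set b := segProd G θ (mask S (fldS ε s u.2)) (G.dist o w) (geod G o w)
  set g := gInf G θ ε s u.1
  set ξ1 := e * (qObs (e * μ1) g : ℝ) with hξ1
  set ξ2 := e * (qObs (e * μ2) g : ℝ) with hξ2
  have habs : |e| = e := abs_of_nonneg e0
  have hle : ∀ μ, |μ| ≤ 1 → |e * μ| ≤ 1 / 4 := fun μ hμ => by
    rw [abs_mul, habs]; exact (mul_le_of_le_one_right e0 hμ).trans (e1.trans hε4)
  have hξb : ∀ z : Obs, |e * (z : ℝ)| ≤ |e| := fun z => by
    rw [abs_mul]; exact mul_le_of_le_one_right (abs_nonneg _) z.abs_le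
  have hξd : |ξ2 - ξ1| ≤ |e| * |μ2 - μ1| := by
    rw [hξ1, hξ2, ← mul_sub, abs_mul]
    refine mul_le_mul_of_nonneg_left ((qObs_lipschitz (hle _ hm2) (hle _ hm1) g g).trans ?_)
      (abs_nonneg _)
    rw [sub_self, abs_zero, mul_zero, zero_add, ← mul_sub, abs_mul, habs]
    exact mul_le_of_le_one_left (abs_nonneg _) (e1.trans (by linarith))
  have hj := jump_sub_sq_le (a := a) (b := b) (m := m1) (m' := m2) (ξ := ξ1) (ξ' := ξ2) (e := e)
    (u := μ2 - μ1) (abs_meanS_le h0 h1 hε hε1 S s u.1) (abs_meanS_le h0 h1 hε hε1 S s u.2)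
    (by rw [habs]; linarith) (hξb _) (hξb _) hξd
  have hJ1 : jmp G θ ε S o s u.1 = θ ^ G.dist o w * (a * amp m1 ξ1) := by
    rw [jmp_eq hG h0 h1 hε hε1 hS o hw, atten, h_1, mul_assoc]
  have hJ2 : jmp G θ ε S o s u.2 = θ ^ G.dist o w * (b * amp m2 ξ2) := by
    rw [jmp_eq hG h0 h1 hε hε1 hS o hw, atten, h_2, ← hg, he2, mul_assoc]
  have hu : uDiff G θ (pairN ε S k (u.1.1 s) u) w = m2 - m1 := by
    rw [hm1def, hm2def, meanS_eq_magI hG h0 h1 hε hε1 hS hw u.1,
      meanS_eq_magI hG h0 h1 hε hε1 hS hw u.2]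
    simp only [uDiff, pairN, stF, s, hR]
  have hd : dTerm G θ (pairN ε S k (u.1.1 s) u) o w =
      θ ^ (2 * G.dist o w) * ((b - a) ^ 2 + (a ^ 2 + b ^ 2) * (m2 - m1) ^ 2) := by
    have e' : segProd G θ (mask S (stF ε k (u.1.1 s) u.2)) (G.dist o w) (geod G o w) = b := by
      simp only [hR]; rfl
    simp only [dTerm, hu]
    simp only [pairN, e']
    rfl
  rw [hJ1, hJ2, hd, ← mul_sub, mul_pow, ← pow_mul, mul_comm (G.dist o w) 2]
  obtain ⟨a0, a1⟩ := segProd_mem (G := G) h0 h1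
    (abs_mask_lt (S := S) fun v _ => abs_field_lt hε hε1 (s.1, (u.1.1 s : ℝ)) u.1.1 u.1.2 v)
    (G.dist o w) (geod G o w)
  exact diag_alg (pow_nonneg h0 _) (pow_le_one₀ h0 h1.le) e0 (e1.trans (by linarith)) hee a0 a1
    (abs_meanS_le h0 h1 hε hε1 S s u.1) (abs_meanS_le h0 h1 hε hε1 S s u.2) hm1 hm2 hj

variable [Countable V] (hG : G.IsTree) (h0 : 0 ≤ θ) (h1 : θ < 1) (hε : 0 ≤ ε) (hε4 : ε ≤ 1 / 4)
  (o : V)
include hG h0 h1 hε hε4

omit [Countable V] in
lemma integrable_mErr (S : Finset V) (s : ℕ × V) :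
    Integrable (fun x => |mInf G θ ε s x - meanS G θ ε S s x|) (PZ G θ ε o) := by
  have hε1 : ε < 1 := by linarith
  refine Integrable.mono' (integrable_const (2 : ℝ))
    ((measurable_mInf s).sub (measurable_meanS S s)).abs.aestronglyMeasurable ?_
  filter_upwards [abs_mInf_le hG h0 h1 hε hε1 o s] with x hx
  rw [Real.norm_eq_abs, abs_abs]
  exact (abs_sub _ _).trans (by linarith [abs_meanS_le (G := G) h0 h1 hε hε1 S s x])

omit hε4 in
/-- Integrals of functions of one copy. -/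
lemma integral_fst (hε1 : ε < 1) {f : Conf V → ℝ} (hf : Measurable f) :
    ∫ u, f u.1 ∂(P2 G θ ε o) = ∫ x, f x ∂(PZ G θ ε o) := by
  conv_rhs => rw [← P2_map_fst hG h0 h1 hε hε1 o,
    integral_map measurable_fst.aemeasurable hf.aestronglyMeasurable]

omit hε4 in
/-- Integrals of functions of the other copy. -/
lemma integral_snd (hε1 : ε < 1) {f : Conf V → ℝ} (hf : Measurable f) :
    ∫ u, f u.2 ∂(P2 G θ ε o) = ∫ x, f x ∂(PZ G θ ε o) := by
  conv_rhs => rw [← P2_map_snd hG h0 h1 hε hε1 o,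
    integral_map measurable_snd.aemeasurable hf.aestronglyMeasurable]

/-- The mean square of a difference of jumps. -/
lemma integral_dJ_sq_le {S : Finset V} (hS : Conn G S) (k : ℕ) {w : V} (hw : w ∈ S) {p1 p2 : ℝ}
    (hp1 : 0 ≤ p1) (hp2 : p2 < 1) :
    ∫ u, dJ G θ ε p1 p2 S o k w u ^ 2 ∂(P2 G θ ε o) ≤
      2000 * emax ε k p2 ^ 2 * (1 / (1 - p2) *
        ∫ p in Set.Ico p1 p2, ∫ u, dTerm G θ (pairN ε S k p u) o w ∂(P2 G θ ε o)) +
      8000 * mErr G θ ε o S (k, w) := by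
  have hε1 : ε < 1 := by linarith
  have hε2 : ε ≤ 1 / 2 := by linarith
  set Θ : ℝ → Conf V → Conf V → ℝ := fun p x x' => dTerm G θ (pairN ε S k p (x, x')) o w with hΘ
  have hΘm : Measurable fun z : ℝ × Conf V × Conf V => Θ z.1 z.2.1 z.2.2 :=
    (Boot.measurable_dTerm o w).comp (measurable_pairN2 S k)
  have hwin := window_le hG h0 h1 hε hε1 o k w hp1 hp2 hΘm
    (fun p x x' => (dTerm_pairN_mem h0 h1 hε hε1 S k p _ o w).1)
    (fun p x x' => (dTerm_pairN_mem h0 h1 hε hε1 S k p _ o w).2)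
    (fun p hp x x' => by simp only [hΘ, pairN_timeM S k w hp])
    (fun r x x' => by
      filter_upwards [pairN_left (ε := ε) S k r x x'] with p hp
      simp only [hΘ, hp])
  set e := emax ε k p2
  set d1 : Conf V → ℝ := fun x => |mInf G θ ε (k, w) x - meanS G θ ε S (k, w) x|
  have hd1m : Measurable d1 := ((measurable_mInf _).sub (measurable_meanS S _)).abs
  have hd1i := integrable_mErr hG h0 h1 hε hε4 o S (k, w)
  have i1 : Integrable (fun u : Conf V × Conf V => d1 u.1) (P2 G θ ε o) :=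
    (integrable_map_measure hd1m.aestronglyMeasurable measurable_fst.aemeasurable).1
      (by rwa [P2_map_fst hG h0 h1 hε hε1 o])
  have i2 : Integrable (fun u : Conf V × Conf V => d1 u.2) (P2 G θ ε o) :=
    (integrable_map_measure hd1m.aestronglyMeasurable measurable_snd.aemeasurable).1
      (by rwa [P2_map_snd hG h0 h1 hε hε1 o])
  set W : Conf V × Conf V → ℝ := fun u =>
    if Win p1 p2 (k, w) u.1 then Θ (u.1.1 (k, w)) u.1 u.2 else 0 with hW
  have hWm : Measurable W := Measurable.ite (measurable_fst (measurableSet_win p1 p2 (k, w)))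
    (hΘm.comp (f := fun u : Conf V × Conf V => ((u.1.1 (k, w) : ℝ), u.1, u.2))
      ((measurable_subtype_coe.comp ((measurable_pi_apply _).comp
        (measurable_fst.comp measurable_fst))).prodMk measurable_id)) measurable_const
  have hWi : Integrable W (P2 G θ ε o) := integrable_of_bounded hWm (C := 9) fun u => by
    simp only [hW, hΘ]
    split_ifs
    · obtain ⟨a, b⟩ := dTerm_pairN_mem (G := G) h0 h1 hε hε1 S k (u.1.1 (k, w) : ℝ) u o w
      rw [abs_of_nonneg a]; exact b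
    · norm_num
  have hWle : ∫ u, W u ∂(P2 G θ ε o) ≤ 1 / (1 - p2) *
      ∫ p in Set.Ico p1 p2, ∫ u, dTerm G θ (pairN ε S k p u) o w ∂(P2 G θ ε o) := by
    refine le_of_eq_of_le (integral_congr_ae (ae_of_all _ fun u => ?_)) hwin
    simp only [hW]
    rfl
  refine (integral_mono_of_nonneg (ae_of_all _ fun u => sq_nonneg _)
    ((hWi.const_mul (2000 * e ^ 2)).add ((i1.add i2).const_mul 4000)) ?_).trans ?_
  · filter_upwards [ae_toPQ_eq hG h0 h1 hε hε1 o,
      ae_fst hG h0 h1 hε hε1 o (obs_eq hG h0 h1 hε hε2 o (k, w)),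
      ae_snd hG h0 h1 hε hε1 o (obs_eq hG h0 h1 hε hε2 o (k, w)),
      ae_fst hG h0 h1 hε hε1 o (abs_mInf_le hG h0 h1 hε hε1 o (k, w)),
      ae_snd hG h0 h1 hε hε1 o (abs_mInf_le hG h0 h1 hε hε1 o (k, w))] with u hy h_1 h_2 hm1 hm2
    simp only [dJ, hW, hΘ, Pi.add_apply]
    by_cases hwn : Win p1 p2 (k, w) u.1
    · rw [if_pos hwn, if_pos hwn]
      exact dJump_sq_le hG h0 h1 hε hε4 hS o hw (congrArg Prod.fst hy :) hwn.2
        (congrFun (congrArg Prod.snd hy) (k, w)) h_1 h_2 hm1 hm2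
    · rw [if_neg hwn, if_neg hwn]
      simp only [ne_eq, OfNat.ofNat_ne_zero, not_false_eq_true, zero_pow, mul_zero, zero_add]
      positivity
  · simp only [Pi.add_apply]
    rw [integral_add (hWi.const_mul _) ((i1.fun_add i2).const_mul 4000), integral_const_mul,
      integral_const_mul, integral_add i1 i2, integral_fst hG h0 h1 hε o hε1 hd1m,
      integral_snd hG h0 h1 hε o hε1 hd1m]
    have := mul_le_mul_of_nonneg_left hWle (by positivity : (0:ℝ) ≤ 2000 * e ^ 2)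
    simp only [mErr]
    linarith

/-- Mixed term: the difference of jumps against a function of the common past. -/
lemma abs_integral_mul_dJ_le {S : Finset V} (hS : Conn G S) (k : ℕ) {w : V} (hw : w ∈ S)
    {p1 p2 : ℝ} {H : Conf V → Conf V → ℝ} (hH : Measurable fun u : Conf V × Conf V => H u.1 u.2)
    (hC : ∀ x x', |H x x'| ≤ 2)
    (hdep : ∀ x x', Win p1 p2 (k, w) x → Win p1 p2 (k, w) x' →
      H (pastM (k, w) x) (pastM (k, w) x') = H x x') :
    |∫ u, H u.1 u.2 * dJ G θ ε p1 p2 S o k w u ∂(P2 G θ ε o)| ≤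
      4 * mErr G θ ε o S (k, w) := by
  have hε1 : ε < 1 := by linarith
  set H' : Conf V → Conf V → ℝ := fun x x' =>
    if Win p1 p2 (k, w) x ∧ Win p1 p2 (k, w) x' then H x x' else 0 with hH'
  have hH'm : Measurable fun u : Conf V × Conf V => H' u.1 u.2 :=
    Measurable.ite ((measurable_fst (measurableSet_win p1 p2 (k, w))).inter
      (measurable_snd (measurableSet_win p1 p2 (k, w)))) hH measurable_const
  have e : ∫ u, H u.1 u.2 * dJ G θ ε p1 p2 S o k w u ∂(P2 G θ ε o) =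
      ∫ u, H' u.1 u.2 * (jmp G θ ε S o (k, w) u.2 - jmp G θ ε S o (k, w) u.1)
        ∂(P2 G θ ε o) := by
    refine integral_congr_ae ?_
    filter_upwards [ae_toPQ_eq hG h0 h1 hε hε1 o] with u hy
    have hR : u.1.1 = u.2.1 := (congrArg Prod.fst hy :)
    simp only [hH', dJ]
    by_cases hwn : Win p1 p2 (k, w) u.1
    · have hwn' : Win p1 p2 (k, w) u.2 := by simpa [Win, hR] using hwn
      rw [if_pos hwn, if_pos ⟨hwn, hwn'⟩]
    · rw [if_neg hwn, if_neg (fun h => hwn h.1)]; ring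
  rw [e]
  refine (dJump_orth hG h0 h1 hε (by linarith) o hS hw hH'm (C := 2) (by norm_num)
    (fun x x' => ?_) (fun x x' => ?_)).trans_eq (by rw [mErr]; norm_num)
  · simp only [hH']
    split_ifs
    · exact hC x x'
    · simp
  · simp only [hH']
    exact ite_congr rfl (fun h => hdep x x' h.1 h.2) fun _ => rfl

/-- Two differences of jumps of distinct sites are almost orthogonal. -/
lemma abs_integral_dJ_dJ_le {S : Finset V} (hS : Conn G S) (k : ℕ) {w w' : V} (hw : w ∈ S)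
    (hw' : w' ∈ S) (hne : w ≠ w') {p1 p2 : ℝ} :
    |∫ u, dJ G θ ε p1 p2 S o k w u * dJ G θ ε p1 p2 S o k w' u ∂(P2 G θ ε o)| ≤
      4 * (mErr G θ ε o S (k, w) + mErr G θ ε o S (k, w')) := by
  have hε1 : ε < 1 := by linarith
  have hε2 : ε ≤ 1 / 2 := by linarith
  set H : V → V → Conf V → Conf V → ℝ := fun a b x x' =>
    if Win p1 p2 (k, b) x ∧ (x.1 (k, b) : ℝ) < (x.1 (k, a) : ℝ) ∧
      (x'.1 (k, b) : ℝ) < (x'.1 (k, a) : ℝ) then
      jmp G θ ε S o (k, b) x' - jmp G θ ε S o (k, b) x else 0 with hH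
  have hR : ∀ (c : V) (g : Conf V × Conf V → Conf V), Measurable g →
      Measurable fun u => ((g u).1 (k, c) : ℝ) := fun c g hg =>
    measurable_subtype_coe.comp ((measurable_pi_apply _).comp (measurable_fst.comp hg))
  have hHm : ∀ a b, Measurable fun u : Conf V × Conf V => H a b u.1 u.2 := fun a b =>
    Measurable.ite ((measurable_fst (measurableSet_win p1 p2 (k, b))).inter
      ((measurableSet_lt (hR b _ measurable_fst) (hR a _ measurable_fst)).inter
        (measurableSet_lt (hR b _ measurable_snd) (hR a _ measurable_snd))))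
      (((measurable_jmp G θ S o _).comp measurable_snd).sub
        ((measurable_jmp G θ S o _).comp measurable_fst)) measurable_const
  have hHb : ∀ a b x x', |H a b x x'| ≤ 2 := fun a b x x' => by
    simp only [hH]
    split_ifs
    · exact (abs_sub _ _).trans (by
        linarith [abs_jmp_le_one (G := G) h0 h1 hε hε2 S o (k, b) x,
          abs_jmp_le_one (G := G) h0 h1 hε hε2 S o (k, b) x'])
    · simp
  have hdep : ∀ a b, b ∈ S → ∀ x x', H a b (pastM (k, a) x) (pastM (k, a) x') = H a b x x' := by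
    intro a b hb x x'
    have key : ∀ y : Conf V, (y.1 (k, b) : ℝ) < (y.1 (k, a) : ℝ) →
        jmp G θ ε S o (k, b) (pastM (k, a) y) = jmp G θ ε S o (k, b) y := by
      rintro ⟨U, z⟩ hlt
      have hmem : (k, b) ∈ beforeR U S (k, a) :=
        mem_beforeR.2 ⟨hb, Or.inr ⟨rfl, Subtype.coe_lt_coe.1 hlt⟩⟩
      exact jmp_congr o fun q hq => pastM_agree U z q
        ((Finset.insert_subset hmem (beforeR_subset hmem)) hq)
    simp only [hH]
    exact ite_congr rfl (fun h => by rw [key x h.2.1, key x' h.2.2]) fun _ => rfl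
  have bound : ∀ a b, a ∈ S → b ∈ S →
      |∫ u, H a b u.1 u.2 * dJ G θ ε p1 p2 S o k a u ∂(P2 G θ ε o)| ≤
        4 * mErr G θ ε o S (k, a) := fun a b ha hb =>
    abs_integral_mul_dJ_le hG h0 h1 hε hε4 o hS k ha (hHm a b) (hHb a b)
      fun x x' _ _ => hdep a b hb x x'
  have int : ∀ a b, Integrable (fun u => H a b u.1 u.2 * dJ G θ ε p1 p2 S o k a u)
      (P2 G θ ε o) := fun a b =>
    integrable_of_bounded ((hHm a b).mul (measurable_dJ p1 p2 S o k a)) (C := 2 * 2) fun u => by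
      rw [abs_mul]
      exact mul_le_mul (hHb a b _ _) (abs_dJ_le h0 h1 hε hε2 p1 p2 S o k a u) (abs_nonneg _)
        zero_le_two
  have e : ∫ u, dJ G θ ε p1 p2 S o k w u * dJ G θ ε p1 p2 S o k w' u ∂(P2 G θ ε o) =
      ∫ u, (H w w' u.1 u.2 * dJ G θ ε p1 p2 S o k w u +
        H w' w u.1 u.2 * dJ G θ ε p1 p2 S o k w' u) ∂(P2 G θ ε o) := by
    refine integral_congr_ae ?_
    filter_upwards [ae_toPQ_eq hG h0 h1 hε hε1 o,
      ae_ranking hG h0 h1 hε hε1 o ae_injective_lev] with u hy hinj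
    have hR' : u.1.1 = u.2.1 := (congrArg Prod.fst hy :)
    have hne' : (u.1.1 (k, w) : ℝ) ≠ (u.1.1 (k, w') : ℝ) := fun h =>
      hne (hinj k (Subtype.ext h))
    simp only [hH, dJ, ← hR']
    rcases lt_or_gt_of_ne hne' with h | h <;> by_cases c1 : Win p1 p2 (k, w) u.1 <;>
      by_cases c2 : Win p1 p2 (k, w') u.1 <;>
      simp only [h, h.not_gt, c1, c2, if_true, if_false, and_self, and_false, and_true] <;> ring
  rw [e, integral_add (int w w') (int w' w)]
  refine (abs_add_le _ _).trans ?_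
  linarith [bound w w' hw hw', bound w' w hw' hw]

/-- The magnetisation difference at the start of the window against a difference of jumps. -/
lemma abs_integral_uDiff_dJ_le {S : Finset V} (hS : Conn G S) (k : ℕ) {w : V} (hw : w ∈ S)
    {p1 p2 : ℝ} :
    |∫ u, uDiff G θ (pairN ε S k p1 u) o * dJ G θ ε p1 p2 S o k w u ∂(P2 G θ ε o)| ≤
      4 * mErr G θ ε o S (k, w) := by
  have hε1 : ε < 1 := by linarith
  refine abs_integral_mul_dJ_le hG h0 h1 hε hε4 o hS k hw
    (H := fun x x' => uDiff G θ (pairN ε S k p1 (x, x')) o)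
    ((Boot.measurable_uDiff o).comp (measurable_pairN S k p1))
    (fun x x' => pairN_bound h0 h1 hε hε1 S k p1 _ o) fun x x' hx hx' => ?_
  have key : ∀ y : Conf V, Win p1 p2 (k, w) y →
      mask S (stF ε k p1 (pastM (k, w) y)) = mask S (stF ε k p1 y) := by
    rintro ⟨U, z⟩ hy
    exact maskField_congr (s := (k, w)) hy.1 (pastM_agree U z)
  simp only [pairN, key x hx, key x' hx']

/-- Jumps of one copy in a window: exact orthogonality. -/
lemma integral_wJmp_sum_sq {S : Finset V} (hS : Conn G S) (k : ℕ) {T : Finset V} (hT : T ⊆ S)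
    (p1 p2 : ℝ) :
    ∫ x, (∑ w ∈ T, wJmp G θ ε p1 p2 S o k w x) ^ 2 ∂(PZ G θ ε o) =
      ∑ w ∈ T, ∫ x, wJmp G θ ε p1 p2 S o k w x ^ 2 ∂(PZ G θ ε o) := by
  have hε1 : ε < 1 := by linarith
  have hε2 : ε ≤ 1 / 2 := by linarith
  have hint : ∀ a b, Integrable
      (fun x => wJmp G θ ε p1 p2 S o k a x * wJmp G θ ε p1 p2 S o k b x) (PZ G θ ε o) := fun a b =>
    integrable_of_bounded ((measurable_wJmp p1 p2 S o k a).mul (measurable_wJmp p1 p2 S o k b))
      (C := 1) fun x => by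
        rw [abs_mul]
        exact mul_le_one₀ (abs_wJmp_le h0 h1 hε hε2 p1 p2 S o k a x) (abs_nonneg _)
          (abs_wJmp_le h0 h1 hε hε2 p1 p2 S o k b x)
  have orth : ∀ a ∈ T, ∀ b ∈ T, a ≠ b →
      ∫ x, wJmp G θ ε p1 p2 S o k a x * wJmp G θ ε p1 p2 S o k b x ∂(PZ G θ ε o) = 0 := by
    intro a ha b hb hab
    set K : V → V → Conf V → ℝ := fun a b x =>
      if Win p1 p2 (k, a) x ∧ (x.1 (k, b) : ℝ) < (x.1 (k, a) : ℝ) then
        wJmp G θ ε p1 p2 S o k b x else 0 with hK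
    have hKm : ∀ a b, Measurable (K a b) := fun a b =>
      have hr : ∀ c, Measurable fun x : Conf V => ((x.1 (k, c) : I) : ℝ) := fun c =>
        measurable_subtype_coe.comp ((measurable_pi_apply _).comp measurable_fst)
      Measurable.ite ((measurableSet_win p1 p2 (k, a)).inter (measurableSet_lt (hr b) (hr a)))
        (measurable_wJmp p1 p2 S o k b) measurable_const
    have hKb : ∀ a b x, |K a b x| ≤ 1 := fun a b x => by
      simp only [hK]
      split_ifs
      · exact abs_wJmp_le h0 h1 hε hε2 p1 p2 S o k b x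
      · simp
    have zero : ∀ a b, a ∈ S → b ∈ S →
        ∫ x, K a b x * jmp G θ ε S o (k, a) x ∂(PZ G θ ε o) = 0 := by
      intro a b haS hbS
      refine jmp_orth hG h0 h1 hε hε2 o hS haS (hKm a b) (hKb a b) fun U z z' h => ?_
      simp only [hK]
      refine ite_congr rfl (fun hc => ?_) fun _ => rfl
      · have hmem : (k, b) ∈ beforeR U S (k, a) :=
          mem_beforeR.2 ⟨hbS, Or.inr ⟨rfl, Subtype.coe_lt_coe.1 hc.2⟩⟩
        simp only [wJmp]
        exact ite_congr rfl (fun _ => jmp_congr o fun q hq =>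
          h q ((Finset.insert_subset hmem (beforeR_subset hmem)) hq)) fun _ => rfl
    have e : ∫ x, wJmp G θ ε p1 p2 S o k a x * wJmp G θ ε p1 p2 S o k b x ∂(PZ G θ ε o) =
        ∫ x, (K a b x * jmp G θ ε S o (k, a) x + K b a x * jmp G θ ε S o (k, b) x)
          ∂(PZ G θ ε o) := by
      refine integral_congr_ae ?_
      filter_upwards [ae_of_ae_map (μ := PZ G θ ε o) measurable_fst.aemeasurable
        (by rw [map_fst_PZ hG h0 h1 hε hε1 o]; exact ae_injective_lev)] with x hinj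
      have hne' : (x.1 (k, a) : ℝ) ≠ (x.1 (k, b) : ℝ) := fun h => hab (hinj k (Subtype.ext h))
      simp only [hK, wJmp]
      by_cases h1' : Win p1 p2 (k, a) x <;> by_cases h2' : Win p1 p2 (k, b) x <;>
        rcases lt_or_gt_of_ne hne' with h | h <;>
        simp only [h1', h2', h, h.not_gt, if_true, if_false, and_self, and_false, and_true] <;> ring
    have ib : ∀ a b, Integrable (fun x => K a b x * jmp G θ ε S o (k, a) x) (PZ G θ ε o) :=
      fun a b => integrable_of_bounded ((hKm a b).mul (measurable_jmp G θ S o _)) (C := 1) fun x => by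
        rw [abs_mul]
        exact mul_le_one₀ (hKb a b x) (abs_nonneg _) (abs_jmp_le_one h0 h1 hε hε2 S o _ x)
    rw [e, integral_add (ib a b) (ib b a), zero a b (hT ha) (hT hb), zero b a (hT hb) (hT ha),
      add_zero]
  simp only [pow_two, Finset.sum_mul_sum]
  rw [integral_finsetSum _ fun a _ => integrable_finsetSum _ fun b _ => hint a b]
  refine Finset.sum_congr rfl fun a ha => ?_
  rw [integral_finsetSum _ fun b _ => hint a b,
    Finset.sum_eq_single_of_mem a ha fun b hb hba => orth a ha b hb (Ne.symm hba)]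

/-- The mean square of a jump of one copy. -/
lemma integral_wJmp_sq_le {S : Finset V} (k : ℕ) (w : V) {p1 p2 : ℝ} (hp1 : 0 ≤ p1) (hp2 : p2 < 1) :
    ∫ x, wJmp G θ ε p1 p2 S o k w x ^ 2 ∂(PZ G θ ε o) ≤
      4 * ε ^ 2 * θ ^ (2 * G.dist o w) * (1 / (1 - p2) * ∫ p in Set.Ico p1 p2,
        ∫ x, segProd G θ (mask S (stF ε k p x)) (G.dist o w) (geod G o w) ∂(PZ G θ ε o)) := by
  have hε1 : ε < 1 := by linarith
  set Θ : ℝ → Conf V → Conf V → ℝ := fun p x _ =>
    segProd G θ (mask S (stF ε k p x)) (G.dist o w) (geod G o w) with hΘ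
  have hΘm : Measurable fun z : ℝ × Conf V × Conf V => Θ z.1 z.2.1 z.2.2 :=
    ((measurable_segProd _ _).comp (measurable_maskField2 S k)).comp
      (f := fun z : ℝ × Conf V × Conf V => (z.1, z.2.1))
      (measurable_fst.prodMk (measurable_fst.comp measurable_snd))
  have hΘ01 : ∀ p x x', 0 ≤ Θ p x x' ∧ Θ p x x' ≤ 1 := fun p x x' =>
    segProd_mem h0 h1 (abs_mask_lt fun v _ => abs_field_lt hε hε1 (k, p) x.1 x.2 v) _ _
  have hwin := window_le hG h0 h1 hε hε1 o k w hp1 hp2 hΘm (fun p x x' => (hΘ01 p x x').1)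
    (fun p x x' => (hΘ01 p x x').2)
    (fun p hp x x' => by simp only [hΘ, stF, field_timeM k w hp])
    (fun r x x' => by
      filter_upwards [maskField_left (ε := ε) S k r x] with p hp
      simp only [hΘ, stF, hp])
  set B : Conf V → ℝ := fun x =>
    if Win p1 p2 (k, w) x then Θ (x.1 (k, w)) x x else 0 with hB
  have hBm : Measurable B := Measurable.ite (measurableSet_win p1 p2 (k, w))
    (hΘm.comp (f := fun x : Conf V => ((x.1 (k, w) : ℝ), x, x))
      ((measurable_subtype_coe.comp ((measurable_pi_apply _).comp measurable_fst)).prodMk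
        (measurable_id.prodMk measurable_id))) measurable_const
  have hBb : ∀ x, |B x| ≤ 1 := fun x => by
    simp only [hB]
    split_ifs
    · rw [abs_of_nonneg (hΘ01 (x.1 (k, w)) x x).1]; exact (hΘ01 (x.1 (k, w)) x x).2
    · simp
  set K := 4 * ε ^ 2 * θ ^ (2 * G.dist o w)
  have hK : 0 ≤ K := mul_nonneg (by positivity) (pow_nonneg h0 _)
  have hg : ∀ p, ∫ u : Conf V × Conf V, Θ p u.1 u.2 ∂(P2 G θ ε o) =
      ∫ x, segProd G θ (mask S (stF ε k p x)) (G.dist o w) (geod G o w) ∂(PZ G θ ε o) := fun p =>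
    integral_fst hG h0 h1 hε o hε1
      ((measurable_segProd _ _).comp ((measurable_mask S).comp (measurable_stF k p)))
  refine (integral_mono_of_nonneg (ae_of_all _ fun x => sq_nonneg _)
    ((integrable_of_bounded hBm hBb).const_mul K) (ae_of_all _ fun x => ?_)).trans ?_
  · simp only [wJmp, hB, hΘ]
    by_cases hwn : Win p1 p2 (k, w) x
    · rw [if_pos hwn, if_pos hwn, ← sq_abs]
      refine (pow_le_pow_left₀ (abs_nonneg _) (abs_jmp_le h0 h1 hε (by linarith) o _ x) 2).trans ?_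
      obtain ⟨s0, s1⟩ := hΘ01 (x.1 (k, w)) x x
      obtain ⟨e0, e1⟩ := strength_mem hε x.1 (k, w)
      simp only [hΘ] at s0 s1
      rw [abs_of_nonneg e0, mul_pow, mul_pow, mul_pow, ← pow_mul, mul_comm (G.dist o (k, w).2)]
      show 2 ^ 2 * strength ε x.1 (k, w) ^ 2 * θ ^ (2 * G.dist o w) *
        segProd G θ (mask S (fldS ε (k, w) x)) (G.dist o w) (geod G o w) ^ 2 ≤ _
      refine mul_le_mul ?_ ?_ (sq_nonneg _) hK
      · refine mul_le_mul_of_nonneg_right ?_ (pow_nonneg h0 _)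
        nlinarith [pow_le_pow_left₀ e0 e1 2]
      · exact (pow_le_of_le_one s0 s1 two_ne_zero).trans_eq rfl
    · rw [if_neg hwn, if_neg hwn]; simp
  · rw [integral_const_mul]
    refine mul_le_mul_of_nonneg_left ?_ hK
    refine le_of_eq_of_le ?_ (hwin.trans_eq ?_)
    · rw [← integral_fst hG h0 h1 hε o hε1 hBm]
      refine integral_congr_ae (ae_of_all _ fun u => ?_)
      simp only [hB, Win, hΘ]
    · simp only [hg]

end Vale.Agent.P161.Crit
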