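import Vale.Agent.P161.Crit.PairState

/-!
Jumps given the past: exact orthogonality for one copy in finite volume, and near orthogonality
for the differences of the jumps of the two copies.
-/

namespace Vale.Agent.P161.Crit

open MeasureTheory Function
open scoped unitInterval ENNReal

/-- The mean change of the magnetisation `m` under an observation of mean `μ`. -/
lemma abs_integral_amp_le {m μ e : ℝ} (hm : |m| ≤ 1) (hμ : |μ| ≤ 1) (he0 : 0 ≤ e)
    (he : e ≤ 1 / 2) :
    |∫ a : I, amp m (e * (qObs (e * μ) a : ℝ))| ≤ |μ - m| := by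
  have habs : |e| = e := abs_of_nonneg he0
  have hw : |e * μ| < 1 := by
    rw [abs_mul, habs]
    linarith [mul_le_of_le_one_right he0 hμ]
  have heζ : ∀ z : Obs, |e * (z : ℝ)| ≤ 1 / 2 := fun z => by
    rw [abs_mul, habs]
    exact (mul_le_of_le_one_right he0 z.abs_le).trans he
  set f : Obs → ℝ := fun z => amp m (e * (z : ℝ)) with hf
  have hfm : Measurable f := by
    simp only [hf, amp]
    exact ((measurable_subtype_coe.const_mul e).const_mul _).div
      (((measurable_subtype_coe.const_mul e).const_mul _).const_add 1)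
  have hfb : ∀ z, |f z| ≤ 1 := fun z => (abs_amp_le hm (heζ z)).trans (by linarith [heζ z])
  have hden : ∀ z : Obs, 0 ≤ 1 + e * μ * (z : ℝ) := fun z => by
    have : |e * μ * (z : ℝ)| ≤ 1 := by
      rw [abs_mul]; exact mul_le_one₀ hw.le (abs_nonneg _) z.abs_le
    linarith [(abs_le.1 this).1]
  have e1 : ∫ a : I, f (qObs (e * μ) a) = ∫ z, (1 + e * μ * (z : ℝ)) * f z ∂nu := by
    rw [← integral_map (φ := qObs (e * μ)) (measurable_qObs_right _).aemeasurable
      hfm.aestronglyMeasurable, map_qObs hw,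
      show (fun z : Obs => ENNReal.ofReal (1 + e * μ * (z : ℝ))) =
        fun z : Obs => ((Real.toNNReal (1 + e * μ * (z : ℝ)) : NNReal) : ℝ≥0∞) from rfl,
      integral_withDensity_eq_integral_smul
        ((measurable_subtype_coe.const_mul (e * μ)).const_add 1).real_toNNReal]
    refine integral_congr_ae (ae_of_all _ fun z => ?_)
    simp only [NNReal.smul_def, smul_eq_mul, Real.coe_toNNReal _ (hden z)]
  have e2 : ∀ z : Obs, (1 + e * μ * (z : ℝ)) * f z =
      (1 - m ^ 2) * e * (z : ℝ) + e * (μ - m) * ((z : ℝ) * f z) := by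
    intro z
    have h : |m * (e * (z : ℝ))| ≤ 1 / 2 := by
      rw [abs_mul]; exact (mul_le_of_le_one_left (abs_nonneg _) hm).trans (heζ z)
    have hne : 1 + m * (e * (z : ℝ)) ≠ 0 := by linarith [(abs_le.1 h).1]
    have hdef : f z * (1 + m * (e * (z : ℝ))) = (1 - m ^ 2) * (e * (z : ℝ)) :=
      div_mul_cancel₀ _ hne
    linear_combination hdef
  have hb : ∀ z : Obs, |(z : ℝ) * f z| ≤ 1 := fun z => by
    rw [abs_mul]; exact mul_le_one₀ z.abs_le (abs_nonneg _) (hfb z)
  have hzf : Integrable (fun z : Obs => (z : ℝ) * f z) nu :=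
    integrable_of_bounded (measurable_subtype_coe.mul hfm) hb
  show |∫ a : I, f (qObs (e * μ) a)| ≤ _
  rw [e1, integral_congr_ae (ae_of_all _ e2),
    integral_add ((integrable_of_bounded measurable_subtype_coe Obs.abs_le).const_mul _)
      (hzf.const_mul _),
    integral_const_mul, integral_const_mul, integral_nu_id, mul_zero, zero_add, abs_mul, abs_mul,
    habs, mul_comm e, mul_assoc]
  exact mul_le_of_le_one_right (abs_nonneg _)
    (mul_le_one₀ (he.trans (by norm_num)) (abs_nonneg _) (abs_integral_le_of_bound hb))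

variable {V : Type*} [DecidableEq V] {G : SimpleGraph V} {θ ε : ℝ}

/-- The masked fields at a time not after `s` only see the strict past of `s`. -/
lemma maskField_congr {S : Finset V} {s : ℕ × V} {p : ℝ} {U : ℕ × V → I} (hp : p ≤ (U s : ℝ))
    {z z' : ℕ × V → Obs} (h : ∀ q ∈ beforeR U S s, z q = z' q) :
    mask S (field ε (s.1, p) U z) = mask S (field ε (s.1, p) U z') := by
  funext v
  unfold mask
  split_ifs with hv
  · refine cmb_congr fun j hj => ?_
    rw [h (j, v) (mem_beforeR.2 ⟨hv, ?_⟩)]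
    simp only [levels] at hj
    split_ifs at hj with hlt
    · rcases Nat.lt_succ_iff_lt_or_eq.1 (Finset.mem_range.1 hj) with h' | h'
      · exact Or.inl h'
      · exact Or.inr ⟨h', Subtype.coe_lt_coe.1 (lt_of_lt_of_le hlt hp)⟩
    · exact Or.inl (Finset.mem_range.1 hj)
  · rfl

lemma maskFldS_congr {S : Finset V} {s : ℕ × V} {U : ℕ × V → I} {z z' : ℕ × V → Obs}
    (h : ∀ q ∈ beforeR U S s, z q = z' q) :
    mask S (fldS ε s (U, z)) = mask S (fldS ε s (U, z')) :=
  maskField_congr (p := (U s : ℝ)) le_rfl h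

lemma pastM_agree {S : Finset V} {s : ℕ × V} (U : ℕ × V → I) (z : ℕ × V → Obs) :
    ∀ q ∈ beforeR U S s, (pastM s (U, z)).2 q = z q := fun q hq => by
  simp only [pastM, keep]
  rw [if_pos (mem_beforeR.1 hq).2]

omit [DecidableEq V] in
lemma pastM_fst (s : ℕ × V) (x : Conf V) : (pastM s x).1 = x.1 := rfl

/-- A function of the strict past in `S` does not change under `pastM`. -/
lemma pastM_apply_eq {γ : Type*} {S : Finset V} {s : ℕ × V} (H : Conf V → γ)
    (hH : ∀ U z z', (∀ q ∈ beforeR U S s, z q = z' q) → H (U, z) = H (U, z')) (x : Conf V) :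
    H (pastM s x) = H x := by
  obtain ⟨U, z⟩ := x
  exact hH U _ z (pastM_agree U z)

lemma meanS_congr {S : Finset V} {s : ℕ × V} {U : ℕ × V → I} {z z' : ℕ × V → Obs}
    (h : ∀ q ∈ beforeR U S s, z q = z' q) :
    meanS G θ ε S s (U, z) = meanS G θ ε S s (U, z') :=
  meanW_congr h _

lemma meanS_pastM (S : Finset V) (s : ℕ × V) (x : Conf V) :
    meanS G θ ε S s (pastM s x) = meanS G θ ε S s x :=
  pastM_apply_eq (meanS G θ ε S s) (fun _ _ _ h => meanS_congr h) x

variable [G.LocallyFinite]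

lemma mInf_pastM (s : ℕ × V) (x : Conf V) : mInf G θ ε s (pastM s x) = mInf G θ ε s x := by
  unfold mInf; simp only [meanS_pastM]

variable (G θ) in
/-- The attenuation of the change of `s` at `o` in volume `S`. -/
noncomputable def atten (ε : ℝ) (S : Finset V) (o : V) (s : ℕ × V) (x : Conf V) : ℝ :=
  θ ^ G.dist o s.2 * segProd G θ (mask S (fldS ε s x)) (G.dist o s.2) (geod G o s.2)

lemma atten_congr {S : Finset V} (o : V) {s : ℕ × V} {U : ℕ × V → I} {z z' : ℕ × V → Obs}
    (h : ∀ q ∈ beforeR U S s, z q = z' q) :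
    atten G θ ε S o s (U, z) = atten G θ ε S o s (U, z') := by
  unfold atten; rw [maskFldS_congr h]

lemma jmp_congr {S : Finset V} (o : V) {s : ℕ × V} {U : ℕ × V → I} {z z' : ℕ × V → Obs}
    (h : ∀ q ∈ insert s (beforeR U S s), z q = z' q) :
    jmp G θ ε S o s (U, z) = jmp G θ ε S o s (U, z') := by
  unfold jmp
  rw [maskFldS_congr fun q hq => h q (Finset.mem_insert_of_mem hq)]
  dsimp only
  rw [h s (Finset.mem_insert_self _ _)]

lemma measurable_atten (S : Finset V) (o : V) (s : ℕ × V) : Measurable (atten G θ ε S o s) :=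
  ((measurable_segProd _ _).comp ((measurable_mask S).comp (measurable_fldS s))).const_mul _

lemma atten_mem (h0 : 0 ≤ θ) (h1 : θ < 1) (hε : 0 ≤ ε) (hε1 : ε < 1) (S : Finset V) (o : V)
    (s : ℕ × V) (x : Conf V) : 0 ≤ atten G θ ε S o s x ∧ atten G θ ε S o s x ≤ 1 := by
  obtain ⟨a, b⟩ := segProd_mem (G := G) h0 h1
    (abs_mask_lt (S := S) fun v _ => abs_field_lt hε hε1 (s.1, (x.1 s : ℝ)) x.1 x.2 v)
    (G.dist o s.2) (geod G o s.2)
  exact ⟨mul_nonneg (pow_nonneg h0 _) a, mul_le_one₀ (pow_le_one₀ h0 h1.le) a b⟩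

lemma jmp_eq (hG : G.IsTree) (h0 : 0 ≤ θ) (h1 : θ < 1) (hε : 0 ≤ ε) (hε1 : ε < 1) {S : Finset V}
    (hS : Conn G S) (o : V) {s : ℕ × V} (hs : s.2 ∈ S) (x : Conf V) :
    jmp G θ ε S o s x =
      atten G θ ε S o s x * amp (meanS G θ ε S s x) (strength ε x.1 s * (x.2 s : ℝ)) := by
  rw [meanS_eq_magI_fldS hG h0 h1 hε hε1 hS hs]; rfl

/-- The jump as a function of the past and a uniform innovation. -/
noncomputable def jmpAt (G : SimpleGraph V) [G.LocallyFinite] (θ ε : ℝ) (S : Finset V) (o : V)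
    (s : ℕ × V) (μ : Conf V → ℝ) (x : Conf V) (a : I) : ℝ :=
  atten G θ ε S o s x *
    amp (meanS G θ ε S s x) (strength ε x.1 s * (qObs (strength ε x.1 s * μ x) a : ℝ))

lemma measurable_jmpAt (S : Finset V) (o : V) (s : ℕ × V) {μ : Conf V → ℝ} (hμ : Measurable μ) :
    Measurable fun p : Conf V × I => jmpAt G θ ε S o s μ p.1 p.2 := by
  have he : Measurable fun p : Conf V × I => strength ε p.1.1 s :=
    (measurable_strength s).comp (measurable_fst.comp measurable_fst)
  have hq : Measurable fun p : Conf V × I =>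
      strength ε p.1.1 s * (qObs (strength ε p.1.1 s * μ p.1) p.2 : ℝ) :=
    he.mul (measurable_subtype_coe.comp
      (measurable_qObs_comp (he.mul (hμ.comp measurable_fst)) measurable_snd))
  have hm : Measurable fun p : Conf V × I => meanS G θ ε S s p.1 :=
    (measurable_meanS S s).comp measurable_fst
  unfold jmpAt amp
  exact ((measurable_atten S o s).comp measurable_fst).mul
    ((((hm.pow_const 2).const_sub 1).mul hq).div ((hm.mul hq).const_add 1))

lemma abs_jmpAt_le (h0 : 0 ≤ θ) (h1 : θ < 1) (hε : 0 ≤ ε) (hε2 : ε ≤ 1 / 2) (S : Finset V) (o : V)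
    (s : ℕ × V) (μ : Conf V → ℝ) (x : Conf V) (a : I) : |jmpAt G θ ε S o s μ x a| ≤ 1 := by
  have hε1 : ε < 1 := by linarith
  have hξ := abs_strength_mul_le hε x.1 s (qObs (strength ε x.1 s * μ x) a)
  obtain ⟨a0, a1⟩ := atten_mem (G := G) h0 h1 hε hε1 S o s x
  rw [jmpAt, abs_mul, abs_of_nonneg a0]
  exact mul_le_one₀ a1 (abs_nonneg _)
    ((abs_amp_le (abs_meanS_le h0 h1 hε hε1 S s x) (hξ.trans hε2)).trans (by linarith))

lemma abs_jmp_le_one (h0 : 0 ≤ θ) (h1 : θ < 1) (hε : 0 ≤ ε) (hε2 : ε ≤ 1 / 2) (S : Finset V)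
    (o : V) (s : ℕ × V) (x : Conf V) : |jmp G θ ε S o s x| ≤ 1 := by
  have hε1 : ε < 1 := by linarith
  refine (abs_jmp_le h0 h1 hε hε2 o s x).trans ?_
  obtain ⟨e0, e1⟩ := strength_mem hε x.1 s
  obtain ⟨a0, a1⟩ := atten_mem (G := G) h0 h1 hε hε1 S o s x
  simp only [atten] at a0 a1
  rw [abs_of_nonneg e0, mul_assoc (2 * _)]
  exact (mul_le_mul (by linarith : 2 * strength ε x.1 s ≤ 1) a1 a0 (by norm_num)).trans_eq (mul_one 1)

lemma abs_integral_jmpAt_le (h0 : 0 ≤ θ) (h1 : θ < 1) (hε : 0 ≤ ε) (hε2 : ε ≤ 1 / 2)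
    (S : Finset V) (o : V) (s : ℕ × V) (μ : Conf V → ℝ) (x : Conf V) (hμ : |μ x| ≤ 1) :
    |∫ a, jmpAt G θ ε S o s μ x a| ≤ |μ x - meanS G θ ε S s x| := by
  have hε1 : ε < 1 := by linarith
  obtain ⟨e0, e1⟩ := strength_mem hε x.1 s
  obtain ⟨a0, a1⟩ := atten_mem (G := G) h0 h1 hε hε1 S o s x
  simp only [jmpAt]
  rw [integral_const_mul, abs_mul, abs_of_nonneg a0]
  exact (mul_le_of_le_one_left (abs_nonneg _) a1).trans
    (abs_integral_amp_le (abs_meanS_le h0 h1 hε hε1 S s x) hμ e0 (e1.trans hε2))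

variable [Countable V] (hG : G.IsTree) (h0 : 0 ≤ θ) (h1 : θ < 1) (hε : 0 ≤ ε) (hε2 : ε ≤ 1 / 2)
  (o : V)
include hG h0 h1 hε hε2

/-- In finite volume a jump is orthogonal to every function of its strict past. -/
theorem jmp_orth {S : Finset V} (hS : Conn G S) {s : ℕ × V} (hs : s.2 ∈ S) {H : Conf V → ℝ}
    (hH : Measurable H) {C : ℝ} (hC : ∀ x, |H x| ≤ C)
    (hdep : ∀ U z z', (∀ q ∈ beforeR U S s, z q = z' q) → H (U, z) = H (U, z')) :
    ∫ x, H x * jmp G θ ε S o s x ∂(PZ G θ ε o) = 0 := by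
  have hε1 : ε < 1 := by linarith
  have hFm : Measurable fun x => H x * jmp G θ ε S o s x := hH.mul (measurable_jmp G θ S o s)
  have hFb : ∀ x, |H x * jmp G θ ε S o s x| ≤ C * 1 := fun x => by
    rw [abs_mul]
    exact mul_le_mul (hC x) (abs_jmp_le_one h0 h1 hε hε2 S o s x) (abs_nonneg _)
      ((abs_nonneg _).trans (hC x))
  have hsmem : s ∈ sitesUpTo S s.1 := by
    simp only [sitesUpTo, Finset.mem_product, Finset.mem_range]; exact ⟨by omega, hs⟩
  have hFd : ∀ U z z', (∀ q ∈ sitesUpTo S s.1, z q = z' q) →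
      H (U, z) * jmp G θ ε S o s (U, z) = H (U, z') * jmp G θ ε S o s (U, z') := by
    intro U z z' h
    rw [hdep U z z' fun q hq => h q (beforeR_subset_sites hq),
      jmp_congr o fun q hq => h q ((Finset.insert_subset hsmem beforeR_subset_sites) hq)]
  have hsm : Measurable fun p : Noise V => (p.1, solW G θ ε p.1 S p.2) :=
    measurable_fst.prodMk (measurable_solW2 S)
  rw [integral_PZ_solW hG h0 h1 hε hε1 o hS hs s.1 hFm hFb hFd, PR,
    integral_prod _ (integrable_of_bounded (hFm.fun_comp hsm) fun p => hFb _)]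
  refine integral_eq_zero_of_ae (ae_of_all _ fun U => ?_)
  simp only [Pi.zero_apply]
  rw [Pg, integral_update (volume : Measure I) s
    (F := fun g => H (U, solW G θ ε U S g) * jmp G θ ε S o s (U, solW G θ ε U S g))
    (hFm.fun_comp (measurable_const.prodMk (measurable_solW U S))) (fun g => hFb _)]
  refine integral_eq_zero_of_ae (ae_of_all _ fun g => ?_)
  simp only [Pi.zero_apply]
  have hstep : ∀ a : I, H (U, solW G θ ε U S (update g s a)) *
      jmp G θ ε S o s (U, solW G θ ε U S (update g s a)) =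
      H (U, solW G θ ε U S g) *
        jmpAt G θ ε S o s (meanS G θ ε S s) (U, solW G θ ε U S g) a := by
    intro a
    have hb : ∀ q ∈ beforeR U S s, solW G θ ε U S (update g s a) q = solW G θ ε U S g q :=
      fun q hq => solW_congr fun r hr => update_of_ne (by
        rintro rfl
        rcases Finset.mem_insert.1 hr with h | h
        · exact past_irrefl _ _ (h ▸ (mem_beforeR.1 hq).2)
        · exact absurd (card_beforeR_lt hq) (card_beforeR_lt h).not_gt) _ _
    rw [hdep U _ _ hb, jmp_eq hG h0 h1 hε hε1 hS o hs, jmpAt, atten_congr o hb, meanS_congr hb]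
    dsimp only
    rw [solW_eq U S (update g s a) s, stepW, meanW_congr hb, update_self]
    rfl
  simp only [hstep, integral_const_mul]
  have := abs_integral_jmpAt_le (G := G) h0 h1 hε hε2 S o s (meanS G θ ε S s)
    (U, solW G θ ε U S g) (abs_meanS_le h0 h1 hε hε1 _ _ _)
  rw [sub_self, abs_zero, abs_nonpos_iff] at this
  rw [this, mul_zero]

omit [Countable V] in
/-- The observation in terms of the limiting mean and the innovation. -/
lemma obs_eq (s : ℕ × V) :
    ∀ᵐ x ∂(PZ G θ ε o), x.2 s = qObs (strength ε x.1 s * mInf G θ ε s x) (gInf G θ ε s x) := by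
  have hε1 : ε < 1 := by linarith
  filter_upwards [abs_mInf_le hG h0 h1 hε hε1 o s] with x hx
  have ha : |strength ε x.1 s * mInf G θ ε s x| < 1 := by
    rw [abs_mul]
    exact lt_of_le_of_lt (mul_le_of_le_one_right (abs_nonneg _) hx)
      (lt_of_le_of_lt (abs_strength_le hε x.1 s) hε1)
  have e : cdfObs (strength ε x.1 s * mInf G θ ε s x) (x.2 s) =
      cdfObs (strength ε x.1 s * mInf G θ ε s x)
        (qObs (strength ε x.1 s * mInf G θ ε s x) (gInf G θ ε s x)) := by
    rw [cdfObs_qObs ha.le, gInf, Set.projIcc_of_mem _ (cdfObs_mem ha _)]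
  exact le_antisymm ((cdfObs_le_iff ha (Obs.abs_le _) (Obs.abs_le _)).1 e.le)
    ((cdfObs_le_iff ha (Obs.abs_le _) (Obs.abs_le _)).1 e.ge)

/-- The difference of the jumps of the two copies is almost orthogonal to their common past. -/
theorem dJump_orth {S : Finset V} (hS : Conn G S) {s : ℕ × V} (hs : s.2 ∈ S)
    {H : Conf V → Conf V → ℝ} (hH : Measurable fun u : Conf V × Conf V => H u.1 u.2) {C : ℝ}
    (hC0 : 0 ≤ C) (hC : ∀ x x', |H x x'| ≤ C)
    (hdep : ∀ x x', H (pastM s x) (pastM s x') = H x x') :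
    |∫ u, H u.1 u.2 * (jmp G θ ε S o s u.2 - jmp G θ ε S o s u.1) ∂(P2 G θ ε o)| ≤
      2 * C * ∫ x, |mInf G θ ε s x - meanS G θ ε S s x| ∂(PZ G θ ε o) := by
  have hε1 : ε < 1 := by linarith
  set Ψ := jmpAt G θ ε S o s (mInf G θ ε s) with hΨ
  have hΨm := measurable_jmpAt (G := G) (θ := θ) (ε := ε) S o s (measurable_mInf (G := G) (θ := θ) (ε := ε) s)
  set Φ : Conf V → Conf V → I → ℝ := fun x x' a => H x x' * (Ψ x' a - Ψ x a) with hΦ
  have hΦm : Measurable fun y : Conf V × Conf V × I => Φ y.1 y.2.1 y.2.2 :=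
    (hH.comp (f := fun y : Conf V × Conf V × I => (y.1, y.2.1))
      (measurable_fst.prodMk (measurable_fst.comp measurable_snd))).mul
      ((hΨm.comp (f := fun y : Conf V × Conf V × I => (y.2.1, y.2.2)) measurable_snd).sub
      (hΨm.comp (f := fun y : Conf V × Conf V × I => (y.1, y.2.2))
        (measurable_fst.prodMk (measurable_snd.comp measurable_snd))))
  have hΦb : ∀ x x' a, |Φ x x' a| ≤ C * 2 := fun x x' a => by
    rw [abs_mul]
    refine mul_le_mul (hC x x') ((abs_sub _ _).trans ?_) (abs_nonneg _) hC0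
    linarith [abs_jmpAt_le (G := G) h0 h1 hε hε2 S o s (mInf G θ ε s) x a,
      abs_jmpAt_le (G := G) h0 h1 hε hε2 S o s (mInf G θ ε s) x' a]
  have hΨp : ∀ x : Conf V, x.2 s = qObs (strength ε x.1 s * mInf G θ ε s x) (gInf G θ ε s x) →
      jmp G θ ε S o s x = Ψ (pastM s x) (gInf G θ ε s x) := by
    intro x hx
    rw [jmp_eq hG h0 h1 hε hε1 hS o hs, hΨ, jmpAt,
      pastM_apply_eq (atten G θ ε S o s) (fun _ _ _ h => atten_congr o h) x, meanS_pastM,
      mInf_pastM, pastM_fst, ← hx]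
  have e : ∫ u, H u.1 u.2 * (jmp G θ ε S o s u.2 - jmp G θ ε S o s u.1) ∂(P2 G θ ε o) =
      ∫ u, ∫ a, Φ (pastM s u.1) (pastM s u.2) a ∂(volume : Measure I) ∂(P2 G θ ε o) := by
    rw [← fresh hG h0 h1 hε hε1 o s hΦm hΦb]
    refine integral_congr_ae ?_
    filter_upwards [ae_toPQ_eq hG h0 h1 hε hε1 o, ae_fst hG h0 h1 hε hε1 o
      (obs_eq hG h0 h1 hε hε2 o s), ae_snd hG h0 h1 hε hε1 o (obs_eq hG h0 h1 hε hε2 o s)]
      with u hy hu1 hu2
    have hg : gInf G θ ε s u.1 = gInf G θ ε s u.2 := congrFun (congrArg Prod.snd hy) s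
    rw [hΨp _ hu1, hΨp _ hu2, ← hg]
    simp only [hΦ, hdep]
  rw [e]
  have hdm : Measurable fun x => |mInf G θ ε s x - meanS G θ ε S s x| :=
    ((measurable_mInf s).sub (measurable_meanS S s)).abs
  have hint : Integrable (fun x => |mInf G θ ε s x - meanS G θ ε S s x|) (PZ G θ ε o) := by
    refine Integrable.mono' (integrable_const (2 : ℝ)) hdm.aestronglyMeasurable ?_
    filter_upwards [abs_mInf_le hG h0 h1 hε hε1 o s] with x hx
    rw [Real.norm_eq_abs, abs_abs]
    exact (abs_sub _ _).trans (by linarith [abs_meanS_le (G := G) h0 h1 hε hε1 S s x])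
  have i1 : Integrable (fun u : Conf V × Conf V =>
      |mInf G θ ε s u.1 - meanS G θ ε S s u.1|) (P2 G θ ε o) :=
    (integrable_map_measure hdm.aestronglyMeasurable measurable_fst.aemeasurable).1
      (by rwa [P2_map_fst hG h0 h1 hε hε1 o])
  have i2 : Integrable (fun u : Conf V × Conf V =>
      |mInf G θ ε s u.2 - meanS G θ ε S s u.2|) (P2 G θ ε o) :=
    (integrable_map_measure hdm.aestronglyMeasurable measurable_snd.aemeasurable).1
      (by rwa [P2_map_snd hG h0 h1 hε hε1 o])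
  have e1 : ∫ u, |mInf G θ ε s u.1 - meanS G θ ε S s u.1| ∂(P2 G θ ε o) =
      ∫ x, |mInf G θ ε s x - meanS G θ ε S s x| ∂(PZ G θ ε o) := by
    conv_rhs => rw [← P2_map_fst hG h0 h1 hε hε1 o,
      integral_map measurable_fst.aemeasurable hdm.aestronglyMeasurable]
  have e2 : ∫ u, |mInf G θ ε s u.2 - meanS G θ ε S s u.2| ∂(P2 G θ ε o) =
      ∫ x, |mInf G θ ε s x - meanS G θ ε S s x| ∂(PZ G θ ε o) := by
    conv_rhs => rw [← P2_map_snd hG h0 h1 hε hε1 o,
      integral_map measurable_snd.aemeasurable hdm.aestronglyMeasurable]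
  refine (abs_integral_le_integral_abs).trans ?_
  refine (integral_mono_of_nonneg (ae_of_all _ fun u => abs_nonneg _)
    ((i1.add i2).const_mul C) ?_).trans_eq ?_
  · filter_upwards [ae_fst hG h0 h1 hε hε1 o (abs_mInf_le hG h0 h1 hε hε1 o s),
      ae_snd hG h0 h1 hε hε1 o (abs_mInf_le hG h0 h1 hε hε1 o s)] with u hu1 hu2
    have b1 := abs_integral_jmpAt_le (G := G) h0 h1 hε hε2 S o s (mInf G θ ε s) (pastM s u.1)
      (by rwa [mInf_pastM])
    have b2 := abs_integral_jmpAt_le (G := G) h0 h1 hε hε2 S o s (mInf G θ ε s) (pastM s u.2)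
      (by rwa [mInf_pastM])
    rw [mInf_pastM, meanS_pastM] at b1 b2
    have ii : ∀ x, Integrable (fun a => Ψ x a) (volume : Measure I) := fun x =>
      integrable_of_bounded (hΨm.comp (f := fun a : I => (x, a)) measurable_prodMk_left)
        fun a => abs_jmpAt_le h0 h1 hε hε2 S o s _ x a
    simp only [hΦ, Pi.add_apply]
    rw [integral_const_mul, integral_sub (ii _) (ii _), abs_mul]
    refine mul_le_mul (hC _ _) ((abs_sub _ _).trans ?_) (abs_nonneg _) hC0
    rw [add_comm]; exact add_le_add b1 b2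
  · rw [integral_const_mul]
    simp only [Pi.add_apply]
    rw [integral_add i1 i2, e1, e2]
    ring

end Vale.Agent.P161.Crit
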