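import Vale.Agent.P161.Crit.Pair
import Vale.Agent.P161.Crit.Telescope

/-!
Resampling identities for the pair: the innovation of a site is fresh given both strict pasts,
and the ranking of a site not yet revealed at a time `T` is uniform given both states at `T`.
-/

namespace Vale.Agent.P161.Crit

open MeasureTheory Filter Function
open scoped unitInterval ENNReal Topology

variable {V : Type*}

open Classical in
/-- The part of a configuration selected by `c`, with rankings reduced by `μ`. -/
noncomputable def keep (μ : (ℕ × V → I) → ℕ × V → I) (c : (ℕ × V → I) → ℕ × V → Prop)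
    (ω : Conf V) : Conf V :=
  (μ ω.1, fun q => if c ω.1 q then ω.2 q else zInit q)

lemma measurable_keep {μ : (ℕ × V → I) → ℕ × V → I} {c : (ℕ × V → I) → ℕ × V → Prop}
    (hμ : Measurable μ) (hc : ∀ q, MeasurableSet {U | c U q}) : Measurable (keep μ c) := by
  refine (hμ.comp measurable_fst).prodMk (measurable_pi_lambda _ fun q => ?_)
  classical
  exact Measurable.ite (measurable_fst (hc q)) ((measurable_pi_apply q).comp measurable_snd)
    measurable_const

variable [DecidableEq V] [Countable V] {G : SimpleGraph V} [G.LocallyFinite] {θ ε : ℝ}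

omit [Countable V] in
lemma toPQn_solW (h0 : 0 ≤ θ) (h1 : θ < 1) (hε : 0 ≤ ε) (hε1 : ε < 1) (c : V) (n : ℕ)
    (U g : ℕ × V → I) :
    toPQn G θ ε c n (U, solW G θ ε U (ballF G c n) g) =
      (U, trunc (sitesUpTo (ballF G c n) n) 0 g) := by
  simp only [toPQn, innovS]
  congr 2
  funext q
  exact innovW_solW h0 h1 hε hε1 _ _ _ _

omit [Countable V] in
lemma toPQn_congr (c : V) (n : ℕ) {U : ℕ × V → I} {z z' : ℕ × V → Obs}
    (h : ∀ q ∈ sitesUpTo (ballF G c n) n, z q = z' q) :
    toPQn G θ ε c n (U, z) = toPQn G θ ε c n (U, z') := by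
  refine Prod.ext rfl (funext fun q => ?_)
  simp only [toPQn]
  by_cases hq : q ∈ sitesUpTo (ballF G c n) n
  · simp only [trunc, if_pos hq, innovS, innovW]
    rw [h q hq, meanW_dep_sites (Finset.Subset.refl (ballF G c n))
      (by simpa [Nat.lt_succ_iff] using (Finset.mem_product.1 hq).1) h]
  · simp [trunc, hq]

variable (hG : G.IsTree) (h0 : 0 ≤ θ) (h1 : θ < 1) (hε : 0 ≤ ε) (hε1 : ε < 1) (o : V)
include hG h0 h1 hε hε1

/-- A change of the noise that does not affect the kept part in finite volume does not affect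
the joint law of the kept part and the limiting noise. -/
lemma resample {μ : (ℕ × V → I) → ℕ × V → I} {c : (ℕ × V → I) → ℕ × V → Prop}
    (hμ : Measurable μ) (hc : ∀ q, MeasurableSet {U | c U q})
    {ρ γ : (ℕ × V → I) × I → ℕ × V → I} (hρ : Measurable ρ) (hγ : Measurable γ)
    (hP : ((PR V).prod (volume : Measure I)).map (fun p => (ρ (p.1.1, p.2), γ (p.1.2, p.2))) = PR V)
    (hγc : ∀ a, Continuous fun g => γ (g, a))
    (hγt : ∀ P : Finset (ℕ × V), ∀ g a, trunc P 0 (γ (trunc P 0 g, a)) = trunc P 0 (γ (g, a)))
    (hμ' : ∀ U a, μ (ρ (U, a)) = μ U) (hc' : ∀ U a q, c (ρ (U, a)) q ↔ c U q)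
    (hsol : ∀ S U g a q, c U q →
      solW G θ ε (ρ (U, a)) S (γ (g, a)) q = solW G θ ε U S g q) :
    (PZ G θ ε o).map (fun ω => (keep μ c ω, toPQ G θ ε ω)) =
      ((PZ G θ ε o).prod (volume : Measure I)).map fun p =>
        (keep μ c p.1, (ρ ((toPQ G θ ε p.1).1, p.2), γ ((toPQ G θ ε p.1).2, p.2))) := by
  have hk : Measurable (keep μ c) := measurable_keep hμ hc
  have hmR : Measurable fun p : Conf V × I =>
      (keep μ c p.1, (ρ ((toPQ G θ ε p.1).1, p.2), γ ((toPQ G θ ε p.1).2, p.2))) :=
    (hk.comp measurable_fst).prodMk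
      ((hρ.comp ((measurable_fst.comp (measurable_toPQ.comp measurable_fst)).prodMk
        measurable_snd)).prodMk
      (hγ.comp ((measurable_snd.comp (measurable_toPQ.comp measurable_fst)).prodMk measurable_snd)))
  refine ext_of_forall_integral_eq_of_IsFiniteMeasure fun F => ?_
  have hFm : Measurable fun x => F x := F.continuous.measurable
  have hFb : ∀ x, |F x| ≤ ‖F‖ := fun x => F.norm_coe_le_norm x
  rw [integral_map (hk.prodMk measurable_toPQ).aemeasurable hFm.aestronglyMeasurable,
    integral_map hmR.aemeasurable hFm.aestronglyMeasurable]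
  set P : ℕ → Finset (ℕ × V) := fun n => sitesUpTo (ballF G o n) n with hPdef
  set z0 : Obs := zInit ((0, o) : ℕ × V)
  set mn : ℕ → Conf V → Conf V := fun n ω => (μ ω.1, trunc (P n) z0 (keep μ c ω).2) with hmn
  have hmnm : ∀ n, Measurable (mn n) := fun n =>
    (hμ.comp measurable_fst).prodMk ((measurable_trunc _ _).comp (measurable_snd.comp hk))
  have hmnd : ∀ n U z z', (∀ q ∈ P n, z q = z' q) → mn n (U, z) = mn n (U, z') := by
    intro n U z z' h
    simp only [hmn, keep]
    congr 1
    funext q
    simp only [trunc]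
    by_cases hq : q ∈ P n
    · simp [hq, h q hq]
    · simp [hq]
  have hmnlim : ∀ ω, Tendsto (fun n => mn n ω) atTop (𝓝 (keep μ c ω)) := fun ω =>
    Tendsto.prodMk_nhds tendsto_const_nhds
      (tendsto_trunc (exhaust hG o) z0 fun q => tendsto_const_nhds)
  set R : ℕ → Conf V × I → Conf V × Noise V := fun n p =>
    (mn n p.1, (ρ (p.1.1, p.2), trunc (P n) 0 (γ ((toPQn G θ ε o n p.1).2, p.2)))) with hR
  have hRm : ∀ n, Measurable (R n) := fun n =>
    ((hmnm n).comp measurable_fst).prodMk
      ((hρ.comp ((measurable_fst.comp measurable_fst).prodMk measurable_snd)).prodMk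
      ((measurable_trunc _ _).comp (hγ.comp
        ((measurable_snd.comp ((measurable_toPQn o n).comp measurable_fst)).prodMk measurable_snd))))
  have tL : Tendsto (fun n => ∫ ω, F (mn n ω, toPQn G θ ε o n ω) ∂(PZ G θ ε o)) atTop
      (𝓝 (∫ ω, F (keep μ c ω, toPQ G θ ε ω) ∂(PZ G θ ε o))) := by
    refine tendsto_integral_of_dominated_convergence (fun _ => ‖F‖)
      (fun n => (hFm.comp ((hmnm n).prodMk (measurable_toPQn o n))).aestronglyMeasurable)
      (integrable_const _) (fun n => ae_of_all _ fun ω => hFb _) ?_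
    filter_upwards [tendsto_toPQn hG h0 h1 hε hε1 o o] with ω hω
    exact (F.continuous.tendsto _).comp ((hmnlim ω).prodMk_nhds hω)
  have tR : Tendsto (fun n => ∫ p, F (R n p) ∂((PZ G θ ε o).prod (volume : Measure I))) atTop
      (𝓝 (∫ p, F (keep μ c p.1, (ρ ((toPQ G θ ε p.1).1, p.2), γ ((toPQ G θ ε p.1).2, p.2)))
        ∂((PZ G θ ε o).prod (volume : Measure I)))) := by
    refine tendsto_integral_of_dominated_convergence (fun _ => ‖F‖)
      (fun n => (hFm.comp (hRm n)).aestronglyMeasurable)
      (integrable_const _) (fun n => ae_of_all _ fun ω => hFb _) ?_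
    filter_upwards [Measure.quasiMeasurePreserving_fst.ae
      (tendsto_toPQn hG h0 h1 hε hε1 o o)] with p hp
    refine (F.continuous.tendsto _).comp ((hmnlim p.1).prodMk_nhds
      (Tendsto.prodMk_nhds tendsto_const_nhds (tendsto_trunc (exhaust hG o) 0 fun q => ?_)))
    exact (tendsto_pi_nhds.1 (((hγc p.2).tendsto _).comp ((continuous_snd.tendsto _).comp hp))) q
  refine tendsto_nhds_unique tL (tR.congr fun n => ?_)
  have hL : ∫ ω, F (mn n ω, toPQn G θ ε o n ω) ∂(PZ G θ ε o) =
      ∫ y, F (mn n (y.1, solW G θ ε y.1 (ballF G o n) y.2), (y.1, trunc (P n) 0 y.2)) ∂(PR V) := by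
    rw [integral_PZ_solW hG h0 h1 hε hε1 o (conn_ballF hG o n) (self_mem_ballF o n) n
      (F := fun ω => F (mn n ω, toPQn G θ ε o n ω))
      (hFm.fun_comp ((hmnm n).prodMk (measurable_toPQn o n))) (fun ω => hFb _)
      (fun U z z' h => by rw [hmnd n U z z' h, toPQn_congr o n h])]
    simp only [toPQn_solW h0 h1 hε hε1, hPdef]
  have hi : Integrable (fun p => F (R n p)) ((PZ G θ ε o).prod (volume : Measure I)) :=
    integrable_of_bounded (hFm.comp (hRm n)) fun p => hFb _
  have hin : Measurable fun ω => ∫ a, F (R n (ω, a)) ∂(volume : Measure I) :=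
    (hFm.comp (hRm n)).stronglyMeasurable.integral_prod_right'.measurable
  rw [integral_prod _ hi, hL, integral_PZ_solW hG h0 h1 hε hε1 o (conn_ballF hG o n)
    (self_mem_ballF o n) n (F := fun ω => ∫ a, F (R n (ω, a)) ∂(volume : Measure I)) hin
    (fun ω => abs_integral_le_of_bound fun a => hFb _)
    (fun U z z' h => by simp only [hR, hmnd n U z z' h, toPQn_congr o n h])]
  set Φ : Noise V → ℝ := fun y =>
    F (mn n (y.1, solW G θ ε y.1 (ballF G o n) y.2), (y.1, trunc (P n) 0 y.2))
  have hΦ : Measurable Φ := hFm.comp (((hmnm n).comp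
    (measurable_fst.prodMk (measurable_solW2 _))).prodMk
    (measurable_fst.prodMk ((measurable_trunc _ _).comp measurable_snd)))
  have hτ : Measurable fun p : Noise V × I => (ρ (p.1.1, p.2), γ (p.1.2, p.2)) :=
    (hρ.comp ((measurable_fst.comp measurable_fst).prodMk measurable_snd)).prodMk
      (hγ.comp ((measurable_snd.comp measurable_fst).prodMk measurable_snd))
  show _ = ∫ y, Φ y ∂(PR V)
  conv_rhs => rw [← hP, integral_map hτ.aemeasurable hΦ.aestronglyMeasurable,
    integral_prod _ (integrable_of_bounded (hΦ.fun_comp hτ) fun p => hFb _)]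
  refine integral_congr_ae (ae_of_all _ fun y => integral_congr_ae (ae_of_all _ fun a => ?_))
  obtain ⟨U, g⟩ := y
  simp only [hR, Φ, toPQn_solW h0 h1 hε hε1, hPdef, hγt]
  congr 2
  simp only [hmn, keep, hμ']
  congr 1
  funext q
  simp only [trunc]
  split_ifs with hq hcq hcq' hcq'
  · exact (hsol _ U g a q hcq).symm
  · exact absurd ((hc' U a q).2 hcq) hcq'
  · exact absurd ((hc' U a q).1 hcq') hcq
  · rfl
  · rfl

omit [DecidableEq V] hG h0 h1 hε hε1 in
lemma map_noise_right {γ : (ℕ × V → I) × I → ℕ × V → I} (hγ : Measurable γ)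
    (h : ((Pg V).prod (volume : Measure I)).map γ = Pg V) :
    ((PR V).prod (volume : Measure I)).map (fun p => (p.1.1, γ (p.1.2, p.2))) = PR V := by
  have hm : Measurable fun p : Noise V × I => (p.1.1, γ (p.1.2, p.2)) :=
    (measurable_fst.comp measurable_fst).prodMk
      (hγ.comp ((measurable_snd.comp measurable_fst).prodMk measurable_snd))
  refine Measure.ext_prod fun {A B} hA hB => ?_
  rw [Measure.map_apply hm (hA.prod hB), Measure.prod_apply_symm (hm (hA.prod hB))]
  have e : ∀ a : I, (fun y : Noise V => (y, a)) ⁻¹'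
      ((fun p : Noise V × I => (p.1.1, γ (p.1.2, p.2))) ⁻¹' (A ×ˢ B)) =
      A ×ˢ ((fun g => (g, a)) ⁻¹' (γ ⁻¹' B)) := fun a => rfl
  simp only [e, PR, Measure.prod_prod]
  rw [lintegral_const_mul _ (measurable_measure_prodMk_right (hγ hB))]
  congr 1
  conv_rhs => rw [← h, Measure.map_apply hγ hB, Measure.prod_apply_symm (hγ hB)]

omit [DecidableEq V] hG h0 h1 hε hε1 in
lemma map_noise_left {ρ : (ℕ × V → I) × I → ℕ × V → I} (hρ : Measurable ρ)
    (h : ((Pg V).prod (volume : Measure I)).map ρ = Pg V) :
    ((PR V).prod (volume : Measure I)).map (fun p => (ρ (p.1.1, p.2), p.1.2)) = PR V := by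
  have hm : Measurable fun p : Noise V × I => (ρ (p.1.1, p.2), p.1.2) :=
    (hρ.comp ((measurable_fst.comp measurable_fst).prodMk measurable_snd)).prodMk
      (measurable_snd.comp measurable_fst)
  refine Measure.ext_prod fun {A B} hA hB => ?_
  rw [Measure.map_apply hm (hA.prod hB), Measure.prod_apply_symm (hm (hA.prod hB))]
  have e : ∀ a : I, (fun y : Noise V => (y, a)) ⁻¹'
      ((fun p : Noise V × I => (ρ (p.1.1, p.2), p.1.2)) ⁻¹' (A ×ˢ B)) =
      ((fun U => (U, a)) ⁻¹' (ρ ⁻¹' A)) ×ˢ B := fun a => rfl
  simp only [e, PR, Measure.prod_prod]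
  rw [lintegral_mul_const _ (measurable_measure_prodMk_right (hρ hA))]
  congr 1
  conv_rhs => rw [← h, Measure.map_apply hρ hA, Measure.prod_apply_symm (hρ hA)]

/-- The strict past of a site, with all rankings. -/
noncomputable def pastM (s : ℕ × V) : Conf V → Conf V :=
  keep id fun U q => past (lev U s.1) q s

omit [Countable V] hG h0 h1 hε hε1 in
lemma measurable_pastM (s : ℕ × V) : Measurable (pastM s) :=
  measurable_keep measurable_id fun q => measurable_lev s.1 (measurableSet_past q s)

/-- The innovation of `s` is fresh given the rankings and both strict pasts. -/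
theorem fresh (s : ℕ × V) {Φ : Conf V → Conf V → I → ℝ}
    (hΦ : Measurable fun x : Conf V × Conf V × I => Φ x.1 x.2.1 x.2.2) {C : ℝ}
    (hC : ∀ x x' a, |Φ x x' a| ≤ C) :
    ∫ w, Φ (pastM s w.1) (pastM s w.2) (gInf G θ ε s w.1) ∂(P2 G θ ε o) =
      ∫ w, ∫ a, Φ (pastM s w.1) (pastM s w.2) a ∂(volume : Measure I) ∂(P2 G θ ε o) := by
  set γ : (ℕ × V → I) × I → ℕ × V → I := fun p => update p.1 s p.2 with hγdef
  have hγm : Measurable γ := measurable_update2 s
  have hτ : Measurable fun p : Noise V × I => (p.1.1, γ (p.1.2, p.2)) :=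
    (measurable_fst.comp measurable_fst).prodMk
      (hγm.comp ((measurable_snd.comp measurable_fst).prodMk measurable_snd))
  have hP := map_noise_right (V := V) hγm (map_update_prod (volume : Measure I) s)
  have hH := resample hG h0 h1 hε hε1 o (μ := id) (c := fun U q => past (lev U s.1) q s)
    measurable_id (fun q => measurable_lev s.1 (measurableSet_past q s))
    (ρ := Prod.fst) (γ := γ) measurable_fst hγm hP
    (fun a => continuous_id.update s continuous_const)
    (fun P g a => by
      funext q
      by_cases hq : q ∈ P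
      · by_cases hqs : q = s
        · subst hqs; simp [trunc, hq, hγdef]
        · simp [trunc, hq, hγdef, update_of_ne hqs]
      · simp [trunc, hq])
    (fun _ _ => rfl) (fun _ _ _ => Iff.rfl)
    (fun S U g a q hq => solW_congr fun r hr => update_of_ne (by
      rintro rfl
      rcases Finset.mem_insert.1 hr with h | h
      · exact past_irrefl _ _ (h ▸ hq)
      · have h' := (mem_beforeR.1 h).2
        rcases hq with a1 | ⟨a1, b1⟩ <;> rcases h' with a2 | ⟨a2, b2⟩
        · omega
        · omega
        · omega
        · rw [a1] at b2; exact lt_irrefl _ (b1.trans b2)) _ _)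
  have e := P2_resample hG h0 h1 hε hε1 o (m := pastM s) (measurable_pastM s)
    (τ := fun p => (p.1.1, γ (p.1.2, p.2))) hτ hP hH
  have hT : Measurable fun x : Conf V × Conf V × Noise V => Φ x.1 x.2.1 (x.2.2.2 s) :=
    hΦ.comp (measurable_fst.prodMk ((measurable_fst.comp measurable_snd).prodMk
      ((measurable_pi_apply s).comp (measurable_snd.comp (measurable_snd.comp measurable_snd)))))
  have hmL : Measurable fun w : Conf V × Conf V => (pastM s w.1, pastM s w.2, toPQ G θ ε w.1) :=
    ((measurable_pastM s).comp measurable_fst).prodMk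
      (((measurable_pastM s).comp measurable_snd).prodMk (measurable_toPQ.comp measurable_fst))
  have hmR : Measurable fun p : (Conf V × Conf V) × I =>
      (pastM s p.1.1, pastM s p.1.2,
        ((toPQ G θ ε p.1.1).1, γ ((toPQ G θ ε p.1.1).2, p.2))) :=
    ((measurable_pastM s).comp (measurable_fst.comp measurable_fst)).prodMk
      (((measurable_pastM s).comp (measurable_snd.comp measurable_fst)).prodMk
        (hτ.comp ((measurable_toPQ.comp (measurable_fst.comp measurable_fst)).prodMk
          measurable_snd)))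
  have e1 := congrArg (fun ν : Measure (Conf V × Conf V × Noise V) =>
    ∫ x, Φ x.1 x.2.1 (x.2.2.2 s) ∂ν) e
  rw [integral_map hmL.aemeasurable hT.aestronglyMeasurable,
    integral_map hmR.aemeasurable hT.aestronglyMeasurable,
    integral_prod _ (integrable_of_bounded (hT.fun_comp hmR) fun p => hC _ _ _)] at e1
  simpa [hγdef, toPQ] using e1

/-- A uniform point of `[p, 1]` in place of a point above `p`. -/
noncomputable def slot (p : ℝ) (x a : I) : I :=
  if p ≤ (x : ℝ) then Set.projIcc 0 1 zero_le_one (p + (1 - p) * (a : ℝ)) else x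

omit [DecidableEq V] [Countable V] hG h0 h1 hε hε1 in
lemma slot_coe {p : ℝ} (hp0 : 0 ≤ p) {x : I} (h : p ≤ (x : ℝ)) (a : I) :
    (slot p x a : ℝ) = p + (1 - p) * (a : ℝ) := by
  have hp1 : p ≤ 1 := h.trans x.2.2
  have := mul_le_mul_of_nonneg_left a.2.2 (sub_nonneg.2 hp1)
  rw [slot, if_pos h, Set.projIcc_of_mem _ ⟨by nlinarith [a.2.1], by linarith⟩]

omit [DecidableEq V] [Countable V] hG h0 h1 hε hε1 in
lemma le_slot {p : ℝ} (hp0 : 0 ≤ p) {x : I} (h : p ≤ (x : ℝ)) (a : I) : p ≤ (slot p x a : ℝ) := by
  rw [slot_coe hp0 h]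
  nlinarith [a.2.1, h.trans x.2.2]

omit [DecidableEq V] [Countable V] hG h0 h1 hε hε1 in
lemma measurable_slot (p : ℝ) : Measurable fun q : I × I => slot p q.1 q.2 :=
  Measurable.ite (measurableSet_le measurable_const (measurable_subtype_coe.comp measurable_fst))
    (continuous_projIcc.measurable.comp
      (((measurable_subtype_coe.comp measurable_snd).const_mul _).const_add _)) measurable_fst

omit [DecidableEq V] [Countable V] hG h0 h1 hε hε1 in
lemma map_slot {p : ℝ} (hp0 : 0 ≤ p) (hp1 : p < 1) :
    ((volume : Measure I).prod (volume : Measure I)).map (fun q => slot p q.1 q.2) =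
      (volume : Measure I) := by
  refine Measure.ext_of_Iic _ _ fun t => ?_
  rw [Measure.map_apply (measurable_slot p) measurableSet_Iic, unitInterval.volume_Iic]
  set P : I := ⟨p, hp0, hp1.le⟩
  rcases lt_or_ge t P with ht | ht
  · have e : (fun q : I × I => slot p q.1 q.2) ⁻¹' Set.Iic t = Set.Iic t ×ˢ Set.univ := by
      ext ⟨x, a⟩
      simp only [Set.mem_preimage, Set.mem_Iic, Set.mem_prod, Set.mem_univ, and_true]
      by_cases hx : p ≤ (x : ℝ)
      · have h := le_slot hp0 hx a
        have ht' : (t : ℝ) < p := ht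
        exact iff_of_false (fun h' => by linarith [show (slot p x a : ℝ) ≤ t from h'])
          (fun h' => by linarith [show (x : ℝ) ≤ t from h'])
      · simp [slot, hx]
    rw [e, Measure.prod_prod, measure_univ, mul_one, unitInterval.volume_Iic]
  · have ht' : p ≤ (t : ℝ) := ht
    have hp1' : 0 < 1 - p := by linarith
    set c : I := ⟨((t : ℝ) - p) / (1 - p), div_nonneg (by linarith) hp1'.le,
      (div_le_one hp1').2 (by linarith [t.2.2])⟩ with hc
    have e : (fun q : I × I => slot p q.1 q.2) ⁻¹' Set.Iic t =
        Set.Iio P ×ˢ Set.univ ∪ Set.Ici P ×ˢ Set.Iic c := by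
      ext ⟨x, a⟩
      simp only [Set.mem_preimage, Set.mem_Iic, Set.mem_prod, Set.mem_univ, and_true, Set.mem_union,
        Set.mem_Iio, Set.mem_Ici]
      by_cases hx : p ≤ (x : ℝ)
      · have h1' : P ≤ x := hx
        simp only [not_lt.2 h1', h1', true_and, false_or]
        show (slot p x a : ℝ) ≤ t ↔ (a : ℝ) ≤ ((t : ℝ) - p) / (1 - p)
        rw [slot_coe hp0 hx, le_div_iff₀ hp1']
        constructor <;> intro h <;> linarith
      · have h1' : x < P := not_le.1 hx
        simp only [h1', true_or, iff_true, slot, if_neg hx]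
        exact (h1'.trans_le ht).le
    have hd : Disjoint (Set.Iio P ×ˢ (Set.univ : Set I)) (Set.Ici P ×ˢ Set.Iic c) :=
      Set.Disjoint.set_prod_left (Set.Iio_disjoint_Ici le_rfl) _ _
    rw [e, measure_union hd (measurableSet_Ici.prod measurableSet_Iic), Measure.prod_prod,
      Measure.prod_prod, measure_univ, mul_one, unitInterval.volume_Iio, unitInterval.volume_Ici,
      unitInterval.volume_Iic, ← ENNReal.ofReal_mul (by simp [P, hp1.le]),
      ← ENNReal.ofReal_add hp0 (mul_nonneg (by simp [P, hp1.le]) c.2.1)]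
    congr 1
    simp only [P, hc]
    field_simp
    ring

/-- The state at time `(k, p)`, with the ranking of `w` forgotten if it is at least `p`. -/
noncomputable def timeM (k : ℕ) (w : V) (p : ℝ) : Conf V → Conf V :=
  keep (fun U => if p ≤ (U (k, w) : ℝ) then update U (k, w) 1 else U)
    fun U q => q.1 < k ∨ q.1 = k ∧ (U q : ℝ) < p

omit [Countable V] hG h0 h1 hε hε1 in
lemma measurable_timeM (k : ℕ) (w : V) (p : ℝ) : Measurable (timeM k w p) := by
  refine measurable_keep (Measurable.ite (measurableSet_le measurable_const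
    (measurable_subtype_coe.comp (measurable_pi_apply _)))
    ((measurable_update2 (k, w)).comp (measurable_id.prodMk measurable_const)) measurable_id)
    fun q => ?_
  by_cases h : q.1 < k
  · simp [h]
  · by_cases h' : q.1 = k
    · simp only [h', lt_self_iff_false, true_and, false_or]
      exact measurableSet_lt (measurable_subtype_coe.comp (measurable_pi_apply q)) measurable_const
    · simp [h, h']

omit [Countable V] hG h0 h1 hε hε1 in
/-- The fields at time `(k, p)` are determined by `timeM`. -/
lemma field_timeM (k : ℕ) (w : V) {p : ℝ} (hp1 : p ≤ 1) (x : Conf V) :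
    field ε (k, p) (timeM k w p x).1 (timeM k w p x).2 = field ε (k, p) x.1 x.2 := by
  obtain ⟨U, z⟩ := x
  have hlt : ∀ q : ℕ × V, q.1 = k →
      ((((timeM k w p (U, z)).1 q : I) : ℝ) < p ↔ (U q : ℝ) < p) := by
    intro q hq
    simp only [timeM, keep]
    by_cases hs : p ≤ (U (k, w) : ℝ)
    · rw [if_pos hs]
      by_cases hqs : q = (k, w)
      · subst hqs
        rw [update_self]
        exact iff_of_false (fun h => by simp at h; linarith) (not_lt.2 hs)
      · rw [update_of_ne hqs]
    · rw [if_neg hs]
  funext v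
  have hl : levels (k, p) (timeM k w p (U, z)).1 v = levels (k, p) U v := by
    by_cases h : (U (k, v) : ℝ) < p
    · simp [levels, h, (hlt (k, v) rfl).2 h]
    · simp [levels, h, mt (hlt (k, v) rfl).1 h]
  unfold field
  rw [hl]
  refine cmb_congr fun j hj => ?_
  have hj' : j < k ∨ j = k ∧ (U (j, v) : ℝ) < p := by
    simp only [levels] at hj
    split_ifs at hj with h
    · rcases Nat.lt_or_eq_of_le (Nat.le_of_lt_succ (Finset.mem_range.1 hj)) with h' | h'
      · exact Or.inl h'
      · exact Or.inr ⟨h', h' ▸ h⟩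
    · exact Or.inl (Finset.mem_range.1 hj)
  have hne : p ≤ (U (k, w) : ℝ) → (j, v) ≠ (k, w) := by
    intro hs he
    rcases hj' with h | ⟨h, h'⟩
    · exact h.ne (congrArg Prod.fst he)
    · rw [he] at h'; linarith
  simp only [timeM, keep, if_pos hj']
  congr 1
  unfold strength
  by_cases hs : p ≤ (U (k, w) : ℝ)
  · rw [if_pos hs, update_of_ne (hne hs)]
  · rw [if_neg hs]

/-- On a window starting at `p`, an unrevealed ranking is at most uniform given the state at `p`. -/
theorem slot_le (k : ℕ) (w : V) {p q : ℝ} (hp0 : 0 ≤ p) (hpq : p ≤ q) (hp1 : p < 1)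
    {D : Conf V → Conf V → ℝ} (hD : Measurable fun x : Conf V × Conf V => D x.1 x.2)
    (hD0 : ∀ x x', 0 ≤ D x x') {C : ℝ} (hC : ∀ x x', D x x' ≤ C) :
    ∫ u, (if p ≤ (u.1.1 (k, w) : ℝ) ∧ (u.1.1 (k, w) : ℝ) < q then
        D (timeM k w p u.1) (timeM k w p u.2) else 0) ∂(P2 G θ ε o) ≤
      (q - p) / (1 - p) * ∫ u, D (timeM k w p u.1) (timeM k w p u.2) ∂(P2 G θ ε o) := by
  set s : ℕ × V := (k, w)
  set ρ : (ℕ × V → I) × I → ℕ × V → I := fun x => update x.1 s (slot p (x.1 s) x.2) with hρdef
  have hsl : Measurable fun x : (ℕ × V → I) × I => slot p (x.1 s) x.2 :=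
    (measurable_slot p).comp
      (f := fun x : (ℕ × V → I) × I => (x.1 s, x.2))
      (((measurable_pi_apply s).comp measurable_fst).prodMk measurable_snd)
  have hρm : Measurable ρ := (measurable_update2 s).comp (measurable_fst.prodMk hsl)
  have hρP : ((Pg V).prod (volume : Measure I)).map ρ = Pg V := by
    refine Measure.ext fun A hA => ?_
    have hi : Measurable (A.indicator (fun _ => (1 : ℝ≥0∞)) : (ℕ × V → I) → ℝ≥0∞) :=
      measurable_const.indicator hA
    rw [← lintegral_indicator_one hA, ← lintegral_indicator_one hA]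
    show ∫⁻ x, A.indicator (fun _ => 1) x ∂_ = ∫⁻ x, A.indicator (fun _ => 1) x ∂_
    rw [lintegral_map hi hρm,
      lintegral_prod (μ := Pg V) (ν := (volume : Measure I))
        (fun x => A.indicator (fun _ => (1 : ℝ≥0∞)) (ρ x)) (hi.comp hρm).aemeasurable,
      Pg,
      lintegral_update (volume : Measure I) s
        (F := fun x => ∫⁻ y, A.indicator (fun _ => (1 : ℝ≥0∞)) (ρ (x, y)) ∂(volume : Measure I))
        ((hi.comp hρm).lintegral_prod_right' (ν := (volume : Measure I)))]
    conv_rhs => rw [lintegral_update (volume : Measure I) s hi]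
    refine lintegral_congr fun U => ?_
    simp only [hρdef, update_self, update_idem]
    have hu : Measurable fun b : I => A.indicator (fun _ => (1 : ℝ≥0∞)) (update U s b) :=
      hi.comp ((measurable_update2 s).comp measurable_prodMk_left)
    conv_rhs => rw [← map_slot hp0 hp1, lintegral_map hu (measurable_slot p),
      lintegral_prod (fun x : I × I => A.indicator (fun _ => (1 : ℝ≥0∞)) (update U s (slot p x.1 x.2)))
        (hu.comp (measurable_slot p)).aemeasurable]
  have hP := map_noise_left (V := V) hρm hρP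
  have hfix : ∀ U a, ¬ p ≤ (U s : ℝ) → ρ (U, a) = U := by
    intro U a h
    simp [hρdef, slot, h]
  have hH := resample hG h0 h1 hε hε1 o
    (μ := fun U => if p ≤ (U s : ℝ) then update U s 1 else U)
    (c := fun U q => q.1 < k ∨ q.1 = k ∧ (U q : ℝ) < p)
    (Measurable.ite (measurableSet_le measurable_const
      (measurable_subtype_coe.comp (measurable_pi_apply _)))
      ((measurable_update2 s).comp (measurable_id.prodMk measurable_const)) measurable_id)
    (fun q => by
      by_cases h : q.1 < k
      · simp [h]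
      · by_cases h' : q.1 = k
        · simp only [h', lt_self_iff_false, true_and, false_or]
          exact measurableSet_lt (measurable_subtype_coe.comp (measurable_pi_apply q))
            measurable_const
        · simp [h, h'])
    (ρ := ρ) (γ := Prod.fst) hρm measurable_fst hP (fun a => continuous_id)
    (fun P g a => by funext r; by_cases hr : r ∈ P <;> simp [trunc, hr])
    (fun U a => by
      by_cases h : p ≤ (U s : ℝ)
      · rw [if_pos h, if_pos (by simpa [hρdef] using le_slot hp0 h a)]
        simp [hρdef]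
      · rw [hfix U a h])
    (fun U a r => by
      by_cases h : p ≤ (U s : ℝ)
      · by_cases hr : r = s
        · subst hr
          have h' := le_slot hp0 h a
          simp only [hρdef, update_self]
          constructor <;> rintro (h'' | ⟨h'', h3⟩) <;> first
            | exact Or.inl h''
            | (exfalso; linarith)
        · simp [hρdef, update_of_ne hr]
      · rw [hfix U a h])
    (fun S U g a r hr => by
      by_cases h : p ≤ (U s : ℝ)
      swap
      · rw [hfix U a h]
      set U' := ρ (U, a)
      have hU's : p ≤ (U' s : ℝ) := by simpa [U', hρdef] using le_slot hp0 h a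
      have hU'ne : ∀ x, x ≠ s → U' x = U x := fun x hx => by simp [U', hρdef, update_of_ne hx]
      set Q : Set (ℕ × V) := {x | x.1 < k ∨ x.1 = k ∧ (U x : ℝ) < p}
      have hsQ : ∀ x ∈ Q, x ≠ s := by
        rintro x hx rfl
        rcases hx with h' | ⟨-, h'⟩
        · exact lt_irrefl _ h'
        · linarith
      have hb : ∀ x ∈ Q, beforeR U' S x = beforeR U S x := by
        intro x hx
        ext y
        simp only [mem_beforeR, past, lev]
        refine and_congr_right fun _ => or_congr_right (and_congr_right fun hy => ?_)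
        rw [hU'ne (x.1, x.2) (hsQ x hx)]
        by_cases hys : (x.1, y.2) = s
        · have hxk : x.1 = k := congrArg Prod.fst hys
          rcases hx with h' | ⟨-, h'⟩
          · omega
          · rw [hys]
            exact iff_of_false (fun hh => by linarith [show (U' s : ℝ) < (U x : ℝ) from hh])
              (fun hh => by linarith [show (U s : ℝ) < (U x : ℝ) from hh])
        · rw [hU'ne _ hys]
      have hclosed : ∀ x ∈ Q, ∀ y ∈ beforeR U S x, y ∈ Q := by
        intro x hx y hy
        rcases (mem_beforeR.1 hy).2 with h' | ⟨h', h''⟩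
        · rcases hx with hx | ⟨hx, -⟩
          · exact Or.inl (h'.trans hx)
          · exact Or.inl (hx ▸ h')
        · rcases hx with hx | ⟨hx, hx'⟩
          · exact Or.inl (h' ▸ hx)
          · refine Or.inr ⟨h'.trans hx, lt_trans ?_ hx'⟩
            have : U y < U x := by
              have h3 : U (x.1, y.2) < U (x.1, x.2) := h''
              rwa [show (x.1, y.2) = y from Prod.ext h'.symm rfl] at h3
            exact this
      refine (eq_solW_of_fixed (U := U') (g := g) (g' := g) (z := solW G θ ε U S g) Q
        (fun x hx y hy => hclosed x hx y (hb x hx ▸ hy)) (fun _ _ => rfl) (fun x hx => ?_) r hr).symm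
      rw [solW_eq, stepW, stepW, hb x hx]
      have e1 : strength ε U' x = strength ε U x := by
        unfold strength; rw [hU'ne x (hsQ x hx)]
      have e2 : mean G θ ε S (beforeR U S x) (sc U' (solW G θ ε U S g)) x.2 =
          mean G θ ε S (beforeR U S x) (sc U (solW G θ ε U S g)) x.2 :=
        mean_congr (fun y hy => Subtype.ext (by
          simp only [sc_coe, wgt, hU'ne y (hsQ y (hclosed x hx y hy))])) _
      rw [e1, e2])
  have hτ : Measurable fun x : Noise V × I => (ρ (x.1.1, x.2), x.1.2) :=
    (hρm.comp ((measurable_fst.comp measurable_fst).prodMk measurable_snd)).prodMk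
      (measurable_snd.comp measurable_fst)
  have e := P2_resample hG h0 h1 hε hε1 o (m := timeM k w p) (measurable_timeM k w p)
    (τ := fun x => (ρ (x.1.1, x.2), x.1.2)) hτ hP hH
  have hC0 : 0 ≤ C := (hD0 (Classical.arbitrary _) (Classical.arbitrary _)).trans (hC _ _)
  have hB : ∀ b : Prop, ∀ [Decidable b], ∀ x x', |if b then D x x' else 0| ≤ C := by
    intro b _ x x'
    split_ifs
    · rw [abs_of_nonneg (hD0 _ _)]; exact hC _ _
    · simpa using hC0
  have hT : Measurable fun x : Conf V × Conf V × Noise V =>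
      if p ≤ (x.2.2.1 s : ℝ) ∧ (x.2.2.1 s : ℝ) < q then D x.1 x.2.1 else 0 := by
    have hR : Measurable fun x : Conf V × Conf V × Noise V => (x.2.2.1 s : ℝ) :=
      measurable_subtype_coe.comp ((measurable_pi_apply s).comp
        (measurable_fst.comp (measurable_snd.comp measurable_snd)))
    exact Measurable.ite ((measurableSet_le measurable_const hR).inter
      (measurableSet_lt hR measurable_const))
      (hD.comp (measurable_fst.prodMk (measurable_fst.comp measurable_snd))) measurable_const
  have hmL : Measurable fun u : Conf V × Conf V =>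
      (timeM k w p u.1, timeM k w p u.2, toPQ G θ ε u.1) :=
    ((measurable_timeM k w p).comp measurable_fst).prodMk
      (((measurable_timeM k w p).comp measurable_snd).prodMk (measurable_toPQ.comp measurable_fst))
  have hmR : Measurable fun u : (Conf V × Conf V) × I =>
      (timeM k w p u.1.1, timeM k w p u.1.2,
        (ρ ((toPQ G θ ε u.1.1).1, u.2), (toPQ G θ ε u.1.1).2)) :=
    ((measurable_timeM k w p).comp (measurable_fst.comp measurable_fst)).prodMk
      (((measurable_timeM k w p).comp (measurable_snd.comp measurable_fst)).prodMk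
        (hτ.comp ((measurable_toPQ.comp (measurable_fst.comp measurable_fst)).prodMk
          measurable_snd)))
  have e1 := congrArg (fun ν : Measure (Conf V × Conf V × Noise V) =>
    ∫ x, (if p ≤ (x.2.2.1 s : ℝ) ∧ (x.2.2.1 s : ℝ) < q then D x.1 x.2.1 else 0) ∂ν) e
  rw [integral_map hmL.aemeasurable hT.aestronglyMeasurable,
    integral_map hmR.aemeasurable hT.aestronglyMeasurable,
    integral_prod _ (integrable_of_bounded (hT.fun_comp hmR) fun u => hB _ _ _)] at e1
  simp only [toPQ, hρdef, update_self] at e1
  refine le_of_eq_of_le e1 ?_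
  rw [← integral_const_mul]
  have hDu : Measurable fun u : Conf V × Conf V => D (timeM k w p u.1) (timeM k w p u.2) :=
    hD.comp (((measurable_timeM k w p).comp measurable_fst).prodMk
      ((measurable_timeM k w p).comp measurable_snd))
  refine integral_mono_of_nonneg (ae_of_all _ fun u => integral_nonneg fun a => ?_)
    ((integrable_of_bounded hDu fun u => by
      rw [abs_of_nonneg (hD0 _ _)]; exact hC _ _).const_mul _) (ae_of_all _ fun u => ?_)
  · simp only [Pi.zero_apply]
    split_ifs
    · exact hD0 _ _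
    · exact le_rfl
  simp only
  set d := D (timeM k w p u.1) (timeM k w p u.2)
  have hd : 0 ≤ d := hD0 _ _
  have hden : 0 < 1 - p := by linarith
  set c : ℝ := (q - p) / (1 - p) with hc
  have hc0 : 0 ≤ c := div_nonneg (by linarith) hden.le
  by_cases hx : p ≤ (u.1.1 s : ℝ)
  · have key : ∀ a : I, (if p ≤ (slot p (u.1.1 s) a : ℝ) ∧ (slot p (u.1.1 s) a : ℝ) < q then d
        else 0) = if (a : ℝ) < c then d else 0 := by
      intro a
      refine if_congr ⟨fun h => ?_, fun h => ⟨le_slot hp0 hx a, ?_⟩⟩ rfl rfl
      · have h2 := h.2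
        rw [slot_coe hp0 hx] at h2
        rw [hc, lt_div_iff₀ hden]; linarith
      · rw [hc, lt_div_iff₀ hden] at h
        rw [slot_coe hp0 hx]; linarith
    simp only [key]
    rcases le_total c 1 with hc1 | hc1
    · rw [integral_step hc0 hc1]; linarith
    · refine le_trans ((le_abs_self _).trans (abs_integral_le_of_bound (C := d) fun a => ?_))
        (le_mul_of_one_le_left hd hc1)
      split_ifs
      · rw [abs_of_nonneg hd]
      · simpa using hd
  · simp only [slot, hx, false_and, if_false, integral_zero]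
    exact mul_nonneg hc0 hd

end Vale.Agent.P161.Crit
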