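import Vale.Agent.P161.Crit.PairResample

/-!
Functions of the state at the revelation time of a site are bounded by their time averages.
-/

namespace Vale.Agent.P161.Crit

open MeasureTheory Filter Function Set
open scoped unitInterval Topology

variable {V : Type*} [DecidableEq V] [Countable V] {G : SimpleGraph V} [G.LocallyFinite] {θ ε : ℝ}

omit [Countable V] in
/-- In a finite volume the state is constant just before each time. -/
lemma maskField_left (S : Finset V) (k : ℕ) (r : ℝ) (x : Conf V) :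
    ∀ᶠ p in 𝓝[≤] r, mask S (field ε (k, p) x.1 x.2) = mask S (field ε (k, r) x.1 x.2) := by
  have h : ∀ᶠ p in 𝓝[≤] r, ∀ v ∈ S, ((x.1 (k, v) : ℝ) < p ↔ (x.1 (k, v) : ℝ) < r) := by
    rw [eventually_all_finset]
    intro v _
    by_cases hv : (x.1 (k, v) : ℝ) < r
    · filter_upwards [nhdsWithin_le_nhds (lt_mem_nhds hv)] with p hp
      simp [hp, hv]
    · filter_upwards [self_mem_nhdsWithin] with p hp
      exact iff_of_false (fun h => hv (h.trans_le hp)) hv
  filter_upwards [h] with p hp
  funext v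
  unfold mask
  split_ifs with hv
  · exact field_eq_of_levels (levels_eq_of_iff (hp v hv))
  · rfl

variable (hG : G.IsTree) (h0 : 0 ≤ θ) (h1 : θ < 1) (hε : 0 ≤ ε) (hε1 : ε < 1) (o : V)
include hG h0 h1 hε hε1

lemma map_fst_PZ : (PZ G θ ε o).map Prod.fst = Pg V := by
  have e : (Prod.fst : Conf V → ℕ × V → I) = Prod.fst ∘ toPQ G θ ε := rfl
  rw [e, ← Measure.map_map measurable_fst measurable_toPQ, map_toPQ hG h0 h1 hε hε1 o, PR]
  simp

/-- A property of almost every ranking holds in the first copy. -/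
lemma ae_ranking {p : (ℕ × V → I) → Prop} (h : ∀ᵐ U ∂(Pg V), p U) :
    ∀ᵐ u ∂(P2 G θ ε o), p u.1.1 := by
  refine ae_fst hG h0 h1 hε hε1 o (p := fun x => p x.1) ?_
  exact ae_of_ae_map measurable_fst.aemeasurable (by rwa [map_fst_PZ hG h0 h1 hε hε1 o])

omit [DecidableEq V] [Countable V] [G.LocallyFinite] hG h0 h1 hε hε1 in
lemma ae_ranking_ne (s : ℕ × V) (c : ℝ) : ∀ᵐ U ∂(Pg V), (U s : ℝ) ≠ c := by
  have hm : (Pg V).map (fun U => U s) = (volume : Measure I) := Measure.infinitePi_map_eval _ s
  refine ae_of_ae_map (μ := Pg V) (f := fun U : ℕ × V → I => U s) (p := fun x : I => (x : ℝ) ≠ c)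
    (measurable_pi_apply s).aemeasurable ?_
  rw [hm, ae_iff]
  simp only [ne_eq, not_not]
  exact Set.Subsingleton.measure_zero (fun a ha b hb => Subtype.ext (ha.trans hb.symm)) _

/-- The state when `(k, w)` is revealed in `[p1, p2)` is dominated by the average state. -/
theorem window_le (k : ℕ) (w : V) {p1 p2 : ℝ} (hp1 : 0 ≤ p1) (hp2 : p2 < 1)
    {Θ : ℝ → Conf V → Conf V → ℝ}
    (hΘ : Measurable fun z : ℝ × Conf V × Conf V => Θ z.1 z.2.1 z.2.2)
    (hΘ0 : ∀ p x x', 0 ≤ Θ p x x') {C : ℝ} (hC : ∀ p x x', Θ p x x' ≤ C)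
    (hdep : ∀ p ≤ 1, ∀ x x', Θ p (timeM k w p x) (timeM k w p x') = Θ p x x')
    (hleft : ∀ r x x', ∀ᶠ p in 𝓝[≤] r, Θ p x x' = Θ r x x') :
    ∫ u, (if p1 ≤ (u.1.1 (k, w) : ℝ) ∧ (u.1.1 (k, w) : ℝ) < p2 then
        Θ (u.1.1 (k, w)) u.1 u.2 else 0) ∂(P2 G θ ε o) ≤
      1 / (1 - p2) * ∫ p in Ico p1 p2, ∫ u, Θ p u.1 u.2 ∂(P2 G θ ε o) := by
  set P := P2 G θ ε o
  set R : Conf V × Conf V → ℝ := fun u => (u.1.1 (k, w) : ℝ) with hR
  have hRm : Measurable R :=
    measurable_subtype_coe.comp ((measurable_pi_apply _).comp (measurable_fst.comp measurable_fst))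
  set δ : ℕ → ℝ := fun n => 1 / ((n : ℝ) + 1) with hδdef
  have hδ : ∀ n, 0 < δ n := fun n => by simp only [hδdef]; positivity
  set K : ℕ → ℝ → Conf V × Conf V → ℝ := fun n p u =>
    if p ≤ R u ∧ R u < min (p + δ n) p2 then Θ p u.1 u.2 else 0 with hK
  have hC0 : 0 ≤ C := (hΘ0 0 (Classical.arbitrary _) (Classical.arbitrary _)).trans (hC _ _ _)
  have hK0 : ∀ n p u, 0 ≤ K n p u := fun n p u => by
    simp only [hK]; split_ifs
    · exact hΘ0 _ _ _
    · exact le_rfl
  have hKC : ∀ n p u, |K n p u| ≤ C := fun n p u => by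
    rw [abs_of_nonneg (hK0 n p u)]
    simp only [hK]; split_ifs
    · exact hC _ _ _
    · exact hC0
  have hKm : ∀ n, Measurable fun z : (Conf V × Conf V) × ℝ => K n z.2 z.1 := fun n =>
    Measurable.ite ((measurableSet_le measurable_snd (hRm.comp measurable_fst)).inter
      (measurableSet_lt (hRm.comp measurable_fst)
        ((measurable_snd.add_const _).min measurable_const)))
      (hΘ.comp (f := fun z : (Conf V × Conf V) × ℝ => (z.2, z.1.1, z.1.2)) (measurable_snd.prodMk
        ((measurable_fst.comp measurable_fst).prodMk (measurable_snd.comp measurable_fst))))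
      measurable_const
  have : IsFiniteMeasure ((volume : Measure ℝ).restrict (Ico p1 p2)) :=
    isFiniteMeasure_restrict.2 measure_Ico_lt_top.ne
  set A : ℕ → Conf V × Conf V → ℝ := fun n u => (∫ p in Ico p1 p2, K n p u) / δ n with hA
  have hAm : ∀ n, Measurable (A n) := fun n =>
    ((hKm n).stronglyMeasurable.integral_prod_right').measurable.div_const _
  have hAb : ∀ n u, ‖A n u‖ ≤ C := by
    intro n u
    rw [Real.norm_eq_abs, abs_of_nonneg (div_nonneg (integral_nonneg fun p => hK0 n p u) (hδ n).le),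
      div_le_iff₀ (hδ n)]
    have hind : Integrable ((Ioc (R u - δ n) (R u)).indicator fun _ => C)
        ((volume : Measure ℝ).restrict (Ico p1 p2)) :=
      (integrable_const C).indicator measurableSet_Ioc
    refine (integral_mono_of_nonneg (ae_of_all _ fun p => hK0 n p u) hind
      (ae_of_all _ fun p => ?_)).trans ?_
    · by_cases h : p ≤ R u ∧ R u < min (p + δ n) p2
      · rw [indicator_of_mem (show p ∈ Ioc (R u - δ n) (R u) from
          ⟨by linarith [(lt_min_iff.1 h.2).1], h.1⟩)]
        exact (le_abs_self _).trans (hKC n p u)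
      · simp only [hK, if_neg h]
        exact indicator_nonneg (fun _ _ => hC0) p
    · rw [integral_indicator_const C measurableSet_Ioc, smul_eq_mul, mul_comm]
      refine mul_le_mul_of_nonneg_left ?_ hC0
      rw [measureReal_def, Measure.restrict_apply measurableSet_Ioc]
      refine (ENNReal.toReal_mono measure_Ioc_lt_top.ne (measure_mono inter_subset_left)).trans ?_
      rw [Real.volume_Ioc, ENNReal.toReal_ofReal] <;> linarith [hδ n]
  have hne : ∀ᵐ u ∂P, R u ≠ p1 :=
    ae_ranking hG h0 h1 hε hε1 o (ae_ranking_ne (k, w) p1)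
  have hlim : ∀ᵐ u ∂P, Tendsto (fun n => A n u) atTop
      (𝓝 (if p1 ≤ R u ∧ R u < p2 then Θ (R u) u.1 u.2 else 0)) := by
    filter_upwards [hne] with u hu
    refine tendsto_nhds_of_eventually_eq ?_
    by_cases hw : p1 ≤ R u ∧ R u < p2
    · obtain ⟨e, he, hsub⟩ : ∃ e > 0, ∀ p, R u - e < p → p ≤ R u → Θ p u.1 u.2 = Θ (R u) u.1 u.2 := by
        obtain ⟨l, hl, hsub⟩ := mem_nhdsLE_iff_exists_Ioc_subset.1 (hleft (R u) u.1 u.2)
        exact ⟨R u - l, sub_pos.2 hl, fun p a b => hsub ⟨by linarith, b⟩⟩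
      have hd : Tendsto δ atTop (𝓝 0) := tendsto_one_div_add_atTop_nhds_zero_nat
      have hpos : 0 < min e (R u - p1) := lt_min he (sub_pos.2 (lt_of_le_of_ne hw.1 (Ne.symm hu)))
      filter_upwards [hd.eventually_lt_const hpos] with n hn
      obtain ⟨hn1, hn2⟩ := lt_min_iff.1 hn
      have e1 : ∀ p ∈ Ico p1 p2,
          K n p u = (Ioc (R u - δ n) (R u)).indicator (fun _ => Θ (R u) u.1 u.2) p := by
        intro p hp
        by_cases hi : p ∈ Ioc (R u - δ n) (R u)
        · rw [indicator_of_mem hi]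
          simp only [hK]
          rw [if_pos ⟨hi.2, lt_min (by linarith [hi.1]) hw.2⟩, hsub p (by linarith [hi.1]) hi.2]
        · rw [indicator_of_notMem hi]
          simp only [hK]
          rw [if_neg]
          rintro ⟨a, b⟩
          exact hi ⟨by linarith [(lt_min_iff.1 b).1], a⟩
      have hsubset : Ioc (R u - δ n) (R u) ⊆ Ico p1 p2 := fun p hp =>
        ⟨by linarith [hp.1], hp.2.trans_lt hw.2⟩
      simp only [hA]
      rw [if_pos hw, setIntegral_congr_fun measurableSet_Ico e1,
        setIntegral_indicator measurableSet_Ioc, inter_eq_right.2 hsubset, setIntegral_const,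
        smul_eq_mul, measureReal_def, Real.volume_Ioc, ENNReal.toReal_ofReal (by linarith [hδ n])]
      field_simp [(hδ n).ne']
      ring
    · refine Eventually.of_forall fun n => ?_
      have e1 : ∀ p ∈ Ico p1 p2, K n p u = 0 := by
        intro p hp
        simp only [hK]
        rw [if_neg]
        rintro ⟨a, b⟩
        exact hw ⟨hp.1.trans a, (lt_min_iff.1 b).2⟩
      simp only [hA]
      rw [if_neg hw, setIntegral_congr_fun measurableSet_Ico e1]
      simp
  have t := tendsto_integral_of_dominated_convergence (fun _ => C)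
    (fun n => (hAm n).aestronglyMeasurable) (integrable_const _) (fun n => ae_of_all _ (hAb n)) hlim
  refine le_of_tendsto' t fun n => ?_
  simp only [hA, integral_div]
  rw [integral_integral_swap (f := fun u p => K n p u)
    (integrable_of_bounded (hKm n) fun z => hKC n z.2 z.1), div_le_iff₀ (hδ n)]
  have hΘu : ∀ p, Measurable fun x : Conf V × Conf V => Θ p x.1 x.2 := fun p =>
    hΘ.comp (f := fun x : Conf V × Conf V => (p, x.1, x.2)) measurable_prodMk_left
  have hg : Measurable fun p => ∫ u, Θ p u.1 u.2 ∂P :=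
    hΘ.stronglyMeasurable.integral_prod_right'.measurable
  have hgb : ∀ p, |∫ u, Θ p u.1 u.2 ∂P| ≤ C := fun p =>
    abs_integral_le_of_bound fun u => by rw [abs_of_nonneg (hΘ0 _ _ _)]; exact hC _ _ _
  have hgi : Integrable (fun p => 1 / (1 - p2) * δ n * ∫ u, Θ p u.1 u.2 ∂P)
      ((volume : Measure ℝ).restrict (Ico p1 p2)) :=
    (integrable_of_bounded hg hgb).const_mul _
  refine (integral_mono_of_nonneg (ae_of_all _ fun p => integral_nonneg fun u => hK0 n p u) hgi
    (ae_restrict_of_forall_mem measurableSet_Ico fun p hp => ?_)).trans_eq ?_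
  · have hp0 : 0 ≤ p := hp1.trans hp.1
    have hp' : p < 1 := hp.2.trans hp2
    have hq : p ≤ min (p + δ n) p2 := le_min (by linarith [hδ n]) hp.2.le
    have hs := slot_le hG h0 h1 hε hε1 o k w hp0 hq hp' (D := fun x x' => Θ p x x')
      (hΘu p) (fun x x' => hΘ0 p x x') (fun x x' => hC p x x')
    simp only [hdep p hp'.le] at hs
    refine hs.trans (mul_le_mul_of_nonneg_right ?_ (integral_nonneg fun u => hΘ0 _ _ _))
    rw [one_div, inv_mul_eq_div]
    calc (min (p + δ n) p2 - p) / (1 - p) ≤ δ n / (1 - p) :=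
          div_le_div_of_nonneg_right (by linarith [min_le_left (p + δ n) p2]) (by linarith)
      _ ≤ δ n / (1 - p2) :=
          div_le_div_of_nonneg_left (hδ n).le (by linarith) (by linarith [hp.2])
  · rw [integral_const_mul]; ring

end Vale.Agent.P161.Crit
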