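import Vale.Agent.P161.Crit.StatTree

/-!
Densities of fields on branches: gluing along an edge, sign symmetry, bounds, and the
identification of the message with the posterior magnetisation of the root.
-/

namespace Vale.Agent.P161.Crit.Stat

open SimpleGraph Finset

variable {V : Type*} [DecidableEq V] {G : SimpleGraph V} {θ : ℝ}

/-- The single-site tilts of a field configuration. -/
def tilt (h : V → ℝ) (v : V) (s : ℝ) : ℝ := 1 + s * h v

lemma dens_eq (S : Finset V) (h : V → ℝ) : dens G θ S h = zsum G θ S (tilt h) fun _ => 1 := rfl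

lemma densSpin_eq (S : Finset V) (h : V → ℝ) (x : V) :
    densSpin G θ S h x = zsum G θ S (tilt h) fun A => spin A x := rfl

lemma tilt_pos {h : V → ℝ} (hh : ∀ v, |h v| < 1) (u : V) : 0 < tilt h u 1 ∧ 0 < tilt h u (-1) := by
  obtain ⟨h1, h2⟩ := abs_lt.1 (hh u)
  simp only [tilt]
  constructor <;> linarith

lemma dens_pos (h0 : 0 ≤ θ) (h1 : θ < 1) {h : V → ℝ} (hh : ∀ v, |h v| < 1) (S : Finset V) :
    0 < dens G θ S h :=
  zsum_one_pos h0 h1 (tilt_pos hh)

lemma abs_densSpin_le (h0 : 0 ≤ θ) (h1 : θ < 1) {h : V → ℝ} (hh : ∀ v, |h v| < 1) (S : Finset V)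
    (x : V) : |densSpin G θ S h x| ≤ dens G θ S h :=
  abs_zsum_le h0 h1 (tilt_pos hh) fun A => (abs_spin A x).le

lemma continuous_zsum_tilt (S : Finset V) (φ : Finset V → ℝ) :
    Continuous fun h : V → ℝ => zsum G θ S (tilt h) φ := by
  unfold zsum tilt
  fun_prop

lemma measurable_zsum_tilt (S : Finset V) (φ : Finset V → ℝ) :
    Measurable fun h : V → ℝ => zsum G θ S (tilt h) φ := by
  unfold zsum tilt
  fun_prop

lemma measurable_dens (S : Finset V) : Measurable fun h : V → ℝ => dens G θ S h :=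
  measurable_zsum_tilt S _

lemma measurable_densSpin (S : Finset V) (x : V) :
    Measurable fun h : V → ℝ => densSpin G θ S h x :=
  measurable_zsum_tilt S _

/-- A bound of a tilted sum on bounded configurations. -/
lemma abs_zsum_tilt_le (S : Finset V) (φ : Finset V → ℝ) {h : V → ℝ} (hh : ∀ v, |h v| ≤ 1) :
    |zsum G θ S (tilt h) φ| ≤ ∑ A ∈ S.powerset, |wt G θ S A| * 2 ^ S.card * |φ A| := by
  refine (Finset.abs_sum_le_sum_abs _ _).trans (Finset.sum_le_sum fun A _ => ?_)
  rw [abs_mul, abs_mul]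
  refine mul_le_mul_of_nonneg_right (mul_le_mul_of_nonneg_left ?_ (abs_nonneg _)) (abs_nonneg _)
  rw [Finset.abs_prod]
  refine (Finset.prod_le_prod (fun _ _ => abs_nonneg _) fun u _ => ?_).trans_eq
    (Finset.prod_const 2)
  have h2 : |spin A u * h u| ≤ 1 := by rw [abs_mul, abs_spin, one_mul]; exact hh u
  rw [tilt]
  exact (abs_add_le _ _).trans (by rw [abs_one]; linarith)

lemma zsum_tilt_congr {S : Finset V} {φ : Finset V → ℝ} {h h' : V → ℝ}
    (e : ∀ v ∈ S, h v = h' v) : zsum G θ S (tilt h) φ = zsum G θ S (tilt h') φ :=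
  Finset.sum_congr rfl fun A _ => by
    rw [Finset.prod_congr rfl fun u hu => by rw [tilt, e u hu, ← tilt]]

lemma dens_congr {S : Finset V} {h h' : V → ℝ} (e : ∀ v ∈ S, h v = h' v) :
    dens G θ S h = dens G θ S h' :=
  zsum_tilt_congr e

lemma densSpin_congr {S : Finset V} {x : V} {h h' : V → ℝ} (e : ∀ v ∈ S, h v = h' v) :
    densSpin G θ S h x = densSpin G θ S h' x :=
  zsum_tilt_congr e

/-! Sign symmetry. -/

lemma spin_sdiff {S A : Finset V} {u : V} (hu : u ∈ S) : spin (S \ A) u = -spin A u := by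
  by_cases h : u ∈ A <;> simp [spin, hu, h]

lemma wt_sdiff (S A : Finset V) : wt G θ S (S \ A) = wt G θ S A := by
  unfold wt
  congr 1
  refine Finset.prod_congr rfl fun e he => ?_
  induction e using Sym2.ind with
  | _ a b =>
    rw [mk_mem_edgesIn] at he
    rw [ew_mk, ew_mk, spin_sdiff he.1, spin_sdiff he.2.1]
    ring

lemma zsum_tilt_neg (S : Finset V) (φ : Finset V → ℝ) (h : V → ℝ) :
    zsum G θ S (tilt (-h)) φ = zsum G θ S (tilt h) (fun A => φ (S \ A)) := by
  refine Finset.sum_nbij' (fun A => S \ A) (fun A => S \ A) ?_ ?_ ?_ ?_ fun A hA => ?_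
  · intro A _; simp
  · intro A _; simp
  · intro A hA
    exact Finset.sdiff_sdiff_eq_self (Finset.mem_powerset.1 hA)
  · intro A hA
    exact Finset.sdiff_sdiff_eq_self (Finset.mem_powerset.1 hA)
  · simp only [Finset.sdiff_sdiff_eq_self (Finset.mem_powerset.1 hA), wt_sdiff]
    congr 2
    refine Finset.prod_congr rfl fun u hu => ?_
    rw [spin_sdiff hu]
    simp [tilt]

lemma dens_neg (S : Finset V) (h : V → ℝ) : dens G θ S (-h) = dens G θ S h :=
  zsum_tilt_neg S _ h

lemma densSpin_neg {S : Finset V} {x : V} (hx : x ∈ S) (h : V → ℝ) :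
    densSpin G θ S (-h) x = -densSpin G θ S h x := by
  rw [densSpin_eq, zsum_tilt_neg, densSpin_eq, zsum, zsum, ← Finset.sum_neg_distrib]
  exact Finset.sum_congr rfl fun A _ => by rw [spin_sdiff hx]; ring

/-! Gluing along an edge. -/

/-- `(x, c)` is the only edge between the disjoint sets `S` and `T`. -/
structure Join (G : SimpleGraph V) (S T : Finset V) (x c : V) : Prop where
  disj : Disjoint S T
  memS : x ∈ S
  memT : c ∈ T
  adj : G.Adj x c
  only : ∀ a ∈ S, ∀ e ∈ T, G.Adj a e → a = x ∧ e = c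

lemma edgesIn_join {S T : Finset V} {x c : V} (hj : Join G S T x c) :
    edgesIn G (S ∪ T) = insert s(x, c) (edgesIn G S ∪ edgesIn G T) ∧
      s(x, c) ∉ edgesIn G S ∪ edgesIn G T ∧ Disjoint (edgesIn G S) (edgesIn G T) := by
  have hd := Finset.disjoint_left.1 hj.disj
  refine ⟨?_, ?_, ?_⟩
  · ext e
    induction e using Sym2.ind with
    | _ a b =>
      simp only [mk_mem_edgesIn, Finset.mem_union, Finset.mem_insert, Sym2.eq_iff]
      constructor
      · rintro ⟨ha | ha, hb | hb, hab⟩
        · exact Or.inr (Or.inl ⟨ha, hb, hab⟩)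
        · exact Or.inl (Or.inl (hj.only a ha b hb hab))
        · exact Or.inl (Or.inr (hj.only b hb a ha hab.symm).symm)
        · exact Or.inr (Or.inr ⟨ha, hb, hab⟩)
      · rintro ((⟨rfl, rfl⟩ | ⟨rfl, rfl⟩) | ⟨ha, hb, hab⟩ | ⟨ha, hb, hab⟩)
        · exact ⟨Or.inl hj.memS, Or.inr hj.memT, hj.adj⟩
        · exact ⟨Or.inr hj.memT, Or.inl hj.memS, hj.adj.symm⟩
        · exact ⟨Or.inl ha, Or.inl hb, hab⟩
        · exact ⟨Or.inr ha, Or.inr hb, hab⟩
  · simp only [Finset.mem_union, mk_mem_edgesIn]
    rintro (⟨-, hc, -⟩ | ⟨hx, -, -⟩)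
    · exact hd hc hj.memT
    · exact hd hj.memS hx
  · rw [Finset.disjoint_left]
    intro e he he'
    induction e using Sym2.ind with
    | _ a b => exact hd (mk_mem_edgesIn.1 he).1 (mk_mem_edgesIn.1 he').1

lemma spin_union_left {S T A B : Finset V} (hd : Disjoint S T) (hB : B ⊆ T) {u : V} (hu : u ∈ S) :
    spin (A ∪ B) u = spin A u := by
  have : u ∉ B := fun h => Finset.disjoint_left.1 hd hu (hB h)
  simp [spin, this]

lemma spin_union_right {S T A B : Finset V} (hd : Disjoint S T) (hA : A ⊆ S) {u : V} (hu : u ∈ T) :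
    spin (A ∪ B) u = spin B u := by
  have : u ∉ A := fun h => Finset.disjoint_right.1 hd hu (hA h)
  simp [spin, this]

lemma wt_join {S T : Finset V} {x c : V} (hj : Join G S T x c) {A B : Finset V} (hA : A ⊆ S)
    (hB : B ⊆ T) :
    wt G θ (S ∪ T) (A ∪ B) = wt G θ S A * wt G θ T B * (1 + θ * spin A x * spin B c) := by
  obtain ⟨e1, e2, e3⟩ := edgesIn_join hj
  have hS : ∏ e ∈ edgesIn G S, ew θ (A ∪ B) e = ∏ e ∈ edgesIn G S, ew θ A e := by
    refine Finset.prod_congr rfl fun e he => ?_
    induction e using Sym2.ind with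
    | _ a b =>
      rw [mk_mem_edgesIn] at he
      rw [ew_mk, ew_mk, spin_union_left hj.disj hB he.1, spin_union_left hj.disj hB he.2.1]
  have hT : ∏ e ∈ edgesIn G T, ew θ (A ∪ B) e = ∏ e ∈ edgesIn G T, ew θ B e := by
    refine Finset.prod_congr rfl fun e he => ?_
    induction e using Sym2.ind with
    | _ a b =>
      rw [mk_mem_edgesIn] at he
      rw [ew_mk, ew_mk, spin_union_right hj.disj hA he.1, spin_union_right hj.disj hA he.2.1]
  unfold wt
  rw [e1, Finset.prod_insert e2, Finset.prod_union e3, ew_mk,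
    spin_union_left hj.disj hB hj.memS, spin_union_right hj.disj hA hj.memT, hS, hT]
  ring

lemma zsum_join {S T : Finset V} {x c : V} (hj : Join G S T x c) (h : V → ℝ)
    {φ : Finset V → ℝ} {φS : Finset V → ℝ}
    (hφ : ∀ A B, A ⊆ S → B ⊆ T → φ (A ∪ B) = φS A) :
    zsum G θ (S ∪ T) (tilt h) φ =
      zsum G θ S (tilt h) φS * dens G θ T h +
        θ * zsum G θ S (tilt h) (fun A => spin A x * φS A) * densSpin G θ T h c := by
  have hd := Finset.disjoint_left.1 hj.disj
  have hsum : ∀ F : Finset V → ℝ, ∑ A ∈ (S ∪ T).powerset, F A =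
      ∑ p ∈ S.powerset ×ˢ T.powerset, F (p.1 ∪ p.2) := by
    intro F
    refine Finset.sum_nbij' (fun A => (A ∩ S, A ∩ T)) (fun p => p.1 ∪ p.2) ?_ ?_ ?_ ?_ ?_
    · intro A _
      simp [Finset.inter_subset_right]
    · intro p hp
      simp only [Finset.mem_coe, Finset.mem_product, Finset.mem_powerset] at hp ⊢
      exact Finset.union_subset_union hp.1 hp.2
    · intro A hA
      simp only [Finset.mem_coe, Finset.mem_powerset] at hA
      rw [← Finset.inter_union_distrib_left]
      exact Finset.inter_eq_left.2 hA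
    · rintro ⟨A, B⟩ hp
      simp only [Finset.mem_coe, Finset.mem_product, Finset.mem_powerset] at hp
      refine Prod.ext ?_ ?_
      · ext u
        simp only [Finset.mem_inter, Finset.mem_union]
        exact ⟨fun ⟨h', hu⟩ => h'.resolve_right fun hb => hd hu (hp.2 hb),
          fun ha => ⟨Or.inl ha, hp.1 ha⟩⟩
      · ext u
        simp only [Finset.mem_inter, Finset.mem_union]
        exact ⟨fun ⟨h', hu⟩ => h'.resolve_left fun ha => hd (hp.1 ha) hu,
          fun hb => ⟨Or.inr hb, hp.2 hb⟩⟩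
    · intro A hA
      simp only [Finset.mem_powerset] at hA
      rw [← Finset.inter_union_distrib_left, Finset.inter_eq_left.2 hA]
  rw [dens_eq, densSpin_eq]
  simp only [zsum]
  rw [hsum, Finset.sum_product, Finset.sum_mul, mul_assoc, Finset.sum_mul, Finset.mul_sum,
    ← Finset.sum_add_distrib]
  refine Finset.sum_congr rfl fun A hA => ?_
  rw [Finset.mul_sum, Finset.mul_sum, Finset.mul_sum, ← Finset.sum_add_distrib]
  refine Finset.sum_congr rfl fun B hB => ?_
  rw [Finset.mem_powerset] at hA hB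
  rw [hφ A B hA hB, wt_join hj hA hB, Finset.prod_union hj.disj,
    Finset.prod_congr rfl fun u hu => by rw [spin_union_left hj.disj hB hu],
    Finset.prod_congr (s₁ := T) (g := fun u => tilt h u (spin B u)) rfl fun u hu => by
      rw [spin_union_right hj.disj hA hu]]
  ring

lemma dens_join {S T : Finset V} {x c : V} (hj : Join G S T x c) (h : V → ℝ) :
    dens G θ (S ∪ T) h = dens G θ S h * dens G θ T h +
      θ * densSpin G θ S h x * densSpin G θ T h c := by
  have := zsum_join (θ := θ) hj h (φ := fun _ => 1) (φS := fun _ => 1) fun _ _ _ _ => rfl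
  simpa [dens_eq, densSpin_eq] using this

lemma densSpin_join {S T : Finset V} {x c : V} (hj : Join G S T x c) (h : V → ℝ) :
    densSpin G θ (S ∪ T) h x = densSpin G θ S h x * dens G θ T h +
      θ * dens G θ S h * densSpin G θ T h c := by
  have := zsum_join (θ := θ) hj h (φ := fun A => spin A x) (φS := fun A => spin A x)
    fun A B _ hB => spin_union_left hj.disj hB hj.memS
  simpa [dens_eq, densSpin_eq, spin_mul_self] using this

lemma dens_singleton (x : V) (h : V → ℝ) : dens G θ {x} h = 1 := by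
  rw [dens, zsum_singleton]; ring

lemma densSpin_singleton (x : V) (h : V → ℝ) : densSpin G θ {x} h x = h x := by
  rw [densSpin, zsum_singleton]
  simp [spin]
  ring

variable [G.LocallyFinite]

lemma join_reg (hG : G.IsTree) {n : ℕ} {x c : V} {s : Finset V} (hs : ∀ e ∈ s, G.Adj x e)
    (hc : G.Adj x c) (hcs : c ∉ s) : Join G (reg G n x s) (br G n c x) x c where
  disj := reg_disjoint hG hs hc hcs
  memS := self_mem_reg G n x s
  memT := self_mem_br G n c x
  adj := hc
  only a ha e he hae := by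
    have h1 := reg_side hG hs hc hcs ha
    have h2 := (br_side hG n c x hc.symm e he).1
    exact cross_side hG hc h1 h2 hae

/-- The partial merge is the posterior magnetisation of the root of its region. -/
lemma densSpin_reg_of (hG : G.IsTree) (h0 : 0 ≤ θ) (h1 : θ < 1) {h : V → ℝ}
    (hh : ∀ v, |h v| < 1) {n : ℕ} {x : V}
    (hmsg : ∀ e, G.Adj x e →
      densSpin G θ (br G n e x) h e = msg G θ h n e x * dens G θ (br G n e x) h) :
    ∀ {s : Finset V}, (∀ e ∈ s, G.Adj x e) →
      densSpin G θ (reg G n x s) h x = part G θ h n x s * dens G θ (reg G n x s) h := by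
  intro s
  induction s using Finset.induction_on with
  | empty =>
    intro _
    rw [reg_empty, part_empty, dens_singleton, densSpin_singleton, mul_one]
  | @insert c s hcs ih =>
    intro hs
    have hc := hs c (Finset.mem_insert_self c s)
    have hs' : ∀ e ∈ s, G.Adj x e := fun e he => hs e (Finset.mem_insert_of_mem he)
    have hj := join_reg (n := n) hG hs' hc hcs
    rw [reg_insert, part_insert h0 h1 hh hcs, dens_join hj, densSpin_join hj, hmsg c hc, ih hs']
    have hA := abs_part_lt (G := G) h0 h1 hh n x s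
    have hB : |θ * msg G θ h n c x| < 1 :=
      lt_of_le_of_lt (abs_theta_mul_le h0 (abs_msg_lt h0 h1 hh n c x).le) h1
    have hne := (one_add_mul_pos hA hB.le).ne'
    linear_combination (-(dens G θ (reg G n x s) h * dens G θ (br G n c x) h)) *
      mrg_mul_den (part G θ h n x s) (θ * msg G θ h n c x) hne

lemma densSpin_br (hG : G.IsTree) (h0 : 0 ≤ θ) (h1 : θ < 1) {h : V → ℝ} (hh : ∀ v, |h v| < 1) :
    ∀ n x y, G.Adj x y →
      densSpin G θ (br G n x y) h x = msg G θ h n x y * dens G θ (br G n x y) h := by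
  intro n
  induction n with
  | zero =>
    intro x y _
    show densSpin G θ {x} h x = h x * dens G θ {x} h
    rw [dens_singleton, densSpin_singleton, mul_one]
  | succ n ih =>
    intro x y _
    rw [br_succ, msg_succ]
    exact densSpin_reg_of hG h0 h1 hh (fun e he => ih e x he.symm) fun e he => by
      simpa using (Finset.mem_erase.1 he).2

lemma densSpin_reg (hG : G.IsTree) (h0 : 0 ≤ θ) (h1 : θ < 1) {h : V → ℝ} (hh : ∀ v, |h v| < 1)
    (n : ℕ) (x : V) {s : Finset V} (hs : ∀ e ∈ s, G.Adj x e) :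
    densSpin G θ (reg G n x s) h x = part G θ h n x s * dens G θ (reg G n x s) h :=
  densSpin_reg_of hG h0 h1 hh (fun e he => densSpin_br hG h0 h1 hh n e x he.symm) hs

/-- The density of a region glued to one more branch. -/
lemma dens_glue (hG : G.IsTree) (h0 : 0 ≤ θ) (h1 : θ < 1) {h : V → ℝ} (hh : ∀ v, |h v| < 1)
    {n : ℕ} {x c : V} {s : Finset V} (hs : ∀ e ∈ s, G.Adj x e) (hc : G.Adj x c) (hcs : c ∉ s) :
    dens G θ (reg G n x (insert c s)) h =
      (dens G θ (reg G n x s) h * dens G θ (br G n c x) h) *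
        (1 + part G θ h n x s * (θ * msg G θ h n c x)) := by
  rw [reg_insert, dens_join (join_reg hG hs hc hcs), densSpin_reg hG h0 h1 hh n x hs,
    densSpin_br hG h0 h1 hh n c x hc.symm]
  ring

end Vale.Agent.P161.Crit.Stat
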