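import Vale.Agent.P161.Crit.StatMeas

/-!
Gluing one more branch to a region: the symmetrised integrand and the factorised bound.
-/

namespace Vale.Agent.P161.Crit.Stat

open MeasureTheory SimpleGraph Finset

/-- Standing hypotheses on the tree and the parameters. -/
structure Par {V : Type*} (G : SimpleGraph V) [G.LocallyFinite] (θ b : ℝ) (d : ℕ) : Prop where
  tree : G.IsTree
  deg : ∀ v, G.degree v = d
  three : 3 ≤ d
  nn : 0 ≤ θ
  crit : ((d : ℝ) - 1) * θ ^ 2 = 1
  b0 : 0 ≤ b
  b1 : b < 1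

variable {V : Type*} [DecidableEq V] {G : SimpleGraph V} [G.LocallyFinite] {θ b : ℝ} {d : ℕ}

namespace Par

variable (p : Par G θ b d)
include p

omit [DecidableEq V] in
lemma d_two : (2 : ℝ) ≤ (d : ℝ) - 1 := by
  have : (3 : ℝ) ≤ d := by exact_mod_cast p.three
  linarith

omit [DecidableEq V] in
lemma lt_one : θ < 1 := by
  by_contra h
  push Not at h
  nlinarith [p.d_two, p.crit, pow_le_pow_left₀ zero_le_one h 2]

omit [DecidableEq V] in
lemma sq_pos : 0 < θ ^ 2 := by
  rcases (sq_nonneg θ).lt_or_eq with h | h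
  · exact h
  · have := p.crit
    rw [← h, mul_zero] at this
    linarith

omit [DecidableEq V] in
lemma sq_lt_one : θ ^ 2 < 1 := pow_lt_one₀ p.nn p.lt_one (by norm_num)

omit [DecidableEq V] in
lemma countable : Countable V := countable_vertices p.tree

omit [DecidableEq V] in
lemma R_lt_one : magBound d θ b < 1 := magBound_lt_one p.lt_one p.b1

omit [DecidableEq V] in
lemma R_nonneg : 0 ≤ magBound d θ b := p.b0.trans (le_magBound p.nn p.lt_one p.b1)

lemma card_children {x y : V} (h : G.Adj x y) : ((G.neighborFinset x).erase y).card = d - 1 := by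
  rw [Finset.card_erase_of_mem (by rwa [mem_neighborFinset]), card_neighborFinset_eq_degree, p.deg]

omit [DecidableEq V] in
lemma cast_pred : ((d - 1 : ℕ) : ℝ) = (d : ℝ) - 1 := by
  rw [Nat.cast_sub (by have := p.three; omega)]; simp

omit [DecidableEq V] in
lemma adj_of_mem {x : V} {e : V} (he : e ∈ G.neighborFinset x) : G.Adj x e := by
  simpa using he

lemma adj_children {x y : V} : ∀ e ∈ (G.neighborFinset x).erase y, G.Adj x e := fun _ he =>
  p.adj_of_mem (Finset.mem_erase.1 he).2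

lemma card_le {x : V} {s : Finset V} (hs : ∀ e ∈ s, G.Adj x e) : s.card ≤ d := by
  refine (Finset.card_le_card (t := G.neighborFinset x) fun e he => ?_).trans_eq
    (by rw [card_neighborFinset_eq_degree, p.deg])
  simpa using hs e he

lemma abs_part {h : V → ℝ} (hh : ∀ v, |h v| ≤ b) {n : ℕ} {x : V} {s : Finset V}
    (hs : ∀ e ∈ s, G.Adj x e) : |part G θ h n x s| ≤ magBound d θ b :=
  abs_part_le p.nn p.lt_one p.b1 hh (p.card_le hs)

lemma abs_msg {h : V → ℝ} (hh : ∀ v, |h v| ≤ b) (n : ℕ) (x y : V) :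
    |msg G θ h n x y| ≤ magBound d θ b :=
  abs_msg_le (fun v => (p.deg v).le) p.nn p.lt_one p.b1 hh n x y

lemma abs_theta_msg {h : V → ℝ} (hh : ∀ v, |h v| ≤ b) (n : ℕ) (x y : V) :
    |θ * msg G θ h n x y| ≤ magBound d θ b := by
  rw [abs_mul, abs_of_nonneg p.nn]
  exact (mul_le_of_le_one_left (abs_nonneg _) p.lt_one.le).trans (p.abs_msg hh n x y)

lemma loc_part {n : ℕ} {x : V} {s : Finset V} (hs : ∀ e ∈ s, G.Adj x e) :
    Loc b (reg G n x s) fun h => part G θ h n x s :=
  ⟨measurable_mrg (measurable_pi_apply x)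
      (measurable_cmb _ fun c => (measurable_msg n c x).const_mul θ),
    fun _ _ e => part_congr p.tree hs e, magBound d θ b, fun _ hh => p.abs_part hh hs⟩

lemma loc_msg {n : ℕ} {x y : V} (hxy : G.Adj x y) :
    Loc b (br G n x y) fun h => msg G θ h n x y :=
  ⟨measurable_msg n x y, fun _ _ e => msg_congr_br p.tree hxy e, magBound d θ b,
    fun _ hh => p.abs_msg hh n x y⟩

end Par

/-- Symmetrisation of an integrand over the sign of the glued branch. -/
noncomputable def sym (G : SimpleGraph V) [G.LocallyFinite] (θ : ℝ) (n : ℕ) (x c : V)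
    (s : Finset V) (F : (V → ℝ) → ℝ) (h : V → ℝ) : ℝ :=
  ((1 + part G θ h n x s * (θ * msg G θ h n c x)) * F h +
    (1 - part G θ h n x s * (θ * msg G θ h n c x)) * F (flipOn (br G n c x) h)) / 2

/-- Expectation with the two sides of a gluing independent. -/
noncomputable def ex2 (G : SimpleGraph V) (θ : ℝ) (ν : V → Measure ℝ) (S T : Finset V)
    (F : (V → ℝ) → ℝ) : ℝ :=
  ∫ h, F h * (dens G θ S h * dens G θ T h) ∂Measure.infinitePi ν

lemma part_flip (p : Par G θ b d) {n : ℕ} {x c : V} {s : Finset V} (hs : ∀ e ∈ s, G.Adj x e)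
    (hc : G.Adj x c) (hcs : c ∉ s) (h : V → ℝ) :
    part G θ (flipOn (br G n c x) h) n x s = part G θ h n x s :=
  flipOn_loc (p.loc_part (n := n) hs) (reg_disjoint p.tree hs hc hcs) h

lemma msg_flip (p : Par G θ b d) {n : ℕ} {x c : V} (hc : G.Adj x c) (h : V → ℝ) :
    msg G θ (flipOn (br G n c x) h) n c x = -msg G θ h n c x := by
  rw [flipOn_self (p.loc_msg (n := n) hc.symm) h, msg_neg]

lemma part_insert_flip (p : Par G θ b d) {n : ℕ} {x c : V} {s : Finset V}
    (hs : ∀ e ∈ s, G.Adj x e) (hc : G.Adj x c) (hcs : c ∉ s) {h : V → ℝ} (hh : ∀ v, |h v| ≤ b) :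
    part G θ (flipOn (br G n c x) h) n x (insert c s) =
      mrg (part G θ h n x s) (-(θ * msg G θ h n c x)) := by
  rw [part_insert p.nn p.lt_one (fun v => (flipOn_box hh v).trans_lt p.b1) hcs,
    part_flip p hs hc hcs, msg_flip p hc, mul_neg]

section glue

variable [Countable V] {ν : V → Measure ℝ} [∀ x, IsProbabilityMeasure (ν x)]

variable (p : Par G θ b d) (hν : ∀ x, Chan b (ν x))
include p hν

lemma loc_sym {n : ℕ} {x c : V} {s : Finset V} (hs : ∀ e ∈ s, G.Adj x e) (hc : G.Adj x c)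
    {F : (V → ℝ) → ℝ} (hF : Loc b (reg G n x (insert c s)) F) :
    Loc b (reg G n x (insert c s)) (sym G θ n x c s F) := by
  have hsub1 : reg G n x s ⊆ reg G n x (insert c s) := by
    rw [reg_insert]; exact Finset.subset_union_left
  have hsub2 : br G n c x ⊆ reg G n x (insert c s) := by
    rw [reg_insert]; exact Finset.subset_union_right
  have lt := ((p.loc_part (n := n) hs).mono hsub1).mul
    (((p.loc_msg (n := n) hc.symm).mono hsub2).const_mul θ)
  have l := ((((Loc.const b _ 1).add lt).mul hF).add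
    (((Loc.const b _ 1).sub lt).mul (hF.comp_flip (br G n c x)))).const_mul 2⁻¹
  convert l using 2
  simp only [sym]
  ring

lemma ex_glue {n : ℕ} {x c : V} {s : Finset V} (hs : ∀ e ∈ s, G.Adj x e) (hc : G.Adj x c)
    (hcs : c ∉ s) {F : (V → ℝ) → ℝ} (hF : Loc b (reg G n x (insert c s)) F) :
    ex G θ ν (reg G n x (insert c s)) F =
      ex2 G θ ν (reg G n x s) (br G n c x) (sym G θ n x c s F) := by
  set S := reg G n x s with hS
  set T := br G n c x with hT
  set U := reg G n x (insert c s) with hU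
  have hUe : U = S ∪ T := reg_insert G n x c s
  have hd : Disjoint S T := reg_disjoint p.tree hs hc hcs
  have hsub1 : S ⊆ U := hUe ▸ Finset.subset_union_left
  have hsub2 : T ⊆ U := hUe ▸ Finset.subset_union_right
  have lD : Loc b U fun h => dens G θ S h * dens G θ T h :=
    ((loc_dens p.b1 S).mono hsub1).mul ((loc_dens p.b1 T).mono hsub2)
  have lt := ((p.loc_part (n := n) hs).mono hsub1).mul
    (((p.loc_msg (n := n) hc.symm).mono hsub2).const_mul θ)
  set W : (V → ℝ) → ℝ := fun h =>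
    F h * ((dens G θ S h * dens G θ T h) * (1 + part G θ h n x s * (θ * msg G θ h n c x))) with hW
  have lW : Loc b U W := hF.mul (lD.mul ((Loc.const b _ 1).add lt))
  have e0 : ex G θ ν U F = ∫ h, W h ∂Measure.infinitePi ν := by
    refine integral_congr_ae ((ae_box hν).mono fun h hh => ?_)
    simp only [hW, hU]
    rw [dens_glue p.tree p.nn p.lt_one (fun v => (hh v).trans_lt p.b1) hs hc hcs]
  have e1 : ∀ h, W (flipOn T h) = F (flipOn T h) *
      ((dens G θ S h * dens G θ T h) * (1 - part G θ h n x s * (θ * msg G θ h n c x))) := by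
    intro h
    have a1 := flipOn_loc (loc_dens (G := G) (θ := θ) p.b1 S) hd h
    have a2 := flipOn_self (loc_dens (G := G) (θ := θ) p.b1 T) h
    simp only [hW]
    rw [a1, a2, dens_neg, part_flip p hs hc hcs, msg_flip p hc]
    ring
  have e2 : ex2 G θ ν S T (sym G θ n x c s F) =
      ∫ h, (W h + W (flipOn T h)) / 2 ∂Measure.infinitePi ν := by
    refine integral_congr_ae (Filter.Eventually.of_forall fun h => ?_)
    simp only [e1]
    simp only [hW, sym, hT]
    ring
  rw [e0, e2, integral_div, integral_add (integrable_loc hν lW)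
    (integrable_loc hν (lW.comp_flip T)), integral_flip hν T lW.meas]
  ring

lemma ex2_mono {S T U : Finset V} (hS : S ⊆ U) (hT : T ⊆ U) {F F' : (V → ℝ) → ℝ}
    (hF : Loc b U F) (hF' : Loc b U F') (hle : ∀ h, (∀ v, |h v| ≤ b) → F h ≤ F' h) :
    ex2 G θ ν S T F ≤ ex2 G θ ν S T F' := by
  have lD : Loc b U fun h => dens G θ S h * dens G θ T h :=
    ((loc_dens p.b1 S).mono hS).mul ((loc_dens p.b1 T).mono hT)
  refine integral_mono_ae (integrable_loc hν (hF.mul lD)) (integrable_loc hν (hF'.mul lD))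
    ((ae_box hν).mono fun h hh => mul_le_mul_of_nonneg_right (hle h hh) ?_)
  exact mul_nonneg (dens_pos p.nn p.lt_one (fun v => (hh v).trans_lt p.b1) S).le
    (dens_pos p.nn p.lt_one (fun v => (hh v).trans_lt p.b1) T).le

lemma ex2_mul {S T : Finset V} (hd : Disjoint S T) {f g : (V → ℝ) → ℝ} (hf : Loc b S f)
    (hg : Loc b T g) :
    ex2 G θ ν S T (fun h => f h * g h) = ex G θ ν S f * ex G θ ν T g := by
  rw [ex, ex, ← integral_mul_disj (b := b) hd (hf.mul (loc_dens p.b1 S))
    (hg.mul (loc_dens p.b1 T)), ex2]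
  exact integral_congr_ae (Filter.Eventually.of_forall fun h => by ring)

/-- Expectation of a three-term combination of products. -/
lemma ex2_three {S T : Finset V} (hd : Disjoint S T) {f₁ f₂ f₃ g₁ g₂ g₃ : (V → ℝ) → ℝ}
    (hf₁ : Loc b S f₁) (hg₁ : Loc b T g₁) (hf₂ : Loc b S f₂) (hg₂ : Loc b T g₂)
    (hf₃ : Loc b S f₃) (hg₃ : Loc b T g₃) (a₁ a₂ a₃ : ℝ) :
    ex2 G θ ν S T (fun h => a₁ * (f₁ h * g₁ h) + a₂ * (f₂ h * g₂ h) + a₃ * (f₃ h * g₃ h)) =
      a₁ * (ex G θ ν S f₁ * ex G θ ν T g₁) + a₂ * (ex G θ ν S f₂ * ex G θ ν T g₂) +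
        a₃ * (ex G θ ν S f₃ * ex G θ ν T g₃) := by
  have lD : Loc b (S ∪ T) fun h => dens G θ S h * dens G θ T h :=
    ((loc_dens p.b1 S).mono Finset.subset_union_left).mul
      ((loc_dens p.b1 T).mono Finset.subset_union_right)
  have l : ∀ (a : ℝ) (f g : (V → ℝ) → ℝ), Loc b S f → Loc b T g →
      Loc b (S ∪ T) fun h => a * ((f h * g h) * (dens G θ S h * dens G θ T h)) := fun a f g hf hg =>
    (((hf.mono Finset.subset_union_left).mul (hg.mono Finset.subset_union_right)).mul lD).const_mul a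
  have i₁ := integrable_loc hν (l a₁ _ _ hf₁ hg₁)
  have i₂ := integrable_loc hν (l a₂ _ _ hf₂ hg₂)
  have i₃ := integrable_loc hν (l a₃ _ _ hf₃ hg₃)
  rw [← ex2_mul p hν hd hf₁ hg₁, ← ex2_mul p hν hd hf₂ hg₂, ← ex2_mul p hν hd hf₃ hg₃]
  simp only [ex2, add_mul, mul_assoc a₁, mul_assoc a₂, mul_assoc a₃]
  rw [integral_add (i₁.fun_add i₂) i₃, integral_add i₁ i₂, integral_const_mul, integral_const_mul,
    integral_const_mul]

lemma ex_singleton {x : V} {g : ℝ → ℝ} (hg : Measurable g) :
    ex G θ ν {x} (fun h => g (h x)) = ∫ t, g t ∂ν x := by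
  simp only [ex, dens_singleton, mul_one]
  conv_rhs => rw [← Measure.infinitePi_map_eval ν x]
  rw [integral_map (measurable_pi_apply x).aemeasurable hg.aestronglyMeasurable]

end glue

end Vale.Agent.P161.Crit.Stat
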