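import Vale.Agent.P161.Crit.StatTail
import Mathlib.Probability.Martingale.Convergence

/-!
Almost sure convergence of the messages, of the whole configuration and along exhausting balls,
and passage of finite-depth expectations to the limit.
-/

namespace Vale.Agent.P161.Crit.Stat

open MeasureTheory SimpleGraph Finset Filter
open scoped Topology

variable {V : Type*} [DecidableEq V] {G : SimpleGraph V} [G.LocallyFinite] {θ b : ℝ} {d : ℕ}

/-- The part of `K` behind the edge `(x, y)`. -/
noncomputable def behindPart (G : SimpleGraph V) (x y : V) (K : Finset V) : Finset V :=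
  K.filter fun v => G.dist v y = G.dist v x + 1

lemma msgI_mask_behind (hG : G.IsTree) {x y : V} (hxy : G.Adj x y) (K : Finset V) (h : V → ℝ) :
    msgI G θ (mask (behindPart G x y K) h) x y = msgI G θ (mask K h) x y :=
  msgI_congr hG hxy fun v hv => by
    have hv' : G.dist v y = G.dist v x + 1 := hv
    simp [mask, behindPart, hv']

lemma msgI_mask_eq (hG : G.IsTree) {x y : V} (hxy : G.Adj x y) {K : Finset V} {N : ℕ}
    (hK : ∀ v ∈ K, Behind G x y v → G.dist x v ≤ N) (h : V → ℝ) :
    msgI G θ (mask K h) x y = msg G θ (mask K h) N x y := by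
  have hst : ∀ m, N ≤ m → msg G θ (mask K h) m x y = msg G θ (mask K h) N x y := by
    intro m hm
    induction m, hm using Nat.le_induction with
    | base => rfl
    | succ m hm ih =>
      rw [msg_stable hG m x y hxy fun v hv hne => ?_, ih]
      by_cases hvK : v ∈ K
      · exact (hK v hvK hv).trans hm
      · simp [mask, hvK] at hne
  exact tendsto_nhds_unique (tendsto_msg_mask hG K h hxy)
    (tendsto_nhds_of_eventually_eq (eventually_atTop.2 ⟨N, hst⟩))

lemma msgI_mask_br (hG : G.IsTree) {x y : V} (hxy : G.Adj x y) (n : ℕ) (h : V → ℝ) :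
    msgI G θ (mask (br G n x y) h) x y = msg G θ h n x y := by
  rw [msgI_mask_eq hG hxy fun v hv _ => (br_side hG n x y hxy v hv).2]
  exact msg_congr_br hG hxy fun v hv => mask_of_mem hv

lemma subset_br (hG : G.IsTree) {x y : V} (hxy : G.Adj x y) {K : Finset V} {N : ℕ}
    (hK : ∀ v ∈ K, Behind G x y v) (hN : ∀ v ∈ K, G.dist x v ≤ N) : K ⊆ br G N x y := by
  intro v hv
  have h := hK v hv
  rw [Behind, dist_comm (u := v), dist_comm (u := v)] at h
  exact mem_br hG N x y hxy v h (hN v hv)

section det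

variable (p : Par G θ b d) {h : V → ℝ}
include p

lemma loc_msgI_mask {x y : V} (hxy : G.Adj x y) (K : Finset V) :
    Loc b K fun h => msgI G θ (mask K h) x y := by
  have := p.countable
  simp only [msgI_mask_eq p.tree hxy (K := K) (N := K.sup fun v => G.dist x v)
    fun v hv _ => Finset.le_sup (f := fun v => G.dist x v) hv]
  exact (loc_comp_mask p.b0 (p.loc_msg hxy) K).mono Finset.inter_subset_right

lemma abs_msgI_box (hh : ∀ v, |h v| ≤ b) (x y : V) : |msgI G θ h x y| ≤ magBound d θ b :=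
  abs_msgI_le (fun v => (p.deg v).le) p.nn p.lt_one p.b1 hh x y

lemma abs_magI_box (hh : ∀ v, |h v| ≤ b) (x : V) : |magI G θ h x| ≤ magBound d θ b :=
  abs_magI_le (fun v => (p.deg v).le) p.nn p.lt_one p.b1 hh x

lemma conv_of_convAdj (hh : ∀ v, |h v| ≤ b) (hc : ConvAdj G θ h) : Conv G θ h := by
  intro x y
  by_cases hxy : G.Adj x y
  · exact hc x y hxy
  · have e : ∀ n, mag G θ h n x = msg G θ h (n + 1) x y := fun n => by
      simp only [msg, mag]
      rw [Finset.erase_eq_of_notMem (by simpa using hxy)]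
    have ht := tendsto_mag p.nn p.lt_one (fun v => (hh v).trans_lt p.b1) hc x
    simp only [e] at ht
    have ht' := (tendsto_add_atTop_iff_nat (f := fun n => msg G θ h n x y) 1).1 ht
    rwa [msgI, ht'.limsup_eq]

omit [DecidableEq V] in
lemma continuousAt_slp {a : ℝ} (ha : |a| ≤ magBound d θ b) : ContinuousAt (slp θ) a :=
  ContinuousAt.div (by fun_prop) (by fun_prop)
    (one_sub_sq_mul_pos p.nn p.lt_one (ha.trans p.R_lt_one.le)).ne'

omit [DecidableEq V] in
lemma continuousAt_psi {a : ℝ} (ha : |a| ≤ magBound d θ b) : ContinuousAt (psi θ) a :=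
  (continuousAt_slp p ha).log (slp_pos p.nn p.lt_one (ha.trans_lt p.R_lt_one)).ne'

lemma tendsto_slp_msg (hh : ∀ v, |h v| ≤ b) (hc : Conv G θ h) (k : ℕ) (x y : V) :
    Tendsto (fun n => slp θ (msg G θ h (n + k) x y)) atTop (𝓝 (slp θ (msgI G θ h x y))) :=
  (continuousAt_slp p (abs_msgI_box p hh x y)).tendsto.comp
    ((hc x y).comp (tendsto_add_atTop_nat k))

lemma tendsto_segF (hh : ∀ v, |h v| ≤ b) (hc : Conv G θ h) (x : ℕ → V) (k : ℕ) :
    Tendsto (fun n => segF G θ n x k h) atTop (𝓝 (segProd G θ h k x)) :=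
  tendsto_finsetProd _ fun j _ => tendsto_slp_msg p hh hc j _ _

lemma tendsto_aP (hh : ∀ v, |h v| ≤ b) (hc : Conv G θ h) :
    ∀ i x y, Tendsto (fun n => aP G θ n i x y h) atTop (𝓝 (avgProd G θ h i x y)) := by
  intro i
  induction i with
  | zero => intro x y; exact tendsto_const_nhds
  | succ i ih =>
    intro x y
    exact (tendsto_slp_msg p hh hc i x y).mul
      ((tendsto_finsetSum _ fun c _ => ih c x).div_const _)

lemma tendsto_aS (hh : ∀ v, |h v| ≤ b) (hc : Conv G θ h) :
    ∀ j x y, Tendsto (fun n => aS G θ n j x y h) atTop (𝓝 (avgPsi G θ h j x y)) := by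
  intro j
  induction j with
  | zero =>
    intro x y
    exact (continuousAt_psi p (abs_msgI_box p hh x y)).tendsto.comp (hc x y)
  | succ j ih => intro x y; exact (tendsto_finsetSum _ fun c _ => ih c x).div_const _

lemma avgProd_mem (hh : ∀ v, |h v| ≤ b) :
    ∀ i x y, 0 ≤ avgProd G θ h i x y ∧ avgProd G θ h i x y ≤ 1 := by
  intro i
  induction i with
  | zero => intro x y; simp [avgProd]
  | succ i ih =>
    intro x y
    have hm := (abs_msgI_box p hh x y).trans p.R_lt_one.le
    have hs0 : 0 ≤ ∑ c ∈ (G.neighborFinset x).erase y, avgProd G θ h i c x :=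
      Finset.sum_nonneg fun c _ => (ih c x).1
    refine ⟨mul_nonneg (slp_nonneg p.nn p.lt_one hm) (div_nonneg hs0 (Nat.cast_nonneg _)),
      mul_le_one₀ (slp_le_one p.nn p.lt_one hm) (div_nonneg hs0 (Nat.cast_nonneg _)) ?_⟩
    refine div_le_one_of_le₀ ?_ (Nat.cast_nonneg _)
    exact (Finset.sum_le_sum fun c _ => (ih c x).2).trans_eq (by simp)

end det

section law

variable [Countable V] {ν0 : Measure ℝ} {P : Measure (V → ℝ)}
variable (p : Par G θ b d) (hν : Chan b ν0) (hP : FieldLaw G θ b ν0 P)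
include p hν hP

omit [Countable V] p hν in
lemma integrable_box {F : (V → ℝ) → ℝ} (hm : Measurable F) {C : ℝ}
    (hC : ∀ h, (∀ v, |h v| ≤ b) → |F h| ≤ C) : Integrable F P := by
  have := hP.prob
  exact Integrable.mono' (integrable_const C) hm.aestronglyMeasurable
    (hP.supp.mono fun h hh => by simpa using hC h hh)

omit [Countable V] p hν in
lemma tendsto_box {F : ℕ → (V → ℝ) → ℝ} {f : (V → ℝ) → ℝ} (hm : ∀ n, Measurable (F n)) {C : ℝ}
    (hC : ∀ n h, (∀ v, |h v| ≤ b) → |F n h| ≤ C)
    (hlim : ∀ᵐ h ∂P, Tendsto (fun n => F n h) atTop (𝓝 (f h))) :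
    Tendsto (fun n => ∫ h, F n h ∂P) atTop (𝓝 (∫ h, f h ∂P)) := by
  have := hP.prob
  exact tendsto_integral_of_dominated_convergence (fun _ => C)
    (fun n => (hm n).aestronglyMeasurable) (integrable_const C)
    (fun n => hP.supp.mono fun h hh => by simpa using hC n h hh) hlim

lemma proj_mask {x y : V} (hxy : G.Adj x y) {K : Finset V} {N : ℕ} (hKN : K ⊆ br G N x y)
    {F : (V → ℝ) → ℝ} (hF : Loc b K F) :
    ∫ h, F h * msg G θ (mask K h) N x y ∂P =
      ∫ h, F h * densSpin G θ (br G N x y) h x ∂Measure.infinitePi (fun _ : V => ν0) := by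
  have := hν.prob
  have lX : Loc b K fun h => F h * msg G θ (mask K h) N x y :=
    hF.mul ((loc_comp_mask p.b0 (p.loc_msg hxy) K).mono Finset.inter_subset_right)
  rw [expect_univ hν hP p.b0 (conn_br p.tree N x y hxy) (lX.mono hKN)]
  simp only [ex, dens_eq, densSpin_eq]
  rw [integrate_out (ν := fun _ : V => ν0) (fun _ => hν) p.b1 lX fun _ => 1,
    integrate_out (ν := fun _ : V => ν0) (fun _ => hν) p.b1 hF fun A => spin A x]
  refine integral_congr_ae ((ae_box (ν := fun _ : V => ν0) fun _ => hν).mono fun h hh => ?_)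
  simp only [← dens_eq, ← densSpin_eq]
  rw [densSpin_br p.tree p.nn p.lt_one
    (fun v => (abs_mask_le p.b0 (fun v _ => hh v) v).trans_lt p.b1) N x y hxy]
  ring

lemma proj_eq {x y : V} (hxy : G.Adj x y) {K K' : Finset V} (hK' : ∀ v ∈ K', Behind G x y v)
    (hKK : K ⊆ K') {F : (V → ℝ) → ℝ} (hF : Loc b K F) :
    ∫ h, F h * msgI G θ (mask K' h) x y ∂P = ∫ h, F h * msgI G θ (mask K h) x y ∂P := by
  set N := K'.sup fun v => G.dist x v with hN
  have hle : ∀ v ∈ K', G.dist x v ≤ N := fun v hv => Finset.le_sup (f := fun v => G.dist x v) hv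
  have hsub := subset_br p.tree hxy hK' hle
  simp only [msgI_mask_eq p.tree hxy (fun v hv _ => hle v hv),
    msgI_mask_eq p.tree hxy (K := K) (fun v hv _ => hle v (hKK hv))]
  rw [proj_mask p hν hP hxy hsub (hF.mono hKK), proj_mask p hν hP hxy (hKK.trans hsub) hF]

lemma sq_mask {x y : V} (hxy : G.Adj x y) {K K' : Finset V} (hKK : K ⊆ K') :
    ∫ h, (msgI G θ (mask K' h) x y - msgI G θ (mask K h) x y) ^ 2 ∂P =
      (∫ h, msgI G θ (mask K' h) x y ^ 2 ∂P) - ∫ h, msgI G θ (mask K h) x y ^ 2 ∂P := by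
  simp only [← msgI_mask_behind p.tree hxy K', ← msgI_mask_behind p.tree hxy K]
  have hbeh : ∀ v ∈ behindPart G x y K', Behind G x y v := fun v hv => (Finset.mem_filter.1 hv).2
  have hsub : behindPart G x y K ⊆ behindPart G x y K' := Finset.filter_subset_filter _ hKK
  have l1 := loc_msgI_mask p hxy (behindPart G x y K)
  have l2 := loc_msgI_mask p hxy (behindPart G x y K')
  have hp := proj_eq p hν hP hxy hbeh hsub l1
  have hb : ∀ (L : Finset V) (h : V → ℝ), (∀ v, |h v| ≤ b) →
      |msgI G θ (mask L h) x y| ≤ 1 := fun L h hh =>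
    (abs_msgI_box p (fun v => abs_mask_le p.b0 (fun v _ => hh v) v) x y).trans p.R_lt_one.le
  have i1 := integrable_box hP (l2.meas.pow_const 2) (C := 1) fun h hh => by
    rw [abs_pow]; exact pow_le_one₀ (abs_nonneg _) (hb _ h hh)
  have i2 := integrable_box hP (l1.meas.pow_const 2) (C := 1) fun h hh => by
    rw [abs_pow]; exact pow_le_one₀ (abs_nonneg _) (hb _ h hh)
  have i3 : Integrable (fun h => msgI G θ (mask (behindPart G x y K) h) x y *
      msgI G θ (mask (behindPart G x y K') h) x y) P :=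
    integrable_box hP (l1.meas.mul l2.meas) (C := 1) fun h hh => by
      rw [abs_mul]; exact mul_le_one₀ (hb _ h hh) (abs_nonneg _) (hb _ h hh)
  have e : ∀ h : V → ℝ, (msgI G θ (mask (behindPart G x y K') h) x y -
      msgI G θ (mask (behindPart G x y K) h) x y) ^ 2 =
      (msgI G θ (mask (behindPart G x y K') h) x y ^ 2 +
        msgI G θ (mask (behindPart G x y K) h) x y ^ 2) -
      2 * (msgI G θ (mask (behindPart G x y K) h) x y *
        msgI G θ (mask (behindPart G x y K') h) x y) := fun h => by ring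
  simp only [e]
  rw [integral_sub (i1.fun_add i2) (i3.const_mul 2), integral_add i1 i2, integral_const_mul, hp]
  simp only [← sq]
  ring

/-- Martingale convergence along a chain of sets behind an edge. -/
lemma ae_tendsto_side {x y : V} (hxy : G.Adj x y) (K : ℕ → Finset V) (hmono : Monotone K)
    (hK : ∀ m, ∀ v ∈ K m, Behind G x y v) :
    ∀ᵐ h ∂P, Tendsto (fun m => msgI G θ (mask (K m) h) x y) atTop
      (𝓝 (limsup (fun m => msgI G θ (mask (K m) h) x y) atTop)) := by
  have := hP.prob
  let ℱ : Filtration ℕ (MeasurableSpace.pi : MeasurableSpace (V → ℝ)) :=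
    { seq := fun m => Filtration.piFinset (X := fun _ : V => ℝ) (K m)
      mono' := fun i j hij => Filtration.piFinset.mono (hmono hij)
      le' := fun m => Filtration.piFinset.le _ }
  set X : ℕ → (V → ℝ) → ℝ := fun m h => msgI G θ (mask (K m) h) x y with hX
  have hb : ∀ m h, (∀ v, |h v| ≤ b) → |X m h| ≤ 1 := fun m h hh =>
    (abs_msgI_box p (fun v => abs_mask_le p.b0 (fun v _ => hh v) v) x y).trans p.R_lt_one.le
  have hint : ∀ m, Integrable (X m) P := fun m =>
    integrable_box hP (loc_msgI_mask p hxy (K m)).meas (hb m)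
  have hadp : StronglyAdapted ℱ X := fun m => by
    let e : (↥(K m) → ℝ) → V → ℝ := fun u v => if hv : v ∈ K m then u ⟨v, hv⟩ else 0
    have he : Measurable e := measurable_pi_lambda _ fun v => by
      by_cases hv : v ∈ K m <;> simp only [e, hv, dite_true, dite_false] <;> fun_prop
    have heq : X m = fun h => msgI G θ (e ((K m).restrict h)) x y := by
      funext h
      simp only [hX]
      congr 1
    have hg : Measurable fun u : ↥(K m) → ℝ => msgI G θ (e u) x y := (measurable_msgI x y).comp he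
    have hr : Measurable[ℱ m] ((K m).restrict : (V → ℝ) → ↥(K m) → ℝ) := fun t ht => ⟨t, ht, rfl⟩
    have hm : Measurable[ℱ m] (X m) := by
      rw [heq]
      exact hg.comp hr
    exact hm.stronglyMeasurable
  have hmart : Martingale X ℱ P := by
    refine martingale_of_setIntegral_eq_succ hadp hint fun m s hs => ?_
    have hs' : MeasurableSet s := ℱ.le m s hs
    obtain ⟨t, ht, rfl⟩ := hs
    have hF : Loc b (K m)
        fun h => Set.indicator ((K m).restrict ⁻¹' t) (1 : (V → ℝ) → ℝ) h := by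
      refine ⟨measurable_one.indicator hs', fun h h' e => ?_, 1, fun h _ => ?_⟩
      · have e' : (K m).restrict h = (K m).restrict h' := funext fun v => e v v.2
        show Set.indicator _ (1 : (V → ℝ) → ℝ) h = Set.indicator _ (1 : (V → ℝ) → ℝ) h'
        by_cases h1 : h ∈ (K m).restrict ⁻¹' t
        · have h2 : h' ∈ (K m).restrict ⁻¹' t := by rw [Set.mem_preimage, ← e']; exact h1
          simp [h1, h2]
        · have h2 : h' ∉ (K m).restrict ⁻¹' t := by rw [Set.mem_preimage, ← e']; exact h1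
          simp [h1, h2]
      · show |Set.indicator _ (1 : (V → ℝ) → ℝ) h| ≤ 1
        by_cases h1 : h ∈ (K m).restrict ⁻¹' t <;> simp [h1]
    have e : ∀ k, ∫ h in (K m).restrict ⁻¹' t, X k h ∂P =
        ∫ h, Set.indicator ((K m).restrict ⁻¹' t) (1 : (V → ℝ) → ℝ) h *
          msgI G θ (mask (K k) h) x y ∂P := fun k => by
      rw [← integral_indicator hs']
      refine integral_congr_ae (Eventually.of_forall fun h => ?_)
      by_cases hm : h ∈ (K m).restrict ⁻¹' t <;> simp [hX, hm]
    rw [e, e, proj_eq p hν hP hxy (hK (m + 1)) (hmono (Nat.le_succ m)) hF]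
  have hbdd : ∀ m, eLpNorm (X m) 1 P ≤ ((1 : NNReal) : ENNReal) := fun m => by
    refine (eLpNorm_le_of_ae_bound (C := 1) (hP.supp.mono fun h hh => by
      simpa using hb m h hh)).trans ?_
    simp
  exact (hmart.submartingale.ae_tendsto_limitProcess hbdd).mono fun h hh => by
    rwa [hh.limsup_eq]

lemma ae_tendsto_msg {x y : V} (hxy : G.Adj x y) :
    ∀ᵐ h ∂P, Tendsto (fun n => msg G θ h n x y) atTop (𝓝 (msgI G θ h x y)) := by
  have h := ae_tendsto_side p hν hP hxy (fun n => br G n x y)
    (fun _ _ hnm => br_mono p.tree hnm hxy) fun n v hv => by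
      have := (br_side p.tree n x y hxy v hv).1
      rwa [Behind, dist_comm (u := v), dist_comm (u := v)]
  filter_upwards [h] with h hh
  simp only [msgI_mask_br p.tree hxy] at hh
  exact hh

lemma ae_conv : ∀ᵐ h ∂P, (∀ v, |h v| ≤ b) ∧ Conv G θ h := by
  have h : ∀ᵐ h ∂P, ∀ x y, G.Adj x y →
      Tendsto (fun n => msg G θ h n x y) atTop (𝓝 (msgI G θ h x y)) := by
    rw [ae_all_iff]; intro x
    rw [ae_all_iff]; intro y
    by_cases hxy : G.Adj x y
    · exact (ae_tendsto_msg p hν hP hxy).mono fun h hh _ => hh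
    · exact Eventually.of_forall fun h he => absurd he hxy
  filter_upwards [hP.supp, h] with h hh hc
  exact ⟨hh, conv_of_convAdj p hh hc⟩

lemma sq_ball_le {x y : V} (hxy : G.Adj x y) (o : V) {m : ℕ} (hm : G.dist o x ≤ m) :
    ∫ h, (msgI G θ h x y - msgI G θ (mask (ballF G o m) h) x y) ^ 2 ∂P ≤
      (∫ h, msgI G θ h x y ^ 2 ∂P) - ∫ h, msg G θ h (m - G.dist o x) x y ^ 2 ∂P := by
  set n1 := m - G.dist o x with hn1
  set B := ballF G o m with hB
  have hmB : Measurable fun h : V → ℝ => msgI G θ (mask B h) x y :=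
    (measurable_msgI x y).comp (measurable_mask B)
  have hbB : ∀ h, (∀ v, |h v| ≤ b) → |msgI G θ (mask B h) x y| ≤ 1 := fun h hh =>
    (abs_msgI_box p (fun v => abs_mask_le p.b0 (fun v _ => hh v) v) x y).trans p.R_lt_one.le
  have hbn : ∀ n h, (∀ v, |h v| ≤ b) → |msg G θ h n x y| ≤ 1 := fun n h hh =>
    (p.abs_msg hh n x y).trans p.R_lt_one.le
  have hsub : br G n1 x y ⊆ B := fun v hv => by
    rw [hB, mem_ballF p.tree]
    have := (br_side p.tree n1 x y hxy v hv).2
    have : G.dist o v ≤ G.dist o x + G.dist x v := p.tree.connected.dist_triangle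
    omega
  have hlow : ∫ h, msg G θ h n1 x y ^ 2 ∂P ≤ ∫ h, msgI G θ (mask B h) x y ^ 2 ∂P := by
    have h1 := sq_mask p hν hP hxy hsub
    have h2 : 0 ≤ ∫ h, (msgI G θ (mask B h) x y - msgI G θ (mask (br G n1 x y) h) x y) ^ 2 ∂P :=
      integral_nonneg fun h => sq_nonneg _
    simp only [msgI_mask_br p.tree hxy] at h1 h2
    linarith
  have heq : ∀ n, m + G.dist o x ≤ n →
      ∫ h, (msg G θ h n x y - msgI G θ (mask B h) x y) ^ 2 ∂P =
        (∫ h, msg G θ h n x y ^ 2 ∂P) - ∫ h, msgI G θ (mask B h) x y ^ 2 ∂P := by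
    intro n hn
    have hU : ∀ h, msgI G θ (mask (B ∪ br G n x y) h) x y = msg G θ h n x y := fun h => by
      rw [← msgI_mask_br p.tree hxy n h]
      refine msgI_congr p.tree hxy fun v hv => ?_
      have hv' : v ∈ B → v ∈ br G n x y := fun hvB => by
        rw [hB, mem_ballF p.tree] at hvB
        have : G.dist x v ≤ G.dist x o + G.dist o v := p.tree.connected.dist_triangle
        rw [dist_comm (u := x) (v := o)] at this
        rw [Behind, dist_comm (u := v), dist_comm (u := v)] at hv
        exact mem_br p.tree n x y hxy v hv (by omega)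
      by_cases hvn : v ∈ br G n x y
      · simp [mask, hvn]
      · have hvB : v ∉ B := fun h' => hvn (hv' h')
        simp [mask, hvn, hvB]
    have h1 := sq_mask p hν hP hxy (Finset.subset_union_left : B ⊆ B ∪ br G n x y)
    simp only [hU] at h1
    exact h1
  have hg : Tendsto (fun n => ∫ h, msg G θ h n x y ^ 2 ∂P) atTop
      (𝓝 (∫ h, msgI G θ h x y ^ 2 ∂P)) :=
    tendsto_box hP (fun n => (measurable_msg n x y).pow_const 2)
      (C := 1) (fun n h hh => by rw [abs_pow]; exact pow_le_one₀ (abs_nonneg _) (hbn n h hh))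
      ((ae_tendsto_msg p hν hP hxy).mono fun h hh => hh.pow 2)
  have hd : Tendsto (fun n => ∫ h, (msg G θ h n x y - msgI G θ (mask B h) x y) ^ 2 ∂P) atTop
      (𝓝 (∫ h, (msgI G θ h x y - msgI G θ (mask B h) x y) ^ 2 ∂P)) :=
    tendsto_box hP (fun n => ((measurable_msg n x y).sub hmB).pow_const 2) (C := 4)
      (fun n h hh => by
        rw [abs_pow]
        refine (pow_le_pow_left₀ (abs_nonneg _) ((abs_sub _ _).trans
          (add_le_add (hbn n h hh) (hbB h hh))) 2).trans (by norm_num))
      ((ae_tendsto_msg p hν hP hxy).mono fun h hh => (hh.sub_const _).pow 2)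
  refine le_of_tendsto_of_tendsto hd (hg.sub_const _) ?_
  filter_upwards [eventually_ge_atTop (m + G.dist o x)] with n hn
  rw [heq n hn]
  linarith

lemma ae_tendsto_ball {x y : V} (hxy : G.Adj x y) (o : V) :
    ∀ᵐ h ∂P, Tendsto (fun m => msgI G θ (mask (ballF G o m) h) x y) atTop
      (𝓝 (msgI G θ h x y)) := by
  set L : (V → ℝ) → ℝ := fun h => limsup (fun m => msgI G θ (mask (ballF G o m) h) x y) atTop
  have hmB : ∀ m, Measurable fun h : V → ℝ => msgI G θ (mask (ballF G o m) h) x y := fun m =>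
    (measurable_msgI x y).comp (measurable_mask _)
  have hbB : ∀ m h, (∀ v, |h v| ≤ b) → |msgI G θ (mask (ballF G o m) h) x y| ≤ 1 := fun m h hh =>
    (abs_msgI_box p (fun v => abs_mask_le p.b0 (fun v _ => hh v) v) x y).trans p.R_lt_one.le
  have hconv : ∀ᵐ h ∂P, Tendsto (fun m => msgI G θ (mask (ballF G o m) h) x y) atTop (𝓝 (L h)) := by
    have h := ae_tendsto_side p hν hP hxy (fun m => behindPart G x y (ballF G o m))
      (fun m m' hm => Finset.filter_subset_filter _ fun v hv => by
        rw [mem_ballF p.tree] at hv ⊢; omega)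
      fun m v hv => (Finset.mem_filter.1 hv).2
    simp only [msgI_mask_behind p.tree hxy] at h
    exact h
  have hzero : Tendsto (fun m => ∫ h, (msgI G θ h x y - msgI G θ (mask (ballF G o m) h) x y) ^ 2 ∂P)
      atTop (𝓝 0) := by
    have hg : Tendsto (fun m => (∫ h, msgI G θ h x y ^ 2 ∂P) -
        ∫ h, msg G θ h (m - G.dist o x) x y ^ 2 ∂P) atTop (𝓝 0) := by
      have := ((tendsto_box hP (fun n => (measurable_msg n x y).pow_const 2) (C := 1)
        (fun n h hh => by
          rw [abs_pow]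
          exact pow_le_one₀ (abs_nonneg _) ((p.abs_msg hh n x y).trans p.R_lt_one.le))
        ((ae_tendsto_msg p hν hP hxy).mono fun h hh => hh.pow 2)).comp
          (tendsto_sub_atTop_nat (G.dist o x))).const_sub (∫ h, msgI G θ h x y ^ 2 ∂P)
      rwa [sub_self] at this
    refine squeeze_zero' (Eventually.of_forall fun m => integral_nonneg fun h => sq_nonneg _) ?_ hg
    filter_upwards [eventually_ge_atTop (G.dist o x)] with m hm
    exact sq_ball_le p hν hP hxy o hm
  have hL : Tendsto (fun m => ∫ h, (msgI G θ h x y - msgI G θ (mask (ballF G o m) h) x y) ^ 2 ∂P)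
      atTop (𝓝 (∫ h, (msgI G θ h x y - L h) ^ 2 ∂P)) :=
    tendsto_box hP (fun m => ((measurable_msgI x y).sub (hmB m)).pow_const 2) (C := 4)
      (fun m h hh => by
        rw [abs_pow]
        refine (pow_le_pow_left₀ (abs_nonneg _) ((abs_sub _ _).trans
          (add_le_add ((abs_msgI_box p hh x y).trans p.R_lt_one.le) (hbB m h hh))) 2).trans
          (by norm_num))
      (hconv.mono fun h hh => (hh.const_sub _).pow 2)
  have h0 := tendsto_nhds_unique hL hzero
  have hLm : Measurable L := Measurable.limsup hmB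
  have hae := (integral_eq_zero_iff_of_nonneg (fun h => sq_nonneg _)
    (integrable_box hP (((measurable_msgI x y).sub hLm).pow_const 2) (C := 4) fun h hh => by
      rw [abs_pow]
      refine (pow_le_pow_left₀ (abs_nonneg _) ((abs_sub _ _).trans
        (add_le_add ((abs_msgI_box p hh x y).trans p.R_lt_one.le)
          (abs_limsup_le fun m => hbB m h hh))) 2).trans (by norm_num))).1 h0
  filter_upwards [hconv, hae] with h h1 h2
  have : msgI G θ h x y = L h := sub_eq_zero.1 (pow_eq_zero_iff two_ne_zero |>.1 h2)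
  rwa [this]

lemma ae_tendsto_mag_ball (o x : V) :
    ∀ᵐ h ∂P, Tendsto (fun m => magI G θ (mask (ballF G o m) h) x) atTop (𝓝 (magI G θ h x)) := by
  have hb : ∀ᵐ h ∂P, ∀ c, G.Adj c x → Tendsto (fun m => msgI G θ (mask (ballF G o m) h) c x) atTop
      (𝓝 (msgI G θ h c x)) := by
    rw [ae_all_iff]; intro c
    by_cases hc : G.Adj c x
    · exact (ae_tendsto_ball p hν hP hc o).mono fun h hh _ => hh
    · exact Eventually.of_forall fun h he => absurd he hc
  filter_upwards [ae_conv p hν hP, hb] with h ⟨hh, hc⟩ hball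
  have hh1 : ∀ v, |h v| < 1 := fun v => (hh v).trans_lt p.b1
  rw [magI_eq p.nn p.lt_one hh1 hc.adj x]
  refine (tendsto_mrg_cmb p.nn p.lt_one (hh1 x) _
    (fun c hc' => hball c (p.adj_of_mem hc').symm) fun c _ =>
      abs_msgI_le_one p.nn p.lt_one hh1 c x).congr' ?_
  filter_upwards [eventually_ge_atTop (G.dist o x)] with m hm
  rw [magI_eq p.nn p.lt_one (fun v => (abs_mask_le p.b0 (fun v _ => hh v) v).trans_lt p.b1)
    (convAdj_mask p.tree _ h) x, mask_of_mem ((mem_ballF p.tree o m x).2 hm)]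

lemma tendsto_ex_msg {x y : V} (hxy : G.Adj x y) {f : ℝ → ℝ} (hf : Continuous f) :
    Tendsto (fun n => ex G θ (fun _ => ν0) (br G n x y) fun h => f (msg G θ h n x y)) atTop
      (𝓝 (∫ h, f (msgI G θ h x y) ∂P)) := by
  obtain ⟨C, hC⟩ := (isCompact_Icc (a := (-1 : ℝ)) (b := 1)).exists_bound_of_continuousOn
    hf.continuousOn
  have hb : ∀ n h, (∀ v, |h v| ≤ b) → |f (msg G θ h n x y)| ≤ C := fun n h hh =>
    (Real.norm_eq_abs _).symm.le.trans (hC _ (abs_le.1 ((p.abs_msg hh n x y).trans p.R_lt_one.le)))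
  refine (tendsto_box hP (fun n => hf.measurable.comp (measurable_msg n x y)) hb
    ((ae_tendsto_msg p hν hP hxy).mono fun h hh => (hf.tendsto _).comp hh)).congr fun n => ?_
  exact expect_univ hν hP p.b0 (conn_br p.tree n x y hxy)
    ((p.loc_msg hxy).comp (fun h hh => p.abs_msg hh n x y) hf.measurable fun a ha =>
      (Real.norm_eq_abs _).symm.le.trans (hC a (abs_le.1 (ha.trans p.R_lt_one.le))))

lemma tendsto_ex_mag (x : V) {f : ℝ → ℝ} (hf : Continuous f) :
    Tendsto (fun n => ex G θ (fun _ => ν0) (reg G n x (G.neighborFinset x))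
        fun h => f (part G θ h n x (G.neighborFinset x))) atTop
      (𝓝 (∫ h, f (magI G θ h x) ∂P)) := by
  obtain ⟨C, hC⟩ := (isCompact_Icc (a := (-1 : ℝ)) (b := 1)).exists_bound_of_continuousOn
    hf.continuousOn
  have hs : ∀ e ∈ G.neighborFinset x, G.Adj x e := fun e he => p.adj_of_mem he
  have hb : ∀ n h, (∀ v, |h v| ≤ b) → |f (mag G θ h n x)| ≤ C := fun n h hh =>
    (Real.norm_eq_abs _).symm.le.trans (hC _ (abs_le.1 ((p.abs_part hh hs).trans p.R_lt_one.le)))
  refine (tendsto_box hP (fun n => hf.measurable.comp (measurable_mag n x)) hb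
    ((ae_conv p hν hP).mono fun h ⟨hh, hc⟩ => ?_)).congr fun n => ?_
  · rw [magI_eq p.nn p.lt_one (fun v => (hh v).trans_lt p.b1) hc.adj x]
    exact (hf.tendsto _).comp (tendsto_mag p.nn p.lt_one (fun v => (hh v).trans_lt p.b1) hc.adj x)
  · exact expect_univ hν hP p.b0 (conn_reg p.tree hs)
      ((p.loc_part hs).comp (fun h hh => p.abs_part hh hs) hf.measurable fun a ha =>
        (Real.norm_eq_abs _).symm.le.trans (hC a (abs_le.1 (ha.trans p.R_lt_one.le))))

end law

end Vale.Agent.P161.Crit.Stat
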