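import Vale.Agent.P161.Crit.StatDens

/-!
Expectations of local functions of independent fields weighted by the densities of branches,
and their identification with expectations under the law of the model.
-/

namespace Vale.Agent.P161.Crit.Stat

open MeasureTheory SimpleGraph Finset

variable {V : Type*} [DecidableEq V]

/-- A measurable function of the fields on `S`, bounded on bounded configurations. -/
structure Loc (b : ℝ) (S : Finset V) (F : (V → ℝ) → ℝ) : Prop where
  meas : Measurable F
  loc : ∀ h h', (∀ v ∈ S, h v = h' v) → F h = F h'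
  bdd : ∃ C, ∀ h, (∀ v, |h v| ≤ b) → |F h| ≤ C

namespace Loc

variable {b : ℝ} {S T : Finset V} {F F' : (V → ℝ) → ℝ}

lemma const (b : ℝ) (S : Finset V) (c : ℝ) : Loc b S fun _ => c :=
  ⟨measurable_const, fun _ _ _ => rfl, |c|, fun _ _ => le_rfl⟩

lemma mono (hF : Loc b S F) (hST : S ⊆ T) : Loc b T F :=
  ⟨hF.meas, fun h h' e => hF.loc h h' fun v hv => e v (hST hv), hF.bdd⟩

lemma add (hF : Loc b S F) (hF' : Loc b S F') : Loc b S fun h => F h + F' h := by
  obtain ⟨C, hC⟩ := hF.bdd
  obtain ⟨C', hC'⟩ := hF'.bdd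
  exact ⟨hF.meas.add hF'.meas, fun h h' e => by rw [hF.loc h h' e, hF'.loc h h' e], C + C',
    fun h hh => (abs_add_le _ _).trans (add_le_add (hC h hh) (hC' h hh))⟩

lemma mul (hF : Loc b S F) (hF' : Loc b S F') : Loc b S fun h => F h * F' h := by
  obtain ⟨C, hC⟩ := hF.bdd
  obtain ⟨C', hC'⟩ := hF'.bdd
  refine ⟨hF.meas.mul hF'.meas, fun h h' e => by rw [hF.loc h h' e, hF'.loc h h' e], C * C',
    fun h hh => ?_⟩
  rw [abs_mul]
  exact mul_le_mul (hC h hh) (hC' h hh) (abs_nonneg _) ((abs_nonneg _).trans (hC h hh))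

lemma const_mul (hF : Loc b S F) (c : ℝ) : Loc b S fun h => c * F h := (const b S c).mul hF

lemma neg (hF : Loc b S F) : Loc b S fun h => -F h := by
  have := hF.const_mul (-1)
  simpa only [neg_one_mul] using this

lemma sub (hF : Loc b S F) (hF' : Loc b S F') : Loc b S fun h => F h - F' h := by
  have := hF.add hF'.neg
  simpa only [← sub_eq_add_neg] using this

lemma sum {ι : Type*} (s : Finset ι) {f : ι → (V → ℝ) → ℝ} (hf : ∀ i ∈ s, Loc b S (f i)) :
    Loc b S fun h => ∑ i ∈ s, f i h := by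
  classical
  induction s using Finset.induction_on with
  | empty => simpa using const b S 0
  | @insert a s ha ih =>
    simp only [Finset.sum_insert ha]
    exact (hf a (Finset.mem_insert_self a s)).add (ih fun i hi => hf i (Finset.mem_insert_of_mem hi))

lemma pow (hF : Loc b S F) (n : ℕ) : Loc b S fun h => F h ^ n := by
  induction n with
  | zero => simpa using const b S 1
  | succ n ih => simpa only [pow_succ] using ih.mul hF

lemma comp (hF : Loc b S F) {r : ℝ} (hr : ∀ h, (∀ v, |h v| ≤ b) → |F h| ≤ r) {g : ℝ → ℝ}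
    (hg : Measurable g) {C : ℝ} (hC : ∀ a, |a| ≤ r → |g a| ≤ C) : Loc b S fun h => g (F h) :=
  ⟨hg.comp hF.meas, fun h h' e => by rw [hF.loc h h' e], C, fun h hh => hC _ (hr h hh)⟩

lemma comp_neg (hF : Loc b S F) : Loc b S fun h => F (-h) := by
  obtain ⟨C, hC⟩ := hF.bdd
  refine ⟨hF.meas.comp measurable_neg, fun h h' e => hF.loc _ _ fun v hv => ?_, C,
    fun h hh => hC _ fun v => ?_⟩
  · simp [e v hv]
  · simpa using hh v

end Loc

/-- Flip the fields on `T`. -/
def flipOn (T : Finset V) (h : V → ℝ) : V → ℝ := fun v => if v ∈ T then -h v else h v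

lemma flipOn_box {b : ℝ} {T : Finset V} {h : V → ℝ} (hh : ∀ v, |h v| ≤ b) (v : V) :
    |flipOn T h v| ≤ b := by
  unfold flipOn; split_ifs <;> simp [hh v]

lemma measurable_flipOn (T : Finset V) : Measurable (flipOn T : (V → ℝ) → V → ℝ) := by
  refine measurable_pi_lambda _ fun v => ?_
  unfold flipOn
  split_ifs <;> fun_prop

lemma flipOn_loc {b : ℝ} {S T : Finset V} {F : (V → ℝ) → ℝ} (hF : Loc b S F) (hd : Disjoint S T)
    (h : V → ℝ) : F (flipOn T h) = F h :=
  hF.loc _ _ fun v hv => by simp [flipOn, Finset.disjoint_left.1 hd hv]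

lemma flipOn_self {b : ℝ} {T : Finset V} {F : (V → ℝ) → ℝ} (hF : Loc b T F) (h : V → ℝ) :
    F (flipOn T h) = F (-h) :=
  hF.loc _ _ fun v hv => by simp [flipOn, hv]

lemma Loc.comp_flip {b : ℝ} {S : Finset V} {F : (V → ℝ) → ℝ} (hF : Loc b S F) (T : Finset V) :
    Loc b S fun h => F (flipOn T h) := by
  obtain ⟨C, hC⟩ := hF.bdd
  exact ⟨hF.meas.comp (measurable_flipOn T),
    fun h h' e => hF.loc _ _ fun v hv => by simp [flipOn, e v hv],
    C, fun h hh => hC _ (flipOn_box hh)⟩

section product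

variable [Countable V] {b : ℝ} {ν : V → Measure ℝ} [∀ x, IsProbabilityMeasure (ν x)]

lemma ae_box (hν : ∀ x, Chan b (ν x)) :
    ∀ᵐ h ∂Measure.infinitePi ν, ∀ v, |h v| ≤ b := by
  rw [ae_all_iff]
  intro v
  exact (measurePreserving_eval_infinitePi ν v).quasiMeasurePreserving.tendsto_ae.eventually
    (hν v).supp

lemma integrable_loc (hν : ∀ x, Chan b (ν x)) {S : Finset V} {F : (V → ℝ) → ℝ}
    (hF : Loc b S F) : Integrable F (Measure.infinitePi ν) := by
  obtain ⟨C, hC⟩ := hF.bdd
  exact Integrable.mono' (integrable_const C) hF.meas.aestronglyMeasurable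
    ((ae_box hν).mono fun h hh => by simpa using hC h hh)

omit [Countable V] in
lemma map_flip (hν : ∀ x, Chan b (ν x)) (T : Finset V) :
    (Measure.infinitePi ν).map (flipOn T) = Measure.infinitePi ν := by
  have hm : ∀ i : V, Measurable fun x : ℝ => if i ∈ T then -x else x := fun i => by
    split_ifs <;> fun_prop
  rw [show (flipOn T : (V → ℝ) → V → ℝ) = fun x i => (fun x : ℝ => if i ∈ T then -x else x) (x i)
    from rfl, Measure.infinitePi_map_pi ν hm]
  congr 1
  funext i
  split_ifs
  · exact (hν i).symm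
  · exact Measure.map_id

omit [Countable V] in
lemma integral_flip (hν : ∀ x, Chan b (ν x)) (T : Finset V) {F : (V → ℝ) → ℝ}
    (hF : Measurable F) :
    ∫ h, F (flipOn T h) ∂Measure.infinitePi ν = ∫ h, F h ∂Measure.infinitePi ν := by
  conv_rhs => rw [← map_flip hν T]
  rw [integral_map (measurable_flipOn T).aemeasurable hF.aestronglyMeasurable]

lemma integral_odd (hν : ∀ x, Chan b (ν x)) {S : Finset V} {F : (V → ℝ) → ℝ}
    (hF : Loc b S F) (hodd : ∀ h, F (-h) = -F h) : ∫ h, F h ∂Measure.infinitePi ν = 0 := by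
  have h := integral_flip hν S hF.meas
  simp only [flipOn_self hF, hodd, integral_neg] at h
  linarith

omit [Countable V] in
lemma map_piecewise (T : Finset V) :
    ((Measure.infinitePi ν).prod (Measure.infinitePi ν)).map
      (fun p => fun v => if v ∈ T then p.2 v else p.1 v) = Measure.infinitePi ν := by
  have hm : Measurable fun p : (V → ℝ) × (V → ℝ) => fun v => if v ∈ T then p.2 v else p.1 v := by
    refine measurable_pi_lambda _ fun v => ?_
    split_ifs
    · exact (measurable_pi_apply v).comp measurable_snd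
    · exact (measurable_pi_apply v).comp measurable_fst
  refine Measure.eq_infinitePi _ fun s t ht => ?_
  rw [Measure.map_apply hm (.pi s.countable_toSet fun _ _ => ht _)]
  have : (fun p : (V → ℝ) × (V → ℝ) => fun v => if v ∈ T then p.2 v else p.1 v) ⁻¹'
      Set.pi (s : Set V) t =
        Set.pi ((s \ T : Finset V) : Set V) t ×ˢ Set.pi ((s ∩ T : Finset V) : Set V) t := by
    ext ⟨y, z⟩
    simp only [Set.mem_preimage, Set.mem_pi, Finset.mem_coe, Set.mem_prod, Finset.mem_sdiff,
      Finset.mem_inter]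
    constructor
    · intro h
      exact ⟨fun v hv => by simpa [hv.2] using h v hv.1, fun v hv => by simpa [hv.2] using h v hv.1⟩
    · rintro ⟨h1, h2⟩ v hv
      by_cases hvT : v ∈ T
      · simpa [hvT] using h2 v ⟨hv, hvT⟩
      · simpa [hvT] using h1 v ⟨hv, hvT⟩
  rw [this, Measure.prod_prod, Measure.infinitePi_pi _ fun v _ => ht v,
    Measure.infinitePi_pi _ fun v _ => ht v, mul_comm]
  exact Finset.prod_inter_mul_prod_sdiff s T _

/-- Functions of two arguments seen through disjoint sets of coordinates. -/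
lemma integral_split {S T : Finset V} (hd : Disjoint S T) {G2 : (V → ℝ) → (V → ℝ) → ℝ}
    (hG : Measurable fun p : (V → ℝ) × (V → ℝ) => G2 p.1 p.2)
    (h1 : ∀ k h h', (∀ v ∈ S, h v = h' v) → G2 h k = G2 h' k)
    (h2 : ∀ h k k', (∀ v ∈ T, k v = k' v) → G2 h k = G2 h k') :
    ∫ h, G2 h h ∂Measure.infinitePi ν =
      ∫ p, G2 p.1 p.2 ∂((Measure.infinitePi ν).prod (Measure.infinitePi ν)) := by
  have hm : Measurable fun p : (V → ℝ) × (V → ℝ) => fun v => if v ∈ T then p.2 v else p.1 v := by
    refine measurable_pi_lambda _ fun v => ?_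
    split_ifs
    · exact (measurable_pi_apply v).comp measurable_snd
    · exact (measurable_pi_apply v).comp measurable_fst
  conv_lhs => rw [← map_piecewise (ν := ν) T]
  have hd' : Measurable fun h : V → ℝ => G2 h h :=
    hG.comp (measurable_id.prodMk measurable_id)
  rw [integral_map hm.aemeasurable hd'.aestronglyMeasurable]
  refine integral_congr_ae (Filter.Eventually.of_forall fun p => ?_)
  show G2 _ _ = G2 p.1 p.2
  rw [h1 _ _ p.1 fun v hv => by simp [Finset.disjoint_left.1 hd hv],
    h2 p.1 _ p.2 fun v hv => by simp [hv]]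

lemma integral_mul_disj {S T : Finset V} (hd : Disjoint S T)
    {f g : (V → ℝ) → ℝ} (hf : Loc b S f) (hg : Loc b T g) :
    ∫ h, f h * g h ∂Measure.infinitePi ν =
      (∫ h, f h ∂Measure.infinitePi ν) * ∫ h, g h ∂Measure.infinitePi ν := by
  rw [integral_split hd (G2 := fun h k => f h * g k)
    ((hf.meas.comp measurable_fst).mul (hg.meas.comp measurable_snd))
    (fun k h h' e => by rw [hf.loc h h' e]) (fun h k k' e => by rw [hg.loc k k' e]),
    integral_prod_mul]

end product

variable {G : SimpleGraph V} {θ b : ℝ}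

lemma loc_zsum (hb1 : b < 1) (S : Finset V) (φ : Finset V → ℝ) :
    Loc b S fun h => zsum G θ S (tilt h) φ :=
  ⟨measurable_zsum_tilt S φ, fun _ _ e => zsum_tilt_congr e, _,
    fun _ hh => abs_zsum_tilt_le S φ fun v => (hh v).trans hb1.le⟩

lemma loc_dens (hb1 : b < 1) (S : Finset V) : Loc b S fun h => dens G θ S h := loc_zsum hb1 S _

lemma loc_densSpin (hb1 : b < 1) (S : Finset V) (x : V) :
    Loc b S fun h => densSpin G θ S h x := loc_zsum hb1 S _

/-- Expectation of a function of the fields on a connected set `S`. -/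
noncomputable def ex (G : SimpleGraph V) (θ : ℝ) (ν : V → Measure ℝ) (S : Finset V)
    (F : (V → ℝ) → ℝ) : ℝ :=
  ∫ h, F h * dens G θ S h ∂Measure.infinitePi ν

variable [Countable V] {ν : V → Measure ℝ} [∀ x, IsProbabilityMeasure (ν x)]

lemma ex_add (hν : ∀ x, Chan b (ν x)) (hb1 : b < 1) {S : Finset V} {F F' : (V → ℝ) → ℝ}
    (hF : Loc b S F) (hF' : Loc b S F') :
    ex G θ ν S (fun h => F h + F' h) = ex G θ ν S F + ex G θ ν S F' := by
  simp only [ex, add_mul]
  exact integral_add (integrable_loc hν (hF.mul (loc_dens hb1 S)))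
    (integrable_loc hν (hF'.mul (loc_dens hb1 S)))

omit [Countable V] [∀ x, IsProbabilityMeasure (ν x)] in
lemma ex_const_mul (S : Finset V) (c : ℝ) (F : (V → ℝ) → ℝ) :
    ex G θ ν S (fun h => c * F h) = c * ex G θ ν S F := by
  simp only [ex, mul_assoc]
  exact integral_const_mul _ _

lemma ex_sub (hν : ∀ x, Chan b (ν x)) (hb1 : b < 1) {S : Finset V} {F F' : (V → ℝ) → ℝ}
    (hF : Loc b S F) (hF' : Loc b S F') :
    ex G θ ν S (fun h => F h - F' h) = ex G θ ν S F - ex G θ ν S F' := by
  simp only [ex, sub_mul]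
  exact integral_sub (integrable_loc hν (hF.mul (loc_dens hb1 S)))
    (integrable_loc hν (hF'.mul (loc_dens hb1 S)))

lemma ex_sum (hν : ∀ x, Chan b (ν x)) (hb1 : b < 1) {S : Finset V} {ι : Type*} (s : Finset ι)
    {f : ι → (V → ℝ) → ℝ} (hf : ∀ i ∈ s, Loc b S (f i)) :
    ex G θ ν S (fun h => ∑ i ∈ s, f i h) = ∑ i ∈ s, ex G θ ν S (f i) := by
  simp only [ex, Finset.sum_mul]
  exact integral_finsetSum _ fun i hi => integrable_loc hν ((hf i hi).mul (loc_dens hb1 S))

lemma ex_mono (hν : ∀ x, Chan b (ν x)) (hb1 : b < 1) (h0 : 0 ≤ θ) (h1 : θ < 1) {S : Finset V}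
    {F F' : (V → ℝ) → ℝ} (hF : Loc b S F) (hF' : Loc b S F')
    (hle : ∀ h, (∀ v, |h v| ≤ b) → F h ≤ F' h) : ex G θ ν S F ≤ ex G θ ν S F' :=
  integral_mono_ae (integrable_loc hν (hF.mul (loc_dens hb1 S)))
    (integrable_loc hν (hF'.mul (loc_dens hb1 S)))
    ((ae_box hν).mono fun h hh => mul_le_mul_of_nonneg_right (hle h hh)
      (dens_pos h0 h1 (fun v => (hh v).trans_lt hb1) S).le)

lemma ex_congr (hν : ∀ x, Chan b (ν x)) (S : Finset V) {F F' : (V → ℝ) → ℝ}
    (he : ∀ h, (∀ v, |h v| ≤ b) → F h = F' h) : ex G θ ν S F = ex G θ ν S F' :=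
  integral_congr_ae ((ae_box hν).mono fun h hh => by simp only [he h hh])

omit [Countable V] [∀ x, IsProbabilityMeasure (ν x)] in
lemma mask_of_mem {K : Finset V} {h : V → ℝ} {v : V} (hv : v ∈ K) : mask K h v = h v := by
  simp [mask, hv]

lemma loc_comp_mask (hb0 : 0 ≤ b) {S : Finset V} {F : (V → ℝ) → ℝ} (hF : Loc b S F)
    (K : Finset V) : Loc b (S ∩ K) fun h => F (mask K h) := by
  obtain ⟨C, hC⟩ := hF.bdd
  refine ⟨hF.meas.comp (measurable_mask K), fun h h' e => hF.loc _ _ fun v hv => ?_, C,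
    fun h hh => hC _ fun v => abs_mask_le hb0 (fun v _ => hh v) v⟩
  by_cases hvK : v ∈ K
  · simp [mask, hvK, e v (Finset.mem_inter.2 ⟨hv, hvK⟩)]
  · simp [mask, hvK]

/-- Unobserved coordinates integrate out of the tilted sums. -/
lemma integrate_out (hν : ∀ x, Chan b (ν x)) (hb1 : b < 1) {K B : Finset V}
    {F : (V → ℝ) → ℝ} (hF : Loc b K F) (φ : Finset V → ℝ) :
    ∫ h, F h * zsum G θ B (tilt h) φ ∂Measure.infinitePi ν =
      ∫ h, F h * zsum G θ B (tilt (mask K h)) φ ∂Measure.infinitePi ν := by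
  have hprod : ∀ (L : Finset V) (s : V → ℝ), (∀ v, |s v| ≤ 1) →
      Loc b L fun h => ∏ v ∈ L, (1 + s v * h v) := by
    intro L s hs
    refine ⟨by fun_prop, fun h h' e => Finset.prod_congr rfl fun v hv => by rw [e v hv],
      2 ^ L.card, fun h hh => ?_⟩
    rw [Finset.abs_prod]
    refine (Finset.prod_le_prod (fun _ _ => abs_nonneg _) fun v _ => ?_).trans_eq
      (Finset.prod_const 2)
    have : |s v * h v| ≤ 1 := by
      rw [abs_mul]; exact mul_le_one₀ (hs v) (abs_nonneg _) ((hh v).trans hb1.le)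
    exact (abs_add_le _ _).trans (by rw [abs_one]; linarith)
  have key : ∀ (L : Finset V) (s : V → ℝ), (∀ v, |s v| ≤ 1) → Disjoint K L →
      ∀ F' : (V → ℝ) → ℝ, Loc b K F' →
      ∫ h, F' h * ∏ v ∈ L, (1 + s v * h v) ∂Measure.infinitePi ν =
        ∫ h, F' h ∂Measure.infinitePi ν := by
    intro L s hs
    induction L using Finset.induction_on with
    | empty => intro _ F' _; simp
    | @insert a L ha ih =>
      intro hd F' hF'
      rw [Finset.disjoint_insert_right] at hd
      have e : ∀ h : V → ℝ, F' h * ∏ v ∈ insert a L, (1 + s v * h v) =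
          F' h * ∏ v ∈ L, (1 + s v * h v) +
            s a * (F' h * (∏ v ∈ L, (1 + s v * h v)) * h a) := fun h => by
        rw [Finset.prod_insert ha]; ring
      have l1 : Loc b (K ∪ L) fun h => F' h * ∏ v ∈ L, (1 + s v * h v) :=
        (hF'.mono Finset.subset_union_left).mul ((hprod L s hs).mono Finset.subset_union_right)
      have l2 : Loc b (insert a (K ∪ L)) fun h => F' h * (∏ v ∈ L, (1 + s v * h v)) * h a :=
        (l1.mono (Finset.subset_insert _ _)).mul
          ⟨measurable_pi_apply a, fun h h' e => e a (Finset.mem_insert_self _ _), b,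
            fun h hh => hh a⟩
      have hz : ∫ h, F' h * (∏ v ∈ L, (1 + s v * h v)) * h a ∂Measure.infinitePi ν = 0 := by
        have h := integral_flip hν {a} l2.meas
        have e2 : ∀ h : V → ℝ, F' (flipOn {a} h) *
            (∏ v ∈ L, (1 + s v * flipOn {a} h v)) * flipOn {a} h a =
            -(F' h * (∏ v ∈ L, (1 + s v * h v)) * h a) := by
          intro h
          have hd' : Disjoint (K ∪ L) {a} := by simp [hd.1, ha]
          have h1 := flipOn_loc l1 hd' h
          rw [h1]
          simp [flipOn]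
        simp only [e2, integral_neg] at h
        linarith
      simp only [e]
      rw [integral_add (integrable_loc hν l1) ((integrable_loc hν l2).const_mul _),
        integral_const_mul, hz, mul_zero, add_zero, ih hd.2 F' hF']
  have hterm : ∀ A : Finset V, Loc b (K ∪ B) fun h =>
      wt G θ B A * φ A * (F h * ∏ v ∈ B, (1 + spin A v * h v)) := fun A =>
    ((hF.mono Finset.subset_union_left).mul ((hprod B _ fun v => (abs_spin A v).le).mono
      Finset.subset_union_right)).const_mul _
  have hterm' : ∀ A : Finset V, Loc b K fun h =>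
      wt G θ B A * φ A * (F h * ∏ v ∈ B ∩ K, (1 + spin A v * h v)) := fun A =>
    (hF.mul ((hprod _ _ fun v => (abs_spin A v).le).mono Finset.inter_subset_right)).const_mul _
  have e1 : ∀ h : V → ℝ, F h * zsum G θ B (tilt h) φ =
      ∑ A ∈ B.powerset, wt G θ B A * φ A * (F h * ∏ v ∈ B, (1 + spin A v * h v)) := fun h => by
    simp only [zsum, tilt, Finset.mul_sum]
    exact Finset.sum_congr rfl fun A _ => by ring
  have e2 : ∀ h : V → ℝ, F h * zsum G θ B (tilt (mask K h)) φ =
      ∑ A ∈ B.powerset, wt G θ B A * φ A * (F h * ∏ v ∈ B ∩ K, (1 + spin A v * h v)) := fun h => by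
    simp only [zsum, tilt, Finset.mul_sum]
    refine Finset.sum_congr rfl fun A _ => ?_
    rw [← Finset.prod_inter_mul_prod_sdiff B K,
      Finset.prod_eq_one (s := B \ K) fun v hv => by simp [mask, (Finset.mem_sdiff.1 hv).2],
      Finset.prod_congr (s₁ := B ∩ K) rfl fun v hv => by rw [mask_of_mem (Finset.mem_inter.1 hv).2]]
    ring
  simp only [e1, e2]
  rw [integral_finsetSum _ fun A _ => integrable_loc hν (hterm A),
    integral_finsetSum _ fun A _ => integrable_loc hν (hterm' A)]
  refine Finset.sum_congr rfl fun A _ => ?_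
  rw [integral_const_mul, integral_const_mul]
  congr 1
  have l3 : Loc b K fun h => F h * ∏ v ∈ B ∩ K, (1 + spin A v * h v) :=
    hF.mul ((hprod _ _ fun v => (abs_spin A v).le).mono Finset.inter_subset_right)
  rw [← key (B \ K) (spin A) (fun v => (abs_spin A v).le) Finset.disjoint_sdiff _ l3]
  refine integral_congr_ae (Filter.Eventually.of_forall fun h => ?_)
  simp only
  rw [mul_assoc, Finset.prod_inter_mul_prod_sdiff]

/-- Consistency of the tilted sums in the volume. -/
lemma marg (hν : ∀ x, Chan b (ν x)) (hb1 : b < 1) (hG : G.IsTree) {S S' : Finset V}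
    (hS : Conn G S) {o : V} (ho : o ∈ S) (hS' : Conn G S') (hSS' : S ⊆ S') {F : (V → ℝ) → ℝ}
    (hF : Loc b S F) {φ : Finset V → ℝ} (hφ : ∀ A v, v ∉ S → φ (insert v A) = φ A) :
    ∫ h, F h * zsum G θ S' (tilt h) φ ∂Measure.infinitePi ν =
      ∫ h, F h * zsum G θ S (tilt h) φ ∂Measure.infinitePi ν := by
  rw [integrate_out hν hb1 hF φ]
  refine integral_congr_ae (Filter.Eventually.of_forall fun h => ?_)
  simp only
  congr 1
  have e : ∀ T, S ⊆ T → zsum G θ T (tilt (mask S h)) φ =
      zsum G θ T (fun _ _ => 1) (fun A => φ A * ∏ v ∈ S, (1 + spin A v * h v)) := by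
    intro T hT
    refine Finset.sum_congr rfl fun A _ => ?_
    have : ∏ u ∈ T, tilt (mask S h) u (spin A u) = ∏ v ∈ S, (1 + spin A v * h v) := by
      rw [← Finset.prod_subset hT fun v _ hv => by simp [tilt, mask, hv]]
      exact Finset.prod_congr rfl fun v hv => by rw [tilt, mask_of_mem hv]
    rw [this, Finset.prod_const_one]
    ring
  rw [e S' hSS', zsum_tilt_congr (h := h) (h' := mask S h) (S := S) fun v hv => (mask_of_mem hv).symm,
    e S subset_rfl]
  refine zsum_consistent hG hS ho _ (fun A v hv => ?_) S' hS' hSS'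
  rw [hφ A v hv, Finset.prod_congr rfl fun u hu => by
    rw [spin_insert_of_ne (fun he : u = v => hv (he ▸ hu))]]

lemma ex_one (hν : ∀ x, Chan b (ν x)) (hb1 : b < 1) (hG : G.IsTree) {S : Finset V}
    (hS : Conn G S) {o : V} (ho : o ∈ S) : ex G θ ν S (fun _ => 1) = 1 := by
  have h := marg (G := G) (θ := θ) hν hb1 hG (conn_singleton o) (Finset.mem_singleton_self o) hS
    (by simpa using ho) (F := fun _ => (1 : ℝ)) (Loc.const b {o} 1) (φ := fun _ => (1 : ℝ))
    fun _ _ _ => rfl
  simp only [ex]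
  refine h.trans ?_
  simp [← dens_eq, dens_singleton]

lemma ex_const (hν : ∀ x, Chan b (ν x)) (hb1 : b < 1) (hG : G.IsTree) {S : Finset V}
    (hS : Conn G S) {o : V} (ho : o ∈ S) (c : ℝ) : ex G θ ν S (fun _ => c) = c := by
  have := ex_const_mul (G := G) (θ := θ) (ν := ν) S c (fun _ => 1)
  rw [ex_one hν hb1 hG hS ho] at this
  simpa using this

/-- Even functions on the two sides of an edge are independent. -/
lemma ex_join_even (hν : ∀ x, Chan b (ν x)) (hb1 : b < 1) {S T : Finset V} {x c : V}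
    (hj : Join G S T x c) {f g : (V → ℝ) → ℝ} (hf : Loc b S f) (hg : Loc b T g)
    (hfe : ∀ h, f (-h) = f h) :
    ex G θ ν (S ∪ T) (fun h => f h * g h) = ex G θ ν S f * ex G θ ν T g := by
  have l1 := (hf.mul (loc_dens (G := G) (θ := θ) hb1 S))
  have l2 := (hg.mul (loc_dens (G := G) (θ := θ) hb1 T))
  have l3 := (hf.mul (loc_densSpin (G := G) (θ := θ) hb1 S x)).const_mul θ
  have l4 := (hg.mul (loc_densSpin (G := G) (θ := θ) hb1 T c))
  have e : ∀ h, f h * g h * dens G θ (S ∪ T) h = (f h * dens G θ S h) * (g h * dens G θ T h) +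
      (θ * (f h * densSpin G θ S h x)) * (g h * densSpin G θ T h c) := fun h => by
    rw [dens_join hj]; ring
  simp only [ex, e]
  rw [integral_add (integrable_loc hν ((l1.mono Finset.subset_union_left).mul
      (l2.mono Finset.subset_union_right))) (integrable_loc hν ((l3.mono Finset.subset_union_left).mul
      (l4.mono Finset.subset_union_right))),
    integral_mul_disj hj.disj l1 l2, integral_mul_disj hj.disj l3 l4,
    integral_odd hν l3 fun h => by rw [hfe, densSpin_neg hj.memS]; ring]
  ring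

/-- Fields restricted to `K`: channel `ν0` on `K` and no observation elsewhere. -/
noncomputable def chanOn (ν0 : Measure ℝ) (K : Finset V) (v : V) : Measure ℝ :=
  if v ∈ K then ν0 else Measure.dirac 0

omit [Countable V] in
lemma chan_dirac (hb0 : 0 ≤ b) : Chan b (Measure.dirac (0 : ℝ)) := by
  refine ⟨Measure.dirac.isProbabilityMeasure, ?_, ?_⟩
  · rw [Measure.map_dirac' measurable_neg]; simp
  · rw [ae_dirac_iff (measurableSet_le (by fun_prop) measurable_const)]
    simpa using hb0

omit [Countable V] in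
lemma chan_chanOn {ν0 : Measure ℝ} (hb0 : 0 ≤ b) (h : Chan b ν0) (K : Finset V) (v : V) :
    Chan b (chanOn ν0 K v) := by
  unfold chanOn; split_ifs
  · exact h
  · exact chan_dirac hb0

lemma expect_univ {ν0 : Measure ℝ} {P : Measure (V → ℝ)} (hν0 : Chan b ν0)
    (hP : FieldLaw G θ b ν0 P) (hb0 : 0 ≤ b) {S : Finset V} (hS : Conn G S)
    {F : (V → ℝ) → ℝ} (hF : Loc b S F) :
    ∫ h, F h ∂P = ex G θ (fun _ => ν0) S F := by
  have := hν0.prob
  obtain ⟨C, hC⟩ := hF.bdd
  set cl : (V → ℝ) → V → ℝ := fun h v => max (-b) (min b (h v)) with hcl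
  have hclm : Measurable cl := by simp only [hcl]; fun_prop
  have hclbox : ∀ h v, |cl h v| ≤ b := fun h v =>
    abs_le.2 ⟨le_max_left _ _, max_le (by linarith) (min_le_left _ _)⟩
  have hclid : ∀ h, (∀ v, |h v| ≤ b) → cl h = h := fun h hh => funext fun v => by
    obtain ⟨u, w⟩ := abs_le.1 (hh v)
    simp [hcl, min_eq_right w, max_eq_right u]
  have hC0 : 0 ≤ C := (abs_nonneg _).trans (hC _ fun v => by simpa using hb0 : |F 0| ≤ C)
  set D := C + 1
  have hlaw := hP.law S hS (fun h => F (cl h) / D) ((hF.meas.comp hclm).div_const D)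
    (fun h => by
      rw [abs_div, abs_of_pos (by linarith : 0 < D), div_le_one (by linarith : 0 < D)]
      exact (hC _ (hclbox h)).trans (by linarith))
    (fun h h' e => by
      rw [hF.loc (cl h) (cl h') fun v hv => by simp [hcl, e v hv]])
  have e1 : ∫ h, F (cl h) / D ∂P = (∫ h, F h ∂P) / D := by
    rw [← integral_div]
    exact integral_congr_ae (hP.supp.mono fun h hh => by simp only [hclid h hh])
  have e2 : ∫ h, F (cl h) / D * dens G θ S h ∂Measure.infinitePi (fun _ : V => ν0) =
      ex G θ (fun _ => ν0) S F / D := by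
    rw [ex, ← integral_div]
    refine integral_congr_ae ((ae_box (ν := fun _ : V => ν0) fun _ => hν0).mono fun h hh => ?_)
    simp only [hclid h hh]
    ring
  rw [e1, e2, div_left_inj' (by linarith : D ≠ 0)] at hlaw
  exact hlaw

lemma expect_mask {ν0 : Measure ℝ} {P : Measure (V → ℝ)} (hν0 : Chan b ν0)
    (hP : FieldLaw G θ b ν0 P) (hb0 : 0 ≤ b) (hb1 : b < 1) {S : Finset V} (hS : Conn G S)
    (K : Finset V) {F : (V → ℝ) → ℝ} (hF : Loc b S F) :
    ∫ h, F (mask K h) ∂P = ex G θ (chanOn ν0 K) S F := by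
  have := hν0.prob
  have l1 := loc_comp_mask hb0 hF K
  rw [expect_univ hν0 hP hb0 hS (l1.mono Finset.inter_subset_left), ex, ex]
  simp only [dens_eq]
  rw [integrate_out (ν := fun _ : V => ν0) (fun _ => hν0) hb1 (K := K)
    (l1.mono Finset.inter_subset_right) fun _ => 1]
  simp only [← dens_eq]
  have hm : ∀ i : V, Measurable fun x : ℝ => if i ∈ K then x else 0 := fun i => by
    split_ifs <;> fun_prop
  have hmap : (Measure.infinitePi fun _ : V => ν0).map (mask K) =
      Measure.infinitePi (chanOn ν0 K) := by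
    rw [show (mask K : (V → ℝ) → V → ℝ) = fun h i => (fun x : ℝ => if i ∈ K then x else 0) (h i)
      from rfl, Measure.infinitePi_map_pi _ hm]
    congr 1
    funext i
    unfold chanOn
    split_ifs
    · exact Measure.map_id
    · rw [Measure.map_const]; simp
  have hFd : Measurable fun h : V → ℝ => F h * dens G θ S h := hF.meas.mul (measurable_dens S)
  rw [← hmap, integral_map (measurable_mask K).aemeasurable hFd.aestronglyMeasurable]

end Vale.Agent.P161.Crit.Stat
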