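import Vale.Agent.P161.Crit.StatGlue
import Vale.Agent.P161.Crit.StatStatement

/-!
Second and higher moments of finite-depth messages.
-/

namespace Vale.Agent.P161.Crit.Stat

open MeasureTheory SimpleGraph Finset

variable {V : Type*} [DecidableEq V] {G : SimpleGraph V} [G.LocallyFinite] {θ b : ℝ} {d : ℕ}

/-- Site channels of size at most `v`. -/
structure Small (v : ℝ) (b : ℝ) (ν : V → Measure ℝ) : Prop where
  chan : ∀ x, Chan b (ν x)
  nonneg : 0 ≤ v
  le_one : v ≤ 1
  sq : ∀ x, ∫ t, t ^ 2 ∂ν x ≤ v ^ 2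
  mom : ∀ x, ∀ j : ℕ, 1 ≤ j → ∫ t, t ^ (2 * j) ∂ν x ≤ v ^ j

section

variable [Countable V] {ν : V → Measure ℝ} [∀ x, IsProbabilityMeasure (ν x)]
variable (p : Par G θ b d) (hν : ∀ x, Chan b (ν x))
include p hν

/-- Second moment of a partial merge. -/
noncomputable def m2 (G : SimpleGraph V) [G.LocallyFinite] (θ : ℝ) (ν : V → Measure ℝ) (n : ℕ)
    (x : V) (s : Finset V) : ℝ :=
  ex G θ ν (reg G n x s) fun h => part G θ h n x s ^ 2

/-- Second moment of a message. -/
noncomputable def v2 (G : SimpleGraph V) [G.LocallyFinite] (θ : ℝ) (ν : V → Measure ℝ) (n : ℕ)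
    (x y : V) : ℝ :=
  ex G θ ν (br G n x y) fun h => msg G θ h n x y ^ 2

omit [Countable V] [∀ x, IsProbabilityMeasure (ν x)] p hν in
lemma v2_succ (n : ℕ) (x y : V) :
    v2 G θ ν (n + 1) x y = m2 G θ ν n x ((G.neighborFinset x).erase y) := rfl

lemma m2_empty (n : ℕ) (x : V) : m2 G θ ν n x ∅ = ∫ t, t ^ 2 ∂ν x := by
  rw [m2, reg_empty]
  simp only [part_empty]
  exact ex_singleton p hν (g := fun t => t ^ 2) (by fun_prop)

omit hν in
lemma v2_zero (hν : ∀ x, Chan b (ν x)) (x y : V) : v2 G θ ν 0 x y = ∫ t, t ^ 2 ∂ν x :=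
  ex_singleton p hν (g := fun t => t ^ 2) (by fun_prop)

lemma m2_mem (n : ℕ) (x : V) {s : Finset V} (hs : ∀ e ∈ s, G.Adj x e) :
    0 ≤ m2 G θ ν n x s ∧ m2 G θ ν n x s ≤ 1 := by
  have hc := conn_reg p.tree (n := n) hs
  have hl := (p.loc_part (n := n) hs).pow 2
  refine ⟨?_, ?_⟩
  · rw [m2, ← ex_const hν p.b1 p.tree hc (self_mem_reg G n x s) 0 (θ := θ)]
    exact ex_mono hν p.b1 p.nn p.lt_one (Loc.const b _ 0) hl fun h _ => sq_nonneg _
  · rw [m2, ← ex_one hν p.b1 p.tree hc (self_mem_reg G n x s) (θ := θ)]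
    refine ex_mono hν p.b1 p.nn p.lt_one hl (Loc.const b _ 1) fun h hh => ?_
    rw [← sq_abs]
    exact pow_le_one₀ (abs_nonneg _) ((p.abs_part hh hs).trans p.R_lt_one.le)

lemma v2_mem (n : ℕ) {x y : V} (hxy : G.Adj x y) :
    0 ≤ v2 G θ ν n x y ∧ v2 G θ ν n x y ≤ 1 := by
  have hc := conn_br p.tree n x y hxy
  have hl := (p.loc_msg (n := n) hxy).pow 2
  refine ⟨?_, ?_⟩
  · rw [v2, ← ex_const hν p.b1 p.tree hc (self_mem_br G n x y) 0 (θ := θ)]
    exact ex_mono hν p.b1 p.nn p.lt_one (Loc.const b _ 0) hl fun h _ => sq_nonneg _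
  · rw [v2, ← ex_one hν p.b1 p.tree hc (self_mem_br G n x y) (θ := θ)]
    refine ex_mono hν p.b1 p.nn p.lt_one hl (Loc.const b _ 1) fun h hh => ?_
    rw [← sq_abs]
    exact pow_le_one₀ (abs_nonneg _) ((p.abs_msg hh n x y).trans p.R_lt_one.le)

/-- The four bounds on the second moment of one more merge. -/
lemma m2_insert {n : ℕ} {x c : V} {s : Finset V} (hs : ∀ e ∈ s, G.Adj x e) (hc : G.Adj x c)
    (hcs : c ∉ s) :
    let M := m2 G θ ν n x s
    let W := θ ^ 2 * v2 G θ ν n c x
    let M' := m2 G θ ν n x (insert c s)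
    M' ≤ M + W - M * W ∧ M + W - 2 / (1 - magBound d θ b ^ 2) * (M * W) ≤ M' ∧
      M ≤ M' ∧ W ≤ M' := by
  intro M W M'
  have hins : ∀ e ∈ insert c s, G.Adj x e := by
    simpa [Finset.forall_mem_insert] using ⟨hc, hs⟩
  set S := reg G n x s with hS
  set T := br G n c x with hT
  have hUe : reg G n x (insert c s) = S ∪ T := reg_insert G n x c s
  have hd : Disjoint S T := reg_disjoint p.tree hs hc hcs
  have lF : Loc b (reg G n x (insert c s)) fun h => part G θ h n x (insert c s) ^ 2 :=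
    (p.loc_part hins).pow 2
  have hsub1 : S ⊆ reg G n x (insert c s) := hUe ▸ Finset.subset_union_left
  have hsub2 : T ⊆ reg G n x (insert c s) := hUe ▸ Finset.subset_union_right
  have lA : Loc b S fun h => part G θ h n x s ^ 2 := (p.loc_part hs).pow 2
  have lB : Loc b T fun h => msg G θ h n c x ^ 2 := (p.loc_msg hc.symm).pow 2
  have lS := loc_sym p hν hs hc lF
  have e0 : M' = ex2 G θ ν S T (sym G θ n x c s fun h => part G θ h n x (insert c s) ^ 2) :=
    ex_glue p hν hs hc hcs lF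
  have hpt : ∀ h : V → ℝ, (∀ v, |h v| ≤ b) →
      sym G θ n x c s (fun h => part G θ h n x (insert c s) ^ 2) h =
        ((1 + part G θ h n x s * (θ * msg G θ h n c x)) *
          mrg (part G θ h n x s) (θ * msg G θ h n c x) ^ 2 +
        (1 - part G θ h n x s * (θ * msg G θ h n c x)) *
          mrg (part G θ h n x s) (-(θ * msg G θ h n c x)) ^ 2) / 2 := fun h hh => by
    simp only [sym]
    rw [part_insert p.nn p.lt_one (fun v => (hh v).trans_lt p.b1) hcs,
      part_insert_flip p hs hc hcs hh]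
  have hcomb : ∀ a₁ a₂ a₃ : ℝ,
      ex2 G θ ν S T (fun h => a₁ * (part G θ h n x s ^ 2 * 1) + a₂ * (1 * msg G θ h n c x ^ 2) +
        a₃ * (part G θ h n x s ^ 2 * msg G θ h n c x ^ 2)) =
      a₁ * M + a₂ * v2 G θ ν n c x + a₃ * (M * v2 G θ ν n c x) := fun a₁ a₂ a₃ => by
    rw [ex2_three p hν hd lA (Loc.const b T 1) (Loc.const b S 1) lB lA lB a₁ a₂ a₃,
      ex_one hν p.b1 p.tree (conn_br p.tree n c x hc.symm) (self_mem_br G n c x),
      ex_one hν p.b1 p.tree (conn_reg p.tree hs) (self_mem_reg G n x s), mul_one, one_mul]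
    rfl
  have hloc : ∀ a₁ a₂ a₃ : ℝ, Loc b (reg G n x (insert c s)) fun h =>
      a₁ * (part G θ h n x s ^ 2 * 1) + a₂ * (1 * msg G θ h n c x ^ 2) +
        a₃ * (part G θ h n x s ^ 2 * msg G θ h n c x ^ 2) := fun a₁ a₂ a₃ =>
    ((((lA.mono hsub1).mul (Loc.const b _ 1)).const_mul a₁).add
      (((Loc.const b _ 1).mul (lB.mono hsub2)).const_mul a₂)).add
      (((lA.mono hsub1).mul (lB.mono hsub2)).const_mul a₃)
  have hlt : ∀ h : V → ℝ, (∀ v, |h v| ≤ b) →
      |part G θ h n x s| ≤ magBound d θ b ∧ |θ * msg G θ h n c x| ≤ magBound d θ b :=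
    fun h hh => ⟨p.abs_part hh hs, p.abs_theta_msg hh n c x⟩
  refine ⟨?_, ?_, ?_, ?_⟩
  · have h := ex2_mono p hν hsub1 hsub2 lS (hloc 1 (θ ^ 2) (-θ ^ 2)) fun h hh => by
      rw [hpt h hh]
      refine (sym_sq_le ((hlt h hh).1.trans_lt p.R_lt_one)
        ((hlt h hh).2.trans_lt p.R_lt_one)).trans (le_of_eq ?_)
      ring
    rw [← e0, hcomb] at h
    simp only [W]
    linarith
  · have h := ex2_mono p hν hsub1 hsub2
      (hloc 1 (θ ^ 2) (-(2 / (1 - magBound d θ b ^ 2)) * θ ^ 2)) lS fun h hh => by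
      rw [hpt h hh]
      refine le_trans (le_of_eq ?_) (le_sym_sq p.R_lt_one (hlt h hh).1 (hlt h hh).2)
      ring
    rw [← e0, hcomb] at h
    simp only [W]
    linarith
  · have h := ex2_mono p hν hsub1 hsub2 (hloc 1 0 0) lS fun h hh => by
      rw [hpt h hh]
      refine le_trans (le_of_eq ?_) (sq_le_sym_sq ((hlt h hh).1.trans_lt p.R_lt_one)
        ((hlt h hh).2.trans_lt p.R_lt_one)).1
      ring
    rw [← e0, hcomb] at h
    linarith
  · have h := ex2_mono p hν hsub1 hsub2 (hloc 0 (θ ^ 2) 0) lS fun h hh => by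
      rw [hpt h hh]
      refine le_trans (le_of_eq ?_) (sq_le_sym_sq ((hlt h hh).1.trans_lt p.R_lt_one)
        ((hlt h hh).2.trans_lt p.R_lt_one)).2
      ring
    rw [← e0, hcomb] at h
    simp only [W]
    linarith

lemma site_le_m2 (n : ℕ) (x : V) : ∀ {s : Finset V}, (∀ e ∈ s, G.Adj x e) →
    ∫ t, t ^ 2 ∂ν x ≤ m2 G θ ν n x s := by
  intro s
  induction s using Finset.induction_on with
  | empty => intro _; rw [m2_empty p hν]
  | @insert c s hcs ih =>
    intro hs
    exact (ih fun e he => hs e (Finset.mem_insert_of_mem he)).trans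
      (m2_insert p hν (fun e he => hs e (Finset.mem_insert_of_mem he))
        (hs c (Finset.mem_insert_self c s)) hcs).2.2.1

lemma child_le_m2 (n : ℕ) (x : V) {s : Finset V} (hs : ∀ e ∈ s, G.Adj x e) {c : V} (hc : c ∈ s) :
    θ ^ 2 * v2 G θ ν n c x ≤ m2 G θ ν n x s := by
  have h := (m2_insert p hν (n := n) (fun e he => hs e (Finset.mem_of_mem_erase he)) (hs c hc)
    (Finset.notMem_erase c s)).2.2.2
  rwa [Finset.insert_erase hc] at h

end

/-! Upper bounds. -/

lemma one_sub_pow_ge {v : ℝ} (h0 : 0 ≤ v) (h1 : v ≤ 1) :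
    ∀ k : ℕ, 2 ≤ k → 1 - k * v + v ^ 2 ≤ (1 - v) ^ k := by
  intro k hk
  induction k, hk using Nat.le_induction with
  | base => exact le_of_eq (by push_cast; ring)
  | succ k hk ih =>
    rw [pow_succ]
    refine le_trans ?_ (mul_le_mul_of_nonneg_right ih (by linarith))
    have hk' : (2 : ℝ) ≤ k := by exact_mod_cast hk
    push_cast
    nlinarith [mul_nonneg (sq_nonneg v) (by linarith : (0:ℝ) ≤ (k : ℝ) - v)]

section upper

variable [Countable V] {ν : V → Measure ℝ} [∀ x, IsProbabilityMeasure (ν x)] {v : ℝ}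
variable (p : Par G θ b d) (hs : Small v b ν)
include p hs

lemma m2_le_of (n : ℕ) (x : V) (hW : ∀ c, G.Adj x c → θ ^ 2 * v2 G θ ν n c x ≤ v) :
    ∀ {s : Finset V}, (∀ e ∈ s, G.Adj x e) →
      m2 G θ ν n x s ≤ 1 - (1 - v ^ 2) * (1 - v) ^ s.card := by
  intro s
  induction s using Finset.induction_on with
  | empty => intro _; rw [m2_empty p hs.chan]; simpa using hs.sq x
  | @insert c s hcs ih =>
    intro hadj
    have hc := hadj c (Finset.mem_insert_self c s)
    have hadj' : ∀ e ∈ s, G.Adj x e := fun e he => hadj e (Finset.mem_insert_of_mem he)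
    have h : m2 G θ ν n x (insert c s) ≤ m2 G θ ν n x s + θ ^ 2 * v2 G θ ν n c x -
        m2 G θ ν n x s * (θ ^ 2 * v2 G θ ν n c x) := (m2_insert p hs.chan hadj' hc hcs).1
    rw [Finset.card_insert_of_notMem hcs, pow_succ (1 - v)]
    have hM := ih hadj'
    have hM1 := (m2_mem p hs.chan n x hadj').2
    have hW' := hW c hc
    have h2 : 1 - m2 G θ ν n x (insert c s) ≥ (1 - m2 G θ ν n x s) * (1 - v) := by nlinarith
    have h3 := mul_le_mul_of_nonneg_right (by linarith : (1 - v ^ 2) * (1 - v) ^ s.card ≤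
      1 - m2 G θ ν n x s) (by linarith [hs.le_one] : 0 ≤ 1 - v)
    linarith

/-- The second moment of every message is of order `v`. -/
lemma theta_sq_v2_le : ∀ n x y, G.Adj x y → θ ^ 2 * v2 G θ ν n x y ≤ v := by
  intro n
  induction n with
  | zero =>
    intro x y _
    rw [v2_zero p hs.chan]
    calc θ ^ 2 * ∫ t, t ^ 2 ∂ν x ≤ 1 * v ^ 2 :=
          mul_le_mul p.sq_lt_one.le (hs.sq x) (integral_nonneg fun t => sq_nonneg t) zero_le_one
      _ ≤ v := by nlinarith [hs.nonneg, hs.le_one]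
  | succ n ih =>
    intro x y hxy
    rw [v2_succ]
    have hm := m2_le_of p hs n x (fun c hc => ih c x hc.symm) (p.adj_children (y := y))
    rw [p.card_children hxy] at hm
    have hk := one_sub_pow_ge hs.nonneg hs.le_one (d - 1) (by have := p.three; omega)
    rw [p.cast_pred] at hk
    have h2 : 1 - ((d : ℝ) - 1) * v ≤ (1 - v ^ 2) * (1 - v) ^ (d - 1) := by
      have hv2 : v ^ 2 ≤ 1 := pow_le_one₀ hs.nonneg hs.le_one
      refine le_trans ?_ (mul_le_mul_of_nonneg_left hk (by linarith))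
      nlinarith [p.d_two, mul_nonneg (sq_nonneg v) (mul_nonneg hs.nonneg
        (by linarith [p.d_two, hs.le_one] : (0:ℝ) ≤ (d : ℝ) - 1 - v))]
    calc θ ^ 2 * m2 G θ ν n x ((G.neighborFinset x).erase y)
        ≤ θ ^ 2 * (((d : ℝ) - 1) * v) := mul_le_mul_of_nonneg_left (by linarith) (sq_nonneg θ)
      _ = v := by rw [← mul_assoc, mul_comm (θ ^ 2), p.crit, one_mul]

/-- Second moment of any partial merge. -/
lemma m2_le (n : ℕ) (x : V) {s : Finset V} (hadj : ∀ e ∈ s, G.Adj x e) :
    m2 G θ ν n x s ≤ ((d : ℝ) + 1) * v := by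
  have hm := m2_le_of p hs n x (fun c hc => theta_sq_v2_le p hs n c x hc.symm) hadj
  have hb := one_add_mul_le_pow (a := -v) (by linarith [hs.le_one]) s.card
  rw [← sub_eq_add_neg] at hb
  have hv := hs.nonneg
  have hv1 := hs.le_one
  have hcd : (s.card : ℝ) ≤ d := by exact_mod_cast p.card_le hadj
  have hv2 : v ^ 2 ≤ 1 := pow_le_one₀ hv hv1
  have h3 := mul_le_mul_of_nonneg_left hb (by linarith : (0:ℝ) ≤ 1 - v ^ 2)
  nlinarith [mul_nonneg (sq_nonneg v) (mul_nonneg (Nat.cast_nonneg (α := ℝ) s.card) hv),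
    mul_le_mul_of_nonneg_right hcd hv]

lemma v2_le (n : ℕ) {x y : V} (hxy : G.Adj x y) : v2 G θ ν n x y ≤ ((d : ℝ) - 1) * v := by
  have h := theta_sq_v2_le p hs n x y hxy
  calc v2 G θ ν n x y = ((d : ℝ) - 1) * (θ ^ 2 * v2 G θ ν n x y) := by
        rw [← mul_assoc, p.crit, one_mul]
    _ ≤ ((d : ℝ) - 1) * v := mul_le_mul_of_nonneg_left h (by linarith [p.d_two])

/-- One merge step for a higher moment. -/
lemma high_insert {P : ℕ} {δ K : ℝ}
    (hK : ∀ x y : ℝ, |x| ≤ magBound d θ b → |y| ≤ magBound d θ b →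
      (1 + x * y) * mrg x y ^ (2 * P) ≤ (1 + δ) * (x ^ (2 * P) + y ^ (2 * P)) +
        K * (x ^ 2 * y ^ (2 * (P - 1)) + x ^ (2 * (P - 1)) * y ^ 2))
    {n : ℕ} {x c : V} {s : Finset V} (hadj : ∀ e ∈ s, G.Adj x e) (hc : G.Adj x c) (hcs : c ∉ s) :
    ex G θ ν (reg G n x (insert c s)) (fun h => part G θ h n x (insert c s) ^ (2 * P)) ≤
      (1 + δ) * (ex G θ ν (reg G n x s) (fun h => part G θ h n x s ^ (2 * P)) +
        θ ^ (2 * P) * ex G θ ν (br G n c x) (fun h => msg G θ h n c x ^ (2 * P))) +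
      K * (θ ^ (2 * (P - 1)) * (m2 G θ ν n x s *
          ex G θ ν (br G n c x) (fun h => msg G θ h n c x ^ (2 * (P - 1)))) +
        θ ^ 2 * (ex G θ ν (reg G n x s) (fun h => part G θ h n x s ^ (2 * (P - 1))) *
          v2 G θ ν n c x)) := by
  have hins : ∀ e ∈ insert c s, G.Adj x e := by
    simpa [Finset.forall_mem_insert] using ⟨hc, hadj⟩
  set S := reg G n x s with hS
  set T := br G n c x with hT
  have hUe : reg G n x (insert c s) = S ∪ T := reg_insert G n x c s
  have hd : Disjoint S T := reg_disjoint p.tree hadj hc hcs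
  have hsub1 : S ⊆ reg G n x (insert c s) := hUe ▸ Finset.subset_union_left
  have hsub2 : T ⊆ reg G n x (insert c s) := hUe ▸ Finset.subset_union_right
  have hν := hs.chan
  have lF : Loc b (reg G n x (insert c s)) fun h => part G θ h n x (insert c s) ^ (2 * P) :=
    (p.loc_part hins).pow _
  have lA : ∀ k, Loc b S fun h => part G θ h n x s ^ k := fun k => (p.loc_part hadj).pow k
  have lB : ∀ k, Loc b T fun h => msg G θ h n c x ^ k := fun k => (p.loc_msg hc.symm).pow k
  -- the bound as two combinations of products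
  set Φ₁ := fun h : V → ℝ => (1 + δ) * (part G θ h n x s ^ (2 * P) * 1) +
    ((1 + δ) * θ ^ (2 * P)) * (1 * msg G θ h n c x ^ (2 * P)) +
    (K * θ ^ (2 * (P - 1))) * (part G θ h n x s ^ 2 * msg G θ h n c x ^ (2 * (P - 1))) with hΦ₁
  set Φ₂ := fun h : V → ℝ => (K * θ ^ 2) * (part G θ h n x s ^ (2 * (P - 1)) *
    msg G θ h n c x ^ 2) with hΦ₂
  have l1 : Loc b (reg G n x (insert c s)) Φ₁ :=
    (((((lA _).mono hsub1).mul (Loc.const b _ 1)).const_mul _).add
      (((Loc.const b _ 1).mul ((lB _).mono hsub2)).const_mul _)).add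
      ((((lA _).mono hsub1).mul ((lB _).mono hsub2)).const_mul _)
  have l2 : Loc b (reg G n x (insert c s)) Φ₂ :=
    (((lA _).mono hsub1).mul ((lB _).mono hsub2)).const_mul _
  have hle := ex2_mono p hν hsub1 hsub2 (loc_sym p hν hadj hc lF) (l1.add l2) fun h hh => by
    simp only [sym]
    rw [part_insert p.nn p.lt_one (fun v => (hh v).trans_lt p.b1) hcs,
      part_insert_flip p hadj hc hcs hh]
    set A := part G θ h n x s
    set B := θ * msg G θ h n c x with hB
    have hA : |A| ≤ magBound d θ b := p.abs_part hh hadj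
    have hB' : |B| ≤ magBound d θ b := p.abs_theta_msg hh n c x
    have a1 := hK A B hA hB'
    have a2 := hK A (-B) hA (by rwa [abs_neg])
    have ev : ∀ k : ℕ, (-B) ^ (2 * k) = B ^ (2 * k) := fun k => by rw [pow_mul, pow_mul, neg_sq]
    rw [ev, ev, neg_sq, mul_neg, ← sub_eq_add_neg] at a2
    simp only [hΦ₁, hΦ₂]
    have e1 : B ^ (2 * P) = θ ^ (2 * P) * msg G θ h n c x ^ (2 * P) := by rw [hB, mul_pow]
    have e2 : B ^ (2 * (P - 1)) = θ ^ (2 * (P - 1)) * msg G θ h n c x ^ (2 * (P - 1)) := by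
      rw [hB, mul_pow]
    have e3 : B ^ 2 = θ ^ 2 * msg G θ h n c x ^ 2 := by rw [hB, mul_pow]
    rw [e1, e2, e3] at a1 a2
    linarith
  rw [← ex_glue p hν hadj hc hcs lF] at hle
  refine hle.trans (le_of_eq ?_)
  have lD : Loc b (S ∪ T) fun h => dens G θ S h * dens G θ T h :=
    ((loc_dens p.b1 S).mono Finset.subset_union_left).mul
      ((loc_dens p.b1 T).mono Finset.subset_union_right)
  have split : ex2 G θ ν S T (fun h => Φ₁ h + Φ₂ h) =
      ex2 G θ ν S T Φ₁ + ex2 G θ ν S T Φ₂ := by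
    simp only [ex2, add_mul]
    rw [← hUe] at lD
    exact integral_add (integrable_loc hν (l1.mul lD)) (integrable_loc hν (l2.mul lD))
  rw [split, hΦ₁, ex2_three p hν hd (lA _) (Loc.const b T 1) (Loc.const b S 1) (lB _) (lA _) (lB _),
    ex_one hν p.b1 p.tree (conn_br p.tree n c x hc.symm) (self_mem_br G n c x),
    ex_one hν p.b1 p.tree (conn_reg p.tree hadj) (self_mem_reg G n x s), hΦ₂]
  have e : ex2 G θ ν S T (fun h => K * θ ^ 2 *
      (part G θ h n x s ^ (2 * (P - 1)) * msg G θ h n c x ^ 2)) =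
      K * θ ^ 2 * (ex G θ ν S (fun h => part G θ h n x s ^ (2 * (P - 1))) * v2 G θ ν n c x) := by
    rw [v2, ← ex2_mul p hν hd (lA _) (lB _), ex2, ex2, ← integral_const_mul]
    exact integral_congr_ae (Filter.Eventually.of_forall fun h => by ring)
  rw [e]
  simp only [m2, hS, hT]
  ring

end upper

/-- All even moments of messages and of partial merges. -/
lemma high_moments [Countable V] (p : Par G θ b d) : ∀ P : ℕ, 1 ≤ P → ∃ C : ℝ, 0 < C ∧
    ∀ (v : ℝ) (ν : V → Measure ℝ) [∀ x, IsProbabilityMeasure (ν x)], Small v b ν → ∀ n x,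
      (∀ y, G.Adj x y → ex G θ ν (br G n x y) (fun h => msg G θ h n x y ^ (2 * P)) ≤ C * v ^ P) ∧
      ∀ s : Finset V, (∀ e ∈ s, G.Adj x e) →
        ex G θ ν (reg G n x s) (fun h => part G θ h n x s ^ (2 * P)) ≤ C * v ^ P := by
  intro P hP
  induction P, hP using Nat.le_induction with
  | base =>
    refine ⟨(d : ℝ) + 1, by positivity, fun v ν _ hs n x => ⟨fun y hxy => ?_, fun s hadj => ?_⟩⟩
    · rw [pow_one]
      exact (v2_le p hs n hxy).trans (mul_le_mul_of_nonneg_right (by linarith) hs.nonneg)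
    · rw [pow_one]; exact m2_le p hs n x hadj
  | succ P hP ih =>
    obtain ⟨C1, hC1, hlow⟩ := ih
    have hθ2 := p.sq_pos
    have hθ21 := p.sq_lt_one
    set ρ := (1 + θ ^ 2) / 2 with hρ
    have hρ1 : ρ < 1 := by rw [hρ]; linarith
    have hd0 : (0 : ℝ) < d := by linarith [p.d_two]
    have hlog : 0 < Real.log (ρ / θ ^ 2) := Real.log_pos ((lt_div_iff₀ hθ2).2 (by rw [hρ]; linarith))
    set δ := Real.log (ρ / θ ^ 2) / d with hδdef
    have hδ : 0 < δ := by positivity
    have hδρ : (1 + δ) ^ d * θ ^ 2 ≤ ρ := by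
      have h1 : (1 + δ) ^ d ≤ Real.exp δ ^ d :=
        pow_le_pow_left₀ (by linarith) (by linarith [Real.add_one_le_exp δ]) d
      rw [← Real.exp_nat_mul, hδdef, mul_div_cancel₀ _ hd0.ne',
        Real.exp_log (div_pos (by rw [hρ]; linarith) hθ2)] at h1
      rwa [le_div_iff₀ hθ2] at h1
    obtain ⟨K, hK0, hK⟩ := mrg_pow_le (P + 1) (by omega) p.R_nonneg p.R_lt_one hδ
    set X := 2 * (K * (((d : ℝ) + 1) * C1)) with hX
    have hX0 : 0 < X := by positivity
    set E := (1 + δ) ^ d with hE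
    have hE0 : 1 ≤ E := one_le_pow₀ (by linarith)
    set A := E * (1 + ((d : ℝ) - 1) * X) / (1 - ρ) with hA
    have hA1 : 1 ≤ A := by
      rw [hA, le_div_iff₀ (by linarith)]
      have : 0 ≤ E * (((d : ℝ) - 1) * X) :=
        mul_nonneg (by linarith) (mul_nonneg (by linarith [p.d_two]) hX0.le)
      nlinarith
    refine ⟨E * (1 + d * (A + X)) + A, by positivity, fun v ν _ hs => ?_⟩
    have hν := hs.chan
    set q := v ^ (P + 1) with hq
    have hq0 : 0 ≤ q := pow_nonneg hs.nonneg _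
    -- partial merges, given the bound on the messages entering them
    have hpart : ∀ n x, (∀ c, G.Adj x c →
        θ ^ (2 * (P + 1)) * ex G θ ν (br G n c x) (fun h => msg G θ h n c x ^ (2 * (P + 1))) ≤
          θ ^ (2 * (P + 1)) * (A * q)) → ∀ s : Finset V, (∀ e ∈ s, G.Adj x e) →
        ex G θ ν (reg G n x s) (fun h => part G θ h n x s ^ (2 * (P + 1))) ≤
          (1 + δ) ^ s.card * (1 + s.card * (θ ^ (2 * (P + 1)) * A + X)) * q := by
      intro n x hmsg s
      induction s using Finset.induction_on with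
      | empty =>
        intro _
        rw [reg_empty]
        simp only [part_empty]
        rw [ex_singleton p hν (g := fun t => t ^ (2 * (P + 1))) (by fun_prop)]
        simpa [hq] using hs.mom x (P + 1) (by omega)
      | @insert c s hcs ih =>
        intro hadj
        have hc := hadj c (Finset.mem_insert_self c s)
        have hadj' : ∀ e ∈ s, G.Adj x e := fun e he => hadj e (Finset.mem_insert_of_mem he)
        refine (high_insert p hs hK hadj' hc hcs).trans ?_
        rw [Nat.add_sub_cancel, Finset.card_insert_of_notMem hcs]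
        have h1 := ih hadj'
        have h2 := hmsg c hc
        have hm := m2_le p hs n x hadj'
        have hv2 : v2 G θ ν n c x ≤ ((d : ℝ) + 1) * v :=
          (v2_le p hs n hc.symm).trans (mul_le_mul_of_nonneg_right (by linarith) hs.nonneg)
        have hb1' := (hlow v ν hs n c).1 x hc.symm
        have hb2' := (hlow v ν hs n x).2 s hadj'
        have n1 : (0 : ℝ) ≤ ex G θ ν (reg G n x s) (fun h => part G θ h n x s ^ (2 * P)) := by
          rw [← ex_const hν p.b1 p.tree (conn_reg p.tree (n := n) hadj') (self_mem_reg G n x s) 0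
            (θ := θ)]
          exact ex_mono hν p.b1 p.nn p.lt_one (Loc.const b _ 0) ((p.loc_part hadj').pow _)
            fun h _ => Even.pow_nonneg ⟨P, by ring⟩ _
        have hpow1 : θ ^ (2 * P) ≤ 1 := pow_le_one₀ p.nn p.lt_one.le
        have hd1 : (0:ℝ) ≤ ((d : ℝ) + 1) * v := mul_nonneg (by positivity) hs.nonneg
        have x1 : θ ^ (2 * P) * (m2 G θ ν n x s *
            ex G θ ν (br G n c x) (fun h => msg G θ h n c x ^ (2 * P))) ≤
            ((d : ℝ) + 1) * C1 * q := by
          have nn1 : 0 ≤ ex G θ ν (br G n c x) (fun h => msg G θ h n c x ^ (2 * P)) := by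
            rw [← ex_const hν p.b1 p.tree (conn_br p.tree n c x hc.symm) (self_mem_br G n c x) 0
              (θ := θ)]
            exact ex_mono hν p.b1 p.nn p.lt_one (Loc.const b _ 0) ((p.loc_msg hc.symm).pow _)
              fun h _ => Even.pow_nonneg ⟨P, by ring⟩ _
          refine (mul_le_of_le_one_left (mul_nonneg (m2_mem p hν n x hadj').1 nn1) hpow1).trans ?_
          refine (mul_le_mul hm hb1' nn1 hd1).trans (le_of_eq ?_)
          rw [hq, pow_succ']; ring
        have x2 : θ ^ 2 * (ex G θ ν (reg G n x s) (fun h => part G θ h n x s ^ (2 * P)) *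
            v2 G θ ν n c x) ≤ ((d : ℝ) + 1) * C1 * q := by
          refine (mul_le_of_le_one_left (mul_nonneg n1 (v2_mem p hν n hc.symm).1)
            p.sq_lt_one.le).trans ?_
          refine (mul_le_mul hb2' hv2 (v2_mem p hν n hc.symm).1
            (mul_nonneg hC1.le (pow_nonneg hs.nonneg _))).trans (le_of_eq ?_)
          rw [hq, pow_succ]; ring
        have x3 := mul_le_mul_of_nonneg_left (add_le_add x1 x2) hK0.le
        have hpk : (1 : ℝ) ≤ (1 + δ) ^ (s.card + 1) := one_le_pow₀ (by linarith)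
        have hpk' : (1 : ℝ) + δ ≤ (1 + δ) ^ (s.card + 1) := by
          rw [pow_succ]; exact le_mul_of_one_le_left (by linarith) (one_le_pow₀ (by linarith))
        have x4 := mul_le_mul_of_nonneg_left (add_le_add h1 h2) (by linarith : (0:ℝ) ≤ 1 + δ)
        have nA : 0 ≤ θ ^ (2 * (P + 1)) * (A * q) :=
          mul_nonneg (pow_nonneg p.nn _) (mul_nonneg (by linarith) hq0)
        have x5 := mul_le_mul_of_nonneg_right hpk' nA
        have x6 := mul_le_mul_of_nonneg_right hpk (mul_nonneg hX0.le hq0)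
        rw [pow_succ (1 + δ)] at hpk x5 x6 ⊢
        push_cast
        rw [hX] at x6 ⊢
        nlinarith
    have hpowθ : ((d : ℝ) - 1) * θ ^ (2 * (P + 1)) ≤ θ ^ 2 := by
      rw [show 2 * (P + 1) = 2 + 2 * P by ring, pow_add, ← mul_assoc, p.crit, one_mul]
      exact pow_le_pow_of_le_one p.nn p.lt_one.le (by omega)
    have hmsgA : ∀ n x y, G.Adj x y →
        ex G θ ν (br G n x y) (fun h => msg G θ h n x y ^ (2 * (P + 1))) ≤ A * q := by
      intro n
      induction n with
      | zero =>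
        intro x y _
        refine le_trans (le_of_eq (ex_singleton p hν (g := fun t => t ^ (2 * (P + 1))) (by fun_prop)))
          ((hs.mom x (P + 1) (by omega)).trans ?_)
        exact le_mul_of_one_le_left hq0 hA1
      | succ n ih =>
        intro x y hxy
        have h := hpart n x (fun c hc => mul_le_mul_of_nonneg_left (ih c x hc.symm)
          (pow_nonneg p.nn _)) _ (p.adj_children (y := y))
        rw [p.card_children hxy, p.cast_pred] at h
        refine h.trans (mul_le_mul_of_nonneg_right ?_ hq0)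
        have e : (1 + δ) ^ (d - 1) ≤ E := pow_le_pow_right₀ (by linarith) (Nat.sub_le d 1)
        have hAeq : E * (1 + ((d : ℝ) - 1) * X) = A * (1 - ρ) := by
          rw [hA, div_mul_cancel₀ _ (by linarith : (1:ℝ) - ρ ≠ 0)]
        have nd : 0 ≤ (d : ℝ) - 1 := by linarith [p.d_two]
        have t1 : ((d : ℝ) - 1) * (θ ^ (2 * (P + 1)) * A) ≤ θ ^ 2 * A := by
          rw [← mul_assoc]; exact mul_le_mul_of_nonneg_right hpowθ (by linarith)
        have t2 : E * (θ ^ 2 * A) ≤ ρ * A := by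
          rw [← mul_assoc]; exact mul_le_mul_of_nonneg_right hδρ (by linarith)
        have t3 : 0 ≤ 1 + ((d : ℝ) - 1) * (θ ^ (2 * (P + 1)) * A + X) :=
          add_nonneg zero_le_one (mul_nonneg nd (add_nonneg
            (mul_nonneg (pow_nonneg p.nn _) (by linarith)) hX0.le))
        have t4 := mul_le_mul_of_nonneg_right e t3
        have t5 := mul_le_mul_of_nonneg_left t1 (by linarith : (0:ℝ) ≤ E)
        linarith
    intro n x
    refine ⟨fun y hxy => (hmsgA n x y hxy).trans (mul_le_mul_of_nonneg_right ?_ hq0),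
      fun s hadj => ?_⟩
    · have : 0 ≤ E * (1 + d * (A + X)) := by positivity
      linarith
    · refine (hpart n x (fun c hc => mul_le_mul_of_nonneg_left (hmsgA n c x hc.symm)
        (pow_nonneg p.nn _)) s hadj).trans (mul_le_mul_of_nonneg_right ?_ hq0)
      have e : (1 + δ) ^ s.card ≤ E := pow_le_pow_right₀ (by linarith) (p.card_le hadj)
      have hcd : (s.card : ℝ) ≤ d := by exact_mod_cast p.card_le hadj
      have h2 : θ ^ (2 * (P + 1)) * A + X ≤ A + X := by
        linarith [mul_le_of_le_one_left (by linarith : (0:ℝ) ≤ A)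
          (pow_le_one₀ (n := 2 * (P + 1)) p.nn p.lt_one.le)]
      have t3 : 0 ≤ θ ^ (2 * (P + 1)) * A + X :=
        add_nonneg (mul_nonneg (pow_nonneg p.nn _) (by linarith)) hX0.le
      have := mul_le_mul hcd h2 t3 hd0.le
      have := mul_le_mul e (by linarith : 1 + (s.card : ℝ) * (θ ^ (2 * (P + 1)) * A + X) ≤
        1 + d * (A + X)) (by positivity) (by linarith)
      linarith

end Vale.Agent.P161.Crit.Stat
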