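import Vale.Agent.P161.Crit.Alg

/-!
Elementary inequalities for merged magnetisations, used by the one-copy estimates.
-/

namespace Vale.Agent.P161.Crit.Stat

open Finset

lemma mrg_neg (x y : ℝ) : mrg (-x) (-y) = -mrg x y := by
  simp only [mrg, neg_mul_neg]; ring

lemma cmb_neg {ι : Type*} (s : Finset ι) (f : ι → ℝ) : cmb s (fun i => -f i) = -cmb s f := by
  simp only [cmb, sub_neg_eq_add, ← sub_eq_add_neg, ← neg_div]
  rw [add_comm (∏ i ∈ s, (1 + f i)) (∏ i ∈ s, (1 - f i)), neg_sub]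

lemma cmb_zero {ι : Type*} (s : Finset ι) (f : ι → ℝ) (h : ∀ i ∈ s, f i = 0) : cmb s f = 0 := by
  rw [cmb, Finset.prod_eq_one fun i hi => by rw [h i hi, add_zero],
    Finset.prod_eq_one fun i hi => by rw [h i hi, sub_zero]]
  simp

/-! Symmetrised second moment of a merge. -/

lemma sym_sq {x y : ℝ} (hx : |x| < 1) (hy : |y| < 1) :
    ((1 + x * y) * mrg x y ^ 2 + (1 - x * y) * mrg x (-y) ^ 2) / 2 =
      x ^ 2 + y ^ 2 - x ^ 2 * y ^ 2 * ((2 - x ^ 2 - y ^ 2) / (1 - x ^ 2 * y ^ 2)) := by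
  have h1 := (one_add_mul_pos hx hy.le).ne'
  have h2 : 1 - x * y ≠ 0 := by
    have := (one_add_mul_pos hx (y := -y) (by rw [abs_neg]; exact hy.le)).ne'
    simpa [sub_eq_add_neg] using this
  have h3 : 1 - x ^ 2 * y ^ 2 ≠ 0 := by
    rw [show 1 - x ^ 2 * y ^ 2 = (1 + x * y) * (1 - x * y) by ring]
    exact mul_ne_zero h1 h2
  simp only [mrg, mul_neg, ← sub_eq_add_neg]
  field_simp
  ring

lemma sym_sq_ratio {x y : ℝ} (hx : |x| < 1) (hy : |y| < 1) :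
    1 ≤ (2 - x ^ 2 - y ^ 2) / (1 - x ^ 2 * y ^ 2) ∧
      x ^ 2 * ((2 - x ^ 2 - y ^ 2) / (1 - x ^ 2 * y ^ 2)) ≤ 1 := by
  have hx2 : x ^ 2 < 1 := by rwa [sq_lt_one_iff_abs_lt_one]
  have hy2 : y ^ 2 < 1 := by rwa [sq_lt_one_iff_abs_lt_one]
  have h : 0 < 1 - x ^ 2 * y ^ 2 := by nlinarith [sq_nonneg x, sq_nonneg y]
  refine ⟨?_, ?_⟩
  · rw [le_div_iff₀ h]
    nlinarith [mul_pos (sub_pos.2 hx2) (sub_pos.2 hy2)]
  · rw [← mul_div_assoc, div_le_one h]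
    nlinarith [sq_nonneg (1 - x ^ 2)]

lemma sym_sq_le {x y : ℝ} (hx : |x| < 1) (hy : |y| < 1) :
    ((1 + x * y) * mrg x y ^ 2 + (1 - x * y) * mrg x (-y) ^ 2) / 2 ≤
      x ^ 2 + y ^ 2 - x ^ 2 * y ^ 2 := by
  rw [sym_sq hx hy]
  nlinarith [(sym_sq_ratio hx hy).1, mul_nonneg (sq_nonneg x) (sq_nonneg y)]

lemma le_sym_sq {x y R : ℝ} (hR : R < 1) (hx : |x| ≤ R) (hy : |y| ≤ R) :
    x ^ 2 + y ^ 2 - 2 / (1 - R ^ 2) * (x ^ 2 * y ^ 2) ≤
      ((1 + x * y) * mrg x y ^ 2 + (1 - x * y) * mrg x (-y) ^ 2) / 2 := by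
  rw [sym_sq (hx.trans_lt hR) (hy.trans_lt hR)]
  have hx2 : x ^ 2 ≤ R ^ 2 := by
    rw [← sq_abs x]; exact pow_le_pow_left₀ (abs_nonneg _) hx 2
  have hy2 : y ^ 2 ≤ 1 := by
    rw [← sq_abs y]; exact pow_le_one₀ (abs_nonneg _) (hy.trans hR.le)
  have hR2 : R ^ 2 < 1 := pow_lt_one₀ ((abs_nonneg x).trans hx) hR (by norm_num)
  have h : (2 - x ^ 2 - y ^ 2) / (1 - x ^ 2 * y ^ 2) ≤ 2 / (1 - R ^ 2) :=
    div_le_div₀ (by norm_num) (by nlinarith) (by linarith)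
      (by nlinarith [mul_le_of_le_one_right (sq_nonneg x) hy2])
  nlinarith [mul_le_mul_of_nonneg_left h (mul_nonneg (sq_nonneg x) (sq_nonneg y))]

lemma sq_le_sym_sq {x y : ℝ} (hx : |x| < 1) (hy : |y| < 1) :
    x ^ 2 ≤ ((1 + x * y) * mrg x y ^ 2 + (1 - x * y) * mrg x (-y) ^ 2) / 2 ∧
      y ^ 2 ≤ ((1 + x * y) * mrg x y ^ 2 + (1 - x * y) * mrg x (-y) ^ 2) / 2 := by
  rw [sym_sq hx hy]
  obtain ⟨-, h1⟩ := sym_sq_ratio hx hy
  obtain ⟨-, h2⟩ := sym_sq_ratio hy hx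
  rw [mul_comm (y ^ 2) (x ^ 2), sub_right_comm] at h2
  constructor
  · nlinarith [mul_le_mul_of_nonneg_left h1 (sq_nonneg y)]
  · nlinarith [mul_le_mul_of_nonneg_left h2 (sq_nonneg x)]

/-- One step of the decay of slope products. -/
lemma sym_slope {θ B a : ℝ} (hθ0 : 0 ≤ θ) (hθ1 : θ < 1) (hB : |B| < 1) (ha : |a| < 1) :
    slp θ a * (((1 + B * (θ * a)) * (1 - mrg B (θ * a) ^ 2) +
      (1 - B * (θ * a)) * (1 - mrg B (-(θ * a)) ^ 2)) / 2) ≤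
        (1 - a ^ 2) * (1 - (1 - θ ^ 2) * B ^ 2) := by
  have hy : |θ * a| < 1 := by
    rw [abs_mul, abs_of_nonneg hθ0]
    exact lt_of_le_of_lt (mul_le_of_le_one_left (abs_nonneg a) hθ1.le) ha
  have h1 := (one_add_mul_pos hB hy.le).ne'
  have h2 : 1 - B * (θ * a) ≠ 0 := by
    have := (one_add_mul_pos hB (y := -(θ * a)) (by rw [abs_neg]; exact hy.le)).ne'
    simpa [sub_eq_add_neg] using this
  have ha2 : a ^ 2 < 1 := by rwa [sq_lt_one_iff_abs_lt_one]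
  have hB2 : B ^ 2 < 1 := by rwa [sq_lt_one_iff_abs_lt_one]
  have hθ2 : θ ^ 2 ≤ 1 := pow_le_one₀ hθ0 hθ1.le
  have h4 : 0 < 1 - θ ^ 2 * a ^ 2 := by nlinarith [mul_le_of_le_one_left (sq_nonneg a) hθ2]
  set l := θ ^ 2 * a ^ 2 with hl
  have hl0 : 0 ≤ l := by positivity
  have hlθ : l ≤ θ ^ 2 := mul_le_of_le_one_right (sq_nonneg θ) ha2.le
  have h5 : 0 < 1 - l * B ^ 2 := by nlinarith [mul_le_of_le_one_right hl0 hB2.le]
  have e : slp θ a * (((1 + B * (θ * a)) * (1 - mrg B (θ * a) ^ 2) +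
      (1 - B * (θ * a)) * (1 - mrg B (-(θ * a)) ^ 2)) / 2) =
        (1 - a ^ 2) * ((1 - B ^ 2) / (1 - l * B ^ 2)) := by
    have e1 : (1 + B * (θ * a)) * (1 - mrg B (θ * a) ^ 2) =
        (1 - B ^ 2) * (1 - (θ * a) ^ 2) / (1 + B * (θ * a)) := by
      rw [show 1 - mrg B (θ * a) ^ 2 = (1 - mrg B (θ * a)) * (1 + mrg B (θ * a)) by ring,
        one_sub_mrg hB hy.le, one_add_mrg hB hy.le]
      field_simp
      ring
    have h2' : 1 + B * -(θ * a) ≠ 0 := by rwa [mul_neg, ← sub_eq_add_neg]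
    have e2 : (1 - B * (θ * a)) * (1 - mrg B (-(θ * a)) ^ 2) =
        (1 - B ^ 2) * (1 - (θ * a) ^ 2) / (1 - B * (θ * a)) := by
      rw [show 1 - mrg B (-(θ * a)) ^ 2 = (1 - mrg B (-(θ * a))) * (1 + mrg B (-(θ * a))) by ring,
        one_sub_mrg hB (abs_neg (θ * a) ▸ hy.le), one_add_mrg hB (abs_neg (θ * a) ▸ hy.le), mul_neg, ← sub_eq_add_neg]
      field_simp
      ring
    have e3 : (1 : ℝ) / (1 + B * (θ * a)) + 1 / (1 - B * (θ * a)) = 2 / (1 - l * B ^ 2) := by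
      rw [hl, show 1 - θ ^ 2 * a ^ 2 * B ^ 2 = (1 + B * (θ * a)) * (1 - B * (θ * a)) by ring,
        div_add_div _ _ h1 h2]
      congr 1
      ring
    have e4 : (1 - B ^ 2) * (1 - (θ * a) ^ 2) / (1 + B * (θ * a)) +
        (1 - B ^ 2) * (1 - (θ * a) ^ 2) / (1 - B * (θ * a)) =
          (1 - B ^ 2) * (1 - l) * (2 / (1 - l * B ^ 2)) := by
      rw [← e3, hl]; ring
    rw [e1, e2, e4, slp, ← hl]
    field_simp
  rw [e]
  refine mul_le_mul_of_nonneg_left ?_ (by linarith)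
  rw [div_le_iff₀ h5]
  nlinarith [mul_nonneg (mul_nonneg hl0 (sub_nonneg.2 hlθ)) (sq_nonneg B),
    mul_nonneg (sub_nonneg.2 hlθ) (sq_nonneg B),
    mul_nonneg (mul_nonneg (sub_nonneg.2 hθ2) hl0) (mul_nonneg (sq_nonneg B) (sq_nonneg B))]

lemma slp_mem {θ a : ℝ} (hθ0 : 0 ≤ θ) (hθ1 : θ < 1) (ha : |a| < 1) :
    0 < slp θ a ∧ slp θ a ≤ 1 ∧ slp θ a ≤ (1 - a ^ 2) / (1 - θ ^ 2) := by
  have ha2 : a ^ 2 < 1 := by rwa [sq_lt_one_iff_abs_lt_one]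
  have hθ2 : θ ^ 2 < 1 := pow_lt_one₀ hθ0 hθ1 (by norm_num)
  have h : θ ^ 2 * a ^ 2 ≤ a ^ 2 := mul_le_of_le_one_left (sq_nonneg a) hθ2.le
  have h' : θ ^ 2 * a ^ 2 ≤ θ ^ 2 := mul_le_of_le_one_right (sq_nonneg θ) ha2.le
  refine ⟨div_pos (by linarith) (by linarith), (div_le_one (by linarith)).2 (by linarith),
    div_le_div_of_nonneg_left (by linarith) (by linarith) (by linarith)⟩

/-- Higher moment of a merge. -/
lemma mrg_pow_le (P : ℕ) (hP : 1 ≤ P) {R δ : ℝ} (hR0 : 0 ≤ R) (hR : R < 1) (hδ : 0 < δ) :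
    ∃ C : ℝ, 0 < C ∧ ∀ x y : ℝ, |x| ≤ R → |y| ≤ R →
      (1 + x * y) * mrg x y ^ (2 * P) ≤ (1 + δ) * (x ^ (2 * P) + y ^ (2 * P)) +
        C * (x ^ 2 * y ^ (2 * (P - 1)) + x ^ (2 * (P - 1)) * y ^ 2) := by
  obtain ⟨m, rfl⟩ : ∃ m, P = m + 1 := ⟨P - 1, by omega⟩
  have hcont : ContinuousAt (fun η : ℝ => (1 + η) ^ (2 * (m + 1)) / (1 - η) ^ (2 * m + 1)) 0 :=
    ContinuousAt.div (by fun_prop) (by fun_prop) (by norm_num)
  obtain ⟨η0, hη0, hη⟩ : ∃ η > 0, ∀ e : ℝ, |e| ≤ η →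
      (1 + e) ^ (2 * (m + 1)) / (1 - e) ^ (2 * m + 1) ≤ 1 + δ := by
    have h := Metric.continuousAt_iff.1 hcont δ hδ
    obtain ⟨η, hη, h⟩ := h
    refine ⟨η / 2, by positivity, fun e he => ?_⟩
    have := h (x := e) (by rw [Real.dist_eq, sub_zero]; linarith)
    rw [Real.dist_eq] at this
    norm_num at this
    linarith [(abs_lt.1 this).2]
  set η := min η0 (1 / 2) with hη'
  have hη1 : 0 < η := lt_min hη0 (by norm_num)
  have hη2 : η < 1 := (min_le_right _ _).trans_lt (by norm_num)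
  have hR2 : 0 < 1 - R ^ 2 := by nlinarith
  set K := (1 / (1 - R ^ 2)) ^ (2 * m + 1) with hK
  refine ⟨K * 2 ^ (2 * (m + 1)) / η ^ 2, by positivity, fun x y hx hy => ?_⟩
  have ht : 0 < 1 + x * y := one_add_mul_pos (hx.trans_lt hR) (hy.trans hR.le)
  have hlow : 1 - R ^ 2 ≤ 1 + x * y := by
    have : |x * y| ≤ R * R := by
      rw [abs_mul]; exact mul_le_mul hx hy (abs_nonneg _) hR0
    nlinarith [(abs_le.1 this).1]
  have e : (1 + x * y) * mrg x y ^ (2 * (m + 1)) =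
      (x + y) ^ (2 * (m + 1)) / (1 + x * y) ^ (2 * m + 1) := by
    rw [mrg, div_pow, show 2 * (m + 1) = (2 * m + 1) + 1 by ring, pow_succ (1 + x * y)]
    field_simp
  rw [e, Nat.add_sub_cancel]
  have key : ∀ u w : ℝ, |u| ≤ R → |w| ≤ η * |u| → 1 + x * y = 1 + u * w →
      (u + w) ^ (2 * (m + 1)) / (1 + x * y) ^ (2 * m + 1) ≤ (1 + δ) * u ^ (2 * (m + 1)) := by
    intro u w hu hw hxy
    have h1 : |u + w| ≤ (1 + η) * |u| := (abs_add_le _ _).trans (by linarith)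
    have h2 : 1 - η ≤ 1 + x * y := by
      have : |u * w| ≤ η := by
        rw [abs_mul]
        calc |u| * |w| ≤ 1 * |w| := mul_le_mul_of_nonneg_right (by linarith) (abs_nonneg _)
          _ ≤ η * |u| := by linarith
          _ ≤ η := mul_le_of_le_one_right hη1.le (by linarith)
      rw [hxy]; linarith [(abs_le.1 this).1]
    have h3 : 0 < 1 - η := by linarith
    calc (u + w) ^ (2 * (m + 1)) / (1 + x * y) ^ (2 * m + 1)
        ≤ ((1 + η) * |u|) ^ (2 * (m + 1)) / (1 - η) ^ (2 * m + 1) := by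
          refine div_le_div₀ (by positivity) ?_ (by positivity) (pow_le_pow_left₀ h3.le h2 _)
          rw [pow_mul, ← sq_abs (u + w), ← pow_mul]
          exact pow_le_pow_left₀ (abs_nonneg _) h1 _
      _ = (1 + η) ^ (2 * (m + 1)) / (1 - η) ^ (2 * m + 1) * u ^ (2 * (m + 1)) := by
          rw [mul_pow, pow_mul |u|, sq_abs, ← pow_mul]; ring
      _ ≤ (1 + δ) * u ^ (2 * (m + 1)) :=
          mul_le_mul_of_nonneg_right (hη η (by rw [abs_of_pos hη1]; exact min_le_left _ _))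
            (Even.pow_nonneg ⟨m + 1, by ring⟩ u)
  have hpow : ∀ z : ℝ, 0 ≤ z ^ (2 * (m + 1)) := fun z => Even.pow_nonneg ⟨m + 1, by ring⟩ z
  have hpow' : ∀ z : ℝ, 0 ≤ z ^ (2 * m) := fun z => Even.pow_nonneg ⟨m, by ring⟩ z
  have hcross : 0 ≤ K * 2 ^ (2 * (m + 1)) / η ^ 2 *
      (x ^ 2 * y ^ (2 * m) + x ^ (2 * m) * y ^ 2) := by
    have := hpow' x; have := hpow' y; positivity
  by_cases h1 : |y| ≤ η * |x|
  · have := key x y hx h1 rfl
    nlinarith [hpow y]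
  by_cases h2 : |x| ≤ η * |y|
  · have := key y x hy h2 (by ring)
    rw [add_comm y x] at this
    nlinarith [hpow x]
  push Not at h1 h2
  have hb : (x + y) ^ (2 * (m + 1)) ≤ 2 ^ (2 * (m + 1)) * (x ^ (2 * (m + 1)) + y ^ (2 * (m + 1))) := by
    rw [pow_mul (x + y), ← sq_abs (x + y), ← pow_mul]
    rcases le_total |x| |y| with h | h
    · calc |x + y| ^ (2 * (m + 1)) ≤ (2 * |y|) ^ (2 * (m + 1)) :=
            pow_le_pow_left₀ (abs_nonneg _) ((abs_add_le _ _).trans (by linarith)) _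
        _ = 2 ^ (2 * (m + 1)) * y ^ (2 * (m + 1)) := by
            rw [mul_pow, pow_mul |y|, sq_abs, ← pow_mul]
        _ ≤ _ := mul_le_mul_of_nonneg_left (by linarith [hpow x]) (by positivity)
    · calc |x + y| ^ (2 * (m + 1)) ≤ (2 * |x|) ^ (2 * (m + 1)) :=
            pow_le_pow_left₀ (abs_nonneg _) ((abs_add_le _ _).trans (by linarith)) _
        _ = 2 ^ (2 * (m + 1)) * x ^ (2 * (m + 1)) := by
            rw [mul_pow, pow_mul |x|, sq_abs, ← pow_mul]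
        _ ≤ _ := mul_le_mul_of_nonneg_left (by linarith [hpow y]) (by positivity)
  have hq : η ^ 2 * (x ^ (2 * (m + 1)) + y ^ (2 * (m + 1))) ≤
      x ^ 2 * y ^ (2 * m) + x ^ (2 * m) * y ^ 2 := by
    have a1 : (η * |x|) ^ 2 ≤ |y| ^ 2 := pow_le_pow_left₀ (by positivity) h1.le 2
    have a2 : (η * |y|) ^ 2 ≤ |x| ^ 2 := pow_le_pow_left₀ (by positivity) h2.le 2
    rw [mul_pow, sq_abs, sq_abs] at a1 a2
    have b1 := mul_le_mul_of_nonneg_right a1 (hpow' x)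
    have b2 := mul_le_mul_of_nonneg_right a2 (hpow' y)
    rw [show 2 * (m + 1) = 2 * m + 2 by ring, pow_add, pow_add]
    linarith
  have hd : (x + y) ^ (2 * (m + 1)) / (1 + x * y) ^ (2 * m + 1) ≤
      K * (x + y) ^ (2 * (m + 1)) := by
    rw [hK, one_div_pow, one_div_mul_eq_div]
    exact div_le_div_of_nonneg_left (hpow _) (by positivity) (pow_le_pow_left₀ hR2.le hlow _)
  refine hd.trans (le_trans (mul_le_mul_of_nonneg_left hb (by positivity)) ?_)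
  have : 0 ≤ (1 + δ) * (x ^ (2 * (m + 1)) + y ^ (2 * (m + 1))) := by
    have := hpow x; have := hpow y; positivity
  calc K * (2 ^ (2 * (m + 1)) * (x ^ (2 * (m + 1)) + y ^ (2 * (m + 1))))
      = K * 2 ^ (2 * (m + 1)) / η ^ 2 * (η ^ 2 * (x ^ (2 * (m + 1)) + y ^ (2 * (m + 1)))) := by
        field_simp
    _ ≤ K * 2 ^ (2 * (m + 1)) / η ^ 2 * (x ^ 2 * y ^ (2 * m) + x ^ (2 * m) * y ^ 2) :=
        mul_le_mul_of_nonneg_left hq (by positivity)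
    _ ≤ _ := by linarith

lemma exp_le_one_add_two_mul {x : ℝ} (h0 : 0 ≤ x) (h1 : x ≤ 1) : Real.exp x ≤ 1 + 2 * x := by
  have h := Real.abs_exp_sub_one_sub_id_le (x := x) (by rwa [abs_of_nonneg h0])
  nlinarith [(abs_le.1 h).2]

end Vale.Agent.P161.Crit.Stat
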