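import Vale.Agent.P161.Crit.StatSame

/-!
Slope products along segments and over the descendants of an edge, at finite depth.
-/

namespace Vale.Agent.P161.Crit.Stat

open MeasureTheory SimpleGraph Finset

variable {V : Type*} [DecidableEq V] {G : SimpleGraph V} [G.LocallyFinite] {θ b : ℝ} {d : ℕ}

lemma br_child_subset {m : ℕ} {x y c : V} (hc : c ∈ (G.neighborFinset x).erase y) :
    br G m c x ⊆ br G (m + 1) x y := fun _ hw =>
  Finset.mem_insert_of_mem (Finset.mem_biUnion.2 ⟨c, hc, hw⟩)

lemma conn_edge (hG : G.IsTree) {m m' : ℕ} {x y : V} (hxy : G.Adj x y) :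
    Conn G (br G m x y ∪ br G m' y x) ∧ Join G (br G m x y) (br G m' y x) x y := by
  have hside := br_side hG m x y hxy
  have hside' := br_side hG m' y x hxy.symm
  refine ⟨?_, ⟨?_, self_mem_br G _ _ _, self_mem_br G _ _ _, hxy, fun a ha e he hae =>
    cross_side hG hxy (hside a ha).1 (hside' e he).1 hae⟩⟩
  · refine conn_of_rooted (o := x) (Finset.mem_union_left _ (self_mem_br G _ _ _)) fun w hw hwx => ?_
    rcases Finset.mem_union.1 hw with hw | hw
    · obtain ⟨q, hq, hadj, hd⟩ := (conn_br hG m x y hxy).closer hG (self_mem_br G _ _ _) hw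
        (Ne.symm hwx)
      exact ⟨q, Finset.mem_union_left _ hq, hadj, hd⟩
    · by_cases hwy : w = y
      · subst hwy
        exact ⟨x, Finset.mem_union_left _ (self_mem_br G _ _ _), hxy.symm,
          by simp [dist_eq_one_iff_adj.2 hxy]⟩
      obtain ⟨q, hq, hadj, hd⟩ := (conn_br hG m' y x hxy.symm).closer hG (self_mem_br G _ _ _) hw
        (Ne.symm hwy)
      have := (hside' q hq).1
      have := (hside' w hw).1
      exact ⟨q, Finset.mem_union_right _ hq, hadj, by omega⟩
  · rw [Finset.disjoint_left]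
    intro a ha ha'
    have := (hside a ha).1
    have := (hside' a ha').1
    omega

/-- Finite-depth product of the slopes along a segment. -/
noncomputable def segF (G : SimpleGraph V) [G.LocallyFinite] (θ : ℝ) (n : ℕ) (x : ℕ → V) (i : ℕ)
    (h : V → ℝ) : ℝ :=
  ∏ j ∈ Finset.range i, slp θ (msg G θ h (n + j) (x j) (x (j + 1)))

/-- Finite-depth version of `avgProd`. -/
noncomputable def aP (G : SimpleGraph V) [G.LocallyFinite] (θ : ℝ) (n : ℕ) :
    ℕ → V → V → (V → ℝ) → ℝ
  | 0, _, _, _ => 1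
  | i + 1, x, y, h => slp θ (msg G θ h (n + i) x y) *
      ((∑ c ∈ (G.neighborFinset x).erase y, aP G θ n i c x h) /
        ((G.neighborFinset x).erase y).card)

/-- The average of `aP` over the children. -/
noncomputable def aB (G : SimpleGraph V) [G.LocallyFinite] (θ : ℝ) (n i : ℕ) (x y : V)
    (h : V → ℝ) : ℝ :=
  (∑ c ∈ (G.neighborFinset x).erase y, aP G θ n i c x h) / ((G.neighborFinset x).erase y).card

/-- Finite-depth version of `avgPsi`. -/
noncomputable def aS (G : SimpleGraph V) [G.LocallyFinite] (θ : ℝ) (n : ℕ) :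
    ℕ → V → V → (V → ℝ) → ℝ
  | 0, x, y, h => psi θ (msg G θ h n x y)
  | j + 1, x, y, h =>
      (∑ c ∈ (G.neighborFinset x).erase y, aS G θ n j c x h) / ((G.neighborFinset x).erase y).card

/-- The average over the descendants at depth `j` of `aP n i`. -/
noncomputable def aY (G : SimpleGraph V) [G.LocallyFinite] (θ : ℝ) (n i : ℕ) :
    ℕ → V → V → (V → ℝ) → ℝ
  | 0, x, y, h => aP G θ n i x y h
  | j + 1, x, y, h =>
      (∑ c ∈ (G.neighborFinset x).erase y, aY G θ n i j c x h) / ((G.neighborFinset x).erase y).card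

lemma aP_succ (n i : ℕ) (x y : V) (h : V → ℝ) :
    aP G θ n (i + 1) x y h = slp θ (msg G θ h (n + i) x y) * aB G θ n i x y h := rfl

section det

variable (p : Par G θ b d)
include p

lemma slp_msg_mem {h : V → ℝ} (hh : ∀ v, |h v| ≤ b) (n : ℕ) (x y : V) :
    0 ≤ slp θ (msg G θ h n x y) ∧ slp θ (msg G θ h n x y) ≤ 1 ∧
      slp θ (msg G θ h n x y) ≤ (1 - msg G θ h n x y ^ 2) / (1 - θ ^ 2) := by
  obtain ⟨h1, h2, h3⟩ := slp_mem p.nn p.lt_one ((p.abs_msg hh n x y).trans_lt p.R_lt_one)
  exact ⟨h1.le, h2, h3⟩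

lemma card_children_pos {x y : V} (hxy : G.Adj x y) :
    (0 : ℝ) < (((G.neighborFinset x).erase y).card : ℝ) := by
  rw [p.card_children hxy, p.cast_pred]; linarith [p.d_two]

lemma aP_mem {h : V → ℝ} (hh : ∀ v, |h v| ≤ b) (n : ℕ) :
    ∀ i x y, 0 ≤ aP G θ n i x y h ∧ aP G θ n i x y h ≤ 1 := by
  intro i
  induction i with
  | zero => intro x y; simp [aP]
  | succ i ih =>
    intro x y
    have h1 := slp_msg_mem p hh (n + i) x y
    have hs0 : 0 ≤ ∑ c ∈ (G.neighborFinset x).erase y, aP G θ n i c x h :=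
      Finset.sum_nonneg fun c _ => (ih c x).1
    refine ⟨mul_nonneg h1.1 (div_nonneg hs0 (Nat.cast_nonneg _)),
      mul_le_one₀ h1.2.1 (div_nonneg hs0 (Nat.cast_nonneg _)) ?_⟩
    refine div_le_one_of_le₀ ?_ (Nat.cast_nonneg _)
    exact (Finset.sum_le_sum fun c _ => (ih c x).2).trans_eq (by simp)

lemma aB_mem {h : V → ℝ} (hh : ∀ v, |h v| ≤ b) (n i : ℕ) (x y : V) :
    0 ≤ aB G θ n i x y h ∧ aB G θ n i x y h ≤ 1 := by
  refine ⟨div_nonneg (Finset.sum_nonneg fun c _ => (aP_mem p hh n i c x).1) (Nat.cast_nonneg _), ?_⟩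
  refine div_le_one_of_le₀ ?_ (Nat.cast_nonneg _)
  exact (Finset.sum_le_sum fun c _ => (aP_mem p hh n i c x).2).trans_eq (by simp)

lemma loc_slp_msg (n : ℕ) {x y : V} (hxy : G.Adj x y) :
    Loc b (br G n x y) fun h => slp θ (msg G θ h n x y) :=
  ⟨measurable_slp (measurable_msg n x y), fun h h' e => by rw [msg_congr_br p.tree hxy e], 1,
    fun h hh => by
      rw [abs_of_nonneg (slp_msg_mem p hh n x y).1]; exact (slp_msg_mem p hh n x y).2.1⟩

lemma loc_avg {x y : V} {m : ℕ} {f : V → (V → ℝ) → ℝ}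
    (hf : ∀ c ∈ (G.neighborFinset x).erase y, Loc b (br G m c x) (f c)) :
    Loc b (br G (m + 1) x y) fun h =>
      (∑ c ∈ (G.neighborFinset x).erase y, f c h) / ((G.neighborFinset x).erase y).card := by
  have := (Loc.sum _ fun c hc => (hf c hc).mono (br_child_subset hc)).const_mul
    ((((G.neighborFinset x).erase y).card : ℝ)⁻¹)
  simpa only [div_eq_inv_mul] using this

lemma loc_aP (n : ℕ) : ∀ i x y, G.Adj x y → Loc b (br G (n + i) x y) (aP G θ n (i + 1) x y) := by
  intro i
  induction i with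
  | zero =>
    intro x y hxy
    have hcne : (((G.neighborFinset x).erase y).card : ℝ) ≠ 0 := (card_children_pos p hxy).ne'
    have e : aP G θ n 1 x y = fun h => slp θ (msg G θ h n x y) := by
      funext h
      simp only [aP, Nat.add_zero, Finset.sum_const, nsmul_eq_mul, mul_one]
      rw [div_self hcne, mul_one]
    rw [e]; exact loc_slp_msg p n hxy
  | succ i ih =>
    intro x y hxy
    have hB := loc_avg p (x := x) (y := y) fun c hc => ih c x (p.adj_children c hc).symm
    exact (loc_slp_msg p (n + (i + 1)) hxy).mul hB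

lemma loc_aP' (n i : ℕ) {x y : V} (hxy : G.Adj x y) :
    Loc b (br G (n + i) x y) (aP G θ n i x y) := by
  cases i with
  | zero => exact Loc.const b _ 1
  | succ i => exact (loc_aP p n i x y hxy).mono (br_mono p.tree (Nat.le_succ _) hxy)

lemma loc_aB (n i : ℕ) {x y : V} (hxy : G.Adj x y) :
    Loc b (br G (n + i) x y) (aB G θ n i x y) := by
  cases i with
  | zero =>
    have e : aB G θ n 0 x y = fun _ => (1 : ℝ) := by
      funext h
      simp only [aB, aP, Finset.sum_const, nsmul_eq_mul, mul_one]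
      exact div_self (card_children_pos p hxy).ne'
    rw [e]; exact Loc.const b _ 1
  | succ i => exact loc_avg p fun c hc => loc_aP p n i c x (p.adj_children c hc).symm

omit p in
lemma aP_neg (n : ℕ) : ∀ i x y (h : V → ℝ), aP G θ n i x y (-h) = aP G θ n i x y h := by
  intro i
  induction i with
  | zero => intro x y h; rfl
  | succ i ih =>
    intro x y h
    simp only [aP, ih, msg_neg, slp_neg]

omit p in
lemma aB_neg (n i : ℕ) (x y : V) (h : V → ℝ) : aB G θ n i x y (-h) = aB G θ n i x y h := by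
  simp only [aB, aP_neg]

omit p in
lemma segF_neg (n : ℕ) (x : ℕ → V) (i : ℕ) (h : V → ℝ) :
    segF G θ n x i (-h) = segF G θ n x i h := by
  simp only [segF, msg_neg, slp_neg]

lemma segF_mem {h : V → ℝ} (hh : ∀ v, |h v| ≤ b) (n : ℕ) (x : ℕ → V) (i : ℕ) :
    0 ≤ segF G θ n x i h ∧ segF G θ n x i h ≤ 1 :=
  ⟨Finset.prod_nonneg fun _ _ => (slp_msg_mem p hh _ _ _).1,
    Finset.prod_le_one (fun _ _ => (slp_msg_mem p hh _ _ _).1)
      fun _ _ => (slp_msg_mem p hh _ _ _).2.1⟩

omit p [DecidableEq V] [G.LocallyFinite] in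
lemma seg_child_mem {k : ℕ} {x : ℕ → V} (hx : IsSeg G k x) {i : ℕ} (hi : i + 2 ≤ k) :
    G.Adj (x (i + 1)) (x i) ∧ x i ≠ x (i + 2) := by
  refine ⟨(hx.1 i (by omega)).symm, fun he => ?_⟩
  have h := hx.2 i (i + 2) (by omega) hi
  rw [he, SimpleGraph.dist_self] at h
  omega

lemma loc_segF (n : ℕ) {k : ℕ} {x : ℕ → V} (hx : IsSeg G k x) :
    ∀ i, i < k → Loc b (br G (n + i) (x i) (x (i + 1))) (segF G θ n x i) := by
  intro i
  induction i with
  | zero =>
    intro _
    have : segF G θ n x 0 = fun _ => (1 : ℝ) := by funext h; simp [segF]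
    rw [this]; exact Loc.const b _ 1
  | succ i ih =>
    intro hi
    obtain ⟨h1, h2⟩ := seg_child_mem hx (i := i) (by omega)
    have hsub : br G (n + i) (x i) (x (i + 1)) ⊆ br G (n + (i + 1)) (x (i + 1)) (x (i + 1 + 1)) :=
      br_child_subset (m := n + i) (Finset.mem_erase.2 ⟨h2, by simpa using h1⟩)
    have := ((ih (by omega)).mono hsub).mul ((loc_slp_msg p (n + i) (hx.1 i (by omega))).mono hsub)
    convert this using 2
    simp [segF, Finset.prod_range_succ]

end det

section expect

variable [Countable V] {ν : V → Measure ℝ} [∀ x, IsProbabilityMeasure (ν x)]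
variable (p : Par G θ b d) (hν : ∀ x, Chan b (ν x))
include p hν

/-- One step of decay. -/
lemma ex_step {n : ℕ} {x c : V} {s : Finset V} (hs : ∀ e ∈ s, G.Adj x e) (hc : G.Adj x c)
    (hcs : c ∉ s) {W : (V → ℝ) → ℝ} (hW : Loc b (br G n c x) W)
    (hW0 : ∀ h, (∀ v, |h v| ≤ b) → 0 ≤ W h) (hWe : ∀ h, W (-h) = W h) :
    ex G θ ν (reg G n x (insert c s))
        (fun h => W h * slp θ (msg G θ h n c x) * (1 - part G θ h n x (insert c s) ^ 2)) ≤
      (1 - (1 - θ ^ 2) * m2 G θ ν n x s) *
        ex G θ ν (br G n c x) (fun h => W h * (1 - msg G θ h n c x ^ 2)) := by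
  set S := reg G n x s with hS
  set T := br G n c x with hT
  have hUe : reg G n x (insert c s) = S ∪ T := reg_insert G n x c s
  have hins : ∀ e ∈ insert c s, G.Adj x e := by
    simpa [Finset.forall_mem_insert] using ⟨hc, hs⟩
  have hd : Disjoint S T := reg_disjoint p.tree hs hc hcs
  have hsub1 : S ⊆ reg G n x (insert c s) := hUe ▸ Finset.subset_union_left
  have hsub2 : T ⊆ reg G n x (insert c s) := hUe ▸ Finset.subset_union_right
  have lA : Loc b S fun h => part G θ h n x s ^ 2 := (p.loc_part hs).pow 2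
  have lB : Loc b T fun h => W h * (1 - msg G θ h n c x ^ 2) :=
    hW.mul ((Loc.const b T 1).sub ((p.loc_msg hc.symm).pow 2))
  have lF : Loc b (reg G n x (insert c s)) fun h =>
      W h * slp θ (msg G θ h n c x) * (1 - part G θ h n x (insert c s) ^ 2) :=
    ((hW.mul (loc_slp_msg p n hc.symm)).mono hsub2).mul
      ((Loc.const b _ 1).sub ((p.loc_part hins).pow 2))
  have lΦ : Loc b (reg G n x (insert c s)) fun h =>
      1 * (1 * (W h * (1 - msg G θ h n c x ^ 2))) +
        (-(1 - θ ^ 2)) * (part G θ h n x s ^ 2 * (W h * (1 - msg G θ h n c x ^ 2))) + 0 * (1 * 1) :=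
    ((((Loc.const b _ 1).mul (lB.mono hsub2)).const_mul 1).add
      (((lA.mono hsub1).mul (lB.mono hsub2)).const_mul _)).add
      (((Loc.const b _ 1).mul (Loc.const b _ 1)).const_mul 0)
  have h := ex2_mono p hν hsub1 hsub2 (loc_sym p hν hs hc lF) lΦ fun h hh => by
    have hh1 : ∀ v, |h v| < 1 := fun v => (hh v).trans_lt p.b1
    simp only [sym]
    rw [part_insert p.nn p.lt_one hh1 hcs, part_insert_flip p hs hc hcs hh, msg_flip p hc,
      slp_neg, flipOn_self hW, hWe]
    have h2 := mul_le_mul_of_nonneg_left (sym_slope p.nn p.lt_one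
      ((p.abs_part (n := n) hh hs).trans_lt p.R_lt_one) ((p.abs_msg hh n c x).trans_lt p.R_lt_one))
      (hW0 h hh)
    linarith
  rw [← ex_glue p hν hs hc hcs lF, ex2_three p hν hd (Loc.const b S 1) lB lA lB (Loc.const b S 1)
    (Loc.const b T 1), ex_one hν p.b1 p.tree (conn_reg p.tree hs) (self_mem_reg G n x s)] at h
  refine h.trans (le_of_eq ?_)
  simp only [m2, hS]
  ring

lemma ex_br_step {n : ℕ} {x y c : V} (hc : c ∈ (G.neighborFinset x).erase y) {β : ℝ}
    (hβ : β ≤ m2 G θ ν n x (((G.neighborFinset x).erase y).erase c))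
    {W : (V → ℝ) → ℝ} (hW : Loc b (br G n c x) W)
    (hW0 : ∀ h, (∀ v, |h v| ≤ b) → 0 ≤ W h) (hWe : ∀ h, W (-h) = W h) :
    ex G θ ν (br G (n + 1) x y)
        (fun h => W h * slp θ (msg G θ h n c x) * (1 - msg G θ h (n + 1) x y ^ 2)) ≤
      (1 - (1 - θ ^ 2) * β) *
        ex G θ ν (br G n c x) (fun h => W h * (1 - msg G θ h n c x ^ 2)) := by
  have hadj : G.Adj x c := p.adj_children c hc
  have h := ex_step p hν (n := n) (s := ((G.neighborFinset x).erase y).erase c)
    (fun e he => p.adj_children e (Finset.mem_of_mem_erase he)) hadj (Finset.notMem_erase c _)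
    hW hW0 hWe
  rw [Finset.insert_erase hc] at h
  refine h.trans (mul_le_mul_of_nonneg_right ?_ ?_)
  · linarith [mul_le_mul_of_nonneg_left hβ (by linarith [p.sq_lt_one] : (0:ℝ) ≤ 1 - θ ^ 2)]
  · rw [← ex_const (θ := θ) hν p.b1 p.tree (conn_br p.tree n c x hadj.symm)
      (self_mem_br G n c x) 0]
    refine ex_mono hν p.b1 p.nn p.lt_one (Loc.const b _ 0)
      (hW.mul ((Loc.const b _ 1).sub ((p.loc_msg hadj.symm).pow 2))) fun h hh => ?_
    refine mul_nonneg (hW0 h hh) (sub_nonneg.2 ?_)
    rw [sq_le_one_iff_abs_le_one]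
    exact (p.abs_msg hh n c x).trans p.R_lt_one.le

/-- Decay along a segment. -/
lemma seg_decay {k : ℕ} {x : ℕ → V} (hx : IsSeg G (k + 1) x) (n : ℕ) {β : ℝ} (hβ1 : β ≤ 1)
    (hβ : ∀ i, i < k → ∀ m, n ≤ m →
      β ≤ m2 G θ ν m (x (i + 1)) (((G.neighborFinset (x (i + 1))).erase (x (i + 2))).erase (x i))) :
    ex G θ ν (br G (n + k) (x k) (x (k + 1))) (segF G θ n x (k + 1)) ≤
      (1 - (1 - θ ^ 2) * β) ^ k / (1 - θ ^ 2) := by
  have hθ := p.sq_lt_one
  have hQ : ∀ i, i ≤ k → ex G θ ν (br G (n + i) (x i) (x (i + 1)))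
      (fun h => segF G θ n x i h * (1 - msg G θ h (n + i) (x i) (x (i + 1)) ^ 2)) ≤
        (1 - (1 - θ ^ 2) * β) ^ i := by
    intro i
    induction i with
    | zero =>
      intro _
      have hxy := hx.1 0 (by omega)
      rw [pow_zero]
      refine le_of_le_of_eq (ex_mono hν p.b1 p.nn p.lt_one ((loc_segF p n hx 0 (by omega)).mul
        ((Loc.const b _ 1).sub ((p.loc_msg hxy).pow 2))) (Loc.const b _ 1) fun h hh => ?_)
        (ex_one (θ := θ) hν p.b1 p.tree (conn_br p.tree (n + 0) _ _ hxy) (self_mem_br G _ _ _))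
      simp only [segF, Finset.range_zero, Finset.prod_empty, one_mul]
      linarith [sq_nonneg (msg G θ h (n + 0) (x 0) (x (0 + 1)))]
    | succ i ih =>
      intro hi
      obtain ⟨h1, h2⟩ := seg_child_mem hx (i := i) (by omega)
      have hc : x i ∈ (G.neighborFinset (x (i + 1))).erase (x (i + 1 + 1)) :=
        Finset.mem_erase.2 ⟨h2, by simpa using h1⟩
      have h := ex_br_step p hν (n := n + i) hc (hβ i (by omega) (n + i) (Nat.le_add_right n i))
        (loc_segF p n hx i (by omega)) (fun h hh => (segF_mem p hh n x i).1)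
        (fun h => segF_neg n x i h)
      rw [pow_succ']
      refine le_trans (le_of_eq ?_) (h.trans (mul_le_mul_of_nonneg_left (ih (by omega)) ?_))
      · refine ex_congr hν _ fun h _ => ?_
        simp only [segF, Finset.prod_range_succ]
        rw [show n + (i + 1) = n + i + 1 from rfl]
      · have h2 := mul_le_mul_of_nonneg_left hβ1 (by linarith : (0:ℝ) ≤ 1 - θ ^ 2)
        nlinarith [sq_nonneg θ]
  have hlk := loc_segF p n hx k (by omega)
  have hxk := hx.1 k (by omega)
  refine le_trans ?_ (div_le_div_of_nonneg_right (hQ k le_rfl) (by linarith))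
  rw [div_eq_inv_mul, ← ex_const_mul]
  refine ex_mono hν p.b1 p.nn p.lt_one ?_
    ((hlk.mul ((Loc.const b _ 1).sub ((p.loc_msg hxk).pow 2))).const_mul _) fun h hh => ?_
  · convert hlk.mul (loc_slp_msg p (n + k) hxk) using 2
    simp [segF, Finset.prod_range_succ]
  · have e : segF G θ n x (k + 1) h =
        segF G θ n x k h * slp θ (msg G θ h (n + k) (x k) (x (k + 1))) := by
      simp [segF, Finset.prod_range_succ]
    rw [e]
    refine (mul_le_mul_of_nonneg_left (slp_msg_mem p hh _ _ _).2.2 (segF_mem p hh n x k).1).trans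
      (le_of_eq ?_)
    rw [div_eq_inv_mul]; ring

/-- Decay of the averaged products. -/
lemma aP_decay (n : ℕ) {β : ℝ} (hβ1 : β ≤ 1)
    (hβ : ∀ m, n ≤ m → ∀ (x : V) (s : Finset V), s.Nonempty → (∀ e ∈ s, G.Adj x e) →
      β ≤ m2 G θ ν m x s)
    (i : ℕ) {x y : V} (hxy : G.Adj x y) :
    ex G θ ν (br G (n + i) x y) (aP G θ n (i + 1) x y) ≤
      (1 - (1 - θ ^ 2) * β) ^ i / (1 - θ ^ 2) := by
  have hθ := p.sq_lt_one
  have hR : ∀ i x y, G.Adj x y → ex G θ ν (br G (n + i) x y)
      (fun h => aB G θ n i x y h * (1 - msg G θ h (n + i) x y ^ 2)) ≤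
        (1 - (1 - θ ^ 2) * β) ^ i := by
    intro i
    induction i with
    | zero =>
      intro x y hxy
      rw [pow_zero]
      refine le_of_le_of_eq (ex_mono hν p.b1 p.nn p.lt_one ((loc_aB p n 0 hxy).mul
        ((Loc.const b _ 1).sub ((p.loc_msg hxy).pow 2))) (Loc.const b _ 1) fun h hh => ?_)
        (ex_one (θ := θ) hν p.b1 p.tree (conn_br p.tree (n + 0) _ _ hxy) (self_mem_br G _ _ _))
      refine mul_le_one₀ (aB_mem p hh n 0 x y).2 (sub_nonneg.2 ?_) ?_
      · rw [sq_le_one_iff_abs_le_one]; exact (p.abs_msg hh _ x y).trans p.R_lt_one.le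
      · linarith [sq_nonneg (msg G θ h (n + 0) x y)]
    | succ i ih =>
      intro x y hxy
      set s := (G.neighborFinset x).erase y with hs
      have hk := card_children_pos p hxy
      have lF : ∀ c ∈ s, Loc b (br G (n + (i + 1)) x y) fun h =>
          aB G θ n i c x h * slp θ (msg G θ h (n + i) c x) *
            (1 - msg G θ h (n + (i + 1)) x y ^ 2) := fun c hc =>
        (((loc_aB p n i (p.adj_children c hc).symm).mul
          (loc_slp_msg p (n + i) (p.adj_children c hc).symm)).mono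
            (br_child_subset (m := n + i) hc)).mul ((Loc.const b _ 1).sub ((p.loc_msg hxy).pow 2))
      calc ex G θ ν (br G (n + (i + 1)) x y)
            (fun h => aB G θ n (i + 1) x y h * (1 - msg G θ h (n + (i + 1)) x y ^ 2))
          = (s.card : ℝ)⁻¹ * ∑ c ∈ s, ex G θ ν (br G (n + (i + 1)) x y) (fun h =>
              aB G θ n i c x h * slp θ (msg G θ h (n + i) c x) *
                (1 - msg G θ h (n + (i + 1)) x y ^ 2)) := by
            rw [← ex_sum hν p.b1 s lF, ← ex_const_mul]
            refine ex_congr hν _ fun h _ => ?_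
            rw [aB, ← hs, div_eq_inv_mul, mul_assoc, Finset.sum_mul]
            congr 1
            refine Finset.sum_congr rfl fun c _ => ?_
            rw [aP_succ]; ring
        _ ≤ (s.card : ℝ)⁻¹ * ∑ c ∈ s, (1 - (1 - θ ^ 2) * β) ^ (i + 1) := by
            refine mul_le_mul_of_nonneg_left (Finset.sum_le_sum fun c hc => ?_)
              (inv_nonneg.2 hk.le)
            have hne : (s.erase c).Nonempty := by
              rw [← Finset.card_pos, Finset.card_erase_of_mem hc, hs, p.card_children hxy]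
              have := p.three; omega
            have h := ex_br_step p hν (n := n + i) hc
              (hβ (n + i) (Nat.le_add_right n i) x _ hne
                fun e he => p.adj_children e (Finset.mem_of_mem_erase he))
              (loc_aB p n i (p.adj_children c hc).symm) (fun h hh => (aB_mem p hh n i c x).1)
              (fun h => aB_neg n i c x h)
            rw [pow_succ']
            refine h.trans (mul_le_mul_of_nonneg_left (ih c x (p.adj_children c hc).symm) ?_)
            have h2 := mul_le_mul_of_nonneg_left hβ1 (by linarith : (0:ℝ) ≤ 1 - θ ^ 2)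
            nlinarith [sq_nonneg θ]
        _ = _ := by
            rw [Finset.sum_const, nsmul_eq_mul, ← mul_assoc, inv_mul_cancel₀ hk.ne', one_mul]
  refine le_trans ?_ (div_le_div_of_nonneg_right (hR i x y hxy) (by linarith))
  rw [div_eq_inv_mul, ← ex_const_mul]
  refine ex_mono hν p.b1 p.nn p.lt_one (loc_aP p n i x y hxy)
    (((loc_aB p n i hxy).mul ((Loc.const b _ 1).sub ((p.loc_msg hxy).pow 2))).const_mul _)
    fun h hh => ?_
  rw [aP_succ]
  refine (mul_le_mul_of_nonneg_right (slp_msg_mem p hh _ _ _).2.2 (aB_mem p hh n i x y).1).trans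
    (le_of_eq ?_)
  rw [div_eq_inv_mul]; ring

/-- Independence of even functions of the branches at a vertex. -/
lemma ex_reg_prod {n : ℕ} {x : V} {f : V → (V → ℝ) → ℝ} :
    ∀ {s : Finset V}, (∀ e ∈ s, G.Adj x e) → (∀ c ∈ s, Loc b (br G n c x) (f c)) →
      (∀ c ∈ s, ∀ h, f c (-h) = f c h) →
      Loc b (reg G n x s) (fun h => ∏ c ∈ s, f c h) ∧
      ex G θ ν (reg G n x s) (fun h => ∏ c ∈ s, f c h) =
        ∏ c ∈ s, ex G θ ν (br G n c x) (f c) := by
  intro s
  induction s using Finset.induction_on with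
  | empty =>
    intro _ _ _
    simp only [Finset.prod_empty]
    exact ⟨Loc.const b _ 1,
      ex_one hν p.b1 p.tree (conn_reg p.tree (s := (∅ : Finset V)) (fun e he => by simp at he))
        (self_mem_reg G n x ∅)⟩
  | @insert c s hcs ih =>
    intro hs hl he
    have hs' : ∀ e ∈ s, G.Adj x e := fun e he' => hs e (Finset.mem_insert_of_mem he')
    obtain ⟨l, e⟩ := ih hs' (fun c' hc' => hl c' (Finset.mem_insert_of_mem hc'))
      (fun c' hc' => he c' (Finset.mem_insert_of_mem hc'))
    have hj := join_reg (n := n) p.tree hs' (hs c (Finset.mem_insert_self c s)) hcs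
    have lc := hl c (Finset.mem_insert_self c s)
    rw [reg_insert]
    simp only [Finset.prod_insert hcs]
    refine ⟨(lc.mono Finset.subset_union_right).mul (l.mono Finset.subset_union_left), ?_⟩
    rw [← e, mul_comm (ex G θ ν (br G n c x) (f c))]
    simp only [mul_comm (f c _)]
    exact ex_join_even hν p.b1 hj l lc fun h => Finset.prod_congr rfl fun c' hc' =>
      he c' (Finset.mem_insert_of_mem hc') h

/-- Sums of centred even functions of the branches at a vertex. -/
lemma ex_reg_var {n : ℕ} {x : V} {f : V → (V → ℝ) → ℝ} :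
    ∀ {s : Finset V}, (∀ e ∈ s, G.Adj x e) → (∀ c ∈ s, Loc b (br G n c x) (f c)) →
      (∀ c ∈ s, ∀ h, f c (-h) = f c h) → (∀ c ∈ s, ex G θ ν (br G n c x) (f c) = 0) →
      Loc b (reg G n x s) (fun h => ∑ c ∈ s, f c h) ∧
      ex G θ ν (reg G n x s) (fun h => ∑ c ∈ s, f c h) = 0 ∧
      ex G θ ν (reg G n x s) (fun h => (∑ c ∈ s, f c h) ^ 2) =
        ∑ c ∈ s, ex G θ ν (br G n c x) (fun h => f c h ^ 2) := by
  intro s
  induction s using Finset.induction_on with
  | empty =>
    intro _ _ _ _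
    have h0 := ex_const (θ := θ) hν p.b1 p.tree
      (conn_reg p.tree (n := n) (x := x) (s := (∅ : Finset V)) (fun e he => by simp at he))
      (self_mem_reg G n x ∅) 0
    simp only [Finset.sum_empty, zero_pow two_ne_zero]
    exact ⟨Loc.const b _ 0, h0, h0⟩
  | @insert c s hcs ih =>
    intro hs hl he hm
    have hs' : ∀ e ∈ s, G.Adj x e := fun e he' => hs e (Finset.mem_insert_of_mem he')
    obtain ⟨l, e1, e2⟩ := ih hs' (fun c' hc' => hl c' (Finset.mem_insert_of_mem hc'))
      (fun c' hc' => he c' (Finset.mem_insert_of_mem hc'))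
      (fun c' hc' => hm c' (Finset.mem_insert_of_mem hc'))
    have hc := hs c (Finset.mem_insert_self c s)
    have hj := join_reg (n := n) p.tree hs' hc hcs
    have lc := hl c (Finset.mem_insert_self c s)
    have hcm := hm c (Finset.mem_insert_self c s)
    have heven : ∀ h, ∑ c' ∈ s, f c' (-h) = ∑ c' ∈ s, f c' h := fun h =>
      Finset.sum_congr rfl fun c' hc' => he c' (Finset.mem_insert_of_mem hc') h
    have k1 := ex_join_even (θ := θ) hν p.b1 hj l (Loc.const b _ 1) heven
    have k2 := ex_join_even (θ := θ) hν p.b1 hj (Loc.const b _ 1) lc (fun _ => rfl)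
    have k3 := ex_join_even (θ := θ) hν p.b1 hj (l.pow 2) (Loc.const b _ 1) (fun h => by rw [heven])
    have k4 := ex_join_even (θ := θ) hν p.b1 hj (Loc.const b _ 1) (lc.pow 2) (fun _ => rfl)
    have k5 := ex_join_even (θ := θ) hν p.b1 hj l lc heven
    rw [ex_one hν p.b1 p.tree (conn_br p.tree n c x hc.symm) (self_mem_br G n c x), mul_one]
      at k1 k3
    rw [ex_one hν p.b1 p.tree (conn_reg p.tree hs') (self_mem_reg G n x s), one_mul] at k2 k4
    simp only [mul_one, one_mul] at k1 k2 k3 k4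
    rw [e1] at k1
    rw [hcm] at k2 k5
    rw [reg_insert]
    have m1 := l.mono (Finset.subset_union_left (s₂ := br G n c x))
    have m2' := lc.mono (Finset.subset_union_right (s₁ := reg G n x s))
    simp only [Finset.sum_insert hcs]
    refine ⟨m2'.add m1, ?_, ?_⟩
    · rw [ex_add hν p.b1 m2' m1, k1, k2, add_zero]
    · have esq : ∀ h, (f c h + ∑ c' ∈ s, f c' h) ^ 2 =
          (f c h ^ 2 + (∑ c' ∈ s, f c' h) ^ 2) + 2 * ((∑ c' ∈ s, f c' h) * f c h) := fun h => by
        ring
      simp only [esq]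
      rw [ex_add hν p.b1 ((m2'.pow 2).add (m1.pow 2)) ((m1.mul m2').const_mul 2),
        ex_add hν p.b1 (m2'.pow 2) (m1.pow 2), ex_const_mul, k3, k4, k5, e2]
      ring

end expect

end Vale.Agent.P161.Crit.Stat
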