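import Vale.Agent.P161.Crit.StatMoments

/-!
Messages on all edges have the same law under a constant channel; second moments increase with
the depth and eventually reach the order `v`.
-/

namespace Vale.Agent.P161.Crit.Stat

open MeasureTheory SimpleGraph Finset

variable {V : Type*} [DecidableEq V] {G : SimpleGraph V} [G.LocallyFinite] {θ b : ℝ} {d : ℕ}

/-- Clamp to `[-1, 1]`. -/
noncomputable def clamp (a : ℝ) : ℝ := max (-1) (min 1 a)

lemma abs_clamp_le (a : ℝ) : |clamp a| ≤ 1 :=
  abs_le.2 ⟨le_max_left _ _, max_le (by norm_num) (min_le_left _ _)⟩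

lemma clamp_eq {a : ℝ} (ha : |a| ≤ 1) : clamp a = a := by
  obtain ⟨u, w⟩ := abs_le.1 ha
  simp [clamp, min_eq_right w, max_eq_right u]

@[fun_prop]
lemma measurable_clamp : Measurable clamp := by unfold clamp; fun_prop

/-- Two pairs of a region and an observable with the same law under the densities. -/
def SameLaw (G : SimpleGraph V) (θ : ℝ) (ν : V → Measure ℝ) (S : Finset V) (A : (V → ℝ) → ℝ)
    (S' : Finset V) (A' : (V → ℝ) → ℝ) : Prop :=
  ∀ Φ : ℝ → ℝ, Measurable Φ → ∀ C : ℝ, (∀ a, |Φ a| ≤ C) →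
    ex G θ ν S (fun h => Φ (A h)) = ex G θ ν S' (fun h => Φ (A' h))

section

variable [Countable V] {ν : V → Measure ℝ} [∀ x, IsProbabilityMeasure (ν x)]
variable (p : Par G θ b d) (hν : ∀ x, Chan b (ν x))
include p hν

/-- The conditional expectation given the region, as a function of its magnetisation. -/
noncomputable def cond (G : SimpleGraph V) [G.LocallyFinite] (θ : ℝ) (ν : V → Measure ℝ) (n : ℕ)
    (x c : V) (Φ : ℝ → ℝ) (α : ℝ) : ℝ :=
  ex G θ ν (br G n c x) fun h =>
    Φ (mrg α (θ * msg G θ h n c x)) * (1 + clamp α * (θ * clamp (msg G θ h n c x)))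

lemma ex_insert_cond {n : ℕ} {x c : V} {s : Finset V} (hs : ∀ e ∈ s, G.Adj x e) (hc : G.Adj x c)
    (hcs : c ∉ s) {Φ : ℝ → ℝ} (hΦ : Measurable Φ) {C : ℝ} (hC : ∀ a, |Φ a| ≤ C) :
    ex G θ ν (reg G n x (insert c s)) (fun h => Φ (part G θ h n x (insert c s))) =
        ex G θ ν (reg G n x s) (fun h => cond G θ ν n x c Φ (part G θ h n x s)) ∧
      Measurable (cond G θ ν n x c Φ) ∧ ∀ α, |cond G θ ν n x c Φ α| ≤ 2 * C := by
  set S := reg G n x s with hS
  set T := br G n c x with hT
  set K : ℝ → (V → ℝ) → ℝ := fun α k =>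
    Φ (mrg α (θ * msg G θ k n c x)) * (1 + clamp α * (θ * clamp (msg G θ k n c x))) with hK
  have hKm : Measurable fun q : ℝ × (V → ℝ) => K q.1 q.2 := by
    have hm : Measurable fun q : ℝ × (V → ℝ) => msg G θ q.2 n c x :=
      (measurable_msg n c x).comp measurable_snd
    exact (hΦ.comp (measurable_mrg measurable_fst (hm.const_mul θ))).mul
      (((measurable_clamp.comp measurable_fst).mul
        ((measurable_clamp.comp hm).const_mul θ)).const_add 1)
  have hKb : ∀ α k, |K α k| ≤ 2 * C := fun α k => by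
    rw [hK, abs_mul, mul_comm (2 : ℝ)]
    refine mul_le_mul (hC _) ?_ (abs_nonneg _) ((abs_nonneg _).trans (hC 0))
    refine (abs_add_le _ _).trans ?_
    have : |clamp α * (θ * clamp (msg G θ k n c x))| ≤ 1 := by
      rw [abs_mul]
      exact mul_le_one₀ (abs_clamp_le _) (abs_nonneg _)
        ((abs_theta_mul_le p.nn (abs_clamp_le _)).trans p.lt_one.le)
    rw [abs_one]; linarith
  have hcT : Conn G T := conn_br p.tree n c x hc.symm
  have hKl : ∀ α, Loc b T (K α) := fun α =>
    ⟨hKm.comp measurable_prodMk_left,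
      fun k k' e => by simp only [hK]; rw [msg_congr_br p.tree hc.symm e], 2 * C,
      fun k _ => hKb α k⟩
  have hcondm : Measurable (cond G θ ν n x c Φ) := by
    have hm : Measurable fun q : ℝ × (V → ℝ) => K q.1 q.2 * dens G θ T q.2 :=
      hKm.mul ((measurable_dens T).comp measurable_snd)
    exact (hm.stronglyMeasurable.integral_prod_right' (ν := Measure.infinitePi ν)).measurable
  have hcondb : ∀ α, |cond G θ ν n x c Φ α| ≤ 2 * C := fun α => by
    have e1 := ex_const (θ := θ) hν p.b1 p.tree hcT (self_mem_br G n c x) (2 * C)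
    have e2 := ex_const (θ := θ) hν p.b1 p.tree hcT (self_mem_br G n c x) (-(2 * C))
    rw [abs_le]
    constructor
    · rw [← e2]
      exact ex_mono hν p.b1 p.nn p.lt_one (Loc.const b T _) (hKl α)
        fun k _ => (abs_le.1 (hKb α k)).1
    · rw [← e1]
      exact ex_mono hν p.b1 p.nn p.lt_one (hKl α) (Loc.const b T _)
        fun k _ => (abs_le.1 (hKb α k)).2
  refine ⟨?_, hcondm, hcondb⟩
  have hd : Disjoint S T := reg_disjoint p.tree hs hc hcs
  set G2 : (V → ℝ) → (V → ℝ) → ℝ := fun h k =>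
    dens G θ S h * (K (part G θ h n x s) k * dens G θ T k) with hG2
  have hG2m : Measurable fun q : (V → ℝ) × (V → ℝ) => G2 q.1 q.2 :=
    ((measurable_dens S).comp measurable_fst).mul
      ((hKm.comp (((p.loc_part (n := n) hs).meas.comp measurable_fst).prodMk measurable_snd)).mul
        ((measurable_dens T).comp measurable_snd))
  have e0 : ex G θ ν (reg G n x (insert c s)) (fun h => Φ (part G θ h n x (insert c s))) =
      ∫ h, G2 h h ∂Measure.infinitePi ν := by
    refine integral_congr_ae ((ae_box hν).mono fun h hh => ?_)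
    have hh1 : ∀ v, |h v| < 1 := fun v => (hh v).trans_lt p.b1
    simp only [hG2, hK, hS, hT]
    rw [dens_glue p.tree p.nn p.lt_one hh1 hs hc hcs, part_insert p.nn p.lt_one hh1 hcs,
      clamp_eq ((p.abs_part hh hs).trans p.R_lt_one.le),
      clamp_eq ((p.abs_msg hh n c x).trans p.R_lt_one.le)]
    ring
  rw [e0, integral_split hd hG2m (fun k h h' e => by
      simp only [hG2]
      rw [dens_congr e, part_congr p.tree hs e])
    (fun h k k' e => by
      simp only [hG2]
      rw [(hKl _).loc k k' e, dens_congr e])]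
  obtain ⟨D, hD⟩ := (loc_dens (G := G) (θ := θ) p.b1 S).bdd
  obtain ⟨D', hD'⟩ := (loc_dens (G := G) (θ := θ) p.b1 T).bdd
  have hint : Integrable (fun q : (V → ℝ) × (V → ℝ) => G2 q.1 q.2)
      ((Measure.infinitePi ν).prod (Measure.infinitePi ν)) := by
    refine Integrable.mono' (integrable_const (|D| * (2 * C * |D'|))) hG2m.aestronglyMeasurable ?_
    filter_upwards [Measure.quasiMeasurePreserving_fst.tendsto_ae.eventually (ae_box hν),
      Measure.quasiMeasurePreserving_snd.tendsto_ae.eventually (ae_box hν)] with q h1 h2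
    simp only [hG2, Real.norm_eq_abs, abs_mul]
    exact mul_le_mul ((hD _ h1).trans (le_abs_self _))
      (mul_le_mul (hKb _ _) ((hD' _ h2).trans (le_abs_self _)) (abs_nonneg _)
        ((abs_nonneg _).trans (hKb 0 q.2))) (by positivity) (abs_nonneg _)
  rw [integral_prod _ hint]
  refine integral_congr_ae (Filter.Eventually.of_forall fun h => ?_)
  simp only [hG2, cond, ex, hK, hT, hS]
  rw [integral_const_mul]
  ring

/-- Under a constant channel all regions of the same shape carry the same law. -/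
lemma same_part_of {n : ℕ} (hconst : ∀ x x', ν x = ν x')
    (hbr : ∀ x y x' y', G.Adj x y → G.Adj x' y' →
      SameLaw G θ ν (br G n x y) (fun h => msg G θ h n x y) (br G n x' y')
        (fun h => msg G θ h n x' y')) :
    ∀ (k : ℕ) (x x' : V) (s s' : Finset V), s.card = k → s'.card = k →
      (∀ e ∈ s, G.Adj x e) → (∀ e ∈ s', G.Adj x' e) →
      SameLaw G θ ν (reg G n x s) (fun h => part G θ h n x s) (reg G n x' s')
        (fun h => part G θ h n x' s') := by
  intro k
  induction k with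
  | zero =>
    intro x x' s s' hs hs' _ _ Φ hΦ C hC
    rw [Finset.card_eq_zero] at hs hs'
    subst hs hs'
    simp only [reg_empty, part_empty]
    rw [ex_singleton p hν hΦ, ex_singleton p hν hΦ, hconst x x']
  | succ k ih =>
    intro x x' s s' hs hs' ha ha' Φ hΦ C hC
    obtain ⟨c, hc⟩ := Finset.card_pos.1 (by omega : 0 < s.card)
    obtain ⟨c', hc'⟩ := Finset.card_pos.1 (by omega : 0 < s'.card)
    have hb : ∀ e ∈ s.erase c, G.Adj x e := fun e he => ha e (Finset.mem_of_mem_erase he)
    have hb' : ∀ e ∈ s'.erase c', G.Adj x' e := fun e he => ha' e (Finset.mem_of_mem_erase he)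
    obtain ⟨e1, hm, hb1⟩ :=
      ex_insert_cond p hν (n := n) hb (ha c hc) (Finset.notMem_erase c s) hΦ hC
    obtain ⟨e2, -, -⟩ :=
      ex_insert_cond p hν (n := n) hb' (ha' c' hc') (Finset.notMem_erase c' s') hΦ hC
    rw [Finset.insert_erase hc] at e1
    rw [Finset.insert_erase hc'] at e2
    rw [e1, e2]
    have hcond : cond G θ ν n x c Φ = cond G θ ν n x' c' Φ := by
      funext α
      refine hbr c x c' x' (ha c hc).symm (ha' c' hc').symm
        (fun a => Φ (mrg α (θ * a)) * (1 + clamp α * (θ * clamp a))) ?_ (2 * C) fun a => ?_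
      · exact (hΦ.comp (measurable_mrg measurable_const (measurable_id.const_mul θ))).mul
          (((measurable_clamp.const_mul θ).const_mul _).const_add 1)
      · rw [abs_mul, mul_comm (2 : ℝ)]
        refine mul_le_mul (hC _) ?_ (abs_nonneg _) ((abs_nonneg _).trans (hC 0))
        refine (abs_add_le _ _).trans ?_
        have : |clamp α * (θ * clamp a)| ≤ 1 := by
          rw [abs_mul]
          exact mul_le_one₀ (abs_clamp_le _) (abs_nonneg _)
            ((abs_theta_mul_le p.nn (abs_clamp_le _)).trans p.lt_one.le)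
        rw [abs_one]; linarith
    rw [← hcond]
    exact ih x x' _ _ (by rw [Finset.card_erase_of_mem hc]; omega)
      (by rw [Finset.card_erase_of_mem hc']; omega) hb hb' _ hm _ hb1

lemma same_msg (hconst : ∀ x x', ν x = ν x') : ∀ n x y x' y', G.Adj x y → G.Adj x' y' →
    SameLaw G θ ν (br G n x y) (fun h => msg G θ h n x y) (br G n x' y')
      (fun h => msg G θ h n x' y') := by
  intro n
  induction n with
  | zero =>
    intro x y x' y' _ _ Φ hΦ C hC
    show ex G θ ν {x} (fun h => Φ (h x)) = ex G θ ν {x'} (fun h => Φ (h x'))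
    rw [ex_singleton p hν hΦ, ex_singleton p hν hΦ, hconst x x']
  | succ n ih =>
    intro x y x' y' hxy hxy'
    exact same_part_of p hν hconst ih (d - 1) x x' _ _ (p.card_children hxy)
      (p.card_children hxy') p.adj_children p.adj_children

lemma v2_same (hconst : ∀ x x', ν x = ν x') (n : ℕ) {x y x' y' : V} (hxy : G.Adj x y)
    (hxy' : G.Adj x' y') : v2 G θ ν n x y = v2 G θ ν n x' y' := by
  have h := same_msg p hν hconst n x y x' y' hxy hxy' (fun a => clamp a ^ 2) (by fun_prop) 1
    fun a => by rw [abs_pow]; exact pow_le_one₀ (abs_nonneg _) (abs_clamp_le a)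
  refine Eq.trans (ex_congr hν _ fun h hh => ?_) (h.trans (ex_congr hν _ fun h hh => ?_))
  · rw [clamp_eq ((p.abs_msg hh n x y).trans p.R_lt_one.le)]
  · rw [clamp_eq ((p.abs_msg hh n x' y').trans p.R_lt_one.le)]

lemma ex_marg {n m : ℕ} (hnm : n ≤ m) {x y : V} (hxy : G.Adj x y) {F : (V → ℝ) → ℝ}
    (hF : Loc b (br G n x y) F) :
    ex G θ ν (br G m x y) F = ex G θ ν (br G n x y) F :=
  marg hν p.b1 p.tree (conn_br p.tree n x y hxy) (self_mem_br G n x y) (conn_br p.tree m x y hxy)
    (br_mono p.tree hnm hxy) hF fun _ _ _ => rfl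

/-- Deeper messages project onto shallower ones. -/
lemma ex_proj {n m : ℕ} (hnm : n ≤ m) {x y : V} (hxy : G.Adj x y) {F : (V → ℝ) → ℝ}
    (hF : Loc b (br G n x y) F) :
    ex G θ ν (br G m x y) (fun h => F h * msg G θ h m x y) =
      ex G θ ν (br G n x y) (fun h => F h * msg G θ h n x y) := by
  have e : ∀ k, ex G θ ν (br G k x y) (fun h => F h * msg G θ h k x y) =
      ∫ h, F h * densSpin G θ (br G k x y) h x ∂Measure.infinitePi ν := fun k => by
    refine integral_congr_ae ((ae_box hν).mono fun h hh => ?_)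
    simp only
    rw [densSpin_br p.tree p.nn p.lt_one (fun v => (hh v).trans_lt p.b1) k x y hxy]
    ring
  rw [e, e]
  exact marg hν p.b1 p.tree (conn_br p.tree n x y hxy) (self_mem_br G n x y)
    (conn_br p.tree m x y hxy) (br_mono p.tree hnm hxy) hF
    fun A v hv => spin_insert_of_ne fun he : x = v => hv (he ▸ self_mem_br G n x y)

lemma ex_sq_diff {n m : ℕ} (hnm : n ≤ m) {x y : V} (hxy : G.Adj x y) :
    ex G θ ν (br G m x y) (fun h => (msg G θ h m x y - msg G θ h n x y) ^ 2) =
      v2 G θ ν m x y - v2 G θ ν n x y := by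
  have ln := p.loc_msg (n := n) hxy
  have lm := p.loc_msg (n := m) hxy
  have hsub := br_mono p.tree hnm hxy
  have e : ∀ h : V → ℝ, (msg G θ h m x y - msg G θ h n x y) ^ 2 =
      (msg G θ h m x y ^ 2 + msg G θ h n x y ^ 2) - 2 * (msg G θ h n x y * msg G θ h m x y) :=
    fun h => by ring
  simp only [e]
  rw [ex_sub hν p.b1 ((lm.pow 2).add ((ln.pow 2).mono hsub)) (((ln.mono hsub).mul lm).const_mul 2),
    ex_add hν p.b1 (lm.pow 2) ((ln.pow 2).mono hsub), ex_const_mul, ex_proj p hν hnm hxy ln,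
    ex_marg p hν hnm hxy (ln.pow 2), v2, v2]
  have : ex G θ ν (br G n x y) (fun h => msg G θ h n x y * msg G θ h n x y) =
      ex G θ ν (br G n x y) (fun h => msg G θ h n x y ^ 2) := by simp only [sq]
  rw [this]
  ring

lemma v2_mono {n m : ℕ} (hnm : n ≤ m) {x y : V} (hxy : G.Adj x y) :
    v2 G θ ν n x y ≤ v2 G θ ν m x y := by
  have h := ex_sq_diff p hν hnm hxy
  have h2 : 0 ≤ ex G θ ν (br G m x y) (fun h => (msg G θ h m x y - msg G θ h n x y) ^ 2) := by
    rw [← ex_const (θ := θ) hν p.b1 p.tree (conn_br p.tree m x y hxy) (self_mem_br G m x y) 0]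
    exact ex_mono hν p.b1 p.nn p.lt_one (Loc.const b _ 0)
      (((p.loc_msg hxy).sub ((p.loc_msg hxy).mono (br_mono p.tree hnm hxy))).pow 2)
      fun h _ => sq_nonneg _
  linarith

/-- Second moment of a merge of branches with equal second moments. -/
lemma m2_ge_of {n : ℕ} {x : V} {τ W : ℝ} (hτ : ∫ t, t ^ 2 ∂ν x = τ) (hW0 : 0 ≤ W) :
    ∀ {s : Finset V}, (∀ e ∈ s, G.Adj x e) → (∀ e ∈ s, θ ^ 2 * v2 G θ ν n e x = W) →
      m2 G θ ν n x s ≤ τ + s.card * W ∧
      τ + s.card * W - 2 / (1 - magBound d θ b ^ 2) * (τ + s.card * W) ^ 2 ≤ m2 G θ ν n x s := by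
  have hK : 0 ≤ 2 / (1 - magBound d θ b ^ 2) :=
    div_nonneg zero_le_two (by nlinarith [p.R_nonneg, p.R_lt_one])
  intro s
  induction s using Finset.induction_on with
  | empty =>
    intro _ _
    rw [m2_empty p hν, hτ]
    simp only [Finset.card_empty, Nat.cast_zero, zero_mul, add_zero]
    exact ⟨le_rfl, by nlinarith [mul_nonneg hK (sq_nonneg τ)]⟩
  | @insert c s hcs ih =>
    intro ha hw
    have hc := ha c (Finset.mem_insert_self c s)
    have ha' : ∀ e ∈ s, G.Adj x e := fun e he => ha e (Finset.mem_insert_of_mem he)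
    obtain ⟨i1, i2⟩ := ih ha' fun e he => hw e (Finset.mem_insert_of_mem he)
    have h := m2_insert p hν (n := n) ha' hc hcs
    simp only at h
    rw [hw c (Finset.mem_insert_self c s)] at h
    obtain ⟨u1, u2, -, -⟩ := h
    have hM := (m2_mem p hν n x ha').1
    rw [Finset.card_insert_of_notMem hcs]
    push_cast
    refine ⟨by nlinarith, ?_⟩
    have h1 := mul_le_mul_of_nonneg_left (mul_le_mul_of_nonneg_right i1 hW0) hK
    nlinarith [mul_nonneg hK (mul_nonneg hW0 (by linarith : 0 ≤ τ + s.card * W)),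
      mul_nonneg hK (sq_nonneg W)]

lemma v2_step (hconst : ∀ x x', ν x = ν x') (n : ℕ) {x y : V} (hxy : G.Adj x y) :
    (∫ t, t ^ 2 ∂ν x) + v2 G θ ν n x y - 2 / (1 - magBound d θ b ^ 2) *
      ((∫ t, t ^ 2 ∂ν x) + v2 G θ ν n x y) ^ 2 ≤ v2 G θ ν (n + 1) x y := by
  have h := (m2_ge_of p hν (n := n) (x := x) rfl
    (mul_nonneg (sq_nonneg θ) (v2_mem p hν n hxy).1) (p.adj_children (y := y)) fun e he => by
      rw [v2_same p hν hconst n (p.adj_children e he).symm hxy]).2
  rw [p.card_children hxy, p.cast_pred, ← mul_assoc, p.crit, one_mul] at h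
  exact h

/-- The messages reach second moment of order `v`. -/
lemma v2_lower (hconst : ∀ x x', ν x = ν x') {c0 v : ℝ} (hc0 : 0 < c0) (hv : 0 < v)
    (hτ : ∀ x, c0 * v ^ 2 ≤ ∫ t, t ^ 2 ∂ν x) {x y : V} (hxy : G.Adj x y) :
    ∃ N, ∀ n, N ≤ n →
      Real.sqrt (c0 * (1 - magBound d θ b ^ 2) / 16) * v ≤ v2 G θ ν n x y := by
  set τ := ∫ t, t ^ 2 ∂ν x with hτdef
  set K := 2 / (1 - magBound d θ b ^ 2) with hKdef
  have hR : 0 < 1 - magBound d θ b ^ 2 := by nlinarith [p.R_nonneg, p.R_lt_one]
  have hK : 0 < K := div_pos two_pos hR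
  have hτ0 : 0 < τ := lt_of_lt_of_le (by positivity) (hτ x)
  suffices h : ∃ N, τ / (8 * K) ≤ v2 G θ ν N x y ^ 2 by
    obtain ⟨N, hN⟩ := h
    refine ⟨N, fun n hn => le_trans ?_ (v2_mono p hν hn hxy)⟩
    have h2 : c0 * (1 - magBound d θ b ^ 2) / 16 * v ^ 2 ≤ τ / (8 * K) := by
      rw [hKdef, show τ / (8 * (2 / (1 - magBound d θ b ^ 2))) =
        τ * (1 - magBound d θ b ^ 2) / 16 by field_simp; ring]
      have := mul_le_mul_of_nonneg_right (hτ x) hR.le
      linarith
    have h3 := Real.sqrt_le_sqrt (h2.trans hN)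
    rwa [Real.sqrt_mul (by positivity), Real.sqrt_sq hv.le,
      Real.sqrt_sq (v2_mem p hν N hxy).1] at h3
  by_contra hcon
  push Not at hcon
  have hinc : ∀ n : ℕ, (n : ℝ) * (τ / 2) ≤ v2 G θ ν n x y := by
    intro n
    induction n with
    | zero => simpa using (v2_mem p hν 0 hxy).1
    | succ n ih =>
      have hstep := v2_step p hν hconst n hxy
      have hV := hcon n
      have hτV : τ ≤ v2 G θ ν n x y := by
        have := v2_mono p hν (Nat.zero_le n) hxy
        rwa [v2_zero p hν] at this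
      rw [lt_div_iff₀ (by positivity)] at hV
      have hsq : (τ + v2 G θ ν n x y) ^ 2 ≤ 4 * v2 G θ ν n x y ^ 2 := by
        nlinarith [mul_nonneg (sub_nonneg.2 hτV) (add_nonneg hτ0.le (hτ0.le.trans hτV))]
      have := mul_le_mul_of_nonneg_left hsq hK.le
      push_cast
      linarith
  obtain ⟨n, hn⟩ := exists_nat_gt (2 / τ)
  rw [div_lt_iff₀ hτ0] at hn
  linarith [hinc n, (v2_mem p hν n hxy).2]

end

end Vale.Agent.P161.Crit.Stat
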