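import Vale.Agent.P161.Crit.StatProd

/-!
Variance of averaged logarithmic slopes, exponential moments of averaged slope products and the
uniform lower bound on second moments of partial merges.
-/

namespace Vale.Agent.P161.Crit.Stat

open MeasureTheory SimpleGraph Finset

variable {V : Type*} [DecidableEq V] {G : SimpleGraph V} [G.LocallyFinite] {θ b : ℝ} {d : ℕ}

/-- A bound on the logarithmic slope of a magnetisation of bounded fields. -/
noncomputable def psiBound (d : ℕ) (θ b : ℝ) : ℝ := -Real.log (1 - magBound d θ b ^ 2)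

section det

variable (p : Par G θ b d)
include p

omit [DecidableEq V] in
lemma one_sub_R_sq_pos : 0 < 1 - magBound d θ b ^ 2 := by nlinarith [p.R_nonneg, p.R_lt_one]

omit [DecidableEq V] in
lemma psiBound_nonneg : 0 ≤ psiBound d θ b :=
  neg_nonneg.2 (Real.log_nonpos (one_sub_R_sq_pos p).le (by linarith [sq_nonneg (magBound d θ b)]))

omit [DecidableEq V] in
lemma abs_psi_le {a : ℝ} (ha : |a| ≤ magBound d θ b) : |psi θ a| ≤ psiBound d θ b := by
  have ha1 := ha.trans_lt p.R_lt_one
  have ha2 : a ^ 2 ≤ magBound d θ b ^ 2 := by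
    rw [← sq_abs]; exact pow_le_pow_left₀ (abs_nonneg _) ha 2
  have hlow : 1 - magBound d θ b ^ 2 ≤ slp θ a := by
    have hden := one_sub_sq_mul_pos p.nn p.lt_one ha1.le
    rw [slp, le_div_iff₀ hden]
    nlinarith [mul_nonneg (sq_nonneg θ) (sq_nonneg a), one_sub_R_sq_pos p]
  rw [abs_of_nonpos (psi_nonpos p.nn p.lt_one ha1), psiBound, psi, neg_le_neg_iff]
  exact Real.log_le_log (one_sub_R_sq_pos p) hlow

lemma inv_card_children {x y : V} (hxy : G.Adj x y) :
    ((((G.neighborFinset x).erase y).card : ℝ))⁻¹ = θ ^ 2 := by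
  rw [p.card_children hxy, p.cast_pred]
  exact inv_eq_of_mul_eq_one_right p.crit

lemma loc_aS (n : ℕ) : ∀ j x y, G.Adj x y → Loc b (br G (n + j) x y) (aS G θ n j x y) := by
  intro j
  induction j with
  | zero =>
    intro x y hxy
    exact (p.loc_msg (n := n) hxy).comp (fun h hh => p.abs_msg hh n x y)
      (measurable_psi measurable_id) fun a ha => abs_psi_le p ha
  | succ j ih =>
    intro x y hxy
    exact loc_avg p (x := x) (y := y) fun c hc => ih c x (p.adj_children c hc).symm

lemma abs_aS_le {h : V → ℝ} (hh : ∀ v, |h v| ≤ b) (n : ℕ) :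
    ∀ j x y, |aS G θ n j x y h| ≤ psiBound d θ b := by
  intro j
  induction j with
  | zero => intro x y; exact abs_psi_le p (p.abs_msg hh n x y)
  | succ j ih =>
    intro x y
    simp only [aS]
    rw [abs_div, Nat.abs_cast]
    refine div_le_of_le_mul₀ (Nat.cast_nonneg _) (psiBound_nonneg p) ?_
    refine (Finset.abs_sum_le_sum_abs _ _).trans ((Finset.sum_le_sum fun c _ => ih c x).trans ?_)
    rw [Finset.sum_const, nsmul_eq_mul, mul_comm]

omit p in
lemma aS_neg (n : ℕ) : ∀ j x y (h : V → ℝ), aS G θ n j x y (-h) = aS G θ n j x y h := by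
  intro j
  induction j with
  | zero => intro x y h; simp only [aS, msg_neg, psi_neg]
  | succ j ih => intro x y h; simp only [aS, ih]

lemma aY_mem {h : V → ℝ} (hh : ∀ v, |h v| ≤ b) (n i : ℕ) :
    ∀ j x y, 0 ≤ aY G θ n i j x y h ∧ aY G θ n i j x y h ≤ 1 := by
  intro j
  induction j with
  | zero => intro x y; exact aP_mem p hh n i x y
  | succ j ih =>
    intro x y
    refine ⟨div_nonneg (Finset.sum_nonneg fun c _ => (ih c x).1) (Nat.cast_nonneg _),
      div_le_one_of_le₀ ?_ (Nat.cast_nonneg _)⟩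
    exact (Finset.sum_le_sum fun c _ => (ih c x).2).trans_eq (by simp)

omit p in
lemma aY_neg (n i : ℕ) : ∀ j x y (h : V → ℝ), aY G θ n i j x y (-h) = aY G θ n i j x y h := by
  intro j
  induction j with
  | zero => intro x y h; exact aP_neg n i x y h
  | succ j ih => intro x y h; simp only [aY, ih]

lemma loc_aY (n i : ℕ) : ∀ j x y, G.Adj x y → Loc b (br G (n + i + j) x y) (aY G θ n i j x y) := by
  intro j
  induction j with
  | zero => intro x y hxy; exact loc_aP' p n i hxy
  | succ j ih =>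
    intro x y hxy
    exact loc_avg p (x := x) (y := y) fun c hc => ih c x (p.adj_children c hc).symm

/-- Averaged products are below the averages over descendants of shorter products. -/
lemma aP_le_aY {h : V → ℝ} (hh : ∀ v, |h v| ≤ b) (n i : ℕ) :
    ∀ j x y, aP G θ n (i + j) x y h ≤ aY G θ n i j x y h := by
  intro j
  induction j with
  | zero => intro x y; exact le_rfl
  | succ j ih =>
    intro x y
    rw [show i + (j + 1) = i + j + 1 from rfl, aP_succ]
    refine (mul_le_of_le_one_left (aB_mem p hh n (i + j) x y).1 (slp_msg_mem p hh _ x y).2.1).trans ?_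
    exact div_le_div_of_nonneg_right (Finset.sum_le_sum fun c _ => ih c x) (Nat.cast_nonneg _)

lemma loc_exp_aY (n i j : ℕ) (t : ℝ) {x y : V} (hxy : G.Adj x y) :
    Loc b (br G (n + i + j) x y) fun h => Real.exp (t * aY G θ n i j x y h) := by
  refine (loc_aY p n i j x y hxy).comp (r := 1) (fun h hh => ?_)
    (g := fun a => Real.exp (t * a)) (by fun_prop) (C := Real.exp |t|) fun a ha => ?_
  · rw [abs_of_nonneg (aY_mem p hh n i j x y).1]; exact (aY_mem p hh n i j x y).2
  · rw [Real.abs_exp, Real.exp_le_exp]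
    exact (le_abs_self _).trans (by rw [abs_mul]; exact mul_le_of_le_one_right (abs_nonneg _) ha)

end det

section expect

variable [Countable V] {ν : V → Measure ℝ} [∀ x, IsProbabilityMeasure (ν x)]
variable (p : Par G θ b d) (hν : ∀ x, Chan b (ν x))
include p hν

lemma ex_nonneg {n : ℕ} {x y : V} (hxy : G.Adj x y) {F : (V → ℝ) → ℝ}
    (hF : Loc b (br G n x y) F) (h0 : ∀ h, (∀ v, |h v| ≤ b) → 0 ≤ F h) :
    0 ≤ ex G θ ν (br G n x y) F := by
  rw [← ex_const (θ := θ) hν p.b1 p.tree (conn_br p.tree n x y hxy) (self_mem_br G n x y) 0]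
  exact ex_mono hν p.b1 p.nn p.lt_one (Loc.const b _ 0) hF h0

lemma abs_ex_le {n : ℕ} {x y : V} (hxy : G.Adj x y) {F : (V → ℝ) → ℝ}
    (hF : Loc b (br G n x y) F) {B : ℝ} (hB : ∀ h, (∀ v, |h v| ≤ b) → |F h| ≤ B) :
    |ex G θ ν (br G n x y) F| ≤ B := by
  have hc := conn_br p.tree n x y hxy
  rw [abs_le]
  constructor
  · rw [← ex_const (θ := θ) hν p.b1 p.tree hc (self_mem_br G n x y) (-B)]
    exact ex_mono hν p.b1 p.nn p.lt_one (Loc.const b _ _) hF fun h hh => (abs_le.1 (hB h hh)).1
  · rw [← ex_const (θ := θ) hν p.b1 p.tree hc (self_mem_br G n x y) B]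
    exact ex_mono hν p.b1 p.nn p.lt_one hF (Loc.const b _ _) fun h hh => (abs_le.1 (hB h hh)).2

lemma psi_same (hconst : ∀ x x', ν x = ν x') (n : ℕ) {x y x' y' : V} (hxy : G.Adj x y)
    (hxy' : G.Adj x' y') :
    ex G θ ν (br G n x y) (aS G θ n 0 x y) = ex G θ ν (br G n x' y') (aS G θ n 0 x' y') := by
  set R := magBound d θ b
  have hcl : ∀ a : ℝ, |max (-R) (min R a)| ≤ R := fun a =>
    abs_le.2 ⟨le_max_left _ _, max_le (by linarith [p.R_nonneg]) (min_le_left _ _)⟩
  have hid : ∀ a : ℝ, |a| ≤ R → max (-R) (min R a) = a := fun a ha => by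
    rw [min_eq_right (abs_le.1 ha).2, max_eq_right (abs_le.1 ha).1]
  have h := same_msg p hν hconst n x y x' y' hxy hxy' (fun a => psi θ (max (-R) (min R a)))
    (measurable_psi (by fun_prop)) (psiBound d θ b) fun a => abs_psi_le p (hcl a)
  refine Eq.trans (ex_congr hν _ fun h hh => ?_) (h.trans (ex_congr hν _ fun h hh => ?_))
  · rw [hid _ (p.abs_msg hh n x y)]; rfl
  · rw [hid _ (p.abs_msg hh n x' y')]; rfl

/-- Decorrelation of the averages over descendants. -/
lemma aS_var {n : ℕ} {m0 B : ℝ}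
    (hm : ∀ x y, G.Adj x y → ex G θ ν (br G n x y) (aS G θ n 0 x y) = m0)
    (hB : ∀ a, |a| ≤ magBound d θ b → (psi θ a - m0) ^ 2 ≤ B) :
    ∀ j x y, G.Adj x y →
      ex G θ ν (br G (n + j) x y) (fun h => aS G θ n j x y h - m0) = 0 ∧
      ex G θ ν (br G (n + j) x y) (fun h => (aS G θ n j x y h - m0) ^ 2) ≤ θ ^ (2 * j) * B := by
  intro j
  induction j with
  | zero =>
    intro x y hxy
    have hl := loc_aS p n 0 x y hxy
    have hc := conn_br p.tree (n + 0) x y hxy
    have hs := self_mem_br G (n + 0) x y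
    refine ⟨?_, ?_⟩
    · rw [ex_sub hν p.b1 hl (Loc.const b _ m0), ex_const hν p.b1 p.tree hc hs]
      exact sub_eq_zero.2 (hm x y hxy)
    · rw [Nat.mul_zero, pow_zero, one_mul]
      refine le_of_le_of_eq (ex_mono hν p.b1 p.nn p.lt_one ((hl.sub (Loc.const b _ m0)).pow 2)
        (Loc.const b _ B) fun h hh => hB _ (p.abs_msg hh n x y)) (ex_const hν p.b1 p.tree hc hs B)
  | succ j ih =>
    intro x y hxy
    set s := (G.neighborFinset x).erase y with hs
    have hk := card_children_pos p hxy
    have hk' := inv_card_children p hxy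
    obtain ⟨-, v1, v2⟩ := ex_reg_var p hν (n := n + j) (x := x) (s := s)
      (f := fun c h => aS G θ n j c x h - m0) p.adj_children
      (fun c hc => (loc_aS p n j c x (p.adj_children c hc).symm).sub (Loc.const b _ m0))
      (fun c _ h => by rw [aS_neg])
      (fun c hc => (ih c x (p.adj_children c hc).symm).1)
    have e : ∀ h, aS G θ n (j + 1) x y h - m0 = θ ^ 2 * ∑ c ∈ s, (aS G θ n j c x h - m0) := by
      intro h
      simp only [aS, Finset.sum_sub_distrib, Finset.sum_const, nsmul_eq_mul]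
      rw [← hk', mul_sub, ← mul_assoc, inv_mul_cancel₀ hk.ne', one_mul, div_eq_inv_mul]
    have hreg : br G (n + (j + 1)) x y = reg G (n + j) x s := rfl
    rw [hreg]
    simp only [e, mul_pow]
    refine ⟨?_, ?_⟩
    · rw [ex_const_mul, v1, mul_zero]
    · rw [ex_const_mul, v2]
      calc (θ ^ 2) ^ 2 * ∑ c ∈ s, ex G θ ν (br G (n + j) c x) (fun h => (aS G θ n j c x h - m0) ^ 2)
          ≤ (θ ^ 2) ^ 2 * ∑ c ∈ s, θ ^ (2 * j) * B :=
            mul_le_mul_of_nonneg_left
              (Finset.sum_le_sum fun c hc => (ih c x (p.adj_children c hc).symm).2) (by positivity)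
        _ = (θ ^ 2 * (s.card : ℝ)) * θ ^ (2 * (j + 1)) * B := by
            rw [Finset.sum_const, nsmul_eq_mul]; ring
        _ = θ ^ (2 * (j + 1)) * B := by
            rw [← hk', inv_mul_cancel₀ hk.ne', one_mul]

/-- Exponential moments of the averages over descendants. -/
lemma aY_mgf {n i : ℕ} {q : ℝ}
    (hq : ∀ x y, G.Adj x y → ex G θ ν (br G (n + i) x y) (aP G θ n i x y) ≤ q) :
    ∀ j x y, G.Adj x y → ∀ t, 0 ≤ t → t ≤ ((d : ℝ) - 1) ^ j →
      ex G θ ν (br G (n + i + j) x y) (fun h => Real.exp (t * aY G θ n i j x y h)) ≤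
        Real.exp (2 * (t * q)) := by
  intro j
  induction j with
  | zero =>
    intro x y hxy t ht0 ht1
    rw [pow_zero] at ht1
    have hl := loc_aP' p n i hxy
    have hc := conn_br p.tree (n + i) x y hxy
    have hs := self_mem_br G (n + i) x y
    show ex G θ ν (br G (n + i) x y) (fun h => Real.exp (t * aP G θ n i x y h)) ≤ _
    calc ex G θ ν (br G (n + i) x y) (fun h => Real.exp (t * aP G θ n i x y h))
        ≤ ex G θ ν (br G (n + i) x y) (fun h => 1 + 2 * t * aP G θ n i x y h) := by
          refine ex_mono hν p.b1 p.nn p.lt_one (loc_exp_aY p n i 0 t hxy)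
            ((Loc.const b _ 1).add (hl.const_mul (2 * t))) fun h hh => ?_
          obtain ⟨h0, h1⟩ := aP_mem p hh n i x y
          refine (exp_le_one_add_two_mul (mul_nonneg ht0 h0) ?_).trans (le_of_eq ?_)
          · exact mul_le_one₀ ht1 h0 h1
          · ring
      _ = 1 + 2 * t * ex G θ ν (br G (n + i) x y) (aP G θ n i x y) := by
          rw [ex_add hν p.b1 (Loc.const b _ 1) (hl.const_mul (2 * t)), ex_one hν p.b1 p.tree hc hs,
            ex_const_mul]
      _ ≤ 1 + 2 * (t * q) := by
          have := mul_le_mul_of_nonneg_left (hq x y hxy) ht0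
          linarith
      _ ≤ Real.exp (2 * (t * q)) := by linarith [Real.add_one_le_exp (2 * (t * q))]
  | succ j ih =>
    intro x y hxy t ht0 ht1
    set s := (G.neighborFinset x).erase y with hs
    have hk := card_children_pos p hxy
    have hk' : (s.card : ℝ) = (d : ℝ) - 1 := by rw [hs, p.card_children hxy, p.cast_pred]
    rw [← hs] at hk
    obtain ⟨-, hp⟩ := ex_reg_prod p hν (n := n + i + j) (x := x) (s := s)
      (f := fun c h => Real.exp (t / s.card * aY G θ n i j c x h)) p.adj_children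
      (fun c hc => loc_exp_aY p n i j _ (p.adj_children c hc).symm)
      (fun c _ h => by rw [aY_neg])
    have hreg : br G (n + i + (j + 1)) x y = reg G (n + i + j) x s := rfl
    have e : ∀ h, Real.exp (t * aY G θ n i (j + 1) x y h) =
        ∏ c ∈ s, Real.exp (t / s.card * aY G θ n i j c x h) := fun h => by
      rw [← Real.exp_sum, ← Finset.mul_sum]
      simp only [aY, ← hs]
      congr 1
      ring
    rw [hreg]
    simp only [e]
    rw [hp]
    calc ∏ c ∈ s, ex G θ ν (br G (n + i + j) c x)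
          (fun h => Real.exp (t / s.card * aY G θ n i j c x h))
        ≤ ∏ c ∈ s, Real.exp (2 * (t / s.card * q)) := by
          refine Finset.prod_le_prod (fun c hc => ex_nonneg p hν (p.adj_children c hc).symm
            (loc_exp_aY p n i j _ (p.adj_children c hc).symm) fun h _ => (Real.exp_pos _).le)
            fun c hc => ih c x (p.adj_children c hc).symm _ (div_nonneg ht0 hk.le) ?_
          rw [div_le_iff₀ hk, hk', ← pow_succ]
          exact ht1
      _ = Real.exp (2 * (t * q)) := by
          rw [← Real.exp_sum, Finset.sum_const, nsmul_eq_mul]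
          congr 1
          field_simp

/-- The two sides of an edge. -/
lemma aP_two (n i n' j : ℕ) {x y : V} (hxy : G.Adj x y) :
    ex G θ ν (br G (n + i) x y ∪ br G (n' + j) y x)
        (fun h => aP G θ n i x y h * aP G θ n' j y x h) =
      ex G θ ν (br G (n + i) x y) (aP G θ n i x y) *
        ex G θ ν (br G (n' + j) y x) (aP G θ n' j y x) :=
  ex_join_even hν p.b1 (conn_edge p.tree hxy).2 (loc_aP' p n i hxy) (loc_aP' p n' j hxy.symm)
    fun h => aP_neg n i x y h

/-- Eventually every partial merge has second moment of order `v`. -/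
lemma m2_lower (hconst : ∀ x x', ν x = ν x') {c0 v : ℝ} (hc0 : 0 < c0) (hv : 0 < v)
    (hτ : ∀ x, c0 * v ^ 2 ≤ ∫ t, t ^ 2 ∂ν x) :
    ∃ N, ∀ m, N ≤ m → ∀ (x : V) (s : Finset V), s.Nonempty → (∀ e ∈ s, G.Adj x e) →
      θ ^ 2 * Real.sqrt (c0 * (1 - magBound d θ b ^ 2) / 16) * v ≤ m2 G θ ν m x s := by
  obtain ⟨o⟩ := p.tree.connected.nonempty
  obtain ⟨y, hy⟩ : (G.neighborFinset o).Nonempty := by
    rw [← Finset.card_pos, card_neighborFinset_eq_degree, p.deg]
    have := p.three; omega
  have hoy : G.Adj o y := p.adj_of_mem hy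
  obtain ⟨N, hN⟩ := v2_lower p hν hconst hc0 hv hτ hoy
  refine ⟨N, fun m hm x s hs hadj => ?_⟩
  obtain ⟨c, hc⟩ := hs
  refine le_trans ?_ (child_le_m2 p hν m x hadj hc)
  rw [v2_same p hν hconst m (hadj c hc).symm hoy, mul_assoc]
  exact mul_le_mul_of_nonneg_left (hN m hm) (sq_nonneg θ)

end expect

end Vale.Agent.P161.Crit.Stat
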