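import Vale.Agent.P161.Crit.StatNum
import Vale.Agent.P161.Crit.Msg

/-!
Branches of the tree, the partial merges at a vertex, and their deterministic properties.
-/

namespace Vale.Agent.P161.Crit.Stat

open SimpleGraph Finset

variable {V : Type*} [DecidableEq V] (G : SimpleGraph V) [G.LocallyFinite]

/-- The branch behind `(x, y)` to depth `n`. -/
def br : ℕ → V → V → Finset V
  | 0, x, _ => {x}
  | n + 1, x, y => insert x (((G.neighborFinset x).erase y).biUnion fun c => br n c x)

/-- `x` with the branches behind the neighbours in `s` to depth `n`. -/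
def reg (n : ℕ) (x : V) (s : Finset V) : Finset V := insert x (s.biUnion fun c => br G n c x)

variable (θ : ℝ)

/-- Magnetisation at `x` given its field and the branches behind the neighbours in `s`. -/
noncomputable def part (h : V → ℝ) (n : ℕ) (x : V) (s : Finset V) : ℝ :=
  mrg (h x) (cmb s fun c => θ * msg G θ h n c x)

lemma msg_succ (h : V → ℝ) (n : ℕ) (x y : V) :
    msg G θ h (n + 1) x y = part G θ h n x ((G.neighborFinset x).erase y) := rfl

lemma mag_eq (h : V → ℝ) (n : ℕ) (x : V) :
    mag G θ h n x = part G θ h n x (G.neighborFinset x) := rfl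

lemma br_succ (n : ℕ) (x y : V) :
    br G (n + 1) x y = reg G n x ((G.neighborFinset x).erase y) := rfl

lemma self_mem_br (n : ℕ) (x y : V) : x ∈ br G n x y := by
  cases n <;> simp [br]

lemma self_mem_reg (n : ℕ) (x : V) (s : Finset V) : x ∈ reg G n x s := by simp [reg]

lemma reg_empty (n : ℕ) (x : V) : reg G n x ∅ = {x} := by simp [reg]

lemma reg_insert (n : ℕ) (x c : V) (s : Finset V) :
    reg G n x (insert c s) = reg G n x s ∪ br G n c x := by
  simp [reg, Finset.biUnion_insert, Finset.union_comm, Finset.union_assoc, Finset.insert_union]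

lemma part_empty (h : V → ℝ) (n : ℕ) (x : V) : part G θ h n x ∅ = h x := by
  simp [part]

variable {G θ}

lemma br_side (hG : G.IsTree) :
    ∀ n x y, G.Adj x y → ∀ w ∈ br G n x y, G.dist y w = G.dist x w + 1 ∧ G.dist x w ≤ n := by
  intro n
  induction n with
  | zero =>
    intro x y hxy w hw
    simp only [br, Finset.mem_singleton] at hw
    subst hw
    simp [dist_eq_one_iff_adj.2 hxy.symm]
  | succ n ih =>
    intro x y hxy w hw
    simp only [br, Finset.mem_insert, Finset.mem_biUnion, Finset.mem_erase,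
      mem_neighborFinset] at hw
    rcases hw with rfl | ⟨c, ⟨hcy, hcx⟩, hw⟩
    · simp [dist_eq_one_iff_adj.2 hxy.symm]
    obtain ⟨h1, h2⟩ := ih c x hcx.symm w hw
    refine ⟨?_, by omega⟩
    rcases hG.dist_eq_dist_add_one_of_adj w hxy with h | h
    · exfalso
      have e1 : G.dist w c + 1 = G.dist w x := by
        rw [dist_comm (u := w), dist_comm (u := w)]; omega
      exact hcy (closer_unique hG hcx hxy e1 h.symm)
    · rw [dist_comm (u := w) (v := y), dist_comm (u := w) (v := x)] at h
      exact h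

lemma mem_br (hG : G.IsTree) :
    ∀ n x y, G.Adj x y → ∀ w, G.dist y w = G.dist x w + 1 → G.dist x w ≤ n → w ∈ br G n x y := by
  intro n
  induction n with
  | zero =>
    intro x y _ w _ h
    simp only [br, Finset.mem_singleton]
    exact ((hG.connected.dist_eq_zero_iff).1 (by omega)).symm
  | succ n ih =>
    intro x y hxy w hy h
    by_cases hwx : w = x
    · subst hwx; exact self_mem_br G _ _ _
    obtain ⟨c, hc, hd⟩ := exists_closer hG (u := w) (v := x) hwx
    rw [dist_comm (u := w) (v := c), dist_comm (u := w) (v := x)] at hd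
    have hcy : c ≠ y := by rintro rfl; omega
    simp only [br, Finset.mem_insert, Finset.mem_biUnion, Finset.mem_erase, mem_neighborFinset]
    exact Or.inr ⟨c, ⟨hcy, hc⟩, ih c x hc.symm w (by omega) (by omega)⟩

lemma br_mono (hG : G.IsTree) {m n : ℕ} (h : m ≤ n) {x y : V} (hxy : G.Adj x y) :
    br G m x y ⊆ br G n x y := by
  intro w hw
  obtain ⟨h1, h2⟩ := br_side hG m x y hxy w hw
  exact mem_br hG n x y hxy w h1 (by omega)

lemma reg_side (hG : G.IsTree) {n : ℕ} {x : V} {s : Finset V} (hs : ∀ e ∈ s, G.Adj x e) {c : V}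
    (hc : G.Adj x c) (hcs : c ∉ s) {a : V} (ha : a ∈ reg G n x s) :
    G.dist c a = G.dist x a + 1 := by
  simp only [reg, Finset.mem_insert, Finset.mem_biUnion] at ha
  rcases ha with rfl | ⟨e, he, ha⟩
  · simp [dist_eq_one_iff_adj.2 hc.symm]
  obtain ⟨h1, -⟩ := br_side hG n e x (hs e he).symm a ha
  have hce : c ≠ e := fun h => hcs (h ▸ he)
  rcases hG.dist_eq_dist_add_one_of_adj a hc with h | h
  · exfalso
    have e1 : G.dist a e + 1 = G.dist a x := by
      rw [dist_comm (u := a), dist_comm (u := a)]; omega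
    exact hce (closer_unique hG hc (hs e he) h.symm e1)
  · rw [dist_comm (u := a) (v := c), dist_comm (u := a) (v := x)] at h
    exact h

lemma cross_side (hG : G.IsTree) {x c a e : V} (hxc : G.Adj x c)
    (ha : G.dist c a = G.dist x a + 1) (he : G.dist x e = G.dist c e + 1) (hae : G.Adj a e) :
    a = x ∧ e = c := by
  have h1 : G.dist a e = G.dist a x + G.dist x e := by
    refine dist_through_edge hG hxc ?_ _ a rfl ?_
    · rw [dist_comm (u := e) (v := c), dist_comm (u := e) (v := x)]; omega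
    · rw [dist_comm (u := a) (v := c), dist_comm (u := a) (v := x)]; omega
  rw [dist_eq_one_iff_adj.2 hae] at h1
  constructor
  · exact (hG.connected.dist_eq_zero_iff).1 (by omega)
  · exact ((hG.connected.dist_eq_zero_iff).1 (show G.dist c e = 0 by omega)).symm

lemma reg_disjoint (hG : G.IsTree) {n : ℕ} {x : V} {s : Finset V} (hs : ∀ e ∈ s, G.Adj x e)
    {c : V} (hc : G.Adj x c) (hcs : c ∉ s) : Disjoint (reg G n x s) (br G n c x) := by
  rw [Finset.disjoint_left]
  intro a ha ha'
  have h1 := reg_side hG hs hc hcs ha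
  have h2 := (br_side hG n c x hc.symm a ha').1
  omega

lemma conn_reg_of (hG : G.IsTree) {n : ℕ} {x : V} {s : Finset V} (hs : ∀ e ∈ s, G.Adj x e)
    (hbr : ∀ e ∈ s, Conn G (br G n e x)) : Conn G (reg G n x s) := by
  refine conn_of_rooted (o := x) (self_mem_reg G n x s) fun w hw hwx => ?_
  simp only [reg, Finset.mem_insert, Finset.mem_biUnion] at hw
  rcases hw with rfl | ⟨e, he, hw⟩
  · exact absurd rfl hwx
  have hside := (br_side hG n e x (hs e he).symm w hw).1
  by_cases hwe : w = e
  · subst hwe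
    exact ⟨x, self_mem_reg G n x s, (hs w he).symm, by simp [dist_eq_one_iff_adj.2 (hs w he)]⟩
  obtain ⟨p, hp, hadj, hd⟩ := (hbr e he).closer hG (self_mem_br G n e x) hw (Ne.symm hwe)
  have hp' := (br_side hG n e x (hs e he).symm p hp).1
  refine ⟨p, ?_, hadj, by omega⟩
  simp only [reg, Finset.mem_insert, Finset.mem_biUnion]
  exact Or.inr ⟨e, he, hp⟩

lemma conn_br (hG : G.IsTree) : ∀ n x y, G.Adj x y → Conn G (br G n x y) := by
  intro n
  induction n with
  | zero => intro x y _; exact conn_singleton x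
  | succ n ih =>
    intro x y _
    rw [br_succ]
    refine conn_reg_of hG (fun e he => ?_) fun e he => ?_
    · simpa using (Finset.mem_erase.1 he).2
    · exact ih e x (by simpa [adj_comm] using (Finset.mem_erase.1 he).2)

lemma conn_reg (hG : G.IsTree) {n : ℕ} {x : V} {s : Finset V} (hs : ∀ e ∈ s, G.Adj x e) :
    Conn G (reg G n x s) :=
  conn_reg_of hG hs fun e he => conn_br hG n e x (hs e he).symm

lemma abs_part_le {d : ℕ} {b : ℝ} (h0 : 0 ≤ θ) (h1 : θ < 1) (hb : b < 1) {h : V → ℝ}
    (hh : ∀ v, |h v| ≤ b) {n : ℕ} {x : V} {s : Finset V} (hs : s.card ≤ d) :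
    |part G θ h n x s| ≤ magBound d θ b :=
  abs_mrg_cmb_le h0 h1 hb (hh x) hs fun c _ =>
    abs_theta_mul_le h0 (abs_msg_lt h0 h1 (fun v => (hh v).trans_lt hb) n c x).le

lemma abs_part_lt (h0 : 0 ≤ θ) (h1 : θ < 1) {h : V → ℝ} (hh : ∀ v, |h v| < 1) (n : ℕ) (x : V)
    (s : Finset V) : |part G θ h n x s| < 1 :=
  abs_mrg_lt (hh x) (abs_cmb_lt fun c _ =>
    lt_of_le_of_lt (abs_theta_mul_le h0 (abs_msg_lt h0 h1 hh n c x).le) h1)

lemma part_insert (h0 : 0 ≤ θ) (h1 : θ < 1) {h : V → ℝ} (hh : ∀ v, |h v| < 1) {n : ℕ} {x c : V}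
    {s : Finset V} (hcs : c ∉ s) :
    part G θ h n x (insert c s) = mrg (part G θ h n x s) (θ * msg G θ h n c x) := by
  have hlt : ∀ e, |θ * msg G θ h n e x| < 1 := fun e =>
    lt_of_le_of_lt (abs_theta_mul_le h0 (abs_msg_lt h0 h1 hh n e x).le) h1
  rw [part, part, cmb_insert hcs (hlt c) fun e _ => hlt e, mrg_comm (θ * msg G θ h n c x),
    mrg_assoc (hh x) (abs_cmb_lt fun e _ => hlt e) (hlt c)]

lemma msg_congr_br (hG : G.IsTree) {n : ℕ} {x y : V} (hxy : G.Adj x y) {h h' : V → ℝ}
    (e : ∀ v ∈ br G n x y, h v = h' v) : msg G θ h n x y = msg G θ h' n x y :=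
  msg_congr hG n x y hxy fun v hv hn => e v (mem_br hG n x y hxy v
    (by rw [Behind, dist_comm (u := v), dist_comm (u := v)] at hv; exact hv) hn)

lemma part_congr (hG : G.IsTree) {n : ℕ} {x : V} {s : Finset V} (hs : ∀ e ∈ s, G.Adj x e)
    {h h' : V → ℝ} (e : ∀ v ∈ reg G n x s, h v = h' v) :
    part G θ h n x s = part G θ h' n x s := by
  rw [part, part, e x (self_mem_reg G _ _ _),
    cmb_congr (g := fun c => θ * msg G θ h' n c x) fun c hc => by
      rw [msg_congr_br hG (hs c hc).symm fun v hv =>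
        e v (Finset.mem_insert_of_mem (Finset.mem_biUnion.2 ⟨c, hc, hv⟩))]]

lemma msg_neg : ∀ n x y (h : V → ℝ), msg G θ (-h) n x y = -msg G θ h n x y := by
  intro n
  induction n with
  | zero => intro x y h; rfl
  | succ n ih =>
    intro x y h
    simp only [msg, ih, mul_neg, cmb_neg, Pi.neg_apply, mrg_neg]

lemma part_neg (h : V → ℝ) (n : ℕ) (x : V) (s : Finset V) :
    part G θ (-h) n x s = -part G θ h n x s := by
  simp only [part, msg_neg, mul_neg, cmb_neg, Pi.neg_apply, mrg_neg]

end Vale.Agent.P161.Crit.Stat
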