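import Vale.Agent.P161.Joint
import Vale.Agent.P161.Crit.Defs

/-!
Finite-volume observation maps for the revelation scheme whose strength vanishes linearly at
level zero. A site of strength `ε * wgt U q` carries the same likelihood as a site of strength
`ε` whose observation is scaled by `wgt U q`, so the posterior lemmas of the subcritical proof
apply to the scaled configuration `sc U z`.
-/

namespace Vale.Agent.P161.Crit

open MeasureTheory SimpleGraph Finset Function
open scoped unitInterval ENNReal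

variable {V : Type*}

/-- The weight of a site. -/
noncomputable def wgt (U : ℕ × V → I) (q : ℕ × V) : ℝ := if q.1 = 0 then (U q : ℝ) else 1

lemma wgt_mem (U : ℕ × V → I) (q : ℕ × V) : 0 ≤ wgt U q ∧ wgt U q ≤ 1 := by
  unfold wgt
  split_ifs
  · exact ⟨(U q).2.1, (U q).2.2⟩
  · exact ⟨zero_le_one, le_rfl⟩

lemma strength_eq (ε : ℝ) (U : ℕ × V → I) (q : ℕ × V) : strength ε U q = ε * wgt U q := by
  unfold strength wgt
  split_ifs <;> simp

lemma abs_wgt_mul_le (U : ℕ × V → I) (q : ℕ × V) (x : Obs) : |wgt U q * (x : ℝ)| ≤ 1 := by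
  rw [abs_mul, abs_of_nonneg (wgt_mem U q).1]
  exact mul_le_one₀ (wgt_mem U q).2 (abs_nonneg _) x.abs_le

/-- The observations scaled by the weights of their sites. -/
noncomputable def sc (U : ℕ × V → I) (z : ℕ × V → Obs) (q : ℕ × V) : Obs :=
  ⟨wgt U q * (z q : ℝ), abs_le.1 (abs_wgt_mul_le U q (z q))⟩

lemma sc_coe (U : ℕ × V → I) (z : ℕ × V → Obs) (q : ℕ × V) :
    (sc U z q : ℝ) = wgt U q * (z q : ℝ) := rfl

lemma sc_congr {U : ℕ × V → I} {z z' : ℕ × V → Obs} {P : Finset (ℕ × V)}
    (h : ∀ q ∈ P, z q = z' q) : ∀ q ∈ P, sc U z q = sc U z' q := fun q hq => by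
  unfold sc; simp only [h q hq]

lemma sc_of_succ (U : ℕ × V → I) (z : ℕ × V → Obs) (k : ℕ) (v : V) :
    sc U z (k + 1, v) = z (k + 1, v) := Subtype.ext (by simp [sc_coe, wgt])

lemma measurable_wgt (q : ℕ × V) : Measurable fun U : ℕ × V → I => wgt U q := by
  unfold wgt
  split_ifs
  · exact measurable_subtype_coe.comp (measurable_pi_apply _)
  · exact measurable_const

lemma measurable_sc : Measurable fun p : (ℕ × V → I) × (ℕ × V → Obs) => sc p.1 p.2 :=
  measurable_pi_lambda _ fun q => (((measurable_wgt q).comp measurable_fst).mul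
    (measurable_subtype_coe.comp ((measurable_pi_apply q).comp measurable_snd))).subtype_mk

lemma measurable_sc_right (U : ℕ × V → I) : Measurable (sc U) :=
  measurable_sc.comp (g := fun p : (ℕ × V → I) × (ℕ × V → Obs) => sc p.1 p.2) measurable_prodMk_left

variable [DecidableEq V] {G : SimpleGraph V} {θ ε : ℝ}

/-- The ranking of one level. -/
def lev (U : ℕ × V → I) (k : ℕ) (v : V) : I := U (k, v)

/-- The sites of `S` revealed strictly before `s`. -/
noncomputable def beforeR (U : ℕ × V → I) (S : Finset V) (s : ℕ × V) : Finset (ℕ × V) :=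
  before (lev U s.1) S s

lemma mem_beforeR {U : ℕ × V → I} {S : Finset V} {q s : ℕ × V} :
    q ∈ beforeR U S s ↔ q.2 ∈ S ∧ past (lev U s.1) q s := P161.mem_before

lemma beforeR_subset {U : ℕ × V → I} {S : Finset V} {q s : ℕ × V} (h : q ∈ beforeR U S s) :
    beforeR U S q ⊆ beforeR U S s := by
  intro r hr
  rw [mem_beforeR] at h hr ⊢
  refine ⟨hr.1, ?_⟩
  rcases hr.2 with h1 | ⟨h1, h1'⟩ <;> rcases h.2 with h2 | ⟨h2, h2'⟩
  · exact Or.inl (h1.trans h2)
  · exact Or.inl (h2 ▸ h1)
  · exact Or.inl (h1 ▸ h2)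
  · exact Or.inr ⟨h1.trans h2, (h2 ▸ h1').trans h2'⟩

lemma card_beforeR_lt {U : ℕ × V → I} {S : Finset V} {q s : ℕ × V} (h : q ∈ beforeR U S s) :
    (beforeR U S q).card < (beforeR U S s).card :=
  Finset.card_lt_card <| Finset.ssubset_iff_subset_ne.2 ⟨beforeR_subset h,
    fun he => past_irrefl (lev U q.1) q (mem_beforeR.1 (he ▸ h : q ∈ beforeR U S q)).2⟩

lemma beforeR_subset_sites {U : ℕ × V → I} {S : Finset V} {q : ℕ × V} :
    beforeR U S q ⊆ sitesUpTo S q.1 := P161.before_subset_sites

lemma beforeR_mono {U : ℕ × V → I} {S S' : Finset V} (h : S ⊆ S') (q : ℕ × V) :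
    beforeR U S q ⊆ beforeR U S' q := P161.before_mono h q

lemma closedR_sitesUpTo (U : ℕ × V → I) (S : Finset V) (N : ℕ) :
    ∀ s ∈ sitesUpTo S N, beforeR U S s ⊆ sitesUpTo S N := fun s hs =>
  closed_sitesUpTo (lev U s.1) S N s hs

lemma measurable_lev (k : ℕ) : Measurable fun U : ℕ × V → I => lev U k :=
  measurable_pi_lambda _ fun v => measurable_pi_apply (k, v)

lemma measurable_pexpW (U : ℕ × V → I) (S : Finset V) (P : Finset (ℕ × V)) (φ : Finset V → ℝ) :
    Measurable fun z : ℕ × V → Obs => pexp G θ ε S P (sc U z) φ :=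
  (measurable_pexp S P φ).comp (measurable_sc_right U)

lemma measurable_meanW (U : ℕ × V → I) (S : Finset V) (P : Finset (ℕ × V)) (v : V) :
    Measurable fun z : ℕ × V → Obs => mean G θ ε S P (sc U z) v :=
  (measurable_mean S P v).comp (measurable_sc_right U)

lemma meanW_congr {U : ℕ × V → I} {S : Finset V} {P : Finset (ℕ × V)} {z z' : ℕ × V → Obs}
    (h : ∀ q ∈ P, z q = z' q) (v : V) :
    mean G θ ε S P (sc U z) v = mean G θ ε S P (sc U z') v :=
  mean_congr (sc_congr h) v

/-- One step of the recursion. -/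
noncomputable def stepW (G : SimpleGraph V) (θ ε : ℝ) (U : ℕ × V → I) (S : Finset V)
    (g : ℕ × V → I) (z : ℕ × V → Obs) (s : ℕ × V) : Obs :=
  qObs (strength ε U s * mean G θ ε S (beforeR U S s) (sc U z) s.2) (g s)

/-- The observations in volume `S` as a function of the innovations `g`. -/
noncomputable def solW (G : SimpleGraph V) (θ ε : ℝ) (U : ℕ × V → I) (S : Finset V)
    (g : ℕ × V → I) (s : ℕ × V) : Obs :=
  (stepW G θ ε U S g)^[(beforeR U S s).card + 1] zInit s

lemma stepW_congr {U : ℕ × V → I} {S : Finset V} {g g' : ℕ × V → I} {z z' : ℕ × V → Obs}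
    {s : ℕ × V} (hg : g s = g' s) (hz : ∀ q ∈ beforeR U S s, z q = z' q) :
    stepW G θ ε U S g z s = stepW G θ ε U S g' z' s := by
  rw [stepW, stepW, meanW_congr hz, hg]

lemma iterateW_stable (U : ℕ × V → I) (S : Finset V) (g : ℕ × V → I) :
    ∀ n, ∀ s, (beforeR U S s).card = n → ∀ i, n < i →
      (stepW G θ ε U S g)^[i] zInit s = solW G θ ε U S g s := by
  intro n
  induction n using Nat.strong_induction_on with
  | _ n ih =>
    intro s hs i hi
    obtain ⟨i, rfl⟩ : ∃ j, i = j + 1 := ⟨i - 1, by omega⟩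
    rw [solW, Function.iterate_succ_apply', Function.iterate_succ_apply']
    refine stepW_congr rfl fun q hq => ?_
    have hlt := card_beforeR_lt hq
    rw [ih _ (by omega) q rfl i (by omega), ih _ (by omega) q rfl _ (by omega)]

lemma solW_eq (U : ℕ × V → I) (S : Finset V) (g : ℕ × V → I) (s : ℕ × V) :
    solW G θ ε U S g s = stepW G θ ε U S g (solW G θ ε U S g) s := by
  conv_lhs => rw [solW, Function.iterate_succ_apply']
  exact stepW_congr rfl fun q hq => iterateW_stable U S g _ q rfl _ (card_beforeR_lt hq)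

lemma eq_solW_of_fixed {U : ℕ × V → I} {S : Finset V} {g g' : ℕ × V → I} {z : ℕ × V → Obs}
    (Q : Set (ℕ × V)) (hQ : ∀ s ∈ Q, ∀ q ∈ beforeR U S s, q ∈ Q)
    (hg : ∀ s ∈ Q, g' s = g s) (hz : ∀ s ∈ Q, z s = stepW G θ ε U S g' z s) :
    ∀ s ∈ Q, z s = solW G θ ε U S g s := by
  have key : ∀ n, ∀ s ∈ Q, (beforeR U S s).card = n → z s = solW G θ ε U S g s := by
    intro n
    induction n using Nat.strong_induction_on with
    | _ n ih =>
      intro s hs hn
      rw [hz s hs, solW_eq]
      exact stepW_congr (hg s hs) fun q hq =>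
        ih _ (hn ▸ card_beforeR_lt hq) q (hQ s hs q hq) rfl
  exact fun s hs => key _ s hs rfl

lemma solW_congr {U : ℕ × V → I} {S : Finset V} {g g' : ℕ × V → I} {s : ℕ × V}
    (h : ∀ q ∈ insert s (beforeR U S s), g q = g' q) :
    solW G θ ε U S g s = solW G θ ε U S g' s := by
  refine eq_solW_of_fixed (g' := g) (z := solW G θ ε U S g)
    ((insert s (beforeR U S s) : Finset (ℕ × V)) : Set (ℕ × V)) ?_ (fun q hq => h q hq)
    (fun q _ => solW_eq U S g q) s (Finset.mem_insert_self _ _)
  intro q hq r hr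
  rw [Finset.mem_coe, Finset.mem_insert] at hq ⊢
  rcases hq with rfl | hq
  · exact Or.inr hr
  · exact Or.inr (beforeR_subset hq hr)

lemma solW_image (e : G ≃g G) (U : ℕ × V → I) (S : Finset V) (g : ℕ × V → I) (k : ℕ) (v : V) :
    solW G θ ε (fun q => U (q.1, e.symm q.2)) (S.image e) (fun q => g (q.1, e.symm q.2)) (k, e v) =
      solW G θ ε U S g (k, v) := by
  have h : ∀ s : ℕ × V, solW G θ ε U S g (s.1, e.symm s.2) =
      solW G θ ε (fun q => U (q.1, e.symm q.2)) (S.image e) (fun q => g (q.1, e.symm q.2)) s := by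
    intro s
    refine eq_solW_of_fixed (g' := fun q => g (q.1, e.symm q.2))
      (z := fun s => solW G θ ε U S g (s.1, e.symm s.2)) Set.univ
      (fun _ _ _ _ => Set.mem_univ _) (fun _ _ => rfl) (fun s _ => ?_) s (Set.mem_univ _)
    obtain ⟨k, w⟩ := s
    obtain ⟨u, rfl⟩ := e.surjective w
    simp only [RelIso.symm_apply_apply]
    rw [solW_eq, stepW, stepW]
    have hb : beforeR (fun q => U (q.1, e.symm q.2)) (S.image e) (k, e u) =
        (beforeR U S (k, u)).image (fun q => (q.1, e q.2)) := by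
      ext ⟨i, w⟩
      obtain ⟨w, rfl⟩ := e.surjective w
      simp [mem_beforeR, past, lev, e.injective.eq_iff]
    have hsc : sc (fun q => U (q.1, e.symm q.2)) (fun s => solW G θ ε U S g (s.1, e.symm s.2)) =
        fun q => sc U (solW G θ ε U S g) (q.1, e.symm q.2) := by
      funext q
      exact Subtype.ext (by simp [sc_coe, wgt])
    rw [hb, hsc, mean_image]
    simp [strength]
  have := h (k, e v)
  simpa using this.symm

lemma abs_strength_le (hε : 0 ≤ ε) (U : ℕ × V → I) (q : ℕ × V) : |strength ε U q| ≤ ε := by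
  rw [strength_eq, abs_of_nonneg (mul_nonneg hε (wgt_mem U q).1)]
  exact mul_le_of_le_one_right hε (wgt_mem U q).2

lemma abs_strength_mean_lt (h0 : 0 ≤ θ) (h1 : θ < 1) (hε : 0 ≤ ε) (hε1 : ε < 1) (U : ℕ × V → I)
    (q : ℕ × V) (S : Finset V) (P : Finset (ℕ × V)) (z : ℕ × V → Obs) (v : V) :
    |strength ε U q * mean G θ ε S P z v| < 1 := by
  rw [abs_mul]
  exact lt_of_le_of_lt (mul_le_of_le_one_right (abs_nonneg _) (abs_mean_le h0 h1 hε hε1 _ _ _ _))
    (lt_of_le_of_lt (abs_strength_le hε U q) hε1)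

lemma measurable_solW (U : ℕ × V → I) (S : Finset V) :
    Measurable (fun g : ℕ × V → I => solW G θ ε U S g) := by
  refine measurable_pi_lambda _ fun s => ?_
  have : ∀ i, ∀ s, Measurable fun g : ℕ × V → I => (stepW G θ ε U S g)^[i] zInit s := by
    intro i
    induction i with
    | zero => exact fun s => measurable_const
    | succ i ih =>
      intro s
      simp only [Function.iterate_succ_apply', stepW]
      exact measurable_qObs_comp
        (((measurable_meanW U S _ _).fun_comp (measurable_pi_lambda _ ih)).const_mul _)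
        (measurable_pi_apply s)
  exact this _ s

lemma measurable_pexpW2 (S : Finset V) (s : ℕ × V) (φ : Finset V → ℝ) :
    Measurable fun p : (ℕ × V → I) × (ℕ × V → Obs) =>
      pexp G θ ε S (beforeR p.1 S s) (sc p.1 p.2) φ :=
  by
  have h : Measurable fun p : (ℕ × V → I) × (ℕ × V → Obs) => (lev p.1 s.1, sc p.1 p.2) :=
    ((measurable_lev s.1).comp measurable_fst).prodMk measurable_sc
  exact ((measurable_pexp2 (G := G) (θ := θ) (ε := ε) S s φ).comp h :)

lemma measurable_meanW2 (S : Finset V) (s : ℕ × V) (v : V) :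
    Measurable fun p : (ℕ × V → I) × (ℕ × V → Obs) =>
      mean G θ ε S (beforeR p.1 S s) (sc p.1 p.2) v :=
  (measurable_pexpW2 S s _).div (measurable_pexpW2 S s _)

lemma measurable_strength (q : ℕ × V) : Measurable fun U : ℕ × V → I => strength ε U q := by
  simp only [strength_eq]
  exact (measurable_wgt q).const_mul ε

lemma measurable_solW2 (S : Finset V) :
    Measurable fun p : (ℕ × V → I) × (ℕ × V → I) => solW G θ ε p.1 S p.2 := by
  refine measurable_pi_lambda _ fun s => ?_
  have key : ∀ i, ∀ q, Measurable fun p : (ℕ × V → I) × (ℕ × V → I) =>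
      (stepW G θ ε p.1 S p.2)^[i] zInit q := by
    intro i
    induction i with
    | zero => exact fun q => measurable_const
    | succ i ih =>
      intro q
      simp only [Function.iterate_succ_apply']
      set w := fun p : (ℕ × V → I) × (ℕ × V → I) => (stepW G θ ε p.1 S p.2)^[i] zInit with hw
      have hwm : Measurable w := measurable_pi_lambda _ ih
      have h0 : Measurable fun p : (ℕ × V → I) × (ℕ × V → I) => (p.1, w p) :=
        measurable_fst.prodMk hwm
      have h3 := (measurable_meanW2 (G := G) (θ := θ) (ε := ε) S q q.2).comp h0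
      have h4 := ((measurable_strength (ε := ε) q).comp (measurable_fst
        (α := ℕ × V → I) (β := ℕ × V → I))).mul h3
      have h1 : Measurable fun p : (ℕ × V → I) × (ℕ × V → I) =>
          strength ε p.1 q * mean G θ ε S (beforeR p.1 S q) (sc p.1 (w p)) q.2 := (h4 :)
      exact measurable_qObs_comp h1 ((measurable_pi_apply q).comp measurable_snd)
  have e : (fun p : (ℕ × V → I) × (ℕ × V → I) => solW G θ ε p.1 S p.2 s) =
      fun p => (stepW G θ ε p.1 S p.2)^[(sitesUpTo S s.1).card + 1] zInit s := by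
    funext p
    refine (iterateW_stable p.1 S p.2 _ s rfl _ ?_).symm
    exact Nat.lt_succ_of_le (Finset.card_le_card beforeR_subset_sites)
  rw [e]
  exact key _ s

/-- Second moment of the posterior mean. -/
noncomputable def msqW (G : SimpleGraph V) (θ ε : ℝ) (U : ℕ × V → I) (S : Finset V) (s : ℕ × V) : ℝ :=
  ∫ g, (mean G θ ε S (beforeR U S s) (sc U (solW G θ ε U S g)) s.2) ^ 2 ∂(Pg V)

/-- Innovations computed in volume `S`. -/
noncomputable def innovW (G : SimpleGraph V) (θ ε : ℝ) (U : ℕ × V → I) (S : Finset V)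
    (z : ℕ × V → Obs) (q : ℕ × V) : I :=
  Set.projIcc 0 1 zero_le_one
    (cdfObs (strength ε U q * mean G θ ε S (beforeR U S q) (sc U z) q.2) (z q))

lemma innovW_coe (h0 : 0 ≤ θ) (h1 : θ < 1) (hε : 0 ≤ ε) (hε1 : ε < 1) (U : ℕ × V → I) (S : Finset V)
    (z : ℕ × V → Obs) (q : ℕ × V) :
    (innovW G θ ε U S z q : ℝ) =
      cdfObs (strength ε U q * mean G θ ε S (beforeR U S q) (sc U z) q.2) (z q) := by
  rw [innovW, Set.projIcc_of_mem _ (cdfObs_mem (abs_strength_mean_lt h0 h1 hε hε1 _ _ _ _ _ _) _)]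

lemma innovW_solW (h0 : 0 ≤ θ) (h1 : θ < 1) (hε : 0 ≤ ε) (hε1 : ε < 1) (U : ℕ × V → I) (S : Finset V)
    (g : ℕ × V → I) (q : ℕ × V) : innovW G θ ε U S (solW G θ ε U S g) q = g q := by
  refine Subtype.ext ?_
  have h := cdfObs_qObs (abs_strength_mean_lt (G := G) h0 h1 hε hε1 U q S (beforeR U S q)
    (sc U (solW G θ ε U S g)) q.2).le (g q)
  rw [innovW_coe h0 h1 hε hε1, solW_eq U S g q]
  exact h

lemma solW_innovW (h0 : 0 ≤ θ) (h1 : θ < 1) (hε : 0 ≤ ε) (hε1 : ε < 1) (U : ℕ × V → I) (S : Finset V)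
    (z : ℕ × V → Obs) (q : ℕ × V) : solW G θ ε U S (innovW G θ ε U S z) q = z q := by
  refine (eq_solW_of_fixed (g' := innovW G θ ε U S z) (z := z) Set.univ
    (fun _ _ _ _ => Set.mem_univ _) (fun _ _ => rfl) (fun s _ => ?_) q (Set.mem_univ _)).symm
  have ha := abs_strength_mean_lt (G := G) h0 h1 hε hε1 U s S (beforeR U S s) (sc U z) s.2
  have e : cdfObs (strength ε U s * mean G θ ε S (beforeR U S s) (sc U z) s.2) (z s) =
      cdfObs (strength ε U s * mean G θ ε S (beforeR U S s) (sc U z) s.2)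
        (stepW G θ ε U S (innovW G θ ε U S z) z s) := by
    rw [stepW, cdfObs_qObs ha.le, innovW_coe h0 h1 hε hε1]
  exact le_antisymm ((cdfObs_le_iff ha (Obs.abs_le _) (Obs.abs_le _)).1 e.le)
    ((cdfObs_le_iff ha (Obs.abs_le _) (Obs.abs_le _)).1 e.ge)

lemma measurable_innovW (U : ℕ × V → I) (S : Finset V) :
    Measurable (fun z : ℕ × V → Obs => innovW G θ ε U S z) := by
  refine measurable_pi_lambda _ fun q => ?_
  refine continuous_projIcc.measurable.fun_comp ?_
  have h1 : Measurable fun z : ℕ × V → Obs =>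
      strength ε U q * mean G θ ε S (beforeR U S q) (sc U z) q.2 :=
    (measurable_meanW U S _ _).const_mul _
  have h2 : Measurable fun z : ℕ × V → Obs => (z q : ℝ) :=
    measurable_subtype_coe.fun_comp (measurable_pi_apply q)
  unfold cdfObs
  exact ((h2.add_const 1).div_const 2).add ((h1.mul ((h2.pow_const 2).sub_const 1)).div_const 4)

lemma meanW_dep_sites {U : ℕ × V → I} {S S' : Finset V} (hSS' : S ⊆ S') {k : ℕ} {q : ℕ × V}
    (hq : q.1 ≤ k) {z z' : ℕ × V → Obs} (h : ∀ r ∈ sitesUpTo S' k, z r = z' r) :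
    mean G θ ε S (beforeR U S q) (sc U z) q.2 = mean G θ ε S (beforeR U S q) (sc U z') q.2 :=
  meanW_congr (fun r hr => h r (sitesUpTo_subset hSS' hq (beforeR_subset_sites hr))) _

/-- The finite-volume law: the observations have density `den` w.r.t. independent uniforms. -/
lemma law_solW (hG : G.IsTree) (h0 : 0 ≤ θ) (h1 : θ < 1) (hε : 0 ≤ ε) (hε1 : ε < 1) {U : ℕ × V → I}
    {S : Finset V} (hS : Conn G S) {o : V} (ho : o ∈ S) (hU : ∀ k, Set.InjOn (lev U k) S) :
    ∀ P : Finset (ℕ × V), (∀ s ∈ P, s.2 ∈ S) → (∀ s ∈ P, beforeR U S s ⊆ P) →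
    ∀ F : (ℕ × V → Obs) → ℝ≥0∞, Measurable F →
      (∀ z z', (∀ q ∈ P, z q = z' q) → F z = F z') →
      ∫⁻ g, F (solW G θ ε U S g) ∂(Pg V) =
        ∫⁻ z, ENNReal.ofReal (den G θ ε S P (sc U z)) * F z ∂(P0 V) := by
  intro P
  induction hn : P.card using Nat.strong_induction_on generalizing P with
  | _ n ih =>
    subst hn
    intro hPS hclosed F hF hdep
    rcases P.eq_empty_or_nonempty with rfl | hne
    · have hc : ∀ z, F z = F zInit := fun z => hdep z _ (by simp)
      simp [den_empty hG hS ho, hc]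
    obtain ⟨s, hs, hmax⟩ := Finset.exists_max_image P (fun q => (beforeR U S q).card) hne
    have hnotbefore : ∀ q ∈ P, s ∉ beforeR U S q := fun q hq hsq =>
      absurd (card_beforeR_lt hsq) (not_lt.2 (hmax q hq))
    set P' := P.erase s with hP'
    have hP'eq : beforeR U S s = P' := by
      refine Finset.Subset.antisymm (fun q hq => Finset.mem_erase.2
        ⟨fun h => past_irrefl (lev U s.1) s (h ▸ (mem_beforeR.1 hq).2), hclosed s hs hq⟩) fun q hq => ?_
      obtain ⟨hne', hq⟩ := Finset.mem_erase.1 hq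
      refine mem_beforeR.2 ⟨hPS q hq, ?_⟩
      have hnp : ¬ past (lev U q.1) s q := fun h => hnotbefore q hq (mem_beforeR.2 ⟨hPS s hs, h⟩)
      simp only [past, not_or, not_and, not_lt] at hnp ⊢
      rcases lt_trichotomy q.1 s.1 with h | h | h
      · exact Or.inl h
      · rw [h] at hnp
        refine Or.inr ⟨h, lt_of_le_of_ne (hnp.2 rfl) fun he => hne' ?_⟩
        exact Prod.ext h (hU s.1 (hPS q hq) (hPS s hs) he)
      · omega
    have hP'S : ∀ q ∈ P', q.2 ∈ S := fun q hq => hPS q (Finset.mem_of_mem_erase hq)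
    have hP'closed : ∀ q ∈ P', beforeR U S q ⊆ P' := fun q hq r hr =>
      Finset.mem_erase.2 ⟨fun h => hnotbefore q (Finset.mem_of_mem_erase hq) (h ▸ hr),
        hclosed q (Finset.mem_of_mem_erase hq) hr⟩
    have ha : ∀ z, |strength ε U s * mean G θ ε S P' (sc U z) s.2| < 1 := fun z =>
      abs_strength_mean_lt h0 h1 hε hε1 U s S P' _ _
    set F' := fun z : ℕ × V → Obs =>
      ∫⁻ x, ENNReal.ofReal (1 + strength ε U s * mean G θ ε S P' (sc U z) s.2 * (x : ℝ)) * F (update z s x) ∂nu with hF'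
    have hF'm : Measurable F' := by
      refine Measurable.lintegral_prod_right' (f := fun p : (ℕ × V → Obs) × Obs =>
        ENNReal.ofReal (1 + strength ε U s * mean G θ ε S P' (sc U p.1) s.2 * (p.2 : ℝ)) * F (update p.1 s p.2)) ?_
      refine Measurable.mul ?_ (hF.fun_comp (measurable_update2 s))
      exact ((((measurable_meanW U S P' s.2).fun_comp measurable_fst).const_mul (strength ε U s)).mul
        (measurable_subtype_coe.fun_comp measurable_snd)).const_add 1 |>.ennreal_ofReal
    have hF'dep : ∀ z z', (∀ q ∈ P', z q = z' q) → F' z = F' z' := by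
      intro z z' h
      refine lintegral_congr fun x => ?_
      rw [meanW_congr h, hdep (update z s x) (update z' s x) fun q hq => ?_]
      by_cases hqs : q = s
      · subst hqs; simp
      · rw [update_of_ne hqs, update_of_ne hqs]; exact h q (Finset.mem_erase.2 ⟨hqs, hq⟩)
    have hL : ∫⁻ g, F (solW G θ ε U S g) ∂(Pg V) = ∫⁻ g, F' (solW G θ ε U S g) ∂(Pg V) := by
      rw [Pg, lintegral_update _ s (hF.fun_comp (measurable_solW U S))]
      refine lintegral_congr fun g => ?_
      rw [hF']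
      simp only
      rw [← lintegral_qObs (ha _) (fun x => F (update (solW G θ ε U S g) s x))
        (hF.fun_comp ((measurable_update2 s).fun_comp measurable_prodMk_left))]
      refine lintegral_congr fun x => hdep _ _ fun q hq => ?_
      have hcongr : ∀ r ∈ P', solW G θ ε U S (update g s x) r = solW G θ ε U S g r := fun r hr => by
        refine solW_congr fun t ht => update_of_ne (fun h => ?_) _ _
        rw [Finset.mem_insert] at ht
        rcases ht with rfl | ht
        · exact (Finset.mem_erase.1 hr).1 h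
        · exact hnotbefore r (Finset.mem_of_mem_erase hr) (h ▸ ht)
      by_cases hqs : q = s
      · subst hqs
        rw [solW_eq, stepW, update_self, update_self, hP'eq, meanW_congr hcongr]
      · rw [update_of_ne hqs]
        exact hcongr q (Finset.mem_erase.2 ⟨hqs, hq⟩)
    rw [hL, ih _ (Finset.card_erase_lt_of_mem hs) P' rfl hP'S hP'closed F' hF'm hF'dep]
    have hden : Measurable fun z : ℕ × V → Obs => ENNReal.ofReal (den G θ ε S P (sc U z)) :=
      (measurable_pexpW U S P _).ennreal_ofReal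
    rw [P0, lintegral_update nu s (F := fun y => ENNReal.ofReal (den G θ ε S P (sc U y)) * F y)
      (hden.mul hF)]
    refine lintegral_congr fun z => ?_
    rw [hF']
    simp only
    rw [← lintegral_const_mul _ ?_]
    · refine lintegral_congr fun x => ?_
      have e : den G θ ε S P (sc U (update z s x)) =
          den G θ ε S P' (sc U z) * (1 + strength ε U s * mean G θ ε S P' (sc U z) s.2 * (x : ℝ)) := by
        have hdp := den_pos (G := G) h0 h1 hε hε1 S P' (sc U z)
        rw [mean, strength_eq]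
        field_simp
        simp only [den, pexp, Finset.mul_sum, ← Finset.sum_add_distrib, mul_one]
        rw [Finset.sum_mul, ← Finset.sum_add_distrib]
        refine Finset.sum_congr rfl fun A _ => ?_
        rw [lik, ← Finset.mul_prod_erase _ _ hs, sc_coe, update_self]
        have : ∏ r ∈ P.erase s, (1 + ε * spin A r.2 * (sc U (update z s x) r : ℝ)) =
            lik ε P' (sc U z) A :=
          Finset.prod_congr rfl fun r hr => by
            rw [sc_coe, sc_coe, update_of_ne (Finset.mem_erase.1 hr).1]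
        rw [this]
        ring
      rw [e, ENNReal.ofReal_mul (den_pos h0 h1 hε hε1 S P' _).le]
      ring
    · exact ((measurable_const.mul measurable_subtype_coe).const_add 1).ennreal_ofReal.mul
        (hF.fun_comp ((measurable_update2 s).fun_comp measurable_prodMk_left))

/-- Marginalisation of the likelihood. -/
lemma integral_margW (h0 : 0 ≤ θ) (h1 : θ < 1) (hε : 0 ≤ ε) (hε1 : ε < 1) {U : ℕ × V → I}
    (S : Finset V)
    {P : Finset (ℕ × V)} {F : (ℕ × V → Obs) → ℝ} (hF : Measurable F) {C : ℝ}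
    (hC : ∀ z, |F z| ≤ C) (hdep : ∀ z z', (∀ q ∈ P, z q = z' q) → F z = F z')
    (φ : Finset V → ℝ) {P' : Finset (ℕ × V)} (hPP' : P ⊆ P') :
    ∫ z, F z * pexp G θ ε S P' (sc U z) φ ∂(P0 V) = ∫ z, F z * pexp G θ ε S P (sc U z) φ ∂(P0 V) := by
  induction hn : (P' \ P).card using Nat.strong_induction_on generalizing P' with
  | _ n ih =>
    subst hn
    rcases (P' \ P).eq_empty_or_nonempty with he | ⟨q, hq⟩
    · rw [Finset.sdiff_eq_empty_iff_subset] at he
      rw [Finset.Subset.antisymm he hPP']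
    obtain ⟨hqP', hqP⟩ := Finset.mem_sdiff.1 hq
    obtain ⟨D, hD⟩ := abs_pexp_le_const (G := G) h0 h1 hε hε1 S P' φ
    obtain ⟨D1, hD1⟩ := abs_pexp_le_const (G := G) h0 h1 hε hε1 S (P'.erase q)
      (fun A => φ A * spin A q.2)
    rw [← ih _ ?_ (fun x hx => Finset.mem_erase.2 ⟨fun h : x = q => hqP (h ▸ hx), hPP' hx⟩) rfl]
    · rw [P0, integral_update nu q (F := fun z => F z * pexp G θ ε S P' (sc U z) φ)
        (hF.mul (measurable_pexpW U S P' φ)) (C := C * D) fun z => by
        rw [abs_mul]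
        exact mul_le_mul (hC z) (hD _) (abs_nonneg _) ((abs_nonneg _).trans (hC z))]
      refine integral_congr_ae (ae_of_all _ fun z => ?_)
      simp only
      have e : ∀ x : Obs, F (update z q x) * pexp G θ ε S P' (sc U (update z q x)) φ =
          F z * pexp G θ ε S (P'.erase q) (sc U z) φ +
            (F z * (strength ε U q * pexp G θ ε S (P'.erase q) (sc U z) (fun A => φ A * spin A q.2))) * (x : ℝ) := by
        intro x
        rw [hdep (update z q x) z fun r hr => update_of_ne (fun h : r = q => hqP (h ▸ hr)) _ _,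
          strength_eq]
        simp only [pexp, Finset.mul_sum, Finset.sum_mul, ← Finset.sum_add_distrib]
        refine Finset.sum_congr rfl fun A _ => ?_
        rw [lik, ← Finset.mul_prod_erase _ _ hqP', sc_coe, update_self]
        have : ∏ r ∈ P'.erase q, (1 + ε * spin A r.2 * (sc U (update z q x) r : ℝ)) =
            lik ε (P'.erase q) (sc U z) A :=
          Finset.prod_congr rfl fun r hr => by
            rw [sc_coe, sc_coe, update_of_ne (Finset.mem_erase.1 hr).1]
        rw [this]
        ring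
      rw [integral_congr_ae (ae_of_all _ e), integral_add (integrable_const _)
        ((integrable_of_bounded measurable_subtype_coe Obs.abs_le).const_mul _),
        integral_const, integral_const_mul, integral_nu_id]
      simp
    · exact Finset.card_lt_card (by
        rw [Finset.ssubset_iff_of_subset (Finset.sdiff_subset_sdiff (Finset.erase_subset q P') le_rfl)]
        exact ⟨q, hq, by simp⟩)

/-- Expectations of bounded functions of finitely many observations. -/
lemma expect_solW (hG : G.IsTree) (h0 : 0 ≤ θ) (h1 : θ < 1) (hε : 0 ≤ ε) (hε1 : ε < 1) {U : ℕ × V → I}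
    {S : Finset V} (hS : Conn G S) {o : V} (ho : o ∈ S) (hU : ∀ k, Set.InjOn (lev U k) S) (N : ℕ)
    {F : (ℕ × V → Obs) → ℝ} (hF : Measurable F) {C : ℝ} (hC : ∀ z, |F z| ≤ C)
    (hdep : ∀ z z', (∀ q ∈ sitesUpTo S N, z q = z' q) → F z = F z') :
    ∫ g, F (solW G θ ε U S g) ∂(Pg V) =
      ∫ z, F z * den G θ ε S (sitesUpTo S N) (sc U z) ∂(P0 V) := by
  have hlaw : ∀ H : (ℕ × V → Obs) → ℝ, Measurable H → (∀ z, 0 ≤ H z) →
      (∀ z z', (∀ q ∈ sitesUpTo S N, z q = z' q) → H z = H z') →
      ∫ g, H (solW G θ ε U S g) ∂(Pg V) =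
        ∫ z, H z * den G θ ε S (sitesUpTo S N) (sc U z) ∂(P0 V) := by
    intro H hH hH0 hHdep
    rw [integral_eq_lintegral_of_nonneg_ae (f := fun g => H (solW G θ ε U S g))
      (ae_of_all _ fun g => hH0 _) (hH.fun_comp (measurable_solW U S)).aestronglyMeasurable,
      integral_eq_lintegral_of_nonneg_ae (ae_of_all _ fun z =>
        mul_nonneg (hH0 z) (den_pos h0 h1 hε hε1 S _ _).le)
        (hH.mul (measurable_pexpW U S _ _)).aestronglyMeasurable]
    congr 1
    rw [law_solW hG h0 h1 hε hε1 hS ho hU _ (fun s hs => (Finset.mem_product.1 hs).2)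
      (closedR_sitesUpTo U S N) _ hH.ennreal_ofReal (fun z z' h => by rw [hHdep z z' h])]
    refine lintegral_congr fun z => ?_
    rw [← ENNReal.ofReal_mul (den_pos h0 h1 hε hε1 S _ _).le, mul_comm]
    rfl
  obtain ⟨D, hD⟩ := abs_pexp_le_const (G := G) h0 h1 hε hε1 S (sitesUpTo S N) (fun _ => 1)
  have hC0 : 0 ≤ C := (abs_nonneg (F zInit)).trans (hC zInit)
  have hA := hlaw (fun z => F z + C) (hF.add_const C) (fun z => by linarith [(abs_le.1 (hC z)).1])
    (fun z z' h => by rw [hdep z z' h])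
  have hB := hlaw (fun _ => C) measurable_const (fun _ => hC0) (fun _ _ _ => rfl)
  have hiF : Integrable (fun g => F (solW G θ ε U S g)) (Pg V) :=
    integrable_of_bounded (hF.fun_comp (measurable_solW U S)) fun g => hC _
  have hid : Integrable (fun z => den G θ ε S (sitesUpTo S N) (sc U z)) (P0 V) :=
    integrable_of_bounded (measurable_pexpW U S _ _) fun z => hD _
  have hiFd : Integrable (fun z => F z * den G θ ε S (sitesUpTo S N) (sc U z)) (P0 V) :=
    integrable_of_bounded (hF.mul (measurable_pexpW U S _ _)) (C := C * D) fun z => by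
      rw [abs_mul]; exact mul_le_mul (hC z) (hD _) (abs_nonneg _) hC0
  simp only [add_mul] at hA
  rw [integral_add hiF (integrable_const _), integral_add hiFd (hid.const_mul C)] at hA
  linarith

/-- The observations of the larger volume, restricted, have the law of the smaller one. -/
lemma expect_restrictW (hG : G.IsTree) (h0 : 0 ≤ θ) (h1 : θ < 1) (hε : 0 ≤ ε) (hε1 : ε < 1)
    {U : ℕ × V → I} {S S' : Finset V} (hS : Conn G S) (hS' : Conn G S') (hSS' : S ⊆ S') {o : V}
    (ho : o ∈ S) (hU : ∀ k, Set.InjOn (lev U k) S') (N : ℕ) {F : (ℕ × V → Obs) → ℝ} (hF : Measurable F)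
    {C : ℝ} (hC : ∀ z, |F z| ≤ C)
    (hdep : ∀ z z', (∀ q ∈ sitesUpTo S N, z q = z' q) → F z = F z') :
    ∫ g, F (solW G θ ε U S' g) ∂(Pg V) = ∫ g, F (solW G θ ε U S g) ∂(Pg V) := by
  rw [expect_solW hG h0 h1 hε hε1 hS' (hSS' ho) hU N hF hC
      (fun z z' h => hdep z z' fun q hq => h q (sitesUpTo_subset hSS' le_rfl hq)),
    expect_solW hG h0 h1 hε hε1 hS ho (fun k => (hU k).mono (Finset.coe_subset.2 hSS')) N hF hC hdep]
  simp only [den]
  rw [integral_margW h0 h1 hε hε1 S' hF hC hdep _ (sitesUpTo_subset hSS' le_rfl)]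
  refine integral_congr_ae (ae_of_all _ fun z => ?_)
  simp only
  rw [pexp_consistent hG hS ho hS' hSS' (P := sitesUpTo S N)
    (fun q hq => (Finset.mem_product.1 hq).2) (sc U z) (fun _ _ _ => rfl)]

/-- The tower property: the squared distance of posterior means is the gap of second moments. -/
lemma towerW (hG : G.IsTree) (h0 : 0 ≤ θ) (h1 : θ < 1) (hε : 0 ≤ ε) (hε1 : ε < 1)
    {U : ℕ × V → I} {S S' : Finset V} (hS : Conn G S) (hS' : Conn G S') (hSS' : S ⊆ S')
    (hU : ∀ k, Set.InjOn (lev U k) S') {s : ℕ × V} (hs : s.2 ∈ S) :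
    ∫ g, (mean G θ ε S' (beforeR U S' s) (sc U (solW G θ ε U S' g)) s.2 -
        mean G θ ε S (beforeR U S s) (sc U (solW G θ ε U S' g)) s.2) ^ 2 ∂(Pg V) =
      msqW G θ ε U S' s - msqW G θ ε U S s := by
  set m' := fun z : ℕ × V → Obs => mean G θ ε S' (beforeR U S' s) (sc U z) s.2 with hm'
  set m := fun z : ℕ × V → Obs => mean G θ ε S (beforeR U S s) (sc U z) s.2 with hm
  have hmm' : Measurable m' := measurable_meanW U _ _ _
  have hmm : Measurable m := measurable_meanW U _ _ _
  have b' : ∀ z, |m' z| ≤ 1 := fun z => abs_mean_le h0 h1 hε hε1 _ _ _ _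
  have b : ∀ z, |m z| ≤ 1 := fun z => abs_mean_le h0 h1 hε hε1 _ _ _ _
  have hS'dep : ∀ z z', (∀ q ∈ sitesUpTo S' s.1, z q = z' q) → m' z = m' z' ∧ m z = m z' :=
    fun z z' h => ⟨meanW_dep_sites (Finset.Subset.refl S') le_rfl h, meanW_dep_sites hSS' le_rfl h⟩
  have bb : ∀ x y : ℝ, |x| ≤ 1 → |y| ≤ 1 → |x * y| ≤ 1 := fun x y hx hy => by
    rw [abs_mul]; exact mul_le_one₀ hx (abs_nonneg _) hy
  have key : ∫ g, m' (solW G θ ε U S' g) * m (solW G θ ε U S' g) ∂(Pg V) =
      ∫ g, m (solW G θ ε U S' g) * m (solW G θ ε U S' g) ∂(Pg V) := by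
    rw [expect_solW hG h0 h1 hε hε1 hS' (hSS' hs) hU s.1 (F := fun z => m' z * m z) (C := 1)
        (hmm'.mul hmm) (fun z => bb _ _ (b' z) (b z))
        (fun z z' h => by rw [(hS'dep z z' h).1, (hS'dep z z' h).2]),
      expect_solW hG h0 h1 hε hε1 hS' (hSS' hs) hU s.1 (F := fun z => m z * m z) (C := 1)
        (hmm.mul hmm) (fun z => bb _ _ (b z) (b z))
        (fun z z' h => by rw [(hS'dep z z' h).2])]
    simp only [den]
    have hdep_b : ∀ z z', (∀ q ∈ beforeR U S s, z q = z' q) → m z = m z' :=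
      fun z z' h => meanW_congr h _
    rw [integral_margW h0 h1 hε hε1 S' (F := fun z => m' z * m z) (hmm'.mul hmm)
        (fun z => bb _ _ (b' z) (b z)) (P := beforeR U S' s)
        (fun z z' h => congrArg₂ (· * ·) (meanW_congr h _)
          (hdep_b z z' fun q hq => h q (beforeR_mono hSS' s hq))) _ beforeR_subset_sites,
      integral_margW h0 h1 hε hε1 S' (F := fun z => m z * m z) (hmm.mul hmm)
        (fun z => bb _ _ (b z) (b z)) (P := beforeR U S s)
        (fun z z' h => by rw [hdep_b z z' h]) _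
        (beforeR_subset_sites.trans (sitesUpTo_subset hSS' le_rfl))]
    have e1 : ∀ z, m' z * m z * pexp G θ ε S' (beforeR U S' s) (sc U z) (fun _ => 1) =
        m z * pexp G θ ε S' (beforeR U S' s) (sc U z) (fun A => spin A s.2) := by
      intro z
      have := (den_pos (G := G) h0 h1 hε hε1 S' (beforeR U S' s) (sc U z)).ne'
      simp only [hm', mean, den] at this ⊢
      field_simp
    simp only [e1]
    rw [integral_margW h0 h1 hε hε1 S' hmm (fun z => b z) hdep_b _ (beforeR_mono hSS' s)]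
    refine integral_congr_ae (ae_of_all _ fun z => ?_)
    have hP : ∀ q ∈ beforeR U S s, q.2 ∈ S := fun q hq => (mem_beforeR.1 hq).1
    simp only
    rw [pexp_consistent hG hS hs hS' hSS' hP (sc U z) (φ := fun _ => 1) (fun _ _ _ => rfl),
      pexp_consistent hG hS hs hS' hSS' hP (sc U z) (φ := fun A => spin A s.2)
        (fun A v hv => spin_insert_of_ne (fun h : s.2 = v => hv (h ▸ hs)))]
    have := (den_pos (G := G) h0 h1 hε hε1 S (beforeR U S s) (sc U z)).ne'
    simp only [hm, mean, den] at this ⊢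
    field_simp
  have hres : ∫ g, m (solW G θ ε U S' g) * m (solW G θ ε U S' g) ∂(Pg V) = msqW G θ ε U S s := by
    rw [expect_restrictW hG h0 h1 hε hε1 hS hS' hSS' hs hU s.1 (F := fun z => m z * m z)
      (hmm.mul hmm) (fun z => bb _ _ (b z) (b z))
      (fun z z' h => by rw [show m z = m z' from meanW_dep_sites (Finset.Subset.refl S) le_rfl h])]
    simp only [msqW, hm, sq]
  have hint : ∀ F : (ℕ × V → Obs) → ℝ, Measurable F → (∀ z, |F z| ≤ 1) →
      Integrable (fun g => F (solW G θ ε U S' g)) (Pg V) := fun F hF hb =>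
    integrable_of_bounded (hF.fun_comp (measurable_solW U S')) fun g => hb _
  have i1 := hint (fun z => m' z * m' z) (hmm'.mul hmm') fun z => bb _ _ (b' z) (b' z)
  have i2 := hint (fun z => m z * m z) (hmm.mul hmm) fun z => bb _ _ (b z) (b z)
  have i3 := hint (fun z => m' z * m z) (hmm'.mul hmm) fun z => bb _ _ (b' z) (b z)
  have e : (fun g => (m' (solW G θ ε U S' g) - m (solW G θ ε U S' g)) ^ 2) = fun g =>
      m' (solW G θ ε U S' g) * m' (solW G θ ε U S' g) + m (solW G θ ε U S' g) * m (solW G θ ε U S' g) -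
        2 * (m' (solW G θ ε U S' g) * m (solW G θ ε U S' g)) := by
    funext g; ring
  calc ∫ g, (m' (solW G θ ε U S' g) - m (solW G θ ε U S' g)) ^ 2 ∂(Pg V)
      = ∫ g, m' (solW G θ ε U S' g) * m' (solW G θ ε U S' g) ∂(Pg V) +
          ∫ g, m (solW G θ ε U S' g) * m (solW G θ ε U S' g) ∂(Pg V) -
          2 * ∫ g, m' (solW G θ ε U S' g) * m (solW G θ ε U S' g) ∂(Pg V) := by
        rw [e, integral_sub (i1.fun_add i2) (i3.const_mul 2), integral_add i1 i2,
          integral_const_mul]
    _ = _ := by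
        rw [key, hres]
        simp only [msqW, hm', sq]
        ring

lemma msqW_mono (hG : G.IsTree) (h0 : 0 ≤ θ) (h1 : θ < 1) (hε : 0 ≤ ε) (hε1 : ε < 1)
    {U : ℕ × V → I} {S S' : Finset V} (hS : Conn G S) (hS' : Conn G S') (hSS' : S ⊆ S')
    (hU : ∀ k, Set.InjOn (lev U k) S') {s : ℕ × V} (hs : s.2 ∈ S) :
    msqW G θ ε U S s ≤ msqW G θ ε U S' s := by
  have : (0 : ℝ) ≤ ∫ g, (mean G θ ε S' (beforeR U S' s) (sc U (solW G θ ε U S' g)) s.2 -
      mean G θ ε S (beforeR U S s) (sc U (solW G θ ε U S' g)) s.2) ^ 2 ∂(Pg V) :=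
    integral_nonneg fun g => sq_nonneg _
  rw [towerW hG h0 h1 hε hε1 hS hS' hSS' hU hs] at this
  linarith


end Vale.Agent.P161.Crit
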